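import Mathlib

-- ▼ part R202/Moser1
section

/-!
# Row 202: Moser's sup bound, part 1 (pointwise algebra, powers, Caccioppoli)
-/

set_option autoImplicit false
open MeasureTheory Metric Set Filter Topology InnerProductSpace
open scoped NNReal ENNReal RealInnerProductSpace Gradient ContDiff

namespace Crest.Agent.R202.Moser

noncomputable section

/-! ### one-dimensional powers -/

/-- `sp a s = |s|^a * s`. -/
def sp (a s : ℝ) : ℝ := |s| ^ a * s

lemma hasDerivAt_sp {a : ℝ} (ha : 0 ≤ a) (s : ℝ) : HasDerivAt (sp a) ((a + 1) * |s| ^ a) s := by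
  rcases eq_or_lt_of_le ha with h0 | h0
  · subst h0
    have : sp 0 = fun s => s := by
      funext s; simp [sp]
    rw [this]
    simpa using hasDerivAt_id' s
  · rcases eq_or_ne s 0 with rfl | hs
    · have h1 : (a + 1) * |(0 : ℝ)| ^ a = 0 := by
        rw [abs_zero, Real.zero_rpow h0.ne']; ring
      rw [h1, hasDerivAt_iff_tendsto_slope_zero]
      have h2 : Tendsto (fun t : ℝ => |t| ^ a) (𝓝[≠] 0) (𝓝 0) := by
        have hc : Continuous (fun t : ℝ => |t| ^ a) := by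
          exact (continuous_abs).rpow_const (fun _ => Or.inr h0.le)
        have := (hc.tendsto 0).mono_left (nhdsWithin_le_nhds (s := {(0:ℝ)}ᶜ))
        simpa [Real.zero_rpow h0.ne'] using this
      refine h2.congr' ?_
      filter_upwards [self_mem_nhdsWithin] with t ht
      have ht' : t ≠ 0 := ht
      simp only [sp, zero_add, smul_eq_mul, abs_zero, mul_zero, sub_zero]
      field_simp
    · have h1 : HasDerivAt (fun s : ℝ => |s| ^ a) (SignType.sign s * a * |s| ^ (a - 1)) s := by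
        have := (hasDerivAt_abs hs).rpow_const (p := a) (Or.inl (abs_ne_zero.mpr hs))
        simpa using this
      have h2 := h1.mul (hasDerivAt_id s)
      have h3 : (SignType.sign s : ℝ) * s = |s| := by
        rcases lt_or_gt_of_ne hs with h | h
        · simp [sign_neg h, abs_of_neg h]
        · simp [sign_pos h, abs_of_pos h]
      have h4 : |s| ^ a = |s| ^ (a - 1) * |s| := by
        rw [← Real.rpow_add_one (abs_ne_zero.mpr hs)]; ring_nf
      refine h2.congr_deriv ?_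
      simp only [id_eq, mul_one]
      calc (SignType.sign s : ℝ) * a * |s| ^ (a - 1) * s + |s| ^ a
          = a * (|s| ^ (a - 1) * ((SignType.sign s : ℝ) * s)) + |s| ^ a := by ring
        _ = (a + 1) * |s| ^ a := by rw [h3, ← h4]; ring

lemma continuous_abs_rpow {a : ℝ} (ha : 0 ≤ a) : Continuous (fun s : ℝ => |s| ^ a) :=
  continuous_abs.rpow_const (fun _ => Or.inr ha)

lemma contDiff_sp {a : ℝ} (ha : 0 ≤ a) : ContDiff ℝ 1 (sp a) := by
  rw [contDiff_one_iff_deriv]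
  refine ⟨fun s => (hasDerivAt_sp ha s).differentiableAt, ?_⟩
  have : deriv (sp a) = fun s => (a + 1) * |s| ^ a := by
    funext s; exact (hasDerivAt_sp ha s).deriv
  rw [this]
  exact continuous_const.mul (continuous_abs_rpow ha)

lemma sp_sq (a s : ℝ) (ha : 0 ≤ a) : (sp a s) ^ 2 = |s| ^ (2 * (a + 1)) := by
  have h1 : |s| ^ (2 * (a + 1)) = (|s| ^ (a + 1)) ^ 2 := by
    rw [mul_comm, Real.rpow_mul (abs_nonneg s)]
    norm_cast
  rw [h1, sp, mul_pow, ← sq_abs s, ← mul_pow]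
  congr 1
  rcases eq_or_ne s 0 with rfl | hs
  · simp [Real.zero_rpow (by linarith : a + 1 ≠ 0)]
  · rw [Real.rpow_add_one (abs_ne_zero.mpr hs)]

lemma abs_sp (a s : ℝ) (ha : 0 ≤ a) : |sp a s| = |s| ^ (a + 1) := by
  rw [sp, abs_mul, abs_of_nonneg (Real.rpow_nonneg (abs_nonneg s) a)]
  rcases eq_or_ne s 0 with rfl | hs
  · simp [Real.zero_rpow (by linarith : a + 1 ≠ 0)]
  · rw [Real.rpow_add_one (abs_ne_zero.mpr hs)]

/-! ### the pointwise inequality -/

variable {E : Type*} [NormedAddCommGroup E] [InnerProductSpace ℝ E]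

lemma pointwise {lam Lam : ℝ} (hlam : 0 < lam) {A : E →L[ℝ] E}
    (h1 : ∀ ξ, lam * ‖ξ‖ ^ 2 ≤ ⟪A ξ, ξ⟫) (h2 : ∀ ξ, ‖A ξ‖ ≤ Lam * ‖ξ‖)
    (g e : E) (η F F' H H' : ℝ) (hH : |H| ≤ |F * F'|) (hH' : F' ^ 2 ≤ H') :
    ‖(η * F') • g + F • e‖ ^ 2 ≤ 4 / lam * ⟪A g, (2 * η * H) • e + (η ^ 2 * H') • g⟫
      + (8 * Lam ^ 2 / lam ^ 2 + 2) * (F ^ 2 * ‖e‖ ^ 2) := by
  have e1 : ‖(η * F') • g + F • e‖ ^ 2 ≤ 2 * ((η * F') ^ 2 * ‖g‖ ^ 2) + 2 * (F ^ 2 * ‖e‖ ^ 2) := by
    have := norm_add_le ((η * F') • g) (F • e)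
    have h3 : ‖(η * F') • g + F • e‖ ^ 2 ≤ (‖(η * F') • g‖ + ‖F • e‖) ^ 2 := by
      gcongr
    have h4 : (‖(η * F') • g‖ + ‖F • e‖) ^ 2 ≤ 2 * ‖(η * F') • g‖ ^ 2 + 2 * ‖F • e‖ ^ 2 := by
      nlinarith [sq_nonneg (‖(η * F') • g‖ - ‖F • e‖)]
    have h5 : ‖(η * F') • g‖ ^ 2 = (η * F') ^ 2 * ‖g‖ ^ 2 := by
      rw [norm_smul, mul_pow, Real.norm_eq_abs, sq_abs]
    have h6 : ‖F • e‖ ^ 2 = F ^ 2 * ‖e‖ ^ 2 := by
      rw [norm_smul, mul_pow, Real.norm_eq_abs, sq_abs]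
    rw [h5, h6] at h4
    linarith
  have e2 : ⟪A g, (2 * η * H) • e + (η ^ 2 * H') • g⟫
      = 2 * η * H * ⟪A g, e⟫ + η ^ 2 * H' * ⟪A g, g⟫ := by
    rw [inner_add_right, inner_smul_right, inner_smul_right]
  have hAg : 0 ≤ ⟪A g, g⟫ := le_trans (by positivity) (h1 g)
  have e3 : η ^ 2 * F' ^ 2 * (lam * ‖g‖ ^ 2) ≤ η ^ 2 * H' * ⟪A g, g⟫ := by
    have := h1 g
    have hH0 : 0 ≤ H' := le_trans (sq_nonneg _) hH'
    gcongr
  have e4 : |2 * η * H * ⟪A g, e⟫| ≤ 2 * (|η * F'| * ‖g‖) * (Lam * (|F| * ‖e‖)) := by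
    rw [abs_mul, abs_mul, abs_mul]
    have i1 : |⟪A g, e⟫| ≤ Lam * ‖g‖ * ‖e‖ :=
      (abs_real_inner_le_norm _ _).trans (mul_le_mul_of_nonneg_right (h2 g) (norm_nonneg _))
    have i2 : |H| ≤ |F| * |F'| := by rw [← abs_mul]; exact hH
    calc |(2 : ℝ)| * |η| * |H| * |⟪A g, e⟫|
        ≤ |(2 : ℝ)| * |η| * (|F| * |F'|) * (Lam * ‖g‖ * ‖e‖) := by gcongr
      _ = 2 * (|η * F'| * ‖g‖) * (Lam * (|F| * ‖e‖)) := by
          rw [abs_two, abs_mul η F']; ring
  have e5 : 2 * (|η * F'| * ‖g‖) * (Lam * (|F| * ‖e‖))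
      ≤ lam / 2 * ((η * F') ^ 2 * ‖g‖ ^ 2) + 2 * Lam ^ 2 / lam * (F ^ 2 * ‖e‖ ^ 2) := by
    set X := |η * F'| * ‖g‖ with hX
    set Y := |F| * ‖e‖ with hY
    have hX2 : (η * F') ^ 2 * ‖g‖ ^ 2 = X ^ 2 := by
      rw [hX, mul_pow |η * F'|, sq_abs]
    have hY2 : F ^ 2 * ‖e‖ ^ 2 = Y ^ 2 := by rw [hY, mul_pow, sq_abs]
    rw [hX2, hY2]
    have h7 : lam / 2 * X ^ 2 + 2 * Lam ^ 2 / lam * Y ^ 2 - 2 * X * (Lam * Y)
        = (lam * X - 2 * Lam * Y) ^ 2 / (2 * lam) := by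
      field_simp
      ring
    have h8 : 0 ≤ (lam * X - 2 * Lam * Y) ^ 2 / (2 * lam) := by positivity
    linarith
  have e6 : lam / 2 * ((η * F') ^ 2 * ‖g‖ ^ 2)
      ≤ ⟪A g, (2 * η * H) • e + (η ^ 2 * H') • g⟫ + 2 * Lam ^ 2 / lam * (F ^ 2 * ‖e‖ ^ 2) := by
    rw [e2]
    have := neg_abs_le (2 * η * H * ⟪A g, e⟫)
    have h9 : η ^ 2 * F' ^ 2 * (lam * ‖g‖ ^ 2) = lam * ((η * F') ^ 2 * ‖g‖ ^ 2) := by ring
    rw [h9] at e3
    linarith
  have e7 : 2 * ((η * F') ^ 2 * ‖g‖ ^ 2)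
      ≤ 4 / lam * ⟪A g, (2 * η * H) • e + (η ^ 2 * H') • g⟫
        + 8 * Lam ^ 2 / lam ^ 2 * (F ^ 2 * ‖e‖ ^ 2) := by
    have h10 := mul_le_mul_of_nonneg_left e6 (by positivity : (0:ℝ) ≤ 4 / lam)
    have h11 : 4 / lam * (lam / 2 * ((η * F') ^ 2 * ‖g‖ ^ 2)) = 2 * ((η * F') ^ 2 * ‖g‖ ^ 2) := by
      field_simp; ring
    have h12 : 4 / lam * (⟪A g, (2 * η * H) • e + (η ^ 2 * H') • g⟫
        + 2 * Lam ^ 2 / lam * (F ^ 2 * ‖e‖ ^ 2))
        = 4 / lam * ⟪A g, (2 * η * H) • e + (η ^ 2 * H') • g⟫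
        + 8 * Lam ^ 2 / lam ^ 2 * (F ^ 2 * ‖e‖ ^ 2) := by
      field_simp; ring
    rw [h11, h12] at h10
    exact h10
  calc _ ≤ 2 * ((η * F') ^ 2 * ‖g‖ ^ 2) + 2 * (F ^ 2 * ‖e‖ ^ 2) := e1
    _ ≤ _ := by linarith [e7]

/-! ### gradients -/

variable [CompleteSpace E]

lemma norm_gradient (f : E → ℝ) (x : E) : ‖∇ f x‖ = ‖fderiv ℝ f x‖ := by
  simp [gradient]

lemma gradient_mul_comp {η v : E → ℝ} {F : ℝ → ℝ} {F' : ℝ} {x : E}
    (hη : DifferentiableAt ℝ η x) (hv : DifferentiableAt ℝ v x)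
    (hF : HasDerivAt F F' (v x)) :
    ∇ (fun y => η y * F (v y)) x = (η x * F') • ∇ v x + F (v x) • ∇ η x := by
  have h1 : HasFDerivAt (fun y => F (v y)) (F' • fderiv ℝ v x) x :=
    hF.comp_hasFDerivAt x hv.hasFDerivAt
  have h2 := hη.hasFDerivAt.mul h1
  have h3 : fderiv ℝ (fun y => η y * F (v y)) x
      = η x • (F' • fderiv ℝ v x) + F (v x) • fderiv ℝ η x := h2.fderiv
  unfold gradient
  rw [h3, map_add]
  simp only [map_smulₛₗ, smul_smul]
  simp

lemma gradient_sq_mul_comp {η v : E → ℝ} {H : ℝ → ℝ} {H' : ℝ} {x : E}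
    (hη : DifferentiableAt ℝ η x) (hv : DifferentiableAt ℝ v x)
    (hH : HasDerivAt H H' (v x)) :
    ∇ (fun y => η y ^ 2 * H (v y)) x
      = (2 * η x * H (v x)) • ∇ η x + (η x ^ 2 * H') • ∇ v x := by
  have h1 : HasFDerivAt (fun y => H (v y)) (H' • fderiv ℝ v x) x :=
    hH.comp_hasFDerivAt x hv.hasFDerivAt
  have h0 : HasFDerivAt (fun y => η y ^ 2) ((2 * η x) • fderiv ℝ η x) x := by
    have := hη.hasFDerivAt.pow 2
    simpa using this
  have h2 := h0.mul h1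
  have h3 : fderiv ℝ (fun y => η y ^ 2 * H (v y)) x
      = η x ^ 2 • (H' • fderiv ℝ v x) + H (v x) • ((2 * η x) • fderiv ℝ η x) := h2.fderiv
  unfold gradient
  rw [h3, map_add]
  simp only [map_smulₛₗ, smul_smul]
  simp only [conj_trivial]
  rw [add_comm]
  congr 2
  ring

lemma continuous_gradient {f : E → ℝ} (hf : ContDiff ℝ 1 f) : Continuous (∇ f) := by
  unfold gradient
  exact (LinearIsometryEquiv.continuous _).comp (hf.continuous_fderiv (by norm_num))

end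

end Crest.Agent.R202.Moser
end

-- ▼ part R202/Moser2
section

/-!
# Row 202: Moser's sup bound, part 2 (Caccioppoli inequality, cut-off functions, Sobolev step)
-/

set_option autoImplicit false
open MeasureTheory Metric Set Filter Topology InnerProductSpace
open scoped NNReal ENNReal RealInnerProductSpace Gradient ContDiff

namespace Crest.Agent.R202.Moser

noncomputable section

/-- weak solution on the ball `ball x0 R` -/
def WeakSol {n : ℕ} (A : EuclideanSpace ℝ (Fin n) → EuclideanSpace ℝ (Fin n) →L[ℝ] EuclideanSpace ℝ (Fin n))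
    (v : EuclideanSpace ℝ (Fin n) → ℝ) (x0 : EuclideanSpace ℝ (Fin n)) (R : ℝ) : Prop :=
  ∀ φ : EuclideanSpace ℝ (Fin n) → ℝ, ContDiff ℝ 1 φ → HasCompactSupport φ →
    tsupport φ ⊆ ball x0 R → ∫ x, ⟪A x (∇ v x), ∇ φ x⟫ = 0

/-- ellipticity on the ball `ball x0 R` -/
structure Ell {n : ℕ} (lam Lam : ℝ)
    (A : EuclideanSpace ℝ (Fin n) → EuclideanSpace ℝ (Fin n) →L[ℝ] EuclideanSpace ℝ (Fin n))
    (x0 : EuclideanSpace ℝ (Fin n)) (R : ℝ) : Prop where
  low : ∀ x ∈ ball x0 R, ∀ ξ, lam * ‖ξ‖ ^ 2 ≤ ⟪A x ξ, ξ⟫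
  up : ∀ x ∈ ball x0 R, ∀ ξ, ‖A x ξ‖ ≤ Lam * ‖ξ‖

variable {n : ℕ}

local notation "E" n => EuclideanSpace ℝ (Fin n)

lemma caccioppoli {lam Lam : ℝ} (hlam : 0 < lam) {A : (E n) → (E n) →L[ℝ] (E n)}
    (hA : Continuous A) {v : (E n) → ℝ} (hv : ContDiff ℝ 1 v) {x0 : E n} {R : ℝ}
    (hell : Ell lam Lam A x0 R) (hw : WeakSol A v x0 R)
    {F F' H H' : ℝ → ℝ} (hF : ∀ s, HasDerivAt F (F' s) s) (hF'c : Continuous F')
    (hH : ∀ s, HasDerivAt H (H' s) s) (hH'c : Continuous H')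
    (hHF : ∀ s, |H s| ≤ |F s * F' s|) (hHF' : ∀ s, F' s ^ 2 ≤ H' s)
    {η : (E n) → ℝ} (hη : ContDiff ℝ 1 η) (hηc : HasCompactSupport η) (hηs : tsupport η ⊆ ball x0 R) :
    ∫ x, ‖∇ (fun y => η y * F (v y)) x‖ ^ 2
      ≤ (8 * Lam ^ 2 / lam ^ 2 + 2) * ∫ x, F (v x) ^ 2 * ‖∇ η x‖ ^ 2 := by
  have hHc : ContDiff ℝ 1 H := by
    rw [contDiff_one_iff_deriv]
    refine ⟨fun s => (hH s).differentiableAt, ?_⟩
    have : deriv H = H' := by funext s; exact (hH s).deriv
    rw [this]; exact hH'c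
  have hFc : ContDiff ℝ 1 F := by
    rw [contDiff_one_iff_deriv]
    refine ⟨fun s => (hF s).differentiableAt, ?_⟩
    have : deriv F = F' := by funext s; exact (hF s).deriv
    rw [this]; exact hF'c
  set φ : (E n) → ℝ := fun y => η y ^ 2 * H (v y) with hφ
  have hφ1 : ContDiff ℝ 1 φ := (hη.pow 2).mul (hHc.comp hv)
  have hφsupp : Function.support φ ⊆ Function.support η := by
    intro x hx
    simp only [hφ, Function.mem_support, ne_eq, mul_eq_zero, not_or] at hx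
    simp only [Function.mem_support]
    intro h0
    exact hx.1 (by rw [h0]; ring)
  have hφc : HasCompactSupport φ := hηc.mono hφsupp
  have hφs : tsupport φ ⊆ ball x0 R := (closure_mono hφsupp).trans hηs
  have hzero := hw φ hφ1 hφc hφs
  have hgφ : ∀ x, ∇ φ x = (2 * η x * H (v x)) • ∇ η x + (η x ^ 2 * H' (v x)) • ∇ v x := fun x =>
    gradient_sq_mul_comp (hη.differentiable (by norm_num) x) (hv.differentiable (by norm_num) x)
      (hH (v x))
  have hgF : ∀ x, ∇ (fun y => η y * F (v y)) x = (η x * F' (v x)) • ∇ v x + F (v x) • ∇ η x :=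
    fun x => gradient_mul_comp (hη.differentiable (by norm_num) x)
      (hv.differentiable (by norm_num) x) (hF (v x))
  have hgη : ∀ x, x ∉ tsupport η → ∇ η x = 0 := by
    intro x hx
    have : fderiv ℝ η x = 0 := by
      by_contra h
      exact hx (support_fderiv_subset ℝ h)
    simp [gradient, this]
  -- continuity
  have cv := continuous_gradient hv
  have cη := continuous_gradient hη
  have cT : Continuous (fun x => ⟪A x (∇ v x), ∇ φ x⟫) := by
    have : Continuous (∇ φ) := continuous_gradient hφ1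
    exact (hA.clm_apply cv).inner this
  have cR : Continuous (fun x => F (v x) ^ 2 * ‖∇ η x‖ ^ 2) :=
    ((hFc.continuous.comp hv.continuous).pow 2).mul (cη.norm.pow 2)
  have cL : Continuous (fun x => ‖∇ (fun y => η y * F (v y)) x‖ ^ 2) := by
    have h1 : ContDiff ℝ 1 (fun y => η y * F (v y)) := hη.mul (hFc.comp hv)
    exact (continuous_gradient h1).norm.pow 2
  -- compact supports
  have hη0 : ∀ x, x ∉ tsupport η → η x = 0 := fun x hx => image_eq_zero_of_notMem_tsupport hx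
  have sT : HasCompactSupport (fun x => ⟪A x (∇ v x), ∇ φ x⟫) := by
    refine HasCompactSupport.intro hηc.isCompact fun x hx => ?_
    simp only [hgφ x, hη0 x hx, hgη x hx]
    simp
  have sR : HasCompactSupport (fun x => F (v x) ^ 2 * ‖∇ η x‖ ^ 2) := by
    refine HasCompactSupport.intro hηc.isCompact fun x hx => ?_
    simp only [hgη x hx]
    simp
  have sL : HasCompactSupport (fun x => ‖∇ (fun y => η y * F (v y)) x‖ ^ 2) := by
    refine HasCompactSupport.intro hηc.isCompact fun x hx => ?_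
    simp only [hgF x, hη0 x hx, hgη x hx]
    simp
  have iT : Integrable (fun x => ⟪A x (∇ v x), ∇ φ x⟫) := cT.integrable_of_hasCompactSupport sT
  have iR : Integrable (fun x => F (v x) ^ 2 * ‖∇ η x‖ ^ 2) := cR.integrable_of_hasCompactSupport sR
  have iL : Integrable (fun x => ‖∇ (fun y => η y * F (v y)) x‖ ^ 2) :=
    cL.integrable_of_hasCompactSupport sL
  have key : ∀ x, ‖∇ (fun y => η y * F (v y)) x‖ ^ 2
      ≤ 4 / lam * ⟪A x (∇ v x), ∇ φ x⟫
        + (8 * Lam ^ 2 / lam ^ 2 + 2) * (F (v x) ^ 2 * ‖∇ η x‖ ^ 2) := by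
    intro x
    by_cases hx : x ∈ tsupport η
    · rw [hgF x, hgφ x]
      exact pointwise hlam (hell.low x (hηs hx)) (hell.up x (hηs hx)) _ _ _ _ _ _ _
        (hHF (v x)) (hHF' (v x))
    · rw [hgF x, hgφ x, hη0 x hx, hgη x hx]
      simp
  calc ∫ x, ‖∇ (fun y => η y * F (v y)) x‖ ^ 2
      ≤ ∫ x, (4 / lam * ⟪A x (∇ v x), ∇ φ x⟫
        + (8 * Lam ^ 2 / lam ^ 2 + 2) * (F (v x) ^ 2 * ‖∇ η x‖ ^ 2)) :=
        integral_mono iL ((iT.const_mul _).add (iR.const_mul _)) key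
    _ = 4 / lam * (∫ x, ⟪A x (∇ v x), ∇ φ x⟫)
        + (8 * Lam ^ 2 / lam ^ 2 + 2) * ∫ x, F (v x) ^ 2 * ‖∇ η x‖ ^ 2 := by
        rw [integral_add (iT.const_mul _) (iR.const_mul _), integral_const_mul, integral_const_mul]
    _ = _ := by rw [hzero]; ring

/-! ### cut-off functions -/

lemma exists_cutoff_const : ∃ C : ℝ, 0 < C ∧ ∀ t : ℝ, |deriv Real.smoothTransition t| ≤ C := by
  have hc : Continuous (deriv Real.smoothTransition) :=
    (Real.smoothTransition.contDiff (n := 1)).continuous_deriv (by norm_num)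
  obtain ⟨C, hC⟩ := (isCompact_Icc (a := (0:ℝ)) (b := 1)).exists_bound_of_continuousOn hc.continuousOn
  refine ⟨|C| + 1, by positivity, fun t => ?_⟩
  by_cases ht : t ∈ Icc (0:ℝ) 1
  · have := hC t ht
    rw [Real.norm_eq_abs] at this
    exact this.trans (by have := le_abs_self C; linarith)
  · have : deriv Real.smoothTransition t = 0 := by
      rw [mem_Icc, not_and_or, not_le, not_le] at ht
      rcases ht with ht | ht
      · have : Real.smoothTransition =ᶠ[𝓝 t] fun _ => 0 := by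
          filter_upwards [Iio_mem_nhds ht] with s hs
          exact Real.smoothTransition.zero_of_nonpos hs.le
        rw [this.deriv_eq]; simp
      · have : Real.smoothTransition =ᶠ[𝓝 t] fun _ => 1 := by
          filter_upwards [Ioi_mem_nhds ht] with s hs
          exact Real.smoothTransition.one_of_one_le hs.le
        rw [this.deriv_eq]; simp
    rw [this]; simp; positivity

/-- a cut-off between `closedBall 0 s'` and `closedBall 0 s` with gradient `≤ C/(s-s')` -/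
lemma exists_cutoff : ∃ C : ℝ, 0 < C ∧ ∀ s' s : ℝ, 0 < s' → s' < s →
    ∃ η : (E n) → ℝ, ContDiff ℝ 1 η ∧ HasCompactSupport η ∧ tsupport η ⊆ closedBall 0 s ∧
      (∀ x ∈ closedBall (0 : E n) s', η x = 1) ∧ (∀ x, 0 ≤ η x) ∧ (∀ x, η x ≤ 1) ∧
      (∀ x, ‖∇ η x‖ ≤ C / (s - s')) := by
  obtain ⟨C, hC0, hC⟩ := exists_cutoff_const
  refine ⟨2 * C, by positivity, fun s' s hs' hss => ?_⟩
  have hd : 0 < s ^ 2 - s' ^ 2 := by nlinarith
  set q : (E n) → ℝ := fun x => (s ^ 2 - ‖x‖ ^ 2) / (s ^ 2 - s' ^ 2) with hq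
  set η : (E n) → ℝ := fun x => Real.smoothTransition (q x) with hη
  have hq1 : ContDiff ℝ 1 q := (contDiff_const.sub (contDiff_norm_sq ℝ)).div_const _
  have hη1 : ContDiff ℝ 1 η := (Real.smoothTransition.contDiff (n := 1)).comp hq1
  have hsupp : Function.support η ⊆ closedBall 0 s := by
    intro x hx
    rw [mem_closedBall_zero_iff]
    by_contra h
    rw [not_le] at h
    apply hx
    apply Real.smoothTransition.zero_of_nonpos
    apply div_nonpos_of_nonpos_of_nonneg _ hd.le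
    nlinarith
  have hts : tsupport η ⊆ closedBall 0 s := closure_minimal hsupp isClosed_closedBall
  have hqd : ∀ x, HasFDerivAt q ((-(2 / (s ^ 2 - s' ^ 2))) • innerSL ℝ x) x := by
    intro x
    have h1 := (hasStrictFDerivAt_norm_sq x).hasFDerivAt
    have h2 := (h1.const_sub (s ^ 2)).mul_const ((s ^ 2 - s' ^ 2)⁻¹)
    refine (h2.congr_fderiv ?_)
    ext y
    simp
    ring
  have hgrad : ∀ x, ‖∇ η x‖ = |deriv Real.smoothTransition (q x)| * (2 / (s ^ 2 - s' ^ 2) * ‖x‖) := by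
    intro x
    have h1 : HasFDerivAt η (deriv Real.smoothTransition (q x) •
        ((-(2 / (s ^ 2 - s' ^ 2))) • innerSL ℝ x)) x := by
      have h3 : HasDerivAt Real.smoothTransition (deriv Real.smoothTransition (q x)) (q x) :=
        ((Real.smoothTransition.contDiff (n := 1)).differentiable (by norm_num) _).hasDerivAt
      exact h3.comp_hasFDerivAt x (hqd x)
    rw [norm_gradient, h1.fderiv, norm_smul, norm_smul, Real.norm_eq_abs, norm_neg,
      Real.norm_eq_abs, abs_of_pos (by positivity : 0 < 2 / (s ^ 2 - s' ^ 2))]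
    simp
  refine ⟨η, hη1, ?_, hts, ?_, ?_, ?_, ?_⟩
  · exact HasCompactSupport.intro (isCompact_closedBall (0 : E n) s) fun x hx => by
      by_contra h; exact hx (hsupp h)
  · intro x hx
    apply Real.smoothTransition.one_of_one_le
    rw [mem_closedBall_zero_iff] at hx
    rw [hq]
    simp only
    rw [le_div_iff₀ hd]
    nlinarith [norm_nonneg x]
  · intro x; exact Real.smoothTransition.nonneg _
  · intro x; exact Real.smoothTransition.le_one _
  · intro x
    by_cases hx : x ∈ closedBall (0 : E n) s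
    · rw [hgrad x]
      rw [mem_closedBall_zero_iff] at hx
      have h1 : 2 / (s ^ 2 - s' ^ 2) * ‖x‖ ≤ 2 / (s - s') := by
        rw [div_mul_eq_mul_div, div_le_div_iff₀ hd (by linarith)]
        have h5 : ‖x‖ * (s - s') ≤ s ^ 2 - s' ^ 2 := by nlinarith [norm_nonneg x]
        nlinarith
      calc |deriv Real.smoothTransition (q x)| * (2 / (s ^ 2 - s' ^ 2) * ‖x‖)
          ≤ C * (2 / (s - s')) := by
            apply mul_le_mul (hC _) h1 (by positivity) hC0.le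
        _ = 2 * C / (s - s') := by ring
    · have : x ∉ tsupport η := fun h => hx (hts h)
      have h0 : ∇ η x = 0 := by
        have : fderiv ℝ η x = 0 := by
          by_contra h
          exact this (support_fderiv_subset ℝ h)
        simp [gradient, this]
      rw [h0, norm_zero]
      apply div_nonneg (by positivity) (by linarith)

end

end Crest.Agent.R202.Moser
end

-- ▼ part R202/Moser3

/-!
# Row 202: Moser's sup bound, part 3 (Sobolev step and iteration on the unit scale)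
-/

set_option autoImplicit false
open MeasureTheory Metric Set Filter Topology InnerProductSpace
open scoped NNReal ENNReal RealInnerProductSpace Gradient ContDiff

namespace Crest.Agent.R202.Moser

noncomputable section

variable {n : ℕ}

local notation "E" n => EuclideanSpace ℝ (Fin n)

/-- the Sobolev gain `n/(n-2)` -/
def chi (n : ℕ) : ℝ := (n : ℝ) / ((n : ℝ) - 2)

lemma one_lt_chi (hn : 3 ≤ n) : 1 < chi n := by
  have h : (3 : ℝ) ≤ n := by exact_mod_cast hn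
  rw [chi, lt_div_iff₀ (by linarith)]
  linarith

/-- real form of the Sobolev inequality -/
lemma sobolev (hn : 3 ≤ n) : ∃ C : ℝ, 0 < C ∧ ∀ f : (E n) → ℝ, ContDiff ℝ 1 f → HasCompactSupport f →
    (∫ x, |f x| ^ (2 * chi n)) ^ (1 / chi n) ≤ C * ∫ x, ‖∇ f x‖ ^ 2 := by
  have hχ := one_lt_chi hn
  have h3 : (3 : ℝ) ≤ n := by exact_mod_cast hn
  set S := eLpNormLESNormFDerivOfEqInnerConst (volume : Measure (E n)) ((2 : ℝ≥0) : ℝ) with hS
  refine ⟨(S : ℝ) ^ 2 + 1, by positivity, fun f hf hfc => ?_⟩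
  set p' : ℝ≥0 := ⟨2 * chi n, by linarith⟩ with hp'
  have hp'c : (p' : ℝ) = 2 * chi n := rfl
  have hp'1 : (1 : ℝ≥0) ≤ p' := by
    rw [← NNReal.coe_le_coe, hp'c]; simp; linarith
  have hp0 : p' ≠ 0 := by
    intro h; rw [h] at hp'1; simp at hp'1
  have hfr : Module.finrank ℝ (E n) = n := by simp
  have key := eLpNorm_le_eLpNorm_fderiv_of_eq_inner (μ := (volume : Measure (E n))) hf hfc
    (p := 2) (p' := p') (by norm_num) (by rw [hfr]; omega) (by
      rw [hfr, hp'c, chi]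
      have : (n : ℝ) - 2 ≠ 0 := by linarith
      have : (n : ℝ) ≠ 0 := by linarith
      field_simp
      push_cast
      ring)
  have hcf : Continuous f := hf.continuous
  have hcd : Continuous (fderiv ℝ f) := hf.continuous_fderiv (by norm_num)
  have hm1 : MemLp f p' volume := hcf.memLp_of_hasCompactSupport hfc
  have hm2 : MemLp (fderiv ℝ f) ((2 : ℝ≥0) : ℝ≥0∞) volume :=
    hcd.memLp_of_hasCompactSupport (hfc.fderiv ℝ)
  rw [hm1.eLpNorm_eq_integral_rpow_norm (by simpa using hp0) (by simp),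
    hm2.eLpNorm_eq_integral_rpow_norm (by norm_num) (by simp)] at key
  have hI2 : 0 ≤ ∫ x, ‖fderiv ℝ f x‖ ^ (2 : ℝ) := by positivity
  have key2 : (∫ x, ‖f x‖ ^ (p' : ℝ)) ^ ((p' : ℝ)⁻¹)
      ≤ (S : ℝ) * (∫ x, ‖fderiv ℝ f x‖ ^ (2 : ℝ)) ^ ((2 : ℝ)⁻¹) := by
    have h1 : ENNReal.ofReal ((∫ x, ‖f x‖ ^ (p' : ℝ)) ^ ((p' : ℝ)⁻¹))
        ≤ ENNReal.ofReal ((S : ℝ) * (∫ x, ‖fderiv ℝ f x‖ ^ (2 : ℝ)) ^ ((2 : ℝ)⁻¹)) := by
      rw [ENNReal.ofReal_mul (NNReal.coe_nonneg _), ENNReal.ofReal_coe_nnreal]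
      simpa [hS] using key
    exact (ENNReal.ofReal_le_ofReal_iff (by positivity)).mp h1
  have hA0 : 0 ≤ ∫ x, ‖f x‖ ^ (p' : ℝ) := integral_nonneg fun x => by positivity
  have e1 : (∫ x, |f x| ^ (2 * chi n)) ^ (1 / chi n)
      = ((∫ x, ‖f x‖ ^ (p' : ℝ)) ^ ((p' : ℝ)⁻¹)) ^ 2 := by
    rw [← Real.rpow_natCast, ← Real.rpow_mul hA0]
    simp only [Real.norm_eq_abs, hp'c]
    congr 1
    push_cast
    field_simp
  have e2 : ((S : ℝ) * (∫ x, ‖fderiv ℝ f x‖ ^ (2 : ℝ)) ^ ((2 : ℝ)⁻¹)) ^ 2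
      = (S : ℝ) ^ 2 * ∫ x, ‖∇ f x‖ ^ 2 := by
    rw [mul_pow, ← Real.rpow_natCast ((∫ x, ‖fderiv ℝ f x‖ ^ (2 : ℝ)) ^ ((2 : ℝ)⁻¹)),
      ← Real.rpow_mul hI2]
    simp [norm_gradient]
  rw [e1]
  calc ((∫ x, ‖f x‖ ^ (p' : ℝ)) ^ ((p' : ℝ)⁻¹)) ^ 2
      ≤ ((S : ℝ) * (∫ x, ‖fderiv ℝ f x‖ ^ (2 : ℝ)) ^ ((2 : ℝ)⁻¹)) ^ 2 := by gcongr
    _ = (S : ℝ) ^ 2 * ∫ x, ‖∇ f x‖ ^ 2 := e2
    _ ≤ ((S : ℝ) ^ 2 + 1) * ∫ x, ‖∇ f x‖ ^ 2 := by
        have : 0 ≤ ∫ x, ‖∇ f x‖ ^ 2 := by positivity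
        nlinarith

/-- one step of the iteration -/
lemma step (hn : 3 ≤ n) {lam : ℝ} (Lam : ℝ) (hlam : 0 < lam) :
    ∃ K : ℝ, 0 < K ∧ ∀ (A : (E n) → (E n) →L[ℝ] (E n)) (v : (E n) → ℝ),
      Continuous A → ContDiff ℝ 1 v → Ell lam Lam A 0 2 → WeakSol A v 0 2 →
      ∀ s' s : ℝ, 0 < s' → s' < s → s < 2 → ∀ q : ℝ, 1 ≤ q →
      (∫ x in closedBall (0 : E n) s', |v x| ^ (2 * (chi n * q))) ^ (1 / chi n)
        ≤ K / (s - s') ^ 2 * ∫ x in closedBall (0 : E n) s, |v x| ^ (2 * q) := by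
  obtain ⟨C1, hC1, hsob⟩ := sobolev hn
  obtain ⟨C2, hC2, hcut⟩ := exists_cutoff (n := n)
  have hχ := one_lt_chi hn
  refine ⟨C1 * ((8 * Lam ^ 2 / lam ^ 2 + 2) * C2 ^ 2), by positivity, ?_⟩
  intro A v hA hv hell hw s' s hs' hss hs2 q hq
  obtain ⟨η, hη1, hηc, hηs, hη1', hη0, hηle, hηg⟩ := hcut s' s hs' hss
  have hηs' : tsupport η ⊆ ball 0 2 := hηs.trans (closedBall_subset_ball hs2)
  set a : ℝ := q - 1 with ha
  have ha0 : 0 ≤ a := by linarith
  have haq : a + 1 = q := by ring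
  set F := sp a with hF
  set F' : ℝ → ℝ := fun s => q * |s| ^ a with hF'
  set H : ℝ → ℝ := fun s => q * sp (2 * a) s with hH
  set H' : ℝ → ℝ := fun s => q * ((2 * a + 1) * |s| ^ (2 * a)) with hH'
  have dF : ∀ s, HasDerivAt F (F' s) s := fun s => by
    have := hasDerivAt_sp ha0 s
    rw [haq] at this
    exact this
  have dH : ∀ s, HasDerivAt H (H' s) s := fun s =>
    (hasDerivAt_sp (a := 2 * a) (by linarith) s).const_mul q
  have pw : ∀ s : ℝ, |s| ^ (2 * a) = |s| ^ a * |s| ^ a := fun s => by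
    rw [two_mul, Real.rpow_add_of_nonneg (abs_nonneg s) ha0 ha0]
  have cF' : Continuous F' := continuous_const.mul (continuous_abs_rpow ha0)
  have cH' : Continuous H' :=
    continuous_const.mul (continuous_const.mul (continuous_abs_rpow (by linarith)))
  have h1 : ∀ s, |H s| ≤ |F s * F' s| := by
    intro s
    have hr := Real.rpow_nonneg (abs_nonneg s) a
    simp only [hH, hF, hF', sp, pw s, abs_mul, abs_of_nonneg hr]
    apply le_of_eq; ring
  have h2 : ∀ s, F' s ^ 2 ≤ H' s := by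
    intro s
    have hr := Real.rpow_nonneg (abs_nonneg s) a
    simp only [hF', hH', pw s]
    have h5 : 0 ≤ |s| ^ a * |s| ^ a := by positivity
    have h6 : (q * |s| ^ a) ^ 2 = q * q * (|s| ^ a * |s| ^ a) := by ring
    rw [h6, show q * ((2 * a + 1) * (|s| ^ a * |s| ^ a)) = q * (2 * a + 1) * (|s| ^ a * |s| ^ a) by ring]
    apply mul_le_mul_of_nonneg_right _ h5
    have : q ≤ 2 * a + 1 := by linarith
    nlinarith
  have cac := caccioppoli hlam hA hv hell hw dF cF' dH cH' h1 h2 hη1 hηc hηs'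
  have hFc : ContDiff ℝ 1 F := contDiff_sp ha0
  set f : (E n) → ℝ := fun y => η y * F (v y) with hf
  have hf1 : ContDiff ℝ 1 f := hη1.mul (hFc.comp hv)
  have hfc : HasCompactSupport f := hηc.mul_right
  have sob := hsob f hf1 hfc
  have hvc := hv.continuous
  have absF : ∀ x, |F (v x)| = |v x| ^ q := fun x => by rw [hF, abs_sp a _ ha0, haq]
  have cvq : ∀ b : ℝ, 0 ≤ b → Continuous (fun x => |v x| ^ b) := fun b hb =>
    (continuous_abs_rpow hb).comp hvc
  -- lower bound of the left side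
  have lowb : (∫ x in closedBall (0 : E n) s', |v x| ^ (2 * (chi n * q)))
      ≤ ∫ x, |f x| ^ (2 * chi n) := by
    have i1 : Integrable (fun x => |f x| ^ (2 * chi n)) := by
      have hc : Continuous (fun x => |f x| ^ (2 * chi n)) :=
        (continuous_abs_rpow (by linarith)).comp hf1.continuous
      apply hc.integrable_of_hasCompactSupport
      refine HasCompactSupport.intro hfc.isCompact fun x hx => ?_
      rw [image_eq_zero_of_notMem_tsupport hx, abs_zero, Real.zero_rpow (by linarith)]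
    calc (∫ x in closedBall (0 : E n) s', |v x| ^ (2 * (chi n * q)))
        = ∫ x in closedBall (0 : E n) s', |f x| ^ (2 * chi n) := by
          apply setIntegral_congr_fun measurableSet_closedBall
          intro x hx
          simp only [hf]
          rw [hη1' x hx, one_mul, absF x, ← Real.rpow_mul (abs_nonneg _)]
          congr 1; ring
      _ ≤ ∫ x, |f x| ^ (2 * chi n) := by
          apply setIntegral_le_integral i1
          filter_upwards with x
          positivity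
  have upb : ∫ x, F (v x) ^ 2 * ‖∇ η x‖ ^ 2
      ≤ (C2 / (s - s')) ^ 2 * ∫ x in closedBall (0 : E n) s, |v x| ^ (2 * q) := by
    have hgη : ∀ x, x ∉ closedBall (0 : E n) s → ∇ η x = 0 := by
      intro x hx
      have : fderiv ℝ η x = 0 := by
        by_contra h
        exact hx (hηs (support_fderiv_subset ℝ h))
      simp [gradient, this]
    have e1 : ∫ x, F (v x) ^ 2 * ‖∇ η x‖ ^ 2
        = ∫ x in closedBall (0 : E n) s, F (v x) ^ 2 * ‖∇ η x‖ ^ 2 := by
      rw [setIntegral_eq_integral_of_forall_compl_eq_zero]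
      intro x hx
      rw [hgη x hx]; simp
    rw [e1, ← integral_const_mul]
    have cFv : Continuous (fun x => F (v x) ^ 2 * ‖∇ η x‖ ^ 2) :=
      ((hFc.continuous.comp hvc).pow 2).mul ((continuous_gradient hη1).norm.pow 2)
    apply setIntegral_mono_on
    · exact cFv.continuousOn.integrableOn_compact (isCompact_closedBall _ _)
    · exact (continuous_const.mul (cvq _ (by linarith))).continuousOn.integrableOn_compact
        (isCompact_closedBall _ _)
    · exact measurableSet_closedBall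
    · intro x hx
      have h3 : F (v x) ^ 2 = |v x| ^ (2 * q) := by rw [hF, sp_sq a _ ha0, haq]
      rw [h3, mul_comm]
      have h4 : ‖∇ η x‖ ^ 2 ≤ (C2 / (s - s')) ^ 2 := by
        have := hηg x
        gcongr
      gcongr
  have hpos : 0 ≤ ∫ x in closedBall (0 : E n) s', |v x| ^ (2 * (chi n * q)) := by positivity
  calc (∫ x in closedBall (0 : E n) s', |v x| ^ (2 * (chi n * q))) ^ (1 / chi n)
      ≤ (∫ x, |f x| ^ (2 * chi n)) ^ (1 / chi n) := by
        apply Real.rpow_le_rpow hpos lowb (by positivity)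
    _ ≤ C1 * ∫ x, ‖∇ f x‖ ^ 2 := sob
    _ ≤ C1 * ((8 * Lam ^ 2 / lam ^ 2 + 2) * ∫ x, F (v x) ^ 2 * ‖∇ η x‖ ^ 2) := by gcongr
    _ ≤ C1 * ((8 * Lam ^ 2 / lam ^ 2 + 2) * ((C2 / (s - s')) ^ 2
          * ∫ x in closedBall (0 : E n) s, |v x| ^ (2 * q))) := by gcongr
    _ = _ := by rw [div_pow]; ring

end

end Crest.Agent.R202.Moser
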