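import Crest.Agent.R202.SegDefs
import Crest.Agent.R202.SchScal

-- ▼ part R202/SegLem
section

set_option autoImplicit false

open Set
open scoped InnerProductSpace

namespace Crest.Agent.R202.Seg

open Crest.Agent.R202.Mix (pr blk inner_pr pr_eq_zero_iff)

variable {G : Type} [NormedAddCommGroup G] [InnerProductSpace ℝ G]

theorem OpenCut.mono {F : Flow G} {l : ℕ} {η M δ δ' : ℝ} {m m' b' : ℝ → ℝ}
    {f : ℝ → Fin l → G} {a c : ℝ} (h : OpenCut F l η M δ m m' b' f a c) (hδ : δ ≤ δ') :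
    OpenCut F l η M δ' m m' b' f a c :=
  { h with
    m'_le := fun t ht => (h.m'_le t ht).trans hδ
    b'_le := fun t ht => (h.b'_le t ht).trans hδ
    ρ_le := fun t ht => (h.ρ_le t ht).trans hδ }

theorem OpenCut.restr {F : Flow G} {l : ℕ} {η M δ : ℝ} {m m' b' : ℝ → ℝ}
    {f : ℝ → Fin l → G} {a c a' c' : ℝ} (h : OpenCut F l η M δ m m' b' f a c)
    (h1 : a ≤ a') (h2 : a' ≤ c') (h3 : c' ≤ c) :
    OpenCut F l η M δ m m' b' f a' c' := by
  have hs : Icc a' c' ⊆ Icc a c := Icc_subset_Icc h1 h3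
  exact
    { t1_lt := lt_of_lt_of_le h.t1_lt h1
      le := h2
      li := fun t ht => h.li t (hs ht)
      cont := h.cont.mono hs
      low := fun t ht => h.low t (hs ht)
      high := fun t ht => h.high t (hs ht)
      m_deriv := fun t ht => h.m_deriv t (hs ht)
      m'_le := fun t ht => h.m'_le t (hs ht)
      b_deriv := fun t ht => h.b_deriv t (hs ht)
      b'_le := fun t ht => h.b'_le t (hs ht)
      b_le := fun t ht => h.b_le t (hs ht)
      m_ge := fun t ht => h.m_ge t (hs ht)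
      m_le := fun t ht => h.m_le t (hs ht)
      ρ_le := fun t ht => h.ρ_le t (hs ht) }

theorem HomeCut.mono {N : ℕ} {F : Flow G} {e : Fin N → G} {l : ℕ} {hl : l ≤ N} {η M δ δ' : ℝ}
    {m m' b' : ℝ → ℝ} {a c : ℝ} (h : HomeCut F e l hl η M δ m m' b' a c) (hδ : δ ≤ δ') :
    HomeCut F e l hl η M δ' m m' b' a c :=
  { orth := h.orth, opn := h.opn.mono hδ, comm := h.comm }


/-- derivative of the squared norm of a solution -/
theorem Flow.hasDerivAt_normSq (F : Flow G) {t : ℝ} (ht : F.t1 < t) (x : G) :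
    HasDerivAt (fun s => ‖F.U s x‖ ^ 2) (2 * ⟪F.L t (F.U t x), F.U t x⟫_ℝ) t := by
  have h1 : HasDerivAt (fun s => F.U s x) (F.L t (F.U t x)) t := by
    have := (F.hasDerivAt_U t ht).clm_apply (hasDerivAt_const t x)
    simpa using this
  have h2 := h1.norm_sq
  rw [real_inner_comm] at h2
  exact h2

theorem Flow.continuousOn_U (F : Flow G) : ContinuousOn F.U (Ioi F.t1) := fun t ht =>
  (F.hasDerivAt_U t ht).continuousAt.continuousWithinAt

theorem Flow.continuousOn_Ux (F : Flow G) (x : G) : ContinuousOn (fun t => F.U t x) (Ioi F.t1) :=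
  F.continuousOn_U.clm_apply continuousOn_const

/-- norms of solutions do not decrease -/
theorem Flow.norm_mono (F : Flow G) {s t : ℝ} (hs : F.t1 < s) (hst : s ≤ t) (x : G) :
    ‖F.U s x‖ ≤ ‖F.U t x‖ := by
  have hmono : MonotoneOn (fun r => ‖F.U r x‖ ^ 2) (Icc s t) := by
    refine monotoneOn_of_deriv_nonneg (convex_Icc s t) ?_ ?_ ?_
    · intro r hr
      exact (F.hasDerivAt_normSq (lt_of_lt_of_le hs hr.1) x).continuousAt.continuousWithinAt
    · intro r hr
      rw [interior_Icc] at hr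
      exact (F.hasDerivAt_normSq (hs.trans hr.1) x).differentiableAt.differentiableWithinAt
    · intro r hr
      rw [interior_Icc] at hr
      rw [(F.hasDerivAt_normSq (hs.trans hr.1) x).deriv]
      exact mul_nonneg zero_le_two (F.nonneg r (hs.trans hr.1) _)
  have h := hmono (left_mem_Icc.2 hst) (right_mem_Icc.2 hst) hst
  exact le_of_sq_le_sq h (norm_nonneg _)

/-- growth of a solution whose frequency is bounded by `B` -/
theorem Flow.growth (F : Flow G) {a c B : ℝ} (ha : F.t1 < a) (hac : a ≤ c) (x : G)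
    (h : ∀ t ∈ Icc a c, ⟪F.L t (F.U t x), F.U t x⟫_ℝ ≤ B * ‖F.U t x‖ ^ 2) :
    ‖F.U c x‖ ≤ Real.exp (B * (c - a)) * ‖F.U a x‖ := by
  have hd : ∀ t ∈ Icc a c, HasDerivAt (fun r => Real.exp (-(2 * B * r)) * ‖F.U r x‖ ^ 2)
      (Real.exp (-(2 * B * t)) * (-(2 * B)) * ‖F.U t x‖ ^ 2 +
        Real.exp (-(2 * B * t)) * (2 * ⟪F.L t (F.U t x), F.U t x⟫_ℝ)) t := by
    intro t ht
    have h1 : HasDerivAt (fun r : ℝ => -(2 * B * r)) (-(2 * B)) t := by
      have h0 : HasDerivAt (fun r : ℝ => -(2 * B) * r) (-(2 * B) * 1) t :=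
        (hasDerivAt_id t).const_mul (-(2 * B))
      have h2 : (fun r : ℝ => -(2 * B * r)) = fun r : ℝ => -(2 * B) * r := by
        funext r; ring
      rw [h2]
      rw [mul_one] at h0
      exact h0
    exact h1.exp.mul (F.hasDerivAt_normSq (lt_of_lt_of_le ha ht.1) x)
  have hanti : AntitoneOn (fun r => Real.exp (-(2 * B * r)) * ‖F.U r x‖ ^ 2) (Icc a c) := by
    refine antitoneOn_of_deriv_nonpos (convex_Icc a c) ?_ ?_ ?_
    · intro r hr
      exact (hd r hr).continuousAt.continuousWithinAt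
    · intro r hr
      rw [interior_Icc] at hr
      exact (hd r ⟨hr.1.le, hr.2.le⟩).differentiableAt.differentiableWithinAt
    · intro r hr
      rw [interior_Icc] at hr
      rw [(hd r ⟨hr.1.le, hr.2.le⟩).deriv]
      have h1 := h r ⟨hr.1.le, hr.2.le⟩
      have h2 : 0 < Real.exp (-(2 * B * r)) := Real.exp_pos _
      have h3 : Real.exp (-(2 * B * r)) * (-(2 * B)) * ‖F.U r x‖ ^ 2 +
          Real.exp (-(2 * B * r)) * (2 * ⟪F.L r (F.U r x), F.U r x⟫_ℝ) =
          2 * (Real.exp (-(2 * B * r)) *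
            (⟪F.L r (F.U r x), F.U r x⟫_ℝ - B * ‖F.U r x‖ ^ 2)) := by ring
      rw [h3]
      have h4 : Real.exp (-(2 * B * r)) *
            (⟪F.L r (F.U r x), F.U r x⟫_ℝ - B * ‖F.U r x‖ ^ 2) ≤ 0 :=
        mul_nonpos_of_nonneg_of_nonpos h2.le (by linarith)
      linarith
  have h1 := hanti (left_mem_Icc.2 hac) (right_mem_Icc.2 hac) hac
  simp only at h1
  refine le_of_sq_le_sq ?_ (by positivity)
  have h2 : ‖F.U c x‖ ^ 2 = Real.exp (2 * B * c) * (Real.exp (-(2 * B * c)) * ‖F.U c x‖ ^ 2) := by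
    rw [← mul_assoc, ← Real.exp_add]; simp
  rw [h2, mul_pow, ← Real.exp_nat_mul]
  calc Real.exp (2 * B * c) * (Real.exp (-(2 * B * c)) * ‖F.U c x‖ ^ 2)
      ≤ Real.exp (2 * B * c) * (Real.exp (-(2 * B * a)) * ‖F.U a x‖ ^ 2) :=
        mul_le_mul_of_nonneg_left h1 (Real.exp_pos _).le
    _ = Real.exp (((2 : ℕ) : ℝ) * (B * (c - a))) * ‖F.U a x‖ ^ 2 := by
        rw [← mul_assoc, ← Real.exp_add]
        congr 2
        push_cast
        ring

theorem freq_le_add_one {b m M : ℝ} (hb : 0 ≤ b) (hM : 0 ≤ M) (hm : m ≤ M) : freq b m ≤ M + 1 := by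
  unfold freq
  have h1 : Real.sqrt (b ^ 2 / 4 + m) ≤ b / 2 + (M + 1) := by
    rw [Real.sqrt_le_left (by positivity)]
    nlinarith [mul_nonneg hb hM]
  linarith

/-- determinant of the block matrix of `MixData` -/
theorem det_blk {N l : ℕ} (hl : l ≤ N) (A : Fin N → Fin N → ℝ) :
    (blk l A).det = Matrix.det (Matrix.of fun i j : Fin l =>
      A (Fin.castLE hl i) (Fin.castLE hl j)) := by
  have hN : l + (N - l) = N := by omega
  set φ : Fin l ⊕ Fin (N - l) ≃ Fin N := finSumFinEquiv.trans (finCongr hN) with hφ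
  have hφl : ∀ i : Fin l, φ (Sum.inl i) = Fin.castLE hl i := by
    intro i
    ext
    simp [hφ]
  have hφr : ∀ i : Fin (N - l), (φ (Sum.inr i)).1 = l + i.1 := by
    intro i
    simp [hφ]
  have h1 : (blk l A).submatrix φ φ = Matrix.fromBlocks (Matrix.of fun i j : Fin l =>
      A (Fin.castLE hl i) (Fin.castLE hl j)) 0 0 1 := by
    ext i j
    rcases i with i | i <;> rcases j with j | j
    · simp only [Matrix.submatrix_apply, hφl, Matrix.fromBlocks_apply₁₁, Matrix.of_apply, blk]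
      rw [if_pos ⟨i.2, j.2⟩]
    · simp only [Matrix.submatrix_apply, Matrix.fromBlocks_apply₁₂, blk, Matrix.zero_apply]
      rw [if_neg, if_neg]
      · intro h
        have := congrArg Fin.val h
        rw [hφr, hφl] at this
        have h3 := i.2
        simp at this
        omega
      · rintro ⟨-, h⟩
        rw [hφr] at h
        omega
    · simp only [Matrix.submatrix_apply, Matrix.fromBlocks_apply₂₁, blk, Matrix.zero_apply]
      rw [if_neg, if_neg]
      · intro h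
        have := congrArg Fin.val h
        rw [hφr, hφl] at this
        have h3 := j.2
        simp at this
        omega
      · rintro ⟨h, -⟩
        rw [hφr] at h
        omega
    · simp only [Matrix.submatrix_apply, Matrix.fromBlocks_apply₂₂, blk]
      rw [if_neg]
      · by_cases h : i = j
        · subst h; simp
        · rw [if_neg (fun h' => h (Sum.inr_injective (φ.injective h'))), Matrix.one_apply_ne h]
      · rintro ⟨h, -⟩
        rw [hφr] at h
        omega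
  rw [← Matrix.det_submatrix_equiv_self φ (blk l A), h1, Matrix.det_fromBlocks_zero₂₁,
    Matrix.det_one, mul_one]

/-- a continuous function without zeros on an interval has a constant sign -/
theorem mul_pos_of_ne_zero {D : ℝ → ℝ} {a c : ℝ} (hac : a ≤ c) (hc : ContinuousOn D (Icc a c))
    (h0 : ∀ t ∈ Icc a c, D t ≠ 0) : 0 < D a * D c := by
  by_contra hn
  push Not at hn
  have ha := h0 a (left_mem_Icc.2 hac)
  have hcc := h0 c (right_mem_Icc.2 hac)
  have hlt : D a * D c < 0 := lt_of_le_of_ne hn (mul_ne_zero ha hcc)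
  rcases lt_or_gt_of_ne ha with h | h
  · have h2 : 0 < D c := by
      by_contra h3
      push Not at h3
      exact absurd hlt (not_lt.2 (mul_nonneg_of_nonpos_of_nonpos h.le h3))
    obtain ⟨t, ht, ht0⟩ := intermediate_value_Icc hac hc ⟨h.le, h2.le⟩
    exact h0 t ht ht0
  · have h2 : D c < 0 := by
      by_contra h3
      push Not at h3
      exact absurd hlt (not_lt.2 (mul_nonneg h.le h3))
    obtain ⟨t, ht, ht0⟩ := intermediate_value_Icc' hac hc ⟨h2.le, h.le⟩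
    exact h0 t ht ht0

/-- the coordinate determinant -/
noncomputable def coDet (F : Flow G) {N l : ℕ} (e : Fin N → G) (hl : l ≤ N) (v : Fin l → G)
    (t : ℝ) : ℝ :=
  Matrix.det (Matrix.of fun i j : Fin l => ⟪e (Fin.castLE hl i), F.U t (v j)⟫_ℝ)

theorem coDet_ne_zero (F : Flow G) {N l : ℕ} {e : Fin N → G} (he : Orthonormal ℝ e)
    (hl : l ≤ N) {v : Fin l → G} (hv : LinearIndependent ℝ v) {t C : ℝ} (ht : F.t1 < t)
    (hcone : ∀ w ∈ Submodule.span ℝ (range v), PCone e l C (F.U t w)) :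
    coDet F e hl v t ≠ 0 := by
  intro h0
  obtain ⟨c, hc0, hc⟩ := Matrix.exists_mulVec_eq_zero_iff.2 h0
  set w : G := ∑ j, c j • v j with hw
  have hwmem : w ∈ Submodule.span ℝ (range v) :=
    Submodule.sum_mem _ fun j _ => Submodule.smul_mem _ _ (Submodule.subset_span ⟨j, rfl⟩)
  have hpr : pr e l (F.U t w) = 0 := by
    rw [pr_eq_zero_iff he]
    intro j hj
    have h1 := congrFun hc ⟨j.1, hj⟩
    simp only [Matrix.mulVec, dotProduct, Matrix.of_apply, Pi.zero_apply] at h1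
    rw [hw, map_sum, inner_sum]
    rw [← h1]
    refine Finset.sum_congr rfl fun i _ => ?_
    rw [map_smul, real_inner_smul_right, mul_comm]
    congr 1
  have h1 := hcone w hwmem
  unfold PCone at h1
  rw [hpr, sub_zero, norm_zero, mul_zero] at h1
  have h2 : F.U t w = 0 := norm_le_zero_iff.1 h1
  have h3 : w = 0 := by
    apply F.inj t ht
    rw [h2, map_zero]
  have h4 := (Fintype.linearIndependent_iff.1 hv) c h3
  exact hc0 (funext h4)

theorem continuousOn_coDet (F : Flow G) {N l : ℕ} (e : Fin N → G) (hl : l ≤ N) (v : Fin l → G) :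
    ContinuousOn (coDet F e hl v) (Ioi F.t1) := by
  have h1 : ContinuousOn (fun t => Matrix.of fun i j : Fin l =>
      ⟪e (Fin.castLE hl i), F.U t (v j)⟫_ℝ) (Ioi F.t1) := by
    refine continuousOn_pi.2 fun i => continuousOn_pi.2 fun j => ?_
    exact continuousOn_const.inner (F.continuousOn_Ux (v j))
  exact Continuous.comp_continuousOn (g := fun A : Matrix (Fin l) (Fin l) ℝ => A.det)
    (Continuous.matrix_det continuous_id) h1

/-- constant sign of the coordinate determinant -/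
theorem coDet_sign (F : Flow G) {N l : ℕ} {e : Fin N → G} (he : Orthonormal ℝ e)
    (hl : l ≤ N) {v : Fin l → G} (hv : LinearIndependent ℝ v) {a c C : ℝ} (ha : F.t1 < a)
    (hac : a ≤ c)
    (hcone : ∀ w ∈ Submodule.span ℝ (range v), ∀ t ∈ Icc a c, PCone e l C (F.U t w)) :
    0 < coDet F e hl v a * coDet F e hl v c := by
  refine mul_pos_of_ne_zero hac ((continuousOn_coDet F e hl v).mono fun t ht =>
    lt_of_lt_of_le ha ht.1) fun t ht => ?_
  exact coDet_ne_zero F he hl hv (lt_of_lt_of_le ha ht.1) fun w hw => hcone w hw t ht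

/-- change of frame in the orientation determinant -/
theorem orDet_change (F : Flow G) {l : ℕ} (m : ℝ → ℝ) (f f' : ℝ → Fin l → G) (v : Fin l → G)
    (t : ℝ) (O : Matrix (Fin l) (Fin l) ℝ) (h : ∀ i, f t i = ∑ j, O i j • f' t j) :
    orDet F m f v t = O.det * orDet F m f' v t := by
  unfold orDet
  rw [← Matrix.det_mul]
  congr 1
  ext i j
  simp only [Matrix.of_apply, Matrix.mul_apply]
  rw [h i, map_sum, sum_inner, sum_inner, Finset.mul_sum, ← Finset.sum_sub_distrib]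
  refine Finset.sum_congr rfl fun k _ => ?_
  rw [map_smul, real_inner_smul_left, real_inner_smul_left]
  ring

end Crest.Agent.R202.Seg
end

-- ▼ part R202/SegMix
section

set_option autoImplicit false

open Set
open scoped InnerProductSpace

namespace Crest.Agent.R202.Seg

open Crest.Agent.R202.Mix (pr blk inner_pr pr_eq_zero_iff Cube MixData pr_apply)

/-- The radial data of one sector: homes `[tm q, tp q]`, collars of length `Lc` outside of them,
gates between the collars. -/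
structure SegData (G : Type) [NormedAddCommGroup G] [InnerProductSpace ℝ G] (N P : ℕ)
    (η M δ Lc T0 : ℝ) where
  F : Cube P → Flow G
  e : Fin N → G
  i0 : ℕ
  a : ℕ → ℝ
  tm : ℕ → ℝ
  tp : ℕ → ℝ
  d : Fin P → Option ℕ
  σ : Fin P → ℝ
  orth : Orthonormal ℝ e
  i0_pos : 1 ≤ i0
  i0_le : i0 ≤ N
  d_ge : ∀ k l, d k = some l → i0 ≤ l
  d_lt : ∀ k l, d k = some l → l < N
  σ_sq : ∀ k, σ k = 1 ∨ σ k = -1
  cont_tm : ∀ q, q ≤ P → Continuous fun κ => (F κ).U (tm q)
  cont_tp : ∀ q, q ≤ P → Continuous fun κ => (F κ).U (tp q)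
  t1_lt : ∀ κ, (F κ).t1 < tm 0
  a_nonneg : ∀ l, i0 ≤ l → l ≤ N → 0 ≤ a l ∧ a l ≤ M
  home_len : ∀ q, q ≤ P → tm q + T0 ≤ tp q
  gate_len : ∀ k, k < P → tp k + Lc ≤ tm (k + 1) - Lc
  home : ∀ q, q ≤ P → ∀ κ l (hl : l ≤ N), i0 ≤ l → ∃ m m' b',
    HomeCut (F κ) e l hl η M δ m m' b' (tm q) (tp q)
  slow : ∀ q, q ≤ P → ∀ κ l (hl : l ≤ N), i0 ≤ l → ∀ t ∈ Icc (tm q) (tp q),
    ∀ x ∈ Submodule.span ℝ (range fun i : Fin l => e (Fin.castLE hl i)),
      ⟪(F κ).K t x, x⟫_ℝ ≤ (a l ^ 2 + (F κ).b t * a l) * ‖x‖ ^ 2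
  gate : ∀ (k : Fin P) (κ : Cube P) (l : ℕ) (hl : l ≤ N), i0 ≤ l →
    (d k ≠ some l ∨ (κ k : ℝ) = 1 ∨ (κ k : ℝ) = -1) →
    ∃ (m m' b' : ℝ → ℝ) (f : ℝ → Fin l → G) (O : Matrix (Fin l) (Fin l) ℝ),
      HomeCut (F κ) e l hl η M δ m m' b' (tp k.1) (tp k.1 + Lc) ∧
      HomeCut (F κ) e l hl η M δ m m' b' (tm (k.1 + 1) - Lc) (tm (k.1 + 1)) ∧
      OpenCut (F κ) l η M δ m m' b' f (tp k.1 + Lc) (tm (k.1 + 1) - Lc) ∧
      (∀ i, f (tm (k.1 + 1) - Lc) i = e (Fin.castLE hl i)) ∧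
      (∀ i, f (tp k.1 + Lc) i = ∑ j, O i j • e (Fin.castLE hl j)) ∧
      (d k = some l → 0 < σ k * (κ k : ℝ) * O.det)

section Basic

variable {G : Type} [NormedAddCommGroup G] [InnerProductSpace ℝ G] [FiniteDimensional ℝ G]
  {N P : ℕ} {η M δ Lc T0 : ℝ}

theorem isUnit_of_inj {A : G →L[ℝ] G} (h : Function.Injective A) : IsUnit A := by
  set L : G ≃ₗ[ℝ] G := LinearEquiv.ofInjectiveEndo (A : G →ₗ[ℝ] G) h with hL
  set Lc : G ≃L[ℝ] G := L.toContinuousLinearEquiv with hLc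
  refine ⟨⟨A, (Lc.symm : G →L[ℝ] G), ?_, ?_⟩, rfl⟩
  · ext x
    have : A (Lc.symm x) = Lc (Lc.symm x) := rfl
    show A (Lc.symm x) = x
    rw [this, ContinuousLinearEquiv.apply_symm_apply]
  · ext x
    have : A x = Lc x := rfl
    show Lc.symm (A x) = x
    rw [this, ContinuousLinearEquiv.symm_apply_apply]

/-- initial value of the solution with boundary data `u` -/
noncomputable def SegData.ini (S : SegData G N P η M δ Lc T0) (κ : Cube P) :
    (Fin N → ℝ) →ₗ[ℝ] G :=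
  (Ring.inverse ((S.F κ).U (S.tp P)) : G →L[ℝ] G).toLinearMap ∘ₗ
    (Fintype.linearCombination ℝ S.e)

/-- solution at time `t` -/
noncomputable def SegData.J (S : SegData G N P η M δ Lc T0) (κ : Cube P) (t : ℝ) :
    (Fin N → ℝ) →ₗ[ℝ] G :=
  ((S.F κ).U t).toLinearMap ∘ₗ S.ini κ

theorem SegData.J_apply (S : SegData G N P η M δ Lc T0) (κ : Cube P) (t : ℝ) (u : Fin N → ℝ) :
    S.J κ t u = (S.F κ).U t (S.ini κ u) := rfl

variable (S : SegData G N P η M δ Lc T0)

theorem SegData.tm_mono (hL : 0 < Lc) (hT : 0 < T0) : ∀ q, q ≤ P → S.tm 0 ≤ S.tm q := by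
  intro q
  induction q with
  | zero => intro _; exact le_rfl
  | succ q ih =>
    intro hq
    have h1 := ih (by omega)
    have h2 := S.home_len q (by omega)
    have h3 := S.gate_len q (by omega)
    linarith

theorem SegData.t1_lt_tm (hL : 0 < Lc) (hT : 0 < T0) (κ : Cube P) {q : ℕ} (hq : q ≤ P) :
    (S.F κ).t1 < S.tm q := lt_of_lt_of_le (S.t1_lt κ) (S.tm_mono hL hT q hq)

theorem SegData.t1_lt_tp (hL : 0 < Lc) (hT : 0 < T0) (κ : Cube P) {q : ℕ} (hq : q ≤ P) :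
    (S.F κ).t1 < S.tp q := by
  have h1 := S.t1_lt_tm hL hT κ hq
  have h2 := S.home_len q hq
  linarith

theorem SegData.isUnit_U (hL : 0 < Lc) (hT : 0 < T0) (κ : Cube P) :
    IsUnit ((S.F κ).U (S.tp P)) :=
  isUnit_of_inj ((S.F κ).inj _ (S.t1_lt_tp hL hT κ le_rfl))

theorem SegData.J_top (hL : 0 < Lc) (hT : 0 < T0) (κ : Cube P) (u : Fin N → ℝ) :
    S.J κ (S.tp P) u = ∑ j, u j • S.e j := by
  have h1 : (S.F κ).U (S.tp P) * Ring.inverse ((S.F κ).U (S.tp P)) = 1 :=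
    Ring.mul_inverse_cancel _ (S.isUnit_U hL hT κ)
  have h2 := DFunLike.congr_fun h1 (∑ j, u j • S.e j)
  rw [one_apply_eq_self] at h2
  rw [S.J_apply]
  exact h2

theorem SegData.ini_injective (hL : 0 < Lc) (hT : 0 < T0) (κ : Cube P) :
    Function.Injective (S.ini κ) := by
  rw [← LinearMap.ker_eq_bot, LinearMap.ker_eq_bot']
  intro u hu
  have h1 := S.J_top hL hT κ u
  rw [S.J_apply, hu, map_zero] at h1
  have h2 := (Fintype.linearIndependent_iff.1 S.orth.linearIndependent) u h1.symm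
  exact funext h2

theorem SegData.continuous_ini (hL : 0 < Lc) (hT : 0 < T0) (u : Fin N → ℝ) :
    Continuous fun κ => S.ini κ u := by
  haveI : CompleteSpace G := FiniteDimensional.complete ℝ G
  have h1 : Continuous fun κ => Ring.inverse ((S.F κ).U (S.tp P)) := by
    rw [continuous_iff_continuousAt]
    intro κ
    obtain ⟨x, hx⟩ := S.isUnit_U hL hT κ
    have h2 : ContinuousAt Ring.inverse ((S.F κ).U (S.tp P)) := by
      rw [← hx]
      exact NormedRing.inverse_continuousAt x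
    exact ContinuousAt.comp (f := fun κ => (S.F κ).U (S.tp P)) h2
      (S.cont_tp P le_rfl).continuousAt
  exact h1.clm_apply continuous_const

/-- solutions of the sector space lie in the cone of the top cut, provided that cones are
preserved by homes and gates -/
theorem SegData.coneN (hL : 0 < Lc) (hT : 0 < T0)
    (hhome : ∀ q, q ≤ P → ∀ κ x, PCone S.e N 20 ((S.F κ).U (S.tp q) x) →
      PCone S.e N (1 / 20) ((S.F κ).U (S.tm q) x))
    (hgate : ∀ k : Fin P, ∀ κ x, PCone S.e N 1 ((S.F κ).U (S.tm (k.1 + 1)) x) →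
      PCone S.e N 1 ((S.F κ).U (S.tp k.1) x))
    (q : ℕ) (hq : q ≤ P) (κ : Cube P) (u : Fin N → ℝ) : PCone S.e N 1 (S.J κ (S.tp q) u) := by
  induction hn : P - q generalizing q with
  | zero =>
    have hqP : q = P := by omega
    subst hqP
    rw [S.J_top hL hT]
    unfold PCone
    have h1 : pr S.e N (∑ j, u j • S.e j) = ∑ j, u j • S.e j := by
      rw [pr_apply]
      refine Finset.sum_congr rfl fun j _ => ?_
      rw [if_pos j.2, inner_sum, Finset.sum_eq_single j]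
      · rw [real_inner_smul_right, orthonormal_iff_ite.1 S.orth j j]; simp
      · intro i _ hi
        rw [real_inner_smul_right, orthonormal_iff_ite.1 S.orth j i]; simp [Ne.symm hi]
      · intro h; exact absurd (Finset.mem_univ j) h
    rw [h1, sub_self, norm_zero]
    positivity
  | succ n ih =>
    have hqP : q < P := by omega
    have h1 := ih (q + 1) (by omega) (by omega)
    rw [S.J_apply] at h1 ⊢
    have h2 := hhome (q + 1) (by omega) κ (S.ini κ u) (by
      unfold PCone at h1 ⊢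
      exact h1.trans (by linarith [norm_nonneg (pr S.e N ((S.F κ).U (S.tp (q + 1)) (S.ini κ u)))]))
    refine hgate ⟨q, hqP⟩ κ (S.ini κ u) ?_
    unfold PCone at h2 ⊢
    exact h2.trans (by
      have := norm_nonneg (pr S.e N ((S.F κ).U (S.tm (q + 1)) (S.ini κ u)))
      simp only
      linarith)

omit [FiniteDimensional ℝ G] in
theorem PCone.mono {e : Fin N → G} {l : ℕ} {C C' : ℝ} (h : C ≤ C') {u : G}
    (hu : PCone e l C u) : PCone e l C' u := by
  unfold PCone at *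
  exact hu.trans (mul_le_mul_of_nonneg_right h (norm_nonneg _))

omit [FiniteDimensional ℝ G] in
theorem OpenCut.monoM {F : Flow G} {l : ℕ} {η M M' δ : ℝ} {m m' b' : ℝ → ℝ}
    {f : ℝ → Fin l → G} {a c : ℝ} (h : OpenCut F l η M δ m m' b' f a c) (hM : M ≤ M') :
    OpenCut F l η M' δ m m' b' f a c :=
  { h with
    b_le := fun t ht => (h.b_le t ht).trans hM
    m_le := fun t ht => (h.m_le t ht).trans hM }

omit [FiniteDimensional ℝ G] in
theorem HomeCut.monoM {F : Flow G} {e : Fin N → G} {l : ℕ} {hl : l ≤ N}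
    {η M M' δ : ℝ} {m m' b' : ℝ → ℝ} {a c : ℝ} (h : HomeCut F e l hl η M δ m m' b' a c)
    (hM : M ≤ M') : HomeCut F e l hl η M' δ m m' b' a c :=
  { orth := h.orth, opn := h.opn.monoM hM, comm := h.comm }

end Basic

/-- ASSEMBLY OF THE MIXING DATA -/
theorem exists_mixData_ofL (hG1 : GateCone) (hG2 : GateSign) (hH1 : HomeNarrow)
    (hH2 : HomePtoF) (hH3 : HomeFtoP) (hH4 : HomeGrowth) (hH5 : HomeSign)
    (N : ℕ) (η M ε : ℝ) (hη : 0 < η) (hM : 0 < M) (hε : 0 < ε) :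
    ∃ δ > 0, ∃ Lc0 > 0, ∃ T0 > 0, ∃ CΓ > 0, ∀ Lc : ℝ, Lc0 ≤ Lc →
    ∀ (G : Type) [NormedAddCommGroup G] [InnerProductSpace ℝ G] [FiniteDimensional ℝ G] (P : ℕ)
      (S : SegData G N P η M δ Lc T0), ∃ D : MixData G N P,
      D.e = S.e ∧ D.i0 = S.i0 ∧ (D.a = fun l => S.a l + ε) ∧
      (D.T = fun q => S.tp q - S.tm q) ∧ (D.ε = fun _ => Real.log 4) ∧ D.d = S.d ∧
      D.σ = S.σ ∧
      (D.Γ = fun k => CΓ * Real.exp ((M + 2) * (S.tm (k.1 + 1) - S.tp k.1))) ∧
      (∀ q κ u, D.Jm q κ u = S.J κ (S.tm q) u) ∧ (∀ q κ u, D.Jp q κ u = S.J κ (S.tp q) u) := by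
  obtain ⟨δ1, hδ1, h1⟩ := hG1 η M hη hM
  obtain ⟨δ2, hδ2, h2⟩ := hG2 η M hη hM
  obtain ⟨δ3, hδ3, T3, hT3, h3⟩ := hH1 N η M 20 (1 / 20) hη hM (by norm_num) (by norm_num)
  obtain ⟨δ4, hδ4, T4, hT4, h4⟩ := hH2 N η M 1 hη hM one_pos
  obtain ⟨δ5, hδ5, C5, hC5, h5⟩ := hH3 N η M hη hM
  obtain ⟨δ6, hδ6, T6, hT6, h6⟩ := hH1 N η M C5 1 hη hM hC5 one_pos
  obtain ⟨δ7, hδ7, h7⟩ := hH4 N η M 3 ε hη hM (by norm_num) hε
  obtain ⟨δ8, hδ8, h8⟩ := hH4 N η (M + 1) 1 1 hη (by linarith) one_pos one_pos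
  obtain ⟨δ9, hδ9, h9⟩ := hH4 N η (M + 1) C5 1 hη (by linarith) hC5 one_pos
  obtain ⟨δ10, hδ10, h10⟩ := hH5 N η M 1 hη hM one_pos
  obtain ⟨δ11, hδ11, h11⟩ := hH5 N η M C5 hη hM hC5
  obtain ⟨δ12, hδ12, T12, hT12, h12⟩ := hH1 N η M 1 1 hη hM one_pos one_pos
  obtain ⟨δ, hδ, g1, g2, g3, g4, g5, g6, g7, g8, g9, g10, g11, g12⟩ : ∃ δ > 0, δ ≤ δ1 ∧ δ ≤ δ2 ∧
      δ ≤ δ3 ∧ δ ≤ δ4 ∧ δ ≤ δ5 ∧ δ ≤ δ6 ∧ δ ≤ δ7 ∧ δ ≤ δ8 ∧ δ ≤ δ9 ∧ δ ≤ δ10 ∧ δ ≤ δ11 ∧
      δ ≤ δ12 := by
    refine ⟨min δ1 (min δ2 (min δ3 (min δ4 (min δ5 (min δ6 (min δ7 (min δ8 (min δ9 (min δ10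
      (min δ11 δ12)))))))))), ?_, ?_⟩
    · simp only [gt_iff_lt, lt_min_iff]
      exact ⟨hδ1, hδ2, hδ3, hδ4, hδ5, hδ6, hδ7, hδ8, hδ9, hδ10, hδ11, hδ12⟩
    · have := le_refl (min δ1 (min δ2 (min δ3 (min δ4 (min δ5 (min δ6 (min δ7 (min δ8 (min δ9
        (min δ10 (min δ11 δ12)))))))))))
      simpa only [le_min_iff] using this
  refine ⟨δ, hδ, max T4 T6, lt_of_lt_of_le hT4 (le_max_left _ _), T3, hT3, 2 * (1 + C5),
    by positivity, ?_⟩
  intro Lc hLcc
  have hL4 : T4 ≤ Lc := (le_max_left _ _).trans hLcc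
  have hL6 : T6 ≤ Lc := (le_max_right _ _).trans hLcc
  have hLpos : 0 < Lc := lt_of_lt_of_le hT4 hL4
  intro G _ _ _ P S
  -- homes
  have homeC : ∀ q, q ≤ P → ∀ κ l, S.i0 ≤ l → l ≤ N → ∀ x,
      PCone S.e l 20 ((S.F κ).U (S.tp q) x) → PCone S.e l (1 / 20) ((S.F κ).U (S.tm q) x) := by
    intro q hq κ l hi hl x hx
    obtain ⟨m, m', b', hc⟩ := S.home q hq κ l hl hi
    exact (h3 G (S.F κ) S.e l hl m m' b' _ _ (hc.mono g3) x hx).2 (S.home_len q hq)
  have homeG : ∀ q, q ≤ P → ∀ κ l, S.i0 ≤ l → l ≤ N → ∀ x,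
      PCone S.e l 3 ((S.F κ).U (S.tp q) x) →
      ‖(S.F κ).U (S.tp q) x‖ ≤ Real.exp ((S.a l + ε) * (S.tp q - S.tm q) + Real.log 4) *
        ‖(S.F κ).U (S.tm q) x‖ := by
    intro q hq κ l hi hl x hx
    obtain ⟨m, m', b', hc⟩ := S.home q hq κ l hl hi
    obtain ⟨ha0, haM⟩ := S.a_nonneg l hi hl
    have h := h7 G (S.F κ) S.e l hl m m' b' _ _ (S.a l) (hc.mono g7) ha0 haM
      (S.slow q hq κ l hl hi) x hx
    rw [Real.exp_add, Real.exp_log (by norm_num : (0 : ℝ) < 4)]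
    calc _ ≤ _ := h
      _ = _ := by ring
  -- gates: cones at all intermediate times
  have gateF : ∀ (k : Fin P) (κ : Cube P) (l : ℕ) (hl : l ≤ N), S.i0 ≤ l →
      ∀ (m m' b' : ℝ → ℝ) (f : ℝ → Fin l → G),
      HomeCut (S.F κ) S.e l hl η M δ m m' b' (S.tm (k.1 + 1) - Lc) (S.tm (k.1 + 1)) →
      OpenCut (S.F κ) l η M δ m m' b' f (S.tp k.1 + Lc) (S.tm (k.1 + 1) - Lc) →
      ∀ x, PCone S.e l 1 ((S.F κ).U (S.tm (k.1 + 1)) x) →
      ∀ t ∈ Icc (S.tp k.1 + Lc) (S.tm (k.1 + 1) - Lc), FCone (S.F κ) m t ((S.F κ).U t x) := by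
    intro k κ l hl hi m m' b' f hc2 ho x hx t ht
    have e1 : FCone (S.F κ) m (S.tm (k.1 + 1) - Lc) ((S.F κ).U (S.tm (k.1 + 1) - Lc) x) :=
      h4 G (S.F κ) S.e l hl m m' b' _ _ (hc2.mono g4) (by linarith) x hx
    exact h1 G (S.F κ) l m m' b' f t (S.tm (k.1 + 1) - Lc)
      ((ho.restr ht.1 ht.2 le_rfl).mono g1) x e1
  have gateP : ∀ (k : Fin P) (κ : Cube P) (l : ℕ) (hl : l ≤ N), S.i0 ≤ l →
      ∀ (m m' b' : ℝ → ℝ) (f : ℝ → Fin l → G),
      HomeCut (S.F κ) S.e l hl η M δ m m' b' (S.tp k.1) (S.tp k.1 + Lc) →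
      HomeCut (S.F κ) S.e l hl η M δ m m' b' (S.tm (k.1 + 1) - Lc) (S.tm (k.1 + 1)) →
      OpenCut (S.F κ) l η M δ m m' b' f (S.tp k.1 + Lc) (S.tm (k.1 + 1) - Lc) →
      ∀ x, PCone S.e l 1 ((S.F κ).U (S.tm (k.1 + 1)) x) →
      PCone S.e l C5 ((S.F κ).U (S.tp k.1 + Lc) x) := by
    intro k κ l hl hi m m' b' f hc1 hc2 ho x hx
    have e1 := gateF k κ l hl hi m m' b' f hc2 ho x hx (S.tp k.1 + Lc) ⟨le_rfl, ho.le⟩
    exact h5 G (S.F κ) S.e l hl m m' b' _ _ (hc1.mono g5) (S.tp k.1 + Lc)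
      ⟨by linarith, le_rfl⟩ _ e1
  have gateC : ∀ (k : Fin P) (κ : Cube P) (l : ℕ), S.i0 ≤ l → l ≤ N →
      (S.d k ≠ some l ∨ (κ k : ℝ) = 1 ∨ (κ k : ℝ) = -1) → ∀ x,
      PCone S.e l 1 ((S.F κ).U (S.tm (k.1 + 1)) x) → PCone S.e l 1 ((S.F κ).U (S.tp k.1) x) := by
    intro k κ l hi hl hd x hx
    obtain ⟨m, m', b', f, O, hc1, hc2, ho, -, -, -⟩ := S.gate k κ l hl hi hd
    have e2 := gateP k κ l hl hi m m' b' f hc1 hc2 ho x hx
    exact (h6 G (S.F κ) S.e l hl m m' b' _ _ (hc1.mono g6) x e2).2 (by linarith)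
  have hdN : ∀ k : Fin P, S.d k ≠ some N := fun k h => absurd (S.d_lt k N h) (lt_irrefl _)
  have coneN : ∀ q, q ≤ P → ∀ κ u, PCone S.e N 1 (S.J κ (S.tp q) u) :=
    fun q hq κ u => S.coneN hLpos hT3 (fun q hq κ x hx => homeC q hq κ N S.i0_le le_rfl x hx)
      (fun k κ x hx => gateC k κ N S.i0_le le_rfl (Or.inl (hdN k)) x hx) q hq κ u
  have normG : ∀ (k : Fin P) (κ : Cube P) u, ‖S.J κ (S.tm (k.1 + 1)) u‖ ≤
      2 * (1 + C5) * Real.exp ((M + 2) * (S.tm (k.1 + 1) - S.tp k.1)) *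
        ‖S.J κ (S.tp k.1) u‖ := by
    intro k κ u
    set x := S.ini κ u with hx
    have hk : k.1 < P := k.2
    have hN := coneN (k.1 + 1) (by omega) κ u
    rw [S.J_apply, ← hx] at hN
    have hNm : PCone S.e N 1 ((S.F κ).U (S.tm (k.1 + 1)) x) :=
      (homeC (k.1 + 1) (by omega) κ N S.i0_le le_rfl x (hN.mono (by norm_num))).mono (by norm_num)
    obtain ⟨m, m', b', f, O, hc1, hc2, ho, -, -, -⟩ :=
      S.gate k κ N le_rfl S.i0_le (Or.inl (hdN k))
    have hslow : ∀ (α β : ℝ), HomeCut (S.F κ) S.e N le_rfl η M δ m m' b' α β →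
        ∀ t ∈ Icc α β, ∀ x ∈ Submodule.span ℝ
          (range fun i : Fin N => S.e (Fin.castLE le_rfl i)),
        ⟪(S.F κ).K t x, x⟫_ℝ ≤ ((M + 1) ^ 2 + (S.F κ).b t * (M + 1)) * ‖x‖ ^ 2 := by
      intro α β hc t ht y hy
      refine (hc.opn.low t ht y hy).trans (mul_le_mul_of_nonneg_right ?_ (by positivity))
      have b1 := hc.opn.m_le t ht
      have b2 := (S.F κ).b_ge t (lt_of_lt_of_le hc.opn.t1_lt ht.1)
      nlinarith
    -- outer collar
    have A1 := h8 G (S.F κ) S.e N le_rfl m m' b' _ _ (M + 1) ((hc2.monoM (by linarith)).mono g8)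
      (by linarith) le_rfl (hslow _ _ hc2) x hNm
    -- the gate
    have A2 : ‖(S.F κ).U (S.tm (k.1 + 1) - Lc) x‖ ≤
        Real.exp ((M + 1) * (S.tm (k.1 + 1) - Lc - (S.tp k.1 + Lc))) *
          ‖(S.F κ).U (S.tp k.1 + Lc) x‖ := by
      refine (S.F κ).growth ho.t1_lt ho.le x fun t ht => ?_
      have e1 := gateF k κ N le_rfl S.i0_le m m' b' f hc2 ho x hNm t ht
      unfold FCone at e1
      refine e1.trans (mul_le_mul_of_nonneg_right ?_ (by positivity))
      have b2 := (S.F κ).b_ge t (lt_of_lt_of_le ho.t1_lt ht.1)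
      exact freq_le_add_one (by linarith) hM.le (by linarith [ho.m_le t ht])
    -- inner collar
    have A3 := h9 G (S.F κ) S.e N le_rfl m m' b' _ _ (M + 1) ((hc1.monoM (by linarith)).mono g9)
      (by linarith) le_rfl (hslow _ _ hc1) x
      (gateP k κ N le_rfl S.i0_le m m' b' f hc1 hc2 ho x hNm)
    rw [S.J_apply, S.J_apply, ← hx]
    have E1 : (1 + 1 : ℝ) * Real.exp ((M + 1 + 1) * (S.tm (k.1 + 1) - (S.tm (k.1 + 1) - Lc))) *
        (Real.exp ((M + 1) * (S.tm (k.1 + 1) - Lc - (S.tp k.1 + Lc))) *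
        ((1 + C5) * Real.exp ((M + 1 + 1) * (S.tp k.1 + Lc - S.tp k.1)) *
          ‖(S.F κ).U (S.tp k.1) x‖)) ≤
        2 * (1 + C5) * Real.exp ((M + 2) * (S.tm (k.1 + 1) - S.tp k.1)) *
          ‖(S.F κ).U (S.tp k.1) x‖ := by
      have E2 : Real.exp ((M + 1 + 1) * (S.tm (k.1 + 1) - (S.tm (k.1 + 1) - Lc))) *
          Real.exp ((M + 1) * (S.tm (k.1 + 1) - Lc - (S.tp k.1 + Lc))) *
          Real.exp ((M + 1 + 1) * (S.tp k.1 + Lc - S.tp k.1)) ≤
          Real.exp ((M + 2) * (S.tm (k.1 + 1) - S.tp k.1)) := by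
        rw [← Real.exp_add, ← Real.exp_add]
        refine Real.exp_le_exp.2 ?_
        have := S.gate_len k.1 hk
        nlinarith
      have E3 : 0 ≤ 2 * (1 + C5) * ‖(S.F κ).U (S.tp k.1) x‖ := by positivity
      have E4 := mul_le_mul_of_nonneg_left E2 E3
      calc _ = 2 * (1 + C5) * ‖(S.F κ).U (S.tp k.1) x‖ *
          (Real.exp ((M + 1 + 1) * (S.tm (k.1 + 1) - (S.tm (k.1 + 1) - Lc))) *
          Real.exp ((M + 1) * (S.tm (k.1 + 1) - Lc - (S.tp k.1 + Lc))) *
          Real.exp ((M + 1 + 1) * (S.tp k.1 + Lc - S.tp k.1))) := by ring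
        _ ≤ _ := E4
        _ = _ := by ring
    refine A1.trans (le_trans ?_ E1)
    refine mul_le_mul_of_nonneg_left ?_ (by positivity)
    exact A2.trans (mul_le_mul_of_nonneg_left A3 (by positivity))
  -- orientation
  have signG : ∀ (k : Fin P) (l : ℕ), S.d k = some l →
      ∀ (κ : Cube P), ((κ k : ℝ) = 1 ∨ (κ k : ℝ) = -1) →
      ∀ v : Fin N → (Fin N → ℝ), LinearIndependent ℝ v →
      (∀ c : Fin N → ℝ, (∀ j : Fin N, l ≤ j.1 → c j = 0) →
        PCone S.e l 1 (S.J κ (S.tm (k.1 + 1)) (∑ j, c j • v j))) →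
      0 < S.σ k * (κ k : ℝ) * (blk l fun i j => ⟪S.e i, S.J κ (S.tp k.1) (v j)⟫_ℝ).det
        * (blk l fun i j => ⟪S.e i, S.J κ (S.tm (k.1 + 1)) (v j)⟫_ℝ).det := by
    intro k l hd κ hκ v hv hcone
    have hi := S.d_ge k l hd
    have hl : l ≤ N := (S.d_lt k l hd).le
    obtain ⟨m, m', b', f, O, hc1, hc2, ho, hf2, hf1, hO⟩ := S.gate k κ l hl hi (Or.inr hκ)
    set v' : Fin l → G := fun j => S.ini κ (v (Fin.castLE hl j)) with hv'
    have hv'li : LinearIndependent ℝ v' := by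
      have e1 : LinearIndependent ℝ fun j : Fin l => v (Fin.castLE hl j) :=
        hv.comp _ (Fin.castLE_injective hl)
      exact e1.map' (S.ini κ) (LinearMap.ker_eq_bot.2 (S.ini_injective hLpos hT3 κ))
    -- elements of the span
    have hspan : ∀ w ∈ Submodule.span ℝ (range v'),
        PCone S.e l 1 ((S.F κ).U (S.tm (k.1 + 1)) w) := by
      intro w hw
      obtain ⟨c, rfl⟩ := (Submodule.mem_span_range_iff_exists_fun ℝ).1 hw
      set c' : Fin N → ℝ := fun j => if h : j.1 < l then c ⟨j.1, h⟩ else 0 with hc'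
      have e1 := hcone c' fun j hj => by simp [hc', not_lt.2 hj]
      have e2 : ∑ j, c' j • v j = ∑ j : Fin l, c j • v (Fin.castLE hl j) := by
        have hN : l + (N - l) = N := by omega
        rw [← (finSumFinEquiv.trans (finCongr hN)).sum_comp, Fintype.sum_sum_type]
        have e3 : ∑ j : Fin (N - l), c' ((finSumFinEquiv.trans (finCongr hN)) (Sum.inr j)) •
            v ((finSumFinEquiv.trans (finCongr hN)) (Sum.inr j)) = 0 := by
          refine Finset.sum_eq_zero fun j _ => ?_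
          have : c' ((finSumFinEquiv.trans (finCongr hN)) (Sum.inr j)) = 0 := by
            simp [hc']
          rw [this, zero_smul]
        rw [e3, add_zero]
        refine Finset.sum_congr rfl fun j _ => ?_
        have e4 : (finSumFinEquiv.trans (finCongr hN)) (Sum.inl j) = Fin.castLE hl j := by
          ext; simp
        rw [e4]
        simp [hc']
      rw [e2] at e1
      rw [S.J_apply, map_sum] at e1
      simp only [map_smul] at e1
      exact e1
    -- the cones at the other times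
    have c2 : ∀ w ∈ Submodule.span ℝ (range v'), ∀ t ∈ Icc (S.tm (k.1 + 1) - Lc)
        (S.tm (k.1 + 1)), PCone S.e l 1 ((S.F κ).U t w) := fun w hw =>
      (h12 G (S.F κ) S.e l hl m m' b' _ _ (hc2.mono g12) w (hspan w hw)).1
    have c1 : ∀ w ∈ Submodule.span ℝ (range v'), PCone S.e l C5 ((S.F κ).U (S.tp k.1 + Lc) w) :=
      fun w hw => gateP k κ l hl hi m m' b' f hc1 hc2 ho w (hspan w hw)
    have c1' : ∀ w ∈ Submodule.span ℝ (range v'), ∀ t ∈ Icc (S.tp k.1) (S.tp k.1 + Lc),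
        PCone S.e l C5 ((S.F κ).U t w) := fun w hw =>
      (h6 G (S.F κ) S.e l hl m m' b' _ _ (hc1.mono g6) w (c1 w hw)).1
    have cF : ∀ w ∈ Submodule.span ℝ (range v'),
        FCone (S.F κ) m (S.tm (k.1 + 1) - Lc) ((S.F κ).U (S.tm (k.1 + 1) - Lc) w) := fun w hw =>
      gateF k κ l hl hi m m' b' f hc2 ho w (hspan w hw) _ ⟨ho.le, le_rfl⟩
    -- signs
    have s1 := coDet_sign (S.F κ) S.orth hl hv'li hc2.opn.t1_lt hc2.opn.le c2
    have s2 := h10 G (S.F κ) S.e l hl m m' b' _ _ (hc2.mono g10) (S.tm (k.1 + 1) - Lc)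
      ⟨le_rfl, hc2.opn.le⟩ v' hv'li fun w hw => c2 w hw _ ⟨le_rfl, hc2.opn.le⟩
    have s3 := h2 G (S.F κ) l m m' b' f _ _ (ho.mono g2) v' hv'li cF
    have s4 := h11 G (S.F κ) S.e l hl m m' b' _ _ (hc1.mono g11) (S.tp k.1 + Lc)
      ⟨hc1.opn.le, le_rfl⟩ v' hv'li c1
    have s5 := coDet_sign (S.F κ) S.orth hl hv'li hc1.opn.t1_lt hc1.opn.le c1'
    have o1 : orDet (S.F κ) m f v' (S.tm (k.1 + 1) - Lc) =
        orDet (S.F κ) m (fun _ i => S.e (Fin.castLE hl i)) v' (S.tm (k.1 + 1) - Lc) := by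
      have := orDet_change (S.F κ) m f (fun _ i => S.e (Fin.castLE hl i)) v'
        (S.tm (k.1 + 1) - Lc) 1 (fun i => by
          rw [hf2 i, Finset.sum_eq_single i]
          · simp
          · intro j _ hj; rw [Matrix.one_apply_ne (Ne.symm hj), zero_smul]
          · intro h; exact absurd (Finset.mem_univ i) h)
      rw [this, Matrix.det_one, one_mul]
    have o2 := orDet_change (S.F κ) m f (fun _ i => S.e (Fin.castLE hl i)) v'
        (S.tp k.1 + Lc) O hf1
    rw [o1, o2] at s3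
    have d1 : (blk l fun i j => ⟪S.e i, S.J κ (S.tp k.1) (v j)⟫_ℝ).det =
        coDet (S.F κ) S.e hl v' (S.tp k.1) := det_blk hl _
    have d2 : (blk l fun i j => ⟪S.e i, S.J κ (S.tm (k.1 + 1)) (v j)⟫_ℝ).det =
        coDet (S.F κ) S.e hl v' (S.tm (k.1 + 1)) := det_blk hl _
    rw [d1, d2]
    have s6 := hO hd
    change 0 < (-1) ^ l * _ * coDet (S.F κ) S.e hl v' (S.tm (k.1 + 1) - Lc) at s2
    change 0 < (-1) ^ l * _ * coDet (S.F κ) S.e hl v' (S.tp k.1 + Lc) at s4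
    generalize coDet (S.F κ) S.e hl v' (S.tp k.1) = x1 at *
    generalize coDet (S.F κ) S.e hl v' (S.tp k.1 + Lc) = x2 at *
    generalize coDet (S.F κ) S.e hl v' (S.tm (k.1 + 1) - Lc) = x3 at *
    generalize coDet (S.F κ) S.e hl v' (S.tm (k.1 + 1)) = x4 at *
    generalize orDet (S.F κ) m (fun _ i => S.e (Fin.castLE hl i)) v' (S.tp k.1 + Lc) = y2 at *
    generalize orDet (S.F κ) m (fun _ i => S.e (Fin.castLE hl i)) v' (S.tm (k.1 + 1) - Lc) = y3
      at *
    generalize O.det = o at *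
    generalize S.σ k * (κ k : ℝ) = s at *
    -- 0 < x3 * x4, 0 < ± y3 * x3, 0 < o * y2 * y3, 0 < ± y2 * x2, 0 < x1 * x2, 0 < s * o
    have hp : 0 < (s * o) * (x3 * x4) * (((-1) ^ l * y3 * x3) * ((-1) ^ l * y2 * x2)) *
        (o * y2 * y3) * (x1 * x2) := by positivity
    have hsq : ((-1 : ℝ) ^ l) ^ 2 = 1 := by
      rw [← pow_mul, mul_comm, pow_mul]; norm_num
    have he : (s * o) * (x3 * x4) * (((-1) ^ l * y3 * x3) * ((-1) ^ l * y2 * x2)) *
        (o * y2 * y3) * (x1 * x2) = (s * x1 * x4) * (o * x3 * y3 * y2 * x2) ^ 2 * ((-1) ^ l) ^ 2 := by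
      ring
    rw [he, hsq, mul_one] at hp
    by_contra hneg
    push Not at hneg
    have := mul_nonpos_of_nonpos_of_nonneg hneg (sq_nonneg (o * x3 * y3 * y2 * x2))
    linarith
  exact ⟨{
    e := S.e
    i0 := S.i0
    a := fun l => S.a l + ε
    T := fun q => S.tp q - S.tm q
    ε := fun _ => Real.log 4
    d := S.d
    σ := S.σ
    Γ := fun k => 2 * (1 + C5) * Real.exp ((M + 2) * (S.tm (k.1 + 1) - S.tp k.1))
    Jm := fun q κ => S.J κ (S.tm q)
    Jp := fun q κ => S.J κ (S.tp q)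
    orth := S.orth
    i0_pos := S.i0_pos
    i0_le := S.i0_le
    T_pos := fun q hq => by have := S.home_len q hq; linarith
    d_ge := S.d_ge
    d_lt := S.d_lt
    σ_sq := S.σ_sq
    cont_m := fun q hq u => (S.cont_tm q hq).clm_apply (S.continuous_ini hLpos hT3 u)
    cont_p := fun q hq u => (S.cont_tp q hq).clm_apply (S.continuous_ini hLpos hT3 u)
    home_cone := fun q hq κ l hi hl u hu => homeC q hq κ l hi hl (S.ini κ u) hu
    home_growth := fun q hq κ l hi hl u hu => homeG q hq κ l hi hl (S.ini κ u) hu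
    home_mono := fun q hq κ u => (S.F κ).norm_mono (S.t1_lt_tm hLpos hT3 κ hq)
      (by have := S.home_len q hq; linarith) (S.ini κ u)
    top := fun κ u => by
      rw [S.J_top hLpos hT3, sub_self, norm_zero]
      have : 0 ≤ ∑ j, u j ^ 2 := Finset.sum_nonneg fun j _ => sq_nonneg _
      simpa using this
    gate := fun k κ l hi hl hd u hu => by
      have h0 := gateC k κ l hi hl hd (S.ini κ u) (by
        unfold PCone; rw [one_mul]; exact hu)
      unfold PCone at h0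
      rw [one_mul] at h0
      exact h0
    sign := fun k l hd κ hκ v hv hcone => signG k l hd κ hκ v hv fun c hc => by
      unfold PCone; rw [one_mul]; exact hcone c hc
    norm_gate := fun k κ u => normG k κ u }, rfl, rfl, rfl, rfl, rfl, rfl, rfl, rfl,
    fun q κ u => rfl, fun q κ u => rfl⟩


end Crest.Agent.R202.Seg
end

-- ▼ part R202/BFinSeg

set_option autoImplicit false

open Set
open scoped InnerProductSpace

namespace Crest.Agent.R202.BFin

open Crest.Agent.R202.Mix (pr Cube MixData pr_apply inner_pr)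
open Crest.Agent.R202.Seg
open Crest.Agent.R202.Sch (hs he Th Tg sf)

/-- Finite-dimensional loop system of one sector: `S j τ κ` = (scaled) compression of the form of
loop `j` at `(τ, κ)`, `H` = the home operator, `e` = its lowest eigenvectors. -/
structure LoopSys (G : Type) [NormedAddCommGroup G] [InnerProductSpace ℝ G] (ι : Type)
    (N i0 : ℕ) (η Cμ Mμ : ℝ) (Λ : ℕ → ℝ) where
  S : ι → ℝ → ℝ → G →L[ℝ] G
  H : G →L[ℝ] G
  e : Fin N → G
  lam : Fin N → ℝ
  des : ι → Option ℕ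
  sgn : ι → ℝ
  orth : Orthonormal ℝ e
  H_symm : ∀ x y, ⟪H x, y⟫_ℝ = ⟪x, H y⟫_ℝ
  H_e : ∀ i, H (e i) = lam i • e i
  S_nonneg : ∀ j τ, ∀ κ ∈ Icc (-1 : ℝ) 1, ∀ x, 0 ≤ ⟪S j τ κ x, x⟫_ℝ
  H_nonneg : ∀ x, 0 ≤ ⟪H x, x⟫_ℝ
  S_left : ∀ j τ κ, τ ≤ 0 → S j τ κ = H
  S_right : ∀ j τ κ, 1 ≤ τ → S j τ κ = H
  slow : ∀ l (hl : l ≤ N), i0 ≤ l →
    ∀ x ∈ Submodule.span ℝ (range fun i : Fin l => e (Fin.castLE hl i)),
      ⟪H x, x⟫_ℝ ≤ Λ l * ‖x‖ ^ 2
  des_ge : ∀ j l, des j = some l → i0 ≤ l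
  des_lt : ∀ j l, des j = some l → l < N
  sgn_sq : ∀ j, sgn j = 1 ∨ sgn j = -1
  home_gap : ∀ l (hl : l ≤ N), i0 ≤ l → ∃ μ : ℝ, μ + η ≤ Mμ ∧
    (∀ x ∈ Submodule.span ℝ (range fun i : Fin l => e (Fin.castLE hl i)),
      ⟪H x, x⟫_ℝ ≤ (μ - η) * ‖x‖ ^ 2) ∧
    (∀ x, (∀ i : Fin l, ⟪e (Fin.castLE hl i), x⟫_ℝ = 0) → (μ + η) * ‖x‖ ^ 2 ≤ ⟪H x, x⟫_ℝ)
  opn : ∀ j, ∀ κ ∈ Icc (-1 : ℝ) 1, ∀ l (hl : l ≤ N), i0 ≤ l →
    (des j ≠ some l ∨ κ = 1 ∨ κ = -1) →
    ∃ (μ μ' : ℝ → ℝ) (f : ℝ → Fin l → G) (O : Matrix (Fin l) (Fin l) ℝ),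
      (∀ τ, HasDerivAt μ (μ' τ) τ) ∧ (∀ τ, |μ' τ| ≤ Cμ) ∧ (∀ τ, μ τ + η ≤ Mμ) ∧
      Continuous f ∧ (∀ τ, LinearIndependent ℝ (f τ)) ∧
      (∀ τ, ∀ x ∈ Submodule.span ℝ (range (f τ)), ⟪S j τ κ x, x⟫_ℝ ≤ (μ τ - η) * ‖x‖ ^ 2) ∧
      (∀ τ x, (∀ i, ⟪f τ i, x⟫_ℝ = 0) → (μ τ + η) * ‖x‖ ^ 2 ≤ ⟪S j τ κ x, x⟫_ℝ) ∧
      (∀ τ, 1 ≤ τ → ∀ i, f τ i = e (Fin.castLE hl i)) ∧
      (∀ τ, τ ≤ 0 → ∀ i, f τ i = ∑ k, O i k • e (Fin.castLE hl k)) ∧
      (des j = some l → 0 < sgn j * κ * O.det)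

variable {G : Type} [NormedAddCommGroup G] [InnerProductSpace ℝ G] {ι : Type}
  {N i0 : ℕ} {η Cμ Mμ : ℝ} {Λ : ℕ → ℝ}

theorem LoopSys.H_pr (LS : LoopSys G ι N i0 η Cμ Mμ Λ) (l : ℕ) (x : G) :
    LS.H (pr LS.e l x) = pr LS.e l (LS.H x) := by
  rw [pr_apply, pr_apply, map_sum]
  refine Finset.sum_congr rfl fun j _ => ?_
  split_ifs with h
  · rw [map_smul, LS.H_e, ← LS.H_symm, LS.H_e, real_inner_smul_left, smul_smul, mul_comm]
  · rw [map_zero]

theorem li_castLE {e : Fin N → G} (he : Orthonormal ℝ e) {l : ℕ} (hl : l ≤ N) :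
    LinearIndependent ℝ fun i : Fin l => e (Fin.castLE hl i) :=
  he.linearIndependent.comp _ (Fin.castLE_injective hl)

/-- frames inside the span of `e` span the same space -/
theorem span_eq_of_frame {e : Fin N → G} (he : Orthonormal ℝ e) {l : ℕ} (hl : l ≤ N)
    {f : Fin l → G} (hf : LinearIndependent ℝ f) {O : Matrix (Fin l) (Fin l) ℝ}
    (h : ∀ i, f i = ∑ k, O i k • e (Fin.castLE hl k)) :
    Submodule.span ℝ (range fun i : Fin l => e (Fin.castLE hl i)) =
      Submodule.span ℝ (range f) := by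
  have h1 : Submodule.span ℝ (range f) ≤
      Submodule.span ℝ (range fun i : Fin l => e (Fin.castLE hl i)) := by
    rw [Submodule.span_le]
    rintro _ ⟨i, rfl⟩
    rw [h i]
    exact Submodule.sum_mem _ fun k _ => Submodule.smul_mem _ _ (Submodule.subset_span ⟨k, rfl⟩)
  have h2 : Module.finrank ℝ (Submodule.span ℝ (range f)) = l := by
    rw [finrank_span_eq_card hf, Fintype.card_fin]
  have h3 : Module.finrank ℝ (Submodule.span ℝ (range fun i : Fin l => e (Fin.castLE hl i))) = l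
      := by
    rw [finrank_span_eq_card (li_castLE he hl), Fintype.card_fin]
  have : FiniteDimensional ℝ (Submodule.span ℝ (range fun i : Fin l => e (Fin.castLE hl i))) :=
    FiniteDimensional.span_of_finite ℝ (finite_range _)
  exact (Submodule.eq_of_le_of_finrank_eq h1 (by rw [h2, h3])).symm

/-- the radial flows of one sector over the cube of parameters -/
structure FlowFam (LS : LoopSys G ι N i0 η Cμ Mμ Λ) (mm : ℕ) (sI A δ : ℝ) (P : ℕ) (jq : ℕ → ι)
    where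
  F : Cube P → Flow G
  K_gate : ∀ κ (k : Fin P) t, hs A k.1 ≤ t → t ≤ he A (k.1 + 1) →
    (F κ).K t = Real.exp (2 * sf sI t) • LS.S (jq k.1) ((t - he A k.1) / Tg A k.1) (κ k)
  K_home : ∀ κ q, q ≤ P → ∀ t, hs A q ≤ t → t ≤ he A q →
    (F κ).K t = Real.exp (2 * sf sI t) • LS.H
  b_eq : ∀ κ t, (F κ).b t = (mm + 1 : ℝ) - (mm + 2) * deriv (sf sI) t
  t1_lt : ∀ κ, (F κ).t1 < hs A 0
  ρ_le : ∀ κ t, hs A 0 ≤ t → (F κ).ρ t ≤ δ
  cont : ∀ t, hs A 0 ≤ t → Continuous fun κ => (F κ).U t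

/-- mid-level as a function of time -/
noncomputable def mfun (sI : ℝ) (μ : ℝ → ℝ) (c T t : ℝ) : ℝ :=
  Real.exp (2 * sf sI t) * μ ((t - c) / T)

/-- derivative of the mid-level -/
noncomputable def mfun' (sI : ℝ) (μ μ' : ℝ → ℝ) (c T t : ℝ) : ℝ :=
  Real.exp (2 * sf sI t) * (2 * deriv (sf sI) t) * μ ((t - c) / T) +
    Real.exp (2 * sf sI t) * (μ' ((t - c) / T) * (1 / T))

theorem hasDerivAt_mfun {sI : ℝ} {μ μ' : ℝ → ℝ} (hμ : ∀ τ, HasDerivAt μ (μ' τ) τ) (c T t : ℝ) :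
    HasDerivAt (mfun sI μ c T) (mfun' sI μ μ' c T t) t := by
  have h1 : HasDerivAt (fun r => 2 * sf sI r) (2 * deriv (sf sI) t) t := by
    have h0 : HasDerivAt (sf sI) (deriv (sf sI) t) t :=
      ((Sch.sf_contDiff sI).differentiable (by simp) t).hasDerivAt
    exact h0.const_mul 2
  have h2 : HasDerivAt (fun r : ℝ => (r - c) / T) (1 / T) t :=
    ((hasDerivAt_id t).sub_const c).div_const T
  have h3 : HasDerivAt (fun r : ℝ => μ ((r - c) / T)) (μ' ((t - c) / T) * (1 / T)) t :=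
    (hμ ((t - c) / T)).comp t h2
  exact h1.exp.mul h3

theorem exp_bounds {sI : ℝ} (hsI : 0 < sI) (t : ℝ) :
    1 ≤ Real.exp (2 * sf sI t) ∧ Real.exp (2 * sf sI t) ≤ Real.exp (2 * sI) := by
  refine ⟨Real.one_le_exp (by linarith [Sch.sf_nonneg hsI t]), Real.exp_le_exp.2 ?_⟩
  linarith [Sch.sf_lt hsI t]

theorem mfun'_le {sI : ℝ} (hsI : 0 < sI) {μ μ' : ℝ → ℝ} {c T t c0 : ℝ} (hT : 0 < T)
    (hμ0 : 0 ≤ μ ((t - c) / T)) (hμM : μ ((t - c) / T) ≤ Mμ) (hC : |μ' ((t - c) / T)| ≤ Cμ)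
    (hs0 : deriv (sf sI) t ≤ c0) :
    |mfun' sI μ μ' c T t| ≤ Real.exp (2 * sI) * (2 * c0 * Mμ + Cμ * (1 / T)) := by
  obtain ⟨e1, e2⟩ := exp_bounds hsI t
  have e0 : 0 < Real.exp (2 * sf sI t) := Real.exp_pos _
  have hd := Sch.deriv_sf_nonneg hsI t
  have hT' : 0 < 1 / T := by positivity
  have h1 : |mfun' sI μ μ' c T t| ≤ Real.exp (2 * sf sI t) *
      (2 * c0 * Mμ + Cμ * (1 / T)) := by
    unfold mfun'
    have h2 : Real.exp (2 * sf sI t) * (2 * deriv (sf sI) t) * μ ((t - c) / T) +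
        Real.exp (2 * sf sI t) * (μ' ((t - c) / T) * (1 / T)) = Real.exp (2 * sf sI t) *
        (2 * deriv (sf sI) t * μ ((t - c) / T) + μ' ((t - c) / T) * (1 / T)) := by ring
    rw [h2, abs_mul, abs_of_pos e0]
    refine mul_le_mul_of_nonneg_left ?_ e0.le
    refine (abs_add_le _ _).trans (add_le_add ?_ ?_)
    · rw [abs_of_nonneg (by positivity)]
      refine mul_le_mul (by linarith) hμM hμ0 (by linarith)
    · rw [abs_mul, abs_of_pos hT']
      exact mul_le_mul_of_nonneg_right hC hT'.le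
  refine h1.trans (mul_le_mul_of_nonneg_right e2 ?_)
  have hM : 0 ≤ Mμ := hμ0.trans hμM
  have hCn : 0 ≤ Cμ := (abs_nonneg _).trans hC
  have hc0 : 0 ≤ c0 := hd.trans hs0
  positivity

/-- construction of an open cut from a loop -/
theorem openCut_of {sI : ℝ} (hsI : 0 < sI) (Fl : Flow G) {l : ℕ} (hl1 : 1 ≤ l) {M δ c0 A : ℝ}
    {mm : ℕ} (hη : 0 < η) {μ μ' : ℝ → ℝ} {f : ℝ → Fin l → G} {S : ℝ → G →L[ℝ] G} {c T α β : ℝ}
    (hT : 0 < T) (hTA : 1 / T ≤ 1 / A)
    (ht1 : Fl.t1 < α) (hαβ : α ≤ β)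
    (hK : ∀ t ∈ Icc α β, Fl.K t = Real.exp (2 * sf sI t) • S ((t - c) / T))
    (hb : ∀ t, Fl.b t = (mm + 1 : ℝ) - (mm + 2) * deriv (sf sI) t)
    (hρ : ∀ t ∈ Icc α β, Fl.ρ t ≤ δ)
    (hs0 : ∀ t ∈ Icc α β, deriv (sf sI) t ≤ c0)
    (hs1 : ∀ t ∈ Icc α β, |deriv (deriv (sf sI)) t| ≤ c0)
    (hδ1 : Real.exp (2 * sI) * (2 * c0 * Mμ + Cμ * (1 / A)) ≤ δ) (hδ2 : (mm + 2) * c0 ≤ δ)
    (hM1 : (mm + 1 : ℝ) ≤ M) (hM2 : Real.exp (2 * sI) * Mμ ≤ M) (hCμ : 0 ≤ Cμ)
    (hμd : ∀ τ, HasDerivAt μ (μ' τ) τ) (hμC : ∀ τ, |μ' τ| ≤ Cμ) (hμM : ∀ τ, μ τ + η ≤ Mμ)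
    (hf : Continuous f) (hli : ∀ τ, LinearIndependent ℝ (f τ))
    (hS0 : ∀ τ x, 0 ≤ ⟪S τ x, x⟫_ℝ)
    (hlow : ∀ τ, ∀ x ∈ Submodule.span ℝ (range (f τ)), ⟪S τ x, x⟫_ℝ ≤ (μ τ - η) * ‖x‖ ^ 2)
    (hhigh : ∀ τ x, (∀ i, ⟪f τ i, x⟫_ℝ = 0) → (μ τ + η) * ‖x‖ ^ 2 ≤ ⟪S τ x, x⟫_ℝ) :
    OpenCut Fl l η M δ (mfun sI μ c T) (mfun' sI μ μ' c T)
      (fun t => -((mm + 2) * deriv (deriv (sf sI)) t)) (fun t => f ((t - c) / T)) α β := by
  have hμη : ∀ τ, η ≤ μ τ := by
    intro τ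
    have h0 := hli τ
    have h1 : f τ ⟨0, hl1⟩ ≠ 0 := h0.ne_zero _
    have h2 := hlow τ (f τ ⟨0, hl1⟩) (Submodule.subset_span ⟨_, rfl⟩)
    have h3 := (hS0 τ (f τ ⟨0, hl1⟩)).trans h2
    have h4 : 0 < ‖f τ ⟨0, hl1⟩‖ ^ 2 := by positivity
    by_contra hneg
    push Not at hneg
    have := mul_neg_of_neg_of_pos (show μ τ - η < 0 by linarith) h4
    linarith
  exact
  { t1_lt := ht1
    le := hαβ
    li := fun t _ => hli _
    cont := (hf.comp (by fun_prop : Continuous fun t : ℝ => (t - c) / T)).continuousOn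
    low := by
      intro t ht x hx
      obtain ⟨e1, e2⟩ := exp_bounds hsI t
      have h1 := hlow _ x hx
      rw [hK t ht, smul_apply, real_inner_smul_left]
      have h2 := mul_le_mul_of_nonneg_left h1 (Real.exp_pos (2 * sf sI t)).le
      refine h2.trans ?_
      rw [← mul_assoc]
      refine mul_le_mul_of_nonneg_right ?_ (by positivity)
      unfold mfun
      nlinarith
    high := by
      intro t ht x hx
      obtain ⟨e1, e2⟩ := exp_bounds hsI t
      have h1 := hhigh _ x hx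
      rw [hK t ht, smul_apply, real_inner_smul_left]
      have h2 := mul_le_mul_of_nonneg_left h1 (Real.exp_pos (2 * sf sI t)).le
      refine le_trans ?_ h2
      rw [← mul_assoc]
      refine mul_le_mul_of_nonneg_right ?_ (by positivity)
      unfold mfun
      nlinarith
    m_deriv := fun t _ => hasDerivAt_mfun hμd c T t
    m'_le := by
      intro t ht
      have h1 := hμη ((t - c) / T)
      have h2 := hμM ((t - c) / T)
      refine (mfun'_le (Cμ := Cμ) (Mμ := Mμ) hsI hT (by linarith) (by linarith) (hμC _)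
        (hs0 t ht)).trans (le_trans ?_ hδ1)
      refine mul_le_mul_of_nonneg_left ?_ (Real.exp_pos _).le
      have := mul_le_mul_of_nonneg_left hTA hCμ
      linarith
    b_deriv := by
      intro t _
      have h0 : HasDerivAt (deriv (sf sI)) (deriv (deriv (sf sI)) t) t := by
        have h1 : ContDiff ℝ 1 (deriv (sf sI)) := by
          have h2 : ContDiff ℝ (1 + 1) (sf sI) := by
            rw [one_add_one_eq_two]
            exact contDiff_infty.1 (Sch.sf_contDiff sI) 2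
          exact (contDiff_succ_iff_deriv.1 h2).2.2
        exact (h1.differentiable one_ne_zero t).hasDerivAt
      have h3 : Fl.b = fun t => (mm + 1 : ℝ) - (mm + 2) * deriv (sf sI) t := funext hb
      rw [h3]
      have h4 := (h0.const_mul ((mm : ℝ) + 2)).const_sub (mm + 1 : ℝ)
      exact h4
    b'_le := by
      intro t ht
      rw [abs_neg, abs_mul, abs_of_nonneg (by positivity : (0 : ℝ) ≤ (mm : ℝ) + 2)]
      exact (mul_le_mul_of_nonneg_left (hs1 t ht) (by positivity)).trans hδ2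
    b_le := by
      intro t _
      rw [hb]
      have := Sch.deriv_sf_nonneg hsI t
      have h2 : 0 ≤ ((mm : ℝ) + 2) * deriv (sf sI) t := by positivity
      linarith
    m_ge := by
      intro t _
      obtain ⟨e1, e2⟩ := exp_bounds hsI t
      have h1 := hμη ((t - c) / T)
      unfold mfun
      nlinarith
    m_le := by
      intro t _
      obtain ⟨e1, e2⟩ := exp_bounds hsI t
      have h1 := hμη ((t - c) / T)
      have h2 := hμM ((t - c) / T)
      unfold mfun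
      have h3 : Real.exp (2 * sf sI t) * μ ((t - c) / T) + η ≤
          Real.exp (2 * sf sI t) * (μ ((t - c) / T) + η) := by nlinarith
      have h4 : Real.exp (2 * sf sI t) * (μ ((t - c) / T) + η) ≤ Real.exp (2 * sI) * Mμ :=
        mul_le_mul e2 h2 (by linarith) (Real.exp_pos _).le
      linarith
    ρ_le := hρ }

/-- open cut with the frame `e` on an interval on which the loop is at home -/
theorem homeCut_of {sI : ℝ} (hsI : 0 < sI) (LS : LoopSys G ι N i0 η Cμ Mμ Λ) (Fl : Flow G)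
    {l : ℕ} (hl1 : 1 ≤ l) (hl : l ≤ N) {M δ c0 A : ℝ}
    {mm : ℕ} (hη : 0 < η) {μ μ' : ℝ → ℝ} {c T α β : ℝ}
    (hT : 0 < T) (hTA : 1 / T ≤ 1 / A)
    (ht1 : Fl.t1 < α) (hαβ : α ≤ β)
    (hK : ∀ t ∈ Icc α β, Fl.K t = Real.exp (2 * sf sI t) • LS.H)
    (hb : ∀ t, Fl.b t = (mm + 1 : ℝ) - (mm + 2) * deriv (sf sI) t)
    (hρ : ∀ t ∈ Icc α β, Fl.ρ t ≤ δ)
    (hs0 : ∀ t ∈ Icc α β, deriv (sf sI) t ≤ c0)
    (hs1 : ∀ t ∈ Icc α β, |deriv (deriv (sf sI)) t| ≤ c0)
    (hδ1 : Real.exp (2 * sI) * (2 * c0 * Mμ + Cμ * (1 / A)) ≤ δ) (hδ2 : (mm + 2) * c0 ≤ δ)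
    (hM1 : (mm + 1 : ℝ) ≤ M) (hM2 : Real.exp (2 * sI) * Mμ ≤ M) (hCμ : 0 ≤ Cμ)
    (hμd : ∀ τ, HasDerivAt μ (μ' τ) τ) (hμC : ∀ τ, |μ' τ| ≤ Cμ) (hμM : ∀ τ, μ τ + η ≤ Mμ)
    (hlow : ∀ t ∈ Icc α β, ∀ x ∈ Submodule.span ℝ (range fun i : Fin l =>
      LS.e (Fin.castLE hl i)), ⟪LS.H x, x⟫_ℝ ≤ (μ ((t - c) / T) - η) * ‖x‖ ^ 2)
    (hhigh : ∀ t ∈ Icc α β, ∀ x, (∀ i : Fin l, ⟪LS.e (Fin.castLE hl i), x⟫_ℝ = 0) →
      (μ ((t - c) / T) + η) * ‖x‖ ^ 2 ≤ ⟪LS.H x, x⟫_ℝ) :
    HomeCut Fl LS.e l hl η M δ (mfun sI μ c T) (mfun' sI μ μ' c T)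
      (fun t => -((mm + 2) * deriv (deriv (sf sI)) t)) α β := by
  have hμη : ∀ t ∈ Icc α β, η ≤ μ ((t - c) / T) := by
    intro t ht
    have h1 : LS.e (Fin.castLE hl ⟨0, hl1⟩) ≠ 0 := LS.orth.ne_zero _
    have h2 := hlow t ht (LS.e (Fin.castLE hl ⟨0, hl1⟩)) (Submodule.subset_span ⟨_, rfl⟩)
    have h3 := (LS.H_nonneg (LS.e (Fin.castLE hl ⟨0, hl1⟩))).trans h2
    have h4 : 0 < ‖LS.e (Fin.castLE hl ⟨0, hl1⟩)‖ ^ 2 := by positivity
    by_contra hneg
    push Not at hneg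
    have := mul_neg_of_neg_of_pos (show μ ((t - c) / T) - η < 0 by linarith) h4
    linarith
  refine
  { orth := LS.orth
    opn :=
    { t1_lt := ht1
      le := hαβ
      li := fun t _ => li_castLE LS.orth hl
      cont := continuousOn_const
      low := by
        intro t ht x hx
        obtain ⟨e1, e2⟩ := exp_bounds hsI t
        have h1 := hlow t ht x hx
        rw [hK t ht, smul_apply, real_inner_smul_left]
        have h2 := mul_le_mul_of_nonneg_left h1 (Real.exp_pos (2 * sf sI t)).le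
        refine h2.trans ?_
        rw [← mul_assoc]
        refine mul_le_mul_of_nonneg_right ?_ (by positivity)
        unfold mfun
        nlinarith
      high := by
        intro t ht x hx
        obtain ⟨e1, e2⟩ := exp_bounds hsI t
        have h1 := hhigh t ht x hx
        rw [hK t ht, smul_apply, real_inner_smul_left]
        have h2 := mul_le_mul_of_nonneg_left h1 (Real.exp_pos (2 * sf sI t)).le
        refine le_trans ?_ h2
        rw [← mul_assoc]
        refine mul_le_mul_of_nonneg_right ?_ (by positivity)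
        unfold mfun
        nlinarith
      m_deriv := fun t _ => hasDerivAt_mfun hμd c T t
      m'_le := by
        intro t ht
        have h1 := hμη t ht
        have h2 := hμM ((t - c) / T)
        refine (mfun'_le (Cμ := Cμ) (Mμ := Mμ) hsI hT (by linarith) (by linarith) (hμC _)
          (hs0 t ht)).trans (le_trans ?_ hδ1)
        refine mul_le_mul_of_nonneg_left ?_ (Real.exp_pos _).le
        have := mul_le_mul_of_nonneg_left hTA hCμ
        linarith
      b_deriv := by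
        intro t _
        have h0 : HasDerivAt (deriv (sf sI)) (deriv (deriv (sf sI)) t) t := by
          have h1 : ContDiff ℝ 1 (deriv (sf sI)) := by
            have h2 : ContDiff ℝ (1 + 1) (sf sI) := by
              rw [one_add_one_eq_two]
              exact contDiff_infty.1 (Sch.sf_contDiff sI) 2
            exact (contDiff_succ_iff_deriv.1 h2).2.2
          exact (h1.differentiable one_ne_zero t).hasDerivAt
        have h3 : Fl.b = fun t => (mm + 1 : ℝ) - (mm + 2) * deriv (sf sI) t := funext hb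
        rw [h3]
        have h4 := (h0.const_mul ((mm : ℝ) + 2)).const_sub (mm + 1 : ℝ)
        exact h4
      b'_le := by
        intro t ht
        rw [abs_neg, abs_mul, abs_of_nonneg (by positivity : (0 : ℝ) ≤ (mm : ℝ) + 2)]
        exact (mul_le_mul_of_nonneg_left (hs1 t ht) (by positivity)).trans hδ2
      b_le := by
        intro t _
        rw [hb]
        have := Sch.deriv_sf_nonneg hsI t
        have h2 : 0 ≤ ((mm : ℝ) + 2) * deriv (sf sI) t := by positivity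
        linarith
      m_ge := by
        intro t ht
        obtain ⟨e1, e2⟩ := exp_bounds hsI t
        have h1 := hμη t ht
        unfold mfun
        nlinarith
      m_le := by
        intro t ht
        obtain ⟨e1, e2⟩ := exp_bounds hsI t
        have h1 := hμη t ht
        have h2 := hμM ((t - c) / T)
        unfold mfun
        have h3 : Real.exp (2 * sf sI t) * μ ((t - c) / T) + η ≤
            Real.exp (2 * sf sI t) * (μ ((t - c) / T) + η) := by nlinarith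
        have h4 : Real.exp (2 * sf sI t) * (μ ((t - c) / T) + η) ≤ Real.exp (2 * sI) * Mμ :=
          mul_le_mul e2 h2 (by linarith) (Real.exp_pos _).le
        linarith
      ρ_le := hρ }
    comm := by
      intro t ht x
      rw [hK t ht, smul_apply, smul_apply, LS.H_pr, map_smul] }

/-- the segment data of one sector -/
noncomputable def segData {sI : ℝ} (hsI : 0 < sI) (mm : ℕ) (LS : LoopSys G ι N i0 η Cμ Mμ Λ)
    {A δ M ε c0 Lc T0 : ℝ} {P : ℕ} {jq : ℕ → ι} (FF : FlowFam LS mm sI A δ P jq)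
    (a : ℕ → ℝ) (hi0 : 1 ≤ i0) (hiN : i0 ≤ N) (hη : 0 < η) (hCμ : 0 ≤ Cμ) (hA : 0 < A)
    (hLc : 0 < Lc) (hT0 : 0 < T0) (hLA : 2 * Lc + T0 ≤ A)
    (ha : ∀ l, i0 ≤ l → l ≤ N → 0 ≤ a l ∧ a l + ε ≤ M ∧
      Real.exp (2 * sI) * Λ l ≤ a l ^ 2 + (mm + 1) * a l)
    (hε : 0 < ε) (hc0 : 0 ≤ c0)
    (hs0 : ∀ t, A ≤ t → deriv (sf sI) t ≤ c0)
    (hs1 : ∀ t, A ≤ t → |deriv (deriv (sf sI)) t| ≤ c0)
    (hδ1 : Real.exp (2 * sI) * (2 * c0 * Mμ + Cμ * (1 / A)) ≤ δ) (hδ2 : (mm + 2) * c0 ≤ δ)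
    (hM1 : (mm + 1 : ℝ) ≤ M) (hM2 : Real.exp (2 * sI) * Mμ ≤ M)
    (hc1 : (mm + 2) * c0 * (2 * M + 1) ≤ ε / 2) : SegData G N P η M δ Lc T0 := by
  have h2A : ∀ q, 2 * A ≤ hs A q := Sch.two_mul_le_hs hA
  have hTh : ∀ q, A ≤ Th A q := by
    intro q
    unfold Th
    have : (1 : ℝ) ≤ ((q : ℝ) + 1) ^ 4 := one_le_pow₀ (by linarith [Nat.cast_nonneg (α := ℝ) q])
    nlinarith
  have hTg : ∀ q, A ≤ Tg A q := by
    intro q
    unfold Tg
    have : (1 : ℝ) ≤ ((q : ℝ) + 1) ^ 3 := one_le_pow₀ (by linarith [Nat.cast_nonneg (α := ℝ) q])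
    nlinarith
  have hTgi : ∀ q, 1 / Tg A q ≤ 1 / A := fun q => one_div_le_one_div_of_le hA (hTg q)
  have hhe : ∀ q, he A q = hs A q + Th A q := fun q => rfl
  have hhs : ∀ q, hs A (q + 1) = he A q + Tg A q := fun q => rfl
  have ht1 : ∀ κ t, hs A 0 ≤ t → (FF.F κ).t1 < t := fun κ t ht => lt_of_lt_of_le (FF.t1_lt κ) ht
  have hmono : ∀ q, hs A 0 ≤ hs A q := fun q => (Sch.hs_strictMono hA).monotone (Nat.zero_le q)
  exact
  { F := FF.F
    e := LS.e
    i0 := i0
    a := fun l => a l + ε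
    tm := fun q => hs A q + Lc
    tp := fun q => he A q - Lc
    d := fun k => LS.des (jq k.1)
    σ := fun k => LS.sgn (jq k.1)
    orth := LS.orth
    i0_pos := hi0
    i0_le := hiN
    d_ge := fun k l h => LS.des_ge _ l h
    d_lt := fun k l h => LS.des_lt _ l h
    σ_sq := fun k => LS.sgn_sq _
    cont_tm := fun q _ => FF.cont _ (by linarith [hmono q])
    cont_tp := fun q _ => FF.cont _ (by
      have := hTh q
      have := hhe q
      linarith [hmono q])
    t1_lt := fun κ => ht1 κ _ (by linarith)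
    a_nonneg := fun l h1 h2 => ⟨by linarith [(ha l h1 h2).1], (ha l h1 h2).2.1⟩
    home_len := fun q _ => by
      have := hTh q
      have := hhe q
      linarith
    gate_len := fun q _ => by
      have := hTg q
      have := hhs q
      linarith
    home := by
      intro q hq κ l hl hi
      obtain ⟨μ, hμM, hlow, hhigh⟩ := LS.home_gap l hl hi
      refine ⟨_, _, _, homeCut_of (c0 := c0) (A := A) (μ := fun _ => μ) (μ' := fun _ => 0)
        (c := 0) (T := A) hsI LS (FF.F κ) (by omega) hl hη hA le_rfl (ht1 κ _ (by linarith [hmono q])) ?_ ?_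
        (FF.b_eq κ) ?_ ?_ ?_ hδ1 hδ2 hM1 hM2 hCμ (fun τ => hasDerivAt_const τ μ) ?_
        (fun _ => hμM) ?_ ?_⟩
      · have := hTh q
        have := hhe q
        linarith
      · intro t ht
        exact FF.K_home κ q hq t (by linarith [ht.1]) (by linarith [ht.2])
      · intro t ht
        exact FF.ρ_le κ t (by linarith [ht.1, hmono q])
      · intro t ht
        exact hs0 t (by linarith [ht.1, h2A q])
      · intro t ht
        exact hs1 t (by linarith [ht.1, h2A q])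
      · intro τ; simpa using hCμ
      · intro t _ x hx
        exact hlow x hx
      · intro t _ x hx
        exact hhigh x hx
    slow := by
      intro q hq κ l hl hi t ht x hx
      obtain ⟨ha0, haM, haΛ⟩ := ha l hi hl
      have hK := FF.K_home κ q hq t (by linarith [ht.1]) (by linarith [ht.2])
      have hH := LS.slow l hl hi x hx
      obtain ⟨e1, e2⟩ := exp_bounds hsI t
      have hd0 := Sch.deriv_sf_nonneg hsI t
      have hd1 := hs0 t (by linarith [ht.1, h2A q])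
      rw [hK, smul_apply, real_inner_smul_left, FF.b_eq]
      rcases eq_or_lt_of_le (sq_nonneg ‖x‖) with hx0 | hx0
      · rw [← hx0, mul_zero]
        have hx1 : x = 0 := by
          have : ‖x‖ = 0 := by
            have := hx0.symm
            exact pow_eq_zero_iff (two_ne_zero) |>.1 this
          exact norm_eq_zero.1 this
        rw [hx1]; simp
      · have hΛ : 0 ≤ Λ l := by
          have h0 := (LS.H_nonneg x).trans hH
          by_contra hneg
          push Not at hneg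
          have := mul_neg_of_neg_of_pos hneg hx0
          linarith
        have h1 : Real.exp (2 * sf sI t) * ⟪LS.H x, x⟫_ℝ ≤
            Real.exp (2 * sI) * Λ l * ‖x‖ ^ 2 := by
          calc Real.exp (2 * sf sI t) * ⟪LS.H x, x⟫_ℝ ≤
              Real.exp (2 * sf sI t) * (Λ l * ‖x‖ ^ 2) :=
                mul_le_mul_of_nonneg_left hH (Real.exp_pos _).le
            _ ≤ Real.exp (2 * sI) * (Λ l * ‖x‖ ^ 2) :=
                mul_le_mul_of_nonneg_right e2 (by positivity)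
            _ = _ := by ring
        refine h1.trans (mul_le_mul_of_nonneg_right (haΛ.trans ?_) hx0.le)
        -- a² + (mm+1) a ≤ (a+ε)² + ((mm+1) - (mm+2) s') (a+ε)
        have h2 : ((mm : ℝ) + 2) * deriv (sf sI) t * (a l + ε) ≤ ε / 2 := by
          have h3 : ((mm : ℝ) + 2) * deriv (sf sI) t ≤ (mm + 2) * c0 :=
            mul_le_mul_of_nonneg_left hd1 (by positivity)
          have h4 : ((mm : ℝ) + 2) * deriv (sf sI) t * (a l + ε) ≤ (mm + 2) * c0 * (2 * M + 1) :=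
            mul_le_mul h3 (by linarith) (by linarith) (by positivity)
          linarith
        have h5 : (0 : ℝ) ≤ mm := Nat.cast_nonneg mm
        nlinarith
    gate := by
      intro k κ l hl hi hd
      have hl1 : 1 ≤ l := by omega
      have hkP : k.1 < P := k.2
      have hTgp : 0 < Tg A k.1 := Sch.Tg_pos hA k.1
      obtain ⟨μ, μ', f, O, hμd, hμC, hμM, hf, hli, hlow, hhigh, hf1, hf0, hO⟩ :=
        LS.opn (jq k.1) (κ k) (κ k).2 l hl hi hd
      have hle1 := hTh k.1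
      have hle2 := hTh (k.1 + 1)
      have hle3 := hhe k.1
      have hle4 := hhs k.1
      have hle5 := hhe (k.1 + 1)
      have hle6 := hTg k.1
      have hle7 := hmono k.1
      have hle8 := h2A k.1
      -- the spans
      have hspan0 : ∀ τ, τ ≤ 0 → Submodule.span ℝ (range fun i : Fin l =>
          LS.e (Fin.castLE hl i)) = Submodule.span ℝ (range (f τ)) := fun τ hτ =>
        span_eq_of_frame LS.orth hl (hli τ) (hf0 τ hτ)
      have hspan1 : ∀ τ, 1 ≤ τ → Submodule.span ℝ (range fun i : Fin l =>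
          LS.e (Fin.castLE hl i)) = Submodule.span ℝ (range (f τ)) := fun τ hτ => by
        have : (fun i : Fin l => LS.e (Fin.castLE hl i)) = f τ := funext fun i => (hf1 τ hτ i).symm
        rw [this]
      refine ⟨mfun sI μ (he A k.1) (Tg A k.1), mfun' sI μ μ' (he A k.1) (Tg A k.1), _,
        fun t => f ((t - he A k.1) / Tg A k.1), O,
        homeCut_of (c0 := c0) (A := A) hsI LS (FF.F κ) hl1 hl hη hTgp (hTgi k.1)
          (ht1 κ _ (by linarith)) (by linarith) ?_ (FF.b_eq κ) ?_ ?_ ?_ hδ1 hδ2 hM1 hM2 hCμ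
          hμd hμC hμM ?_ ?_,
        homeCut_of (c0 := c0) (A := A) hsI LS (FF.F κ) hl1 hl hη hTgp (hTgi k.1)
          (ht1 κ _ (by linarith)) (by linarith) ?_ (FF.b_eq κ) ?_ ?_ ?_ hδ1 hδ2 hM1 hM2 hCμ
          hμd hμC hμM ?_ ?_,
        openCut_of (S := fun τ => LS.S (jq k.1) τ (κ k)) (c0 := c0) (A := A) hsI (FF.F κ) hl1 hη
          hTgp (hTgi k.1) (ht1 κ _ (by linarith)) (by linarith) ?_ (FF.b_eq κ) ?_ ?_ ?_ hδ1 hδ2
          hM1 hM2 hCμ hμd hμC hμM hf hli (fun τ x => LS.S_nonneg _ τ _ (κ k).2 x) hlow hhigh,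
        ?_, ?_, ?_⟩
      · intro t ht
        exact FF.K_home κ k.1 (by omega) t (by linarith [ht.1]) (by linarith [ht.2])
      · intro t ht
        exact FF.ρ_le κ t (by linarith [ht.1])
      · intro t ht
        exact hs0 t (by linarith [ht.1])
      · intro t ht
        exact hs1 t (by linarith [ht.1])
      · intro t ht x hx
        have hτ : (t - he A k.1) / Tg A k.1 ≤ 0 :=
          div_nonpos_of_nonpos_of_nonneg (by linarith [ht.2]) hTgp.le
        rw [hspan0 _ hτ] at hx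
        have := hlow _ x hx
        rw [LS.S_left _ _ _ hτ] at this
        exact this
      · intro t ht x hx
        have hτ : (t - he A k.1) / Tg A k.1 ≤ 0 :=
          div_nonpos_of_nonpos_of_nonneg (by linarith [ht.2]) hTgp.le
        have := hhigh ((t - he A k.1) / Tg A k.1) x fun i => by
          rw [hf0 _ hτ i, sum_inner]
          refine Finset.sum_eq_zero fun j _ => ?_
          rw [real_inner_smul_left, hx j, mul_zero]
        rw [LS.S_left _ _ _ hτ] at this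
        exact this
      · intro t ht
        exact FF.K_home κ (k.1 + 1) (by omega) t (by linarith [ht.1]) (by linarith [ht.2])
      · intro t ht
        exact FF.ρ_le κ t (by linarith [ht.1])
      · intro t ht
        exact hs0 t (by linarith [ht.1])
      · intro t ht
        exact hs1 t (by linarith [ht.1])
      · intro t ht x hx
        have hτ : 1 ≤ (t - he A k.1) / Tg A k.1 := by
          rw [one_le_div hTgp]; linarith [ht.1]
        rw [hspan1 _ hτ] at hx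
        have := hlow _ x hx
        rw [LS.S_right _ _ _ hτ] at this
        exact this
      · intro t ht x hx
        have hτ : 1 ≤ (t - he A k.1) / Tg A k.1 := by
          rw [one_le_div hTgp]; linarith [ht.1]
        have := hhigh ((t - he A k.1) / Tg A k.1) x fun i => by
          rw [hf1 _ hτ i]; exact hx i
        rw [LS.S_right _ _ _ hτ] at this
        exact this
      · intro t ht
        exact FF.K_gate κ k t (by linarith [ht.1]) (by linarith [ht.2])
      · intro t ht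
        exact FF.ρ_le κ t (by linarith [ht.1])
      · intro t ht
        exact hs0 t (by linarith [ht.1])
      · intro t ht
        exact hs1 t (by linarith [ht.1])
      · intro i
        refine hf1 _ ?_ i
        rw [one_le_div hTgp]; linarith
      · intro i
        refine hf0 _ ?_ i
        exact div_nonpos_of_nonpos_of_nonneg (by linarith) hTgp.le
      · exact hO }

/-- FINITE-DIMENSIONAL EXPORT: loop system + schedule + radial flows ⇒ mixing data.
All constants are independent of `G`, `P`, the loop system and the flows. -/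
theorem exists_mixData_of_loopsL (hG1 : GateCone) (hG2 : GateSign) (hH1 : HomeNarrow)
    (hH2 : HomePtoF) (hH3 : HomeFtoP) (hH4 : HomeGrowth) (hH5 : HomeSign)
    (mm : ℕ) {sI : ℝ} (hsI : 0 < sI) {N i0 : ℕ} (hi0 : 1 ≤ i0) (hiN : i0 ≤ N)
    {η Cμ Mμ ε : ℝ} {Λ a : ℕ → ℝ} (hη : 0 < η) (hCμ : 0 ≤ Cμ) (hε : 0 < ε)
    (ha : ∀ l, i0 ≤ l → l ≤ N → 0 ≤ a l ∧ Real.exp (2 * sI) * Λ l ≤ a l ^ 2 + (mm + 1) * a l) :
    ∃ δ > 0, ∃ Lc0 > 0, ∃ CΓ > 0, ∃ M > 0, ∀ Lc : ℝ, Lc0 ≤ Lc →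
      ∃ A0 : ℝ, 1 ≤ A0 ∧ ∀ A : ℝ, A0 ≤ A →
      2 * Lc + 1 ≤ A ∧
      ∀ (G : Type) [NormedAddCommGroup G] [InnerProductSpace ℝ G] [FiniteDimensional ℝ G]
        (ι : Type) (LS : LoopSys G ι N i0 η Cμ Mμ Λ) (P : ℕ) (jq : ℕ → ι)
        (FF : FlowFam LS mm sI A δ P jq), ∃ D : MixData G N P,
        D.e = LS.e ∧ D.i0 = i0 ∧ (D.a = fun l => a l + ε) ∧
        (D.T = fun q => Th A q - 2 * Lc) ∧ (D.ε = fun _ => Real.log 4) ∧
        (D.d = fun k => LS.des (jq k.1)) ∧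
        (D.Γ = fun k => CΓ * Real.exp (M * (Tg A k.1 + 2 * Lc))) ∧
        (∀ q κ u, D.Jm q κ u = (FF.F κ).U (hs A q + Lc)
          (Ring.inverse ((FF.F κ).U (he A P - Lc)) (∑ j, u j • LS.e j))) ∧
        (∀ q κ u, D.Jp q κ u = (FF.F κ).U (he A q - Lc)
          (Ring.inverse ((FF.F κ).U (he A P - Lc)) (∑ j, u j • LS.e j))) := by
  -- the size bound
  obtain ⟨Ma, hMa⟩ : ∃ Ma : ℝ, ∀ l, i0 ≤ l → l ≤ N → a l ≤ Ma := by
    refine ⟨∑ l ∈ Finset.range (N + 1), |a l|, fun l _ hl => ?_⟩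
    exact (le_abs_self _).trans (Finset.single_le_sum (f := fun l => |a l|)
      (fun i _ => abs_nonneg _) (Finset.mem_range.2 (by omega)))
  set M : ℝ := (mm + 1 : ℝ) + Real.exp (2 * sI) * |Mμ| + |Ma| + ε with hM
  have hexp : 0 < Real.exp (2 * sI) := Real.exp_pos _
  have h0 : (0 : ℝ) ≤ mm := Nat.cast_nonneg mm
  have hmul : 0 ≤ Real.exp (2 * sI) * |Mμ| := by positivity
  have hMpos : 0 < M := by rw [hM]; positivity
  obtain ⟨δ, hδ, Lc0, hLc0, T0, hT0, CΓ, hCΓ, hmainL⟩ :=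
    exists_mixData_ofL hG1 hG2 hH1 hH2 hH3 hH4 hH5 N η M (ε / 2) hη hMpos (half_pos hε)
  refine ⟨δ, hδ, Lc0, hLc0, CΓ, hCΓ, M + 2, by linarith, fun Lc hLcc => ?_⟩
  have hLc : 0 < Lc := lt_of_lt_of_le hLc0 hLcc
  have hmain := hmainL Lc hLcc
  -- the slope bound
  obtain ⟨c0, hc0, hc0a, hc0b, hc0c, hc0d⟩ : ∃ c0 : ℝ, 0 < c0 ∧ c0 ≤ 1 ∧
      (mm + 2) * c0 ≤ δ ∧ Real.exp (2 * sI) * (2 * c0 * Mμ) ≤ δ / 2 ∧
      (mm + 2) * c0 * (2 * M + 1) ≤ ε / 2 / 2 := by
    refine ⟨min 1 (min (δ / (mm + 2)) (min (δ / (4 * Real.exp (2 * sI) * (|Mμ| + 1)))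
      (ε / (4 * (mm + 2) * (2 * M + 1))))), ?_, min_le_left _ _, ?_, ?_, ?_⟩
    · simp only [lt_min_iff]
      refine ⟨one_pos, by positivity, by positivity, by positivity⟩
    · have h1 : min 1 (min (δ / (mm + 2)) (min (δ / (4 * Real.exp (2 * sI) * (|Mμ| + 1)))
        (ε / (4 * (mm + 2) * (2 * M + 1))))) ≤ δ / (mm + 2) :=
        (min_le_right _ _).trans (min_le_left _ _)
      have h2 := mul_le_mul_of_nonneg_left h1 (by positivity : (0 : ℝ) ≤ (mm : ℝ) + 2)
      refine h2.trans (le_of_eq ?_)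
      field_simp
    · have h1 : min 1 (min (δ / (mm + 2)) (min (δ / (4 * Real.exp (2 * sI) * (|Mμ| + 1)))
        (ε / (4 * (mm + 2) * (2 * M + 1))))) ≤ δ / (4 * Real.exp (2 * sI) * (|Mμ| + 1)) :=
        (min_le_right _ _).trans ((min_le_right _ _).trans (min_le_left _ _))
      set c1 := min 1 (min (δ / (mm + 2)) (min (δ / (4 * Real.exp (2 * sI) * (|Mμ| + 1)))
        (ε / (4 * (mm + 2) * (2 * M + 1))))) with hc1
      have h3 : 0 ≤ c1 := by
        rw [hc1]
        simp only [le_min_iff]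
        refine ⟨zero_le_one, by positivity, by positivity, by positivity⟩
      calc Real.exp (2 * sI) * (2 * c1 * Mμ) ≤ Real.exp (2 * sI) * (2 * c1 * (|Mμ| + 1)) := by
            refine mul_le_mul_of_nonneg_left (mul_le_mul_of_nonneg_left ?_ (by positivity)) hexp.le
            linarith [le_abs_self Mμ]
        _ ≤ Real.exp (2 * sI) * (2 * (δ / (4 * Real.exp (2 * sI) * (|Mμ| + 1))) *
            (|Mμ| + 1)) := by gcongr
        _ = δ / 2 := by field_simp; ring
    · have h1 : min 1 (min (δ / (mm + 2)) (min (δ / (4 * Real.exp (2 * sI) * (|Mμ| + 1)))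
        (ε / (4 * (mm + 2) * (2 * M + 1))))) ≤ ε / (4 * (mm + 2) * (2 * M + 1)) :=
        (min_le_right _ _).trans ((min_le_right _ _).trans (min_le_right _ _))
      calc (mm + 2) * _ * (2 * M + 1) ≤ (mm + 2) * (ε / (4 * (mm + 2) * (2 * M + 1))) *
            (2 * M + 1) := by gcongr
        _ = ε / 2 / 2 := by field_simp; ring
  obtain ⟨A1, hA1, hsch⟩ := Sch.exists_A hsI hc0 0 one_pos
  obtain ⟨A0, hA01, hA02, hA03, hA04, hA05⟩ : ∃ A0 : ℝ, 1 ≤ A0 ∧ A1 ≤ A0 ∧ 2 * Lc + T0 ≤ A0 ∧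
      2 * Lc + 1 ≤ A0 ∧ ∀ A, A0 ≤ A → Real.exp (2 * sI) * (Cμ * (1 / A)) ≤ δ / 2 := by
    refine ⟨max 1 (max A1 (max (2 * Lc + T0) (max (2 * Lc + 1)
      (2 * Real.exp (2 * sI) * Cμ / δ)))), le_max_left _ _, ?_, ?_, ?_, ?_⟩
    · exact (le_max_left _ _).trans (le_max_right _ _)
    · exact (le_max_left _ _).trans ((le_max_right _ _).trans (le_max_right _ _))
    · exact (le_max_left _ _).trans ((le_max_right _ _).trans ((le_max_right _ _).trans
        (le_max_right _ _)))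
    · intro A hA
      have h1 : 1 ≤ A := (le_max_left _ _).trans hA
      have h2 : 2 * Real.exp (2 * sI) * Cμ / δ ≤ A :=
        ((le_max_right _ _).trans ((le_max_right _ _).trans ((le_max_right _ _).trans
        (le_max_right _ _)))).trans hA
      have h3 : 0 < A := by linarith
      rw [div_le_iff₀ hδ] at h2
      have h4 : Real.exp (2 * sI) * (Cμ * (1 / A)) = (2 * Real.exp (2 * sI) * Cμ) / (2 * A) := by
        field_simp
      rw [h4, div_le_iff₀ (by positivity)]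
      nlinarith
  refine ⟨A0, hA01, fun A hA => ⟨by linarith, ?_⟩⟩
  intro G _ _ _ ι LS P jq FF
  have hApos : 0 < A := by linarith
  obtain ⟨hsA, -, -⟩ := hsch A (hA02.trans hA)
  have hs0 : ∀ t, A ≤ t → deriv (sf sI) t ≤ c0 := fun t ht => (hsA t ht).2.1
  have hs1 : ∀ t, A ≤ t → |deriv (deriv (sf sI)) t| ≤ c0 := fun t ht => by
    have h1 := (hsA t ht).2.2
    have h2 := (hsA t ht).2.1
    have h3 := Sch.deriv_sf_nonneg hsI t
    nlinarith
  have hA5 := hA05 A hA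
  obtain ⟨D, h1, h2, h3, h4, h5, h6, h7, h8, h9, h10⟩ := hmain G P
    (segData hsI mm LS FF (c0 := c0) (ε := ε / 2) (M := M) (T0 := T0) a hi0 hiN hη hCμ hApos hLc
      hT0 (by linarith)
      (fun l hl1 hl2 => ⟨(ha l hl1 hl2).1, by
        have := hMa l hl1 hl2
        have h7 := le_abs_self Ma
        rw [hM]
        linarith, (ha l hl1 hl2).2⟩)
      (half_pos hε) hc0.le hs0 hs1 (by rw [mul_add]; linarith) hc0b
      (by rw [hM]; have := abs_nonneg Ma; linarith)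
      (by
        rw [hM]
        have h8 := mul_le_mul_of_nonneg_left (le_abs_self Mμ) hexp.le
        have := abs_nonneg Ma
        linarith) hc0d)
  refine ⟨D, h1, h2, ?_, ?_, h5, h6, ?_, h9, h10⟩
  · rw [h3]
    funext l
    show a l + ε / 2 + ε / 2 = a l + ε
    ring
  · rw [h4]
    funext q
    show he A q - Lc - (hs A q + Lc) = Th A q - 2 * Lc
    rw [Sch.he_eq]; ring
  · rw [h8]
    funext k
    show CΓ * Real.exp ((M + 2) * (hs A (k.1 + 1) + Lc - (he A k.1 - Lc))) =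
      CΓ * Real.exp ((M + 2) * (Tg A k.1 + 2 * Lc))
    rw [Sch.hs_succ]
    congr 2
    ring


end Crest.Agent.R202.BFin
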