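import Mathlib
import Crest.Prelude.Def_CoordMetric
import Crest.Agent.R202.SphPoly

/-! # Row 202, module H (helper862): polynomials as functions on `ℝ^D`; harmonic polynomials of
different degrees are independent on the unit sphere (maximum principle). -/

set_option autoImplicit false

open MvPolynomial Crest.GeometryTopology
open scoped ContDiff

namespace Crest.Agent.R202.Sph

/-- a polynomial as a function on `ℝ^D` -/
noncomputable def ev {D : ℕ} (p : MvPolynomial (Fin D) ℝ) (z : EuclideanSpace ℝ (Fin D)) : ℝ :=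
  MvPolynomial.eval (fun i => z i) p

variable {D : ℕ}

@[simp] theorem ev_add (p q : MvPolynomial (Fin D) ℝ) (z) : ev (p + q) z = ev p z + ev q z := by
  simp [ev]

@[simp] theorem ev_mul (p q : MvPolynomial (Fin D) ℝ) (z) : ev (p * q) z = ev p z * ev q z := by
  simp [ev]

@[simp] theorem ev_C (c : ℝ) (z : EuclideanSpace ℝ (Fin D)) : ev (C c) z = c := by
  simp [ev]

@[simp] theorem ev_X (i : Fin D) (z : EuclideanSpace ℝ (Fin D)) : ev (X i) z = z i := by
  simp [ev]

@[simp] theorem ev_one (z : EuclideanSpace ℝ (Fin D)) :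
    ev (1 : MvPolynomial (Fin D) ℝ) z = 1 := by
  simp [ev]

@[simp] theorem ev_zero (z : EuclideanSpace ℝ (Fin D)) :
    ev (0 : MvPolynomial (Fin D) ℝ) z = 0 := by
  simp [ev]

theorem ev_sum {ι : Type*} (s : Finset ι) (f : ι → MvPolynomial (Fin D) ℝ) (z) :
    ev (∑ i ∈ s, f i) z = ∑ i ∈ s, ev (f i) z := by
  simp [ev]

theorem ev_smul (c : ℝ) (p : MvPolynomial (Fin D) ℝ) (z) : ev (c • p) z = c * ev p z := by
  simp [ev]

theorem contDiff_ev (p : MvPolynomial (Fin D) ℝ) {n : WithTop ℕ∞} : ContDiff ℝ n (ev p) := by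
  induction p using MvPolynomial.induction_on with
  | C a =>
    have : ev (C a : MvPolynomial (Fin D) ℝ) = fun _ => a := by funext z; simp
    rw [this]; exact contDiff_const
  | add p q hp hq =>
    have : ev (p + q) = fun z => ev p z + ev q z := by funext z; simp
    rw [this]; exact hp.add hq
  | mul_X p i hp =>
    have : ev (p * X i) = fun z => ev p z * z i := by funext z; simp
    rw [this]
    exact hp.mul (contDiff_piLp_apply (i := i) (p := 2))

theorem differentiable_ev (p : MvPolynomial (Fin D) ℝ) : Differentiable ℝ (ev p) :=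
  (contDiff_ev p (n := 1)).differentiable (by norm_num)

/-- partial derivatives of polynomials -/
theorem pderiv_ev (p : MvPolynomial (Fin D) ℝ) (i : Fin D) (z : EuclideanSpace ℝ (Fin D)) :
    CoordMetric.pderiv i (ev p) z = ev (MvPolynomial.pderiv i p) z := by
  unfold CoordMetric.pderiv
  induction p using MvPolynomial.induction_on with
  | C a =>
    have : ev (C a : MvPolynomial (Fin D) ℝ) = fun _ => a := by funext z; simp
    rw [this]
    simp
  | add p q hp hq =>
    have : ev (p + q) = fun z => ev p z + ev q z := by funext z; simp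
    rw [this, fderiv_fun_add (differentiable_ev p z) (differentiable_ev q z)]
    simp [hp, hq]
  | mul_X p j hp =>
    have : ev (p * X j) = fun z => ev p z * z j := by funext z; simp
    rw [this]
    have hd : DifferentiableAt ℝ (fun z : EuclideanSpace ℝ (Fin D) => z j) z := by fun_prop
    rw [fderiv_fun_mul (differentiable_ev p z) hd]
    have hproj : fderiv ℝ (fun z : EuclideanSpace ℝ (Fin D) => z j) z
        = EuclideanSpace.proj j := by
      have := (EuclideanSpace.proj (𝕜 := ℝ) j : EuclideanSpace ℝ (Fin D) →L[ℝ] ℝ).hasFDerivAt (x := z)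
      exact this.fderiv
    rw [hproj]
    simp only [_root_.add_apply, _root_.smul_apply, smul_eq_mul, hp,
      Derivation.leibniz, ev_add, ev_mul, ev_X]
    rw [MvPolynomial.pderiv_X]
    by_cases h : j = i
    · subst h; simp
    · simp [h]



/-- homogeneity -/
theorem ev_smul_arg {q : ℕ} {p : MvPolynomial (Fin D) ℝ} (hp : p.IsHomogeneous q) (c : ℝ)
    (z : EuclideanSpace ℝ (Fin D)) : ev p (c • z) = c ^ q * ev p z := by
  unfold ev
  rw [MvPolynomial.eval_eq, MvPolynomial.eval_eq, Finset.mul_sum]
  refine Finset.sum_congr rfl fun m hm => ?_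
  have hdeg : ∑ i ∈ m.support, m i = q := by
    have := hp (mem_support_iff.1 hm)
    simpa [Finsupp.weight_apply, Finsupp.sum] using this
  have h1 : ∏ i ∈ m.support, (c • z).ofLp i ^ m i = c ^ q * ∏ i ∈ m.support, z.ofLp i ^ m i := by
    rw [← hdeg, ← Finset.prod_pow_eq_pow_sum, ← Finset.prod_mul_distrib]
    refine Finset.prod_congr rfl fun i _ => ?_
    simp [mul_pow]
  rw [h1]; ring









end Crest.Agent.R202.Sph
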