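import Mathlib
import Crest.Agent.R202.SphEval
import Crest.Agent.R202.SphPoly

-- ▼ part R202/SecGauss
section

/-! # Row 202, module K2 (helper862): integrals of harmonic polynomials over the unit sphere -/

set_option autoImplicit false

open MvPolynomial MeasureTheory MeasureTheory.Measure Set Metric
open Crest.GeometryTopology

namespace Crest.Agent.R202.Sph

theorem integral_volumeIoiPow (n : ℕ) (h : ℝ → ℝ) :
    ∫ r : Ioi (0 : ℝ), h r ∂(volumeIoiPow n) = ∫ r in Ioi (0 : ℝ), r ^ n * h r := by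
  simp only [Measure.volumeIoiPow, ENNReal.ofReal]
  rw [integral_withDensity_eq_integral_smul,
    integral_subtype_comap measurableSet_Ioi fun a ↦ Real.toNNReal (a ^ n) • h a,
    setIntegral_congr_fun measurableSet_Ioi fun x hx ↦ ?_]
  · rw [NNReal.smul_def, Real.coe_toNNReal _ (pow_nonneg hx.out.le _), smul_eq_mul]
  · exact (measurable_subtype_coe.pow_const _).real_toNNReal

/-- polar coordinates -/
theorem integral_polar {D : ℕ} [NeZero D] (g : EuclideanSpace ℝ (Fin D) → ℝ) :
    ∫ x, g x = ∫ p : sphere (0 : EuclideanSpace ℝ (Fin D)) 1 × Ioi (0 : ℝ), g (p.2.1 • p.1.1)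
      ∂((volume : Measure (EuclideanSpace ℝ (Fin D))).toSphere.prod (volumeIoiPow (D - 1))) := by
  have hmp := (volume : Measure (EuclideanSpace ℝ (Fin D))).measurePreserving_homeomorphUnitSphereProd
  rw [finrank_euclideanSpace_fin] at hmp
  calc ∫ x, g x = ∫ x : ({(0)}ᶜ : Set (EuclideanSpace ℝ (Fin D))), g x.1 ∂(volume.comap
          ((↑) : ({(0)}ᶜ : Set (EuclideanSpace ℝ (Fin D))) → EuclideanSpace ℝ (Fin D))) := by
        rw [integral_subtype_comap (measurableSet_singleton _).compl fun x ↦ g x,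
          restrict_compl_singleton]
    _ = _ := by
        rw [← hmp.integral_comp (Homeomorph.measurableEmbedding _)]
        refine integral_congr_ae (Filter.Eventually.of_forall fun x => ?_)
        dsimp only
        congr 1
        have hx : ‖x.1‖ ≠ 0 := norm_ne_zero_iff.2 x.2
        simp [homeomorphUnitSphereProd, smul_smul, hx]

/-- integral of a homogeneous function times a radial function -/
theorem integral_homog {D : ℕ} [NeZero D] (k : ℕ) (f : EuclideanSpace ℝ (Fin D) → ℝ)
    (hf : ∀ (r : ℝ) (x), 0 < r → f (r • x) = r ^ k * f x) (F : ℝ → ℝ) :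
    ∫ x, f x * F ‖x‖ = (∫ ω : sphere (0 : EuclideanSpace ℝ (Fin D)) 1, f ω ∂(volume.toSphere))
      * ∫ r in Ioi (0 : ℝ), r ^ (D - 1) * (r ^ k * F r) := by
  rw [integral_polar, ← integral_volumeIoiPow (D - 1) (fun r => r ^ k * F r), ← integral_prod_mul]
  refine integral_congr_ae (Filter.Eventually.of_forall fun p => ?_)
  dsimp only
  have hr : 0 < p.2.1 := p.2.2
  have hn : ‖p.2.1 • p.1.1‖ = p.2.1 := by
    rw [norm_smul, Real.norm_eq_abs, abs_of_pos hr]
    have : ‖p.1.1‖ = 1 := by simp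
    rw [this, mul_one]
  rw [hf _ _ hr, hn]; ring

variable {D : ℕ}

theorem integrable_gauss (b : ℝ) (hb : 0 < b) :
    Integrable (fun y : EuclideanSpace ℝ (Fin D) => Real.exp (-b * ‖y‖ ^ 2)) := by
  by_contra h
  have h1 := integral_undef h
  have h2 := GaussianFourier.integral_rexp_neg_mul_sq_norm (V := EuclideanSpace ℝ (Fin D)) hb
  rw [h1] at h2
  have : 0 < (Real.pi / b) ^ (Module.finrank ℝ (EuclideanSpace ℝ (Fin D)) / 2 : ℝ) := by
    have := Real.pi_pos
    positivity
  linarith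

theorem abs_ev_le (p : MvPolynomial (Fin D) ℝ) :
    ∃ (C : ℝ) (N : ℕ), 0 ≤ C ∧ ∀ y : EuclideanSpace ℝ (Fin D), |ev p y| ≤ C * (1 + ‖y‖) ^ N := by
  induction p using MvPolynomial.induction_on with
  | C a => exact ⟨|a|, 0, abs_nonneg a, fun y => by simp⟩
  | add p q hp hq =>
    obtain ⟨C1, N1, h1, hp⟩ := hp
    obtain ⟨C2, N2, h2, hq⟩ := hq
    refine ⟨C1 + C2, N1 + N2, by positivity, fun y => ?_⟩
    have hy : 1 ≤ 1 + ‖y‖ := by have := norm_nonneg y; linarith
    rw [ev_add]
    have e1 : (1 + ‖y‖) ^ N1 ≤ (1 + ‖y‖) ^ (N1 + N2) := pow_le_pow_right₀ hy (by omega)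
    have e2 : (1 + ‖y‖) ^ N2 ≤ (1 + ‖y‖) ^ (N1 + N2) := pow_le_pow_right₀ hy (by omega)
    calc |ev p y + ev q y| ≤ |ev p y| + |ev q y| := abs_add_le _ _
      _ ≤ C1 * (1 + ‖y‖) ^ N1 + C2 * (1 + ‖y‖) ^ N2 := add_le_add (hp y) (hq y)
      _ ≤ C1 * (1 + ‖y‖) ^ (N1 + N2) + C2 * (1 + ‖y‖) ^ (N1 + N2) :=
        add_le_add (mul_le_mul_of_nonneg_left e1 h1) (mul_le_mul_of_nonneg_left e2 h2)
      _ = _ := by ring
  | mul_X p i hp =>
    obtain ⟨C1, N1, h1, hp⟩ := hp
    refine ⟨C1, N1 + 1, h1, fun y => ?_⟩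
    rw [ev_mul, ev_X, abs_mul, pow_succ, ← mul_assoc]
    have hyi : |y i| ≤ 1 + ‖y‖ := by
      have := EuclideanSpace.norm_eq y
      have h2 : ‖y i‖ ≤ ‖y‖ := PiLp.norm_apply_le y i
      rw [Real.norm_eq_abs] at h2
      linarith
    exact mul_le_mul (hp y) hyi (abs_nonneg _) (by have := norm_nonneg y; positivity)

theorem integrable_ev_gauss (p : MvPolynomial (Fin D) ℝ) :
    Integrable (fun y : EuclideanSpace ℝ (Fin D) => ev p y * Real.exp (-(1 / 2) * ‖y‖ ^ 2)) := by
  obtain ⟨C, N, hC, hp⟩ := abs_ev_le p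
  have hg := (integrable_gauss (D := D) (1 / 4) (by norm_num)).const_mul
    (C * ((N.factorial : ℝ) * Real.exp 2))
  refine Integrable.mono' hg ?_ (Filter.Eventually.of_forall fun y => ?_)
  · refine ((contDiff_ev p (n := 0)).continuous.mul ?_).aestronglyMeasurable
    fun_prop
  · rw [Real.norm_eq_abs, abs_mul, abs_of_pos (Real.exp_pos _)]
    have hy := norm_nonneg y
    have h1 : (1 + ‖y‖) ^ N ≤ (N.factorial : ℝ) * Real.exp (1 + ‖y‖) := by
      have := Real.pow_div_factorial_le_exp (x := 1 + ‖y‖) (by positivity) N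
      rw [div_le_iff₀ (by positivity)] at this
      linarith
    have h2 : Real.exp (1 + ‖y‖) ≤ Real.exp 2 * Real.exp ((1 / 4) * ‖y‖ ^ 2) := by
      rw [← Real.exp_add]
      apply Real.exp_le_exp.2
      nlinarith [sq_nonneg (‖y‖ / 2 - 1)]
    calc |ev p y| * Real.exp (-(1 / 2) * ‖y‖ ^ 2)
        ≤ (C * ((N.factorial : ℝ) * (Real.exp 2 * Real.exp ((1 / 4) * ‖y‖ ^ 2))))
          * Real.exp (-(1 / 2) * ‖y‖ ^ 2) := by
          refine mul_le_mul_of_nonneg_right ?_ (Real.exp_pos _).le
          refine (hp y).trans (mul_le_mul_of_nonneg_left (h1.trans ?_) hC)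
          exact mul_le_mul_of_nonneg_left h2 (by positivity)
      _ = (C * ((N.factorial : ℝ) * Real.exp 2)) *
          (Real.exp ((1 / 4) * ‖y‖ ^ 2) * Real.exp (-(1 / 2) * ‖y‖ ^ 2)) := by ring
      _ = _ := by rw [← Real.exp_add]; congr 2; ring

/-- derivative of the Gaussian weight -/
theorem fderiv_gauss (y : EuclideanSpace ℝ (Fin D)) (i : Fin D) :
    fderiv ℝ (fun y : EuclideanSpace ℝ (Fin D) => Real.exp (-(1 / 2) * ‖y‖ ^ 2)) y
      (EuclideanSpace.single i 1) = - (y i * Real.exp (-(1 / 2) * ‖y‖ ^ 2)) := by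
  have h1 : HasFDerivAt (fun y : EuclideanSpace ℝ (Fin D) => ‖y‖ ^ 2)
      (2 • (innerSL ℝ y)) y := (hasStrictFDerivAt_norm_sq y).hasFDerivAt
  have h2 := (h1.const_mul (-(1 / 2))).exp
  rw [h2.fderiv]
  simp [innerSL_apply_apply, EuclideanSpace.inner_single_right]
  ring

theorem differentiable_gauss :
    Differentiable ℝ (fun y : EuclideanSpace ℝ (Fin D) => Real.exp (-(1 / 2) * ‖y‖ ^ 2)) := by
  intro y
  have h1 : HasFDerivAt (fun y : EuclideanSpace ℝ (Fin D) => ‖y‖ ^ 2)
      (2 • (innerSL ℝ y)) y := (hasStrictFDerivAt_norm_sq y).hasFDerivAt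
  exact ((h1.const_mul (-(1 / 2))).exp).differentiableAt

/-- Green's formula with the Gaussian weight. -/
theorem gauss_green {q : ℕ} (p : MvPolynomial (Fin D) ℝ) {Y : MvPolynomial (Fin D) ℝ}
    (hY : Y ∈ harm D q) :
    ∫ y : EuclideanSpace ℝ (Fin D), (∑ i, ev (pderiv i p) y * ev (pderiv i Y) y)
        * Real.exp (-(1 / 2) * ‖y‖ ^ 2)
      = q * ∫ y : EuclideanSpace ℝ (Fin D), (ev p y * ev Y y) * Real.exp (-(1 / 2) * ‖y‖ ^ 2) := by
  obtain ⟨hhom, hlap⟩ := mem_harm.1 hY
  set G : EuclideanSpace ℝ (Fin D) → ℝ := fun y => Real.exp (-(1 / 2) * ‖y‖ ^ 2) with hG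
  -- the functions `g i = ∂_i Y * G`
  have hgd : ∀ i, ∀ y, DifferentiableAt ℝ (fun y => ev (pderiv i Y) y * G y) y := fun i y =>
    (differentiable_ev _ y).mul (differentiable_gauss y)
  have hgf : ∀ i, ∀ y, fderiv ℝ (fun y => ev (pderiv i Y) y * G y) y (EuclideanSpace.single i 1)
      = ev (pderiv i (pderiv i Y)) y * G y - ev (X i * pderiv i Y) y * G y := by
    intro i y
    rw [fderiv_fun_mul (differentiable_ev _ y) (differentiable_gauss y)]
    have h1 := pderiv_ev (pderiv i Y) i y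
    unfold CoordMetric.pderiv at h1
    have h2 := fderiv_gauss y i
    simp only [_root_.add_apply, _root_.smul_apply, smul_eq_mul, h1, h2, ev_mul, ev_X]
    ring
  have hpf : ∀ i, ∀ y, fderiv ℝ (ev p) y (EuclideanSpace.single i 1) = ev (pderiv i p) y :=
    fun i y => pderiv_ev p i y
  have key : ∀ i, ∫ y, ev (pderiv i p) y * (ev (pderiv i Y) y * G y)
      = ∫ y, ev p y * (ev (X i * pderiv i Y) y * G y - ev (pderiv i (pderiv i Y)) y * G y) := by
    intro i
    have h := integral_mul_fderiv_eq_neg_fderiv_mul_of_integrable (μ := volume)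
      (f := ev p) (g := fun y => ev (pderiv i Y) y * G y) (v := EuclideanSpace.single i 1)
      ?_ ?_ ?_ (fun y _ => differentiable_ev p y) (fun y _ => hgd i y)
    · simp only [hgf, hpf] at h
      rw [← neg_eq_iff_eq_neg.2 h, ← integral_neg]
      refine integral_congr_ae (Filter.Eventually.of_forall fun y => ?_)
      dsimp only
      ring
    · simp only [hpf]
      have := integrable_ev_gauss (pderiv i p * pderiv i Y)
      refine this.congr (Filter.Eventually.of_forall fun y => ?_)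
      simp [hG, mul_assoc]
    · simp only [hgf]
      have := integrable_ev_gauss (p * (pderiv i (pderiv i Y) - X i * pderiv i Y))
      refine this.congr (Filter.Eventually.of_forall fun y => ?_)
      simp [hG, ev]
      ring
    · have := integrable_ev_gauss (p * pderiv i Y)
      refine this.congr (Filter.Eventually.of_forall fun y => ?_)
      simp [hG, mul_assoc]
  have hL : ∫ y : EuclideanSpace ℝ (Fin D), (∑ i, ev (pderiv i p) y * ev (pderiv i Y) y) * G y
      = ∑ i, ∫ y, ev (pderiv i p) y * (ev (pderiv i Y) y * G y) := by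
    rw [← integral_finsetSum]
    · refine integral_congr_ae (Filter.Eventually.of_forall fun y => ?_)
      dsimp only
      rw [Finset.sum_mul]
      exact Finset.sum_congr rfl fun i _ => mul_assoc _ _ _
    · intro i _
      have := integrable_ev_gauss (pderiv i p * pderiv i Y)
      refine this.congr (Filter.Eventually.of_forall fun y => ?_)
      simp [hG, mul_assoc]
  rw [hL, Finset.sum_congr rfl fun i _ => key i, ← integral_finsetSum, ← integral_const_mul]
  · refine integral_congr_ae (Filter.Eventually.of_forall fun y => ?_)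
    dsimp only
    rw [← Finset.mul_sum, Finset.sum_sub_distrib, ← Finset.sum_mul, ← Finset.sum_mul, ← ev_sum,
      ← ev_sum, hhom.sum_X_mul_pderiv, ← lap_apply, hlap, ev_zero, zero_mul, sub_zero]
    have : ev (q • Y) y = q * ev Y y := by simp [ev]
    rw [this]
    simp only [hG]
    ring
  · intro i _
    have := integrable_ev_gauss (p * (X i * pderiv i Y - pderiv i (pderiv i Y)))
    refine this.congr (Filter.Eventually.of_forall fun y => ?_)
    simp [hG, ev]
    ring

end Crest.Agent.R202.Sph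
end

-- ▼ part R202/SecFischer
section

/-! # Row 202, module K1 (helper862): Fischer decomposition -/

set_option autoImplicit false

open MvPolynomial

namespace Crest.Agent.R202.Sph

/-- `|y|²` -/
noncomputable def R2 (D : ℕ) : MvPolynomial (Fin D) ℝ := ∑ i : Fin D, X i * X i

variable {D : ℕ}

theorem pderiv_R2 (i : Fin D) : pderiv i (R2 D) = C 2 * X i := by
  unfold R2
  rw [map_sum, Finset.sum_eq_single i]
  · rw [Derivation.leibniz, MvPolynomial.pderiv_X_self, smul_eq_mul, mul_one, ← two_mul]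
    rw [map_ofNat C 2]
  · intro j _ hj
    rw [Derivation.leibniz, MvPolynomial.pderiv_X_of_ne hj, smul_zero, add_zero]
  · simp

theorem isHomogeneous_R2 : (R2 D).IsHomogeneous 2 := by
  unfold R2
  exact IsHomogeneous.sum _ _ _ fun i _ => (isHomogeneous_X ℝ i).mul (isHomogeneous_X ℝ i)

theorem R2_ne_zero [NeZero D] : R2 D ≠ 0 := by
  intro h
  have h1 : MvPolynomial.eval (fun _ => (1 : ℝ)) (R2 D) = D := by simp [R2]
  rw [h, map_zero] at h1
  exact (NeZero.ne D) (by exact_mod_cast h1.symm)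

theorem lap_R2_mul {e : ℕ} {g : MvPolynomial (Fin D) ℝ} (hg : g.IsHomogeneous e) :
    lap D (R2 D * g) = C (2 * (D : ℝ) + 4 * e) * g + R2 D * lap D g := by
  rw [lap_apply, lap_apply]
  have h1 : ∀ i : Fin D, pderiv i (pderiv i (R2 D * g))
      = C 2 * g + C 4 * (X i * pderiv i g) + R2 D * pderiv i (pderiv i g) := by
    intro i
    have hp2 : pderiv i (C 2 * X i * g : MvPolynomial (Fin D) ℝ)
        = C 2 * g + C 2 * X i * pderiv i g := by
      rw [mul_assoc, pderiv_C_mul, pderiv_mul, pderiv_X_self]; ring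
    have hp3 : pderiv i (R2 D * pderiv i g) = C 2 * X i * pderiv i g
        + R2 D * pderiv i (pderiv i g) := by
      rw [pderiv_mul, pderiv_R2]
    rw [pderiv_mul, pderiv_R2, map_add, hp2, hp3]
    have h4 : (C 4 : MvPolynomial (Fin D) ℝ) = C 2 * C 2 := by rw [← C_mul]; norm_num
    have h2 : (C 2 : MvPolynomial (Fin D) ℝ) = 1 + 1 := by
      rw [← C_1, ← C_add]; norm_num
    rw [h4, h2]
    ring
  rw [Finset.sum_congr rfl fun i _ => h1 i, Finset.sum_add_distrib, Finset.sum_add_distrib,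
    ← Finset.mul_sum, ← Finset.mul_sum, hg.sum_X_mul_pderiv, Finset.sum_const, Finset.mul_sum]
  simp only [Finset.card_univ, Fintype.card_fin, nsmul_eq_mul, C_add, C_mul]
  have hD : (C (D : ℝ) : MvPolynomial (Fin D) ℝ) = (D : MvPolynomial (Fin D) ℝ) := by simp
  have he : (C (e : ℝ) : MvPolynomial (Fin D) ℝ) = (e : MvPolynomial (Fin D) ℝ) := by simp
  rw [hD, he]
  ring

theorem lap_R2_pow_mul (j : ℕ) {d : ℕ} {f : MvPolynomial (Fin D) ℝ} (hf : f.IsHomogeneous d) :
    lap D (R2 D ^ (j + 1) * f)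
      = C (2 * ((j : ℝ) + 1) * (2 * j + D + 2 * d)) * (R2 D ^ j * f)
        + R2 D ^ (j + 1) * lap D f := by
  induction j with
  | zero =>
    rw [pow_zero, one_mul, zero_add, pow_one, lap_R2_mul hf]
    congr 3
    push_cast; ring
  | succ j ih =>
    have hhom : (R2 D ^ (j + 1) * f).IsHomogeneous (2 * (j + 1) + d) :=
      (isHomogeneous_R2.pow (j + 1)).mul hf
    rw [pow_succ' (R2 D) (j + 1), mul_assoc, lap_R2_mul hhom, ih]
    have hc : (C (2 * (((j + 1 : ℕ) : ℝ) + 1) * (2 * ((j + 1 : ℕ) : ℝ) + D + 2 * d)) :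
        MvPolynomial (Fin D) ℝ) = C (2 * (D : ℝ) + 4 * ((2 * (j + 1) + d : ℕ) : ℝ))
        + C (2 * ((j : ℝ) + 1) * (2 * j + D + 2 * d)) := by
      rw [← C_add]; congr 1; push_cast; ring
    rw [hc]
    ring

theorem eq_zero_of_lap_R2_pow [NeZero D] : ∀ (d j : ℕ) {f : MvPolynomial (Fin D) ℝ},
    f.IsHomogeneous d → lap D (R2 D ^ (j + 1) * f) = 0 → f = 0 := by
  intro d
  induction d using Nat.strong_induction_on with
  | _ d ih =>
    intro j f hf h
    rw [lap_R2_pow_mul j hf] at h
    set c : ℝ := 2 * ((j : ℝ) + 1) * (2 * j + D + 2 * d) with hc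
    have hDpos : (0 : ℝ) < D := by
      have := NeZero.pos D
      exact_mod_cast this
    have hcpos : 0 < c := by positivity
    have h1 : R2 D ^ j * (C c * f + R2 D * lap D f) = 0 := by
      rw [← h]; ring
    have h2 : C c * f + R2 D * lap D f = 0 := by
      rcases mul_eq_zero.1 h1 with h3 | h3
      · exact absurd h3 (pow_ne_zero _ R2_ne_zero)
      · exact h3
    have hzero : lap D f = 0 := by
      by_cases hd : d < 2
      · exact lap_eq_zero_of_lt hd hf
      · refine ih (d - 2) (by omega) (j + 1) (lap_mem hf) ?_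
        have h3 : R2 D ^ (j + 1 + 1) * lap D f = - (C c * (R2 D ^ (j + 1) * f)) := by
          have : R2 D * lap D f = - (C c * f) := by
            linear_combination h2
          calc R2 D ^ (j + 1 + 1) * lap D f = R2 D ^ (j + 1) * (R2 D * lap D f) := by ring
            _ = _ := by rw [this]; ring
        rw [h3, map_neg, ← smul_eq_C_mul, map_smul, lap_R2_pow_mul j hf, h, smul_zero, neg_zero]
    rw [hzero, mul_zero, add_zero] at h2
    rcases mul_eq_zero.1 h2 with h3 | h3
    · exact absurd (C_eq_zero.1 h3) hcpos.ne'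
    · exact h3

instance finite_harm (D q : ℕ) : Module.Finite ℝ (harm D q) :=
  Module.Finite.of_injective (Submodule.inclusion (inf_le_left :
    harm D q ≤ homogeneousSubmodule (Fin D) ℝ q)) (Submodule.inclusion_injective _)

/-- `P_q = H_q + |y|² P_{q-2}` -/
theorem exists_harm_add [NeZero D] {q : ℕ} {f : MvPolynomial (Fin D) ℝ}
    (hf : f.IsHomogeneous (q + 2)) :
    ∃ h ∈ harm D (q + 2), ∃ g : MvPolynomial (Fin D) ℝ, g.IsHomogeneous q ∧
      f = h + R2 D * g := by
  let Φ : (harm D (q + 2) × homogeneousSubmodule (Fin D) ℝ q) →ₗ[ℝ]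
      homogeneousSubmodule (Fin D) ℝ (q + 2) :=
    { toFun := fun p => ⟨p.1.1 + R2 D * p.2.1,
        Submodule.add_mem _ (mem_harm.1 p.1.2).1 (by
          have := (isHomogeneous_R2 (D := D)).mul p.2.2
          rwa [add_comm 2 q] at this)⟩
      map_add' := fun a b => by
        apply Subtype.ext
        simp only [Prod.fst_add, Prod.snd_add, Submodule.coe_add]
        ring
      map_smul' := fun c a => by
        apply Subtype.ext
        simp only [Prod.smul_fst, Prod.smul_snd, Submodule.coe_smul, RingHom.id_apply,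
          smul_add, mul_smul_comm] }
  have hinj : Function.Injective Φ := by
    rw [← LinearMap.ker_eq_bot, LinearMap.ker_eq_bot']
    rintro ⟨h, g⟩ h0
    have h1 : h.1 + R2 D * g.1 = 0 := congrArg Subtype.val h0
    have h2 : lap D (R2 D ^ (0 + 1) * g.1) = 0 := by
      have : R2 D ^ (0 + 1) * g.1 = - h.1 := by
        rw [zero_add, pow_one]
        linear_combination h1
      rw [this, map_neg, (mem_harm.1 h.2).2, neg_zero]
    have h3 : g.1 = 0 := eq_zero_of_lap_R2_pow q 0 g.2 h2
    rw [h3, mul_zero, add_zero] at h1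
    exact Prod.ext (Subtype.ext h1) (Subtype.ext h3)
  have hdim : Module.finrank ℝ (harm D (q + 2) × homogeneousSubmodule (Fin D) ℝ q)
      = Module.finrank ℝ (homogeneousSubmodule (Fin D) ℝ (q + 2)) := by
    apply le_antisymm
    · exact LinearMap.finrank_le_finrank_of_injective hinj
    · rw [Module.finrank_prod, finrank_homogeneous, finrank_homogeneous]
      have := dimH_le_finrank D (q + 2)
      unfold dimH at this
      rw [if_pos (by omega), show q + 2 - 2 = q by omega] at this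
      omega
  have hsurj := (LinearMap.injective_iff_surjective_of_finrank_eq_finrank hdim).1 hinj
  obtain ⟨⟨h, g⟩, hhg⟩ := hsurj ⟨f, hf⟩
  exact ⟨h.1, h.2, g.1, g.2, (congrArg Subtype.val hhg).symm⟩

/-- Fischer decomposition of a homogeneous polynomial. -/
theorem fischer [NeZero D] : ∀ (k : ℕ) {f : MvPolynomial (Fin D) ℝ}, f.IsHomogeneous k →
    ∃ h : ℕ → MvPolynomial (Fin D) ℝ, (∀ j, 2 * j ≤ k → h j ∈ harm D (k - 2 * j)) ∧
      f = ∑ j ∈ Finset.range (k / 2 + 1), R2 D ^ j * h j := by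
  intro k
  induction k using Nat.strong_induction_on with
  | _ k ih =>
    intro f hf
    by_cases hk : k < 2
    · refine ⟨fun _ => f, fun j hj => ?_, ?_⟩
      · have hj0 : j = 0 := by omega
        subst hj0
        rw [mul_zero, Nat.sub_zero]
        exact mem_harm.2 ⟨hf, lap_eq_zero_of_lt hk hf⟩
      · have : k / 2 + 1 = 1 := by omega
        rw [this]
        simp
    · obtain ⟨q, rfl⟩ : ∃ q, k = q + 2 := ⟨k - 2, by omega⟩
      obtain ⟨h, hh, g, hg, hfg⟩ := exists_harm_add hf
      obtain ⟨h', hh', hg'⟩ := ih q (by omega) hg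
      refine ⟨fun j => Nat.casesOn j h (fun i => h' i), fun j hj => ?_, ?_⟩
      · cases j with
        | zero => simpa using hh
        | succ i =>
          have := hh' i (by omega)
          rwa [show q + 2 - 2 * (i + 1) = q - 2 * i by omega]
      · have : (q + 2) / 2 + 1 = (q / 2 + 1) + 1 := by omega
        rw [this, Finset.sum_range_succ', hfg, hg', Finset.mul_sum]
        simp only [pow_zero, one_mul]
        rw [add_comm]
        congr 1
        refine Finset.sum_congr rfl fun j _ => ?_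
        ring

end Crest.Agent.R202.Sph
end

-- ▼ part R202/SecSph

/-! # Row 202, module K2 (helper862): `L²` of the unit sphere and harmonic polynomials -/

set_option autoImplicit false

open MvPolynomial MeasureTheory MeasureTheory.Measure Set Metric
open Crest.GeometryTopology

namespace Crest.Agent.R202.Sph

variable {D : ℕ}

/-- integral over the unit sphere -/
noncomputable def sph (f : EuclideanSpace ℝ (Fin D) → ℝ) : ℝ :=
  ∫ ω : sphere (0 : EuclideanSpace ℝ (Fin D)) 1, f ω ∂(volume.toSphere)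

/-- Gaussian moments -/
noncomputable def gmom (k : ℕ) : ℝ := ∫ r in Ioi (0 : ℝ), r ^ k * Real.exp (-(1 / 2) * r ^ 2)

theorem gmom_integrable (k : ℕ) :
    IntegrableOn (fun r : ℝ => r ^ k * Real.exp (-(1 / 2) * r ^ 2)) (Ioi 0) := by
  have := integrableOn_rpow_mul_exp_neg_mul_sq (b := 1 / 2) (by norm_num) (s := (k : ℝ))
    (by have : (0 : ℝ) ≤ k := Nat.cast_nonneg k; linarith)
  simpa using this

theorem gmom_pos (k : ℕ) : 0 < gmom k := by
  unfold gmom
  rw [setIntegral_pos_iff_support_of_nonneg_ae]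
  · have : Function.support (fun r : ℝ => r ^ k * Real.exp (-(1 / 2) * r ^ 2)) ∩ Ioi 0 = Ioi 0 := by
      refine inter_eq_right.2 fun r hr => ?_
      have hr' : (0 : ℝ) < r := hr
      exact (by positivity : (0 : ℝ) < r ^ k * Real.exp (-(1 / 2) * r ^ 2)).ne'
    rw [this]
    simp
  · filter_upwards [self_mem_ae_restrict measurableSet_Ioi] with r hr
    have hr' : (0 : ℝ) < r := hr
    positivity
  · exact gmom_integrable k

theorem integral_ev_gauss [NeZero D] {k : ℕ} {p : MvPolynomial (Fin D) ℝ} (hp : p.IsHomogeneous k) :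
    ∫ y : EuclideanSpace ℝ (Fin D), ev p y * Real.exp (-(1 / 2) * ‖y‖ ^ 2)
      = sph (ev p) * gmom (D - 1 + k) := by
  rw [integral_homog k (ev p) (fun r x _ => ev_smul_arg hp r x)
    (fun r => Real.exp (-(1 / 2) * r ^ 2))]
  unfold sph gmom
  congr 1
  refine integral_congr_ae (Filter.Eventually.of_forall fun r => ?_)
  dsimp only
  rw [pow_add]; ring


/-- orthogonality of different degrees -/
theorem sph_orth [NeZero D] {q q' : ℕ} (hq : q ≠ q') {Y Y' : MvPolynomial (Fin D) ℝ}
    (hY : Y ∈ harm D q) (hY' : Y' ∈ harm D q') : sph (ev (Y * Y')) = 0 := by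
  have h1 := gauss_green Y hY'
  have h2 := gauss_green Y' hY
  have h3 : ∫ y : EuclideanSpace ℝ (Fin D), (∑ i, ev (pderiv i Y) y * ev (pderiv i Y') y)
        * Real.exp (-(1 / 2) * ‖y‖ ^ 2) = ∫ y : EuclideanSpace ℝ (Fin D),
        (∑ i, ev (pderiv i Y') y * ev (pderiv i Y) y) * Real.exp (-(1 / 2) * ‖y‖ ^ 2) := by
    refine integral_congr_ae (Filter.Eventually.of_forall fun y => ?_)
    dsimp only
    congr 1
    exact Finset.sum_congr rfl fun i _ => mul_comm _ _
  have h4 : ∫ y : EuclideanSpace ℝ (Fin D), (ev Y y * ev Y' y) * Real.exp (-(1 / 2) * ‖y‖ ^ 2)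
      = ∫ y : EuclideanSpace ℝ (Fin D), (ev Y' y * ev Y y) * Real.exp (-(1 / 2) * ‖y‖ ^ 2) := by
    refine integral_congr_ae (Filter.Eventually.of_forall fun y => ?_)
    dsimp only
    rw [mul_comm (ev Y y)]
  rw [h3, h2, ← h4] at h1
  set I := ∫ y : EuclideanSpace ℝ (Fin D), (ev Y y * ev Y' y) * Real.exp (-(1 / 2) * ‖y‖ ^ 2)
  have h5 : ((q : ℝ) - q') * I = 0 := by linarith
  have h6 : I = 0 := by
    rcases mul_eq_zero.1 h5 with h | h
    · exact absurd (by exact_mod_cast sub_eq_zero.1 h) hq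
    · exact h
  have h7 : I = sph (ev (Y * Y')) * gmom (D - 1 + (q + q')) := by
    rw [← integral_ev_gauss ((mem_harm.1 hY).1.mul (mem_harm.1 hY').1)]
    refine integral_congr_ae (Filter.Eventually.of_forall fun y => ?_)
    dsimp only
    rw [ev_mul]
  rw [h6] at h7
  rcases mul_eq_zero.1 h7.symm with h | h
  · exact h
  · exact absurd h (gmom_pos _).ne'

/-- gradient product as a polynomial -/
noncomputable def gp (Y Y' : MvPolynomial (Fin D) ℝ) : MvPolynomial (Fin D) ℝ :=
  ∑ i, pderiv i Y * pderiv i Y'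

theorem ev_gp (Y Y' : MvPolynomial (Fin D) ℝ) (y : EuclideanSpace ℝ (Fin D)) :
    ev (gp Y Y') y = ∑ i, ev (pderiv i Y) y * ev (pderiv i Y') y := by
  unfold gp
  rw [ev_sum]
  exact Finset.sum_congr rfl fun i _ => by rw [ev_mul]

theorem pderiv_eq_zero_of_zero {Y : MvPolynomial (Fin D) ℝ} (hY : Y.IsHomogeneous 0) (i : Fin D) :
    pderiv i Y = 0 := by
  rw [← totalDegree_zero_iff_isHomogeneous, totalDegree_eq_zero_iff_eq_C] at hY
  rw [hY, pderiv_C]

theorem gp_homog {q q' : ℕ} {Y Y' : MvPolynomial (Fin D) ℝ}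
    (hY : Y.IsHomogeneous (q + 1)) (hY' : Y'.IsHomogeneous (q' + 1)) :
    (gp Y Y').IsHomogeneous (q + q') :=
  IsHomogeneous.sum _ _ _ fun _ _ => hY.pderiv.mul hY'.pderiv

/-- If `Y ⊥ Y'` then `∇Y ⊥ ∇Y'` on the sphere. -/
theorem sph_gp_zero [NeZero D] {q q' : ℕ} {Y Y' : MvPolynomial (Fin D) ℝ}
    (hY : Y ∈ harm D q) (hY' : Y' ∈ harm D q') (h0 : sph (ev (Y * Y')) = 0) :
    sph (ev (gp Y Y')) = 0 := by
  rcases Nat.eq_zero_or_pos q with hq | hq
  · subst hq
    have : gp Y Y' = 0 := by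
      unfold gp
      exact Finset.sum_eq_zero fun i _ => by
        rw [pderiv_eq_zero_of_zero (mem_harm.1 hY).1, zero_mul]
    rw [this]; simp [sph]
  rcases Nat.eq_zero_or_pos q' with hq' | hq'
  · subst hq'
    have : gp Y Y' = 0 := by
      unfold gp
      exact Finset.sum_eq_zero fun i _ => by
        rw [pderiv_eq_zero_of_zero (mem_harm.1 hY').1, mul_zero]
    rw [this]; simp [sph]
  obtain ⟨a, rfl⟩ : ∃ a, q = a + 1 := ⟨q - 1, by omega⟩
  obtain ⟨b, rfl⟩ : ∃ b, q' = b + 1 := ⟨q' - 1, by omega⟩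
  have h1 := gauss_green Y hY'
  have h2 : ∫ y : EuclideanSpace ℝ (Fin D), (ev Y y * ev Y' y) * Real.exp (-(1 / 2) * ‖y‖ ^ 2)
      = 0 := by
    have := integral_ev_gauss ((mem_harm.1 hY).1.mul (mem_harm.1 hY').1)
    rw [h0, zero_mul] at this
    rw [← this]
    refine integral_congr_ae (Filter.Eventually.of_forall fun y => ?_)
    dsimp only
    rw [ev_mul]
  rw [h2, mul_zero] at h1
  have h3 := integral_ev_gauss (gp_homog (mem_harm.1 hY).1 (mem_harm.1 hY').1)
  have h4 : ∫ y : EuclideanSpace ℝ (Fin D), ev (gp Y Y') y * Real.exp (-(1 / 2) * ‖y‖ ^ 2) = 0 := by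
    rw [← h1]
    refine integral_congr_ae (Filter.Eventually.of_forall fun y => ?_)
    dsimp only
    rw [ev_gp]
  rw [h4] at h3
  rcases mul_eq_zero.1 h3.symm with h | h
  · exact h
  · exact absurd h (gmom_pos _).ne'

/-- positivity -/
theorem sph_sq_pos [NeZero D] {q : ℕ} {Y : MvPolynomial (Fin D) ℝ} (hY : Y ∈ harm D q)
    (h0 : Y ≠ 0) : 0 < sph (ev (Y * Y)) := by
  have h1 := integral_ev_gauss ((mem_harm.1 hY).1.mul (mem_harm.1 hY).1)
  have hcont : Continuous fun y : EuclideanSpace ℝ (Fin D) =>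
      ev (Y * Y) y * Real.exp (-(1 / 2) * ‖y‖ ^ 2) :=
    (contDiff_ev _ (n := 0)).continuous.mul (by fun_prop)
  have hnn : 0 ≤ fun y : EuclideanSpace ℝ (Fin D) =>
      ev (Y * Y) y * Real.exp (-(1 / 2) * ‖y‖ ^ 2) := fun y => by
    simp only [ev_mul, Pi.zero_apply]
    exact mul_nonneg (mul_self_nonneg _) (Real.exp_pos _).le
  obtain ⟨w, hw⟩ : ∃ w : Fin D → ℝ, MvPolynomial.eval w Y ≠ 0 := by
    by_contra hcon
    push Not at hcon
    exact h0 (MvPolynomial.funext fun w => by rw [hcon w, map_zero])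
  have h2 : 0 < ∫ y : EuclideanSpace ℝ (Fin D),
      ev (Y * Y) y * Real.exp (-(1 / 2) * ‖y‖ ^ 2) := by
    refine integral_pos_of_integrable_nonneg_nonzero hcont (integrable_ev_gauss (Y * Y)) hnn
      (x := WithLp.toLp 2 w) ?_
    have h3 : ev Y (WithLp.toLp 2 w) ≠ 0 := hw
    simp only [ev_mul]
    exact mul_ne_zero (mul_ne_zero h3 h3) (Real.exp_pos _).ne'
  rw [h1] at h2
  exact (pos_iff_pos_of_mul_pos h2).2 (gmom_pos _)

theorem continuous_ev (p : MvPolynomial (Fin D) ℝ) : Continuous (ev p) :=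
  (contDiff_ev p (n := 0)).continuous

theorem integrable_sph (p : MvPolynomial (Fin D) ℝ) :
    Integrable (fun ω : sphere (0 : EuclideanSpace ℝ (Fin D)) 1 => ev p ω)
      ((volume : Measure (EuclideanSpace ℝ (Fin D))).toSphere) := by
  have hc : Continuous (fun ω : sphere (0 : EuclideanSpace ℝ (Fin D)) 1 => ev p ω) :=
    (continuous_ev p).comp continuous_subtype_val
  exact hc.integrable_of_hasCompactSupport (HasCompactSupport.of_compactSpace _)

theorem sph_add (p q : MvPolynomial (Fin D) ℝ) : sph (ev (p + q)) = sph (ev p) + sph (ev q) := by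
  unfold sph
  rw [← integral_add (integrable_sph p) (integrable_sph q)]
  simp only [ev_add]

theorem sph_smul (c : ℝ) (p : MvPolynomial (Fin D) ℝ) : sph (ev (c • p)) = c * sph (ev p) := by
  unfold sph
  rw [← integral_const_mul]
  simp only [ev_smul]

/-- recursion for the Gaussian moments -/
theorem gmom_succ (k : ℕ) : gmom (k + 2) = (k + 1) * gmom k := by
  have h1 : ∀ j : ℕ, gmom j = ∫ r in Ioi (0 : ℝ), r ^ (j : ℝ) * Real.exp (-(1 / 2) * r ^ (2 : ℝ)) := by
    intro j
    unfold gmom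
    refine integral_congr_ae (Filter.Eventually.of_forall fun r => ?_)
    dsimp only
    rw [Real.rpow_natCast, show (2 : ℝ) = ((2 : ℕ) : ℝ) by norm_num, Real.rpow_natCast]
  have h2 : ∀ j : ℕ, gmom j = (1 / 2 : ℝ) ^ (-((j : ℝ) + 1) / 2) * (1 / 2)
      * Real.Gamma (((j : ℝ) + 1) / 2) := by
    intro j
    rw [h1 j, integral_rpow_mul_exp_neg_mul_rpow (by norm_num)
      (by have : (0 : ℝ) ≤ j := Nat.cast_nonneg j; linarith) (by norm_num)]
  rw [h2, h2]
  have h3 : ((k + 2 : ℕ) : ℝ) + 1 = (k : ℝ) + 1 + 2 := by push_cast; ring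
  rw [h3]
  have h4 : ((k : ℝ) + 1 + 2) / 2 = ((k : ℝ) + 1) / 2 + 1 := by ring
  have h5 : -((k : ℝ) + 1 + 2) / 2 = -((k : ℝ) + 1) / 2 + (-1) := by ring
  have hk : (0 : ℝ) < ((k : ℝ) + 1) / 2 := by positivity
  rw [h4, h5, Real.Gamma_add_one hk.ne', Real.rpow_add (by norm_num), Real.rpow_neg_one]
  ring

/-- `∫_S ∇Y·∇Y' = q (2q + D - 2) ∫_S Y Y'`. -/
theorem sph_gp [NeZero D] {q : ℕ} {Y Y' : MvPolynomial (Fin D) ℝ}
    (hY : Y ∈ harm D q) (hY' : Y' ∈ harm D q) :
    sph (ev (gp Y Y')) = q * (2 * q + D - 2) * sph (ev (Y * Y')) := by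
  rcases Nat.eq_zero_or_pos q with hq | hq
  · subst hq
    have : gp Y Y' = 0 := by
      unfold gp
      exact Finset.sum_eq_zero fun i _ => by
        rw [pderiv_eq_zero_of_zero (mem_harm.1 hY).1, zero_mul]
    rw [this]; simp [sph]
  obtain ⟨a, rfl⟩ : ∃ a, q = a + 1 := ⟨q - 1, by omega⟩
  have h1 := gauss_green Y hY'
  have h2 : ∫ y : EuclideanSpace ℝ (Fin D), (ev Y y * ev Y' y) * Real.exp (-(1 / 2) * ‖y‖ ^ 2)
      = sph (ev (Y * Y')) * gmom (D - 1 + (a + 1 + (a + 1))) := by
    rw [← integral_ev_gauss ((mem_harm.1 hY).1.mul (mem_harm.1 hY').1)]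
    refine integral_congr_ae (Filter.Eventually.of_forall fun y => ?_)
    dsimp only
    rw [ev_mul]
  have h3 : ∫ y : EuclideanSpace ℝ (Fin D), (∑ i, ev (pderiv i Y) y * ev (pderiv i Y') y)
        * Real.exp (-(1 / 2) * ‖y‖ ^ 2) = sph (ev (gp Y Y')) * gmom (D - 1 + (a + a)) := by
    rw [← integral_ev_gauss (gp_homog (mem_harm.1 hY).1 (mem_harm.1 hY').1)]
    refine integral_congr_ae (Filter.Eventually.of_forall fun y => ?_)
    dsimp only
    rw [ev_gp]
  rw [h2, h3, show D - 1 + (a + 1 + (a + 1)) = (D - 1 + (a + a)) + 2 by omega, gmom_succ] at h1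
  have hg := gmom_pos (D - 1 + (a + a))
  have hD : ((D - 1 : ℕ) : ℝ) = D - 1 := by
    have := NeZero.pos D
    rw [Nat.cast_sub (by omega)]; norm_num
  have h4 : sph (ev (gp Y Y')) * gmom (D - 1 + (a + a))
      = ((a + 1 : ℕ) * (((D - 1 + (a + a) : ℕ) : ℝ) + 1) * sph (ev (Y * Y')))
        * gmom (D - 1 + (a + a)) := by
    rw [h1]; ring
  have h5 := mul_right_cancel₀ hg.ne' h4
  rw [h5]
  push_cast
  rw [hD]
  ring

theorem finrank_harm [NeZero D] (q : ℕ) : Module.finrank ℝ (harm D q) = dimH D q := by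
  by_cases hq : 2 ≤ q
  · obtain ⟨q, rfl⟩ : ∃ a, q = a + 2 := ⟨q - 2, by omega⟩
    let Φ : (harm D (q + 2) × homogeneousSubmodule (Fin D) ℝ q) →ₗ[ℝ]
        homogeneousSubmodule (Fin D) ℝ (q + 2) :=
      { toFun := fun p => ⟨p.1.1 + R2 D * p.2.1,
          Submodule.add_mem _ (mem_harm.1 p.1.2).1 (by
            have := (isHomogeneous_R2 (D := D)).mul p.2.2
            rwa [add_comm 2 q] at this)⟩
        map_add' := fun a b => by
          apply Subtype.ext
          simp only [Prod.fst_add, Prod.snd_add, Submodule.coe_add]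
          ring
        map_smul' := fun c a => by
          apply Subtype.ext
          simp only [Prod.smul_fst, Prod.smul_snd, Submodule.coe_smul, RingHom.id_apply,
            smul_add, mul_smul_comm] }
    have hinj : Function.Injective Φ := by
      rw [← LinearMap.ker_eq_bot, LinearMap.ker_eq_bot']
      rintro ⟨h, g⟩ h0
      have h1 : h.1 + R2 D * g.1 = 0 := congrArg Subtype.val h0
      have h2 : lap D (R2 D ^ (0 + 1) * g.1) = 0 := by
        have : R2 D ^ (0 + 1) * g.1 = - h.1 := by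
          rw [zero_add, pow_one]
          linear_combination h1
        rw [this, map_neg, (mem_harm.1 h.2).2, neg_zero]
      have h3 : g.1 = 0 := eq_zero_of_lap_R2_pow q 0 g.2 h2
      rw [h3, mul_zero, add_zero] at h1
      exact Prod.ext (Subtype.ext h1) (Subtype.ext h3)
    have h1 := LinearMap.finrank_le_finrank_of_injective hinj
    rw [Module.finrank_prod, finrank_homogeneous, finrank_homogeneous] at h1
    have h2 := dimH_le_finrank D (q + 2)
    unfold dimH at h2 ⊢
    rw [if_pos (by omega), show q + 2 - 2 = q by omega] at h2 ⊢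
    omega
  · have : harm D q = homogeneousSubmodule (Fin D) ℝ q := by
      apply le_antisymm inf_le_left
      intro p hp
      exact mem_harm.2 ⟨hp, lap_eq_zero_of_lt (by omega) hp⟩
    rw [this, finrank_homogeneous]
    unfold dimH
    rw [if_neg hq]
    omega

/-- The `L²(S^{D-1})` inner product on `harm D q`. -/
@[instance_reducible]
noncomputable def harmCore (D q : ℕ) [NeZero D] : InnerProductSpace.Core ℝ (harm D q) where
  inner p r := sph (ev (p.1 * r.1))
  conj_inner_symm p r := by simp [mul_comm]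
  re_inner_nonneg p := by
    show 0 ≤ sph (ev (p.1 * p.1))
    by_cases h : p.1 = 0
    · rw [h, mul_zero]; simp [sph]
    · exact (sph_sq_pos p.2 h).le
  add_left p r t := by
    show sph (ev ((p.1 + r.1) * t.1)) = _
    rw [add_mul, sph_add]
  smul_left p r c := by
    show sph (ev ((c • p.1) * r.1)) = _
    rw [smul_mul_assoc, sph_smul]; rfl
  definite p hp := by
    by_contra hne
    have : p.1 ≠ 0 := fun h => hne (Subtype.ext h)
    exact absurd hp (sph_sq_pos p.2 this).ne'

/-- An orthonormal basis of the harmonic polynomials of degree `q`. -/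
theorem exists_onb [NeZero D] (q : ℕ) : ∃ b : Module.Basis (Fin (dimH D q)) ℝ (harm D q),
    ∀ i j, sph (ev ((b i).1 * (b j).1)) = if i = j then 1 else 0 := by
  let _ := (harmCore D q).toNormedAddCommGroup
  let _ : InnerProductSpace ℝ (harm D q) := InnerProductSpace.ofCore (harmCore D q).toCore
  have hfin : Module.finrank ℝ (harm D q) = dimH D q := finrank_harm q
  let e := (stdOrthonormalBasis ℝ (harm D q)).reindex (finCongr hfin)
  refine ⟨e.toBasis, fun i j => ?_⟩
  have := (orthonormal_iff_ite.1 e.orthonormal) i j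
  exact this

end Crest.Agent.R202.Sph
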