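import Mathlib
import Crest.Agent.R202.SphEval

/-! # Row 202, module I (helper862): linear independence of the sector products
`f x = Y (y) * W (|y|, x 0, x 1)`, `y = (x 2, …, x (n-1))`, `n = m + 3`. -/

set_option autoImplicit false

open MvPolynomial

namespace Crest.Agent.R202.Sph

/-- the last `n - 2 = m + 1` coordinates -/
def yPart {m : ℕ} (x : EuclideanSpace ℝ (Fin (m + 3))) : EuclideanSpace ℝ (Fin (m + 1)) :=
  WithLp.toLp 2 (fun i => x i.succ.succ)

/-- the point with first two coordinates `a b` and last coordinates `y` -/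
def mkPt {m : ℕ} (a b : ℝ) (y : EuclideanSpace ℝ (Fin (m + 1))) : EuclideanSpace ℝ (Fin (m + 3)) :=
  WithLp.toLp 2 (Fin.cons a (Fin.cons b (fun i => y i) : Fin (m + 2) → ℝ))

@[simp] theorem yPart_mkPt {m : ℕ} (a b : ℝ) (y : EuclideanSpace ℝ (Fin (m + 1))) :
    yPart (mkPt a b y) = y := by
  ext i; simp [yPart, mkPt]

@[simp] theorem mkPt_zero {m : ℕ} (a b : ℝ) (y : EuclideanSpace ℝ (Fin (m + 1))) :
    mkPt a b y 0 = a := by
  simp [mkPt]

@[simp] theorem mkPt_one {m : ℕ} (a b : ℝ) (y : EuclideanSpace ℝ (Fin (m + 1))) :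
    mkPt a b y 1 = b := by
  show (Fin.cons a (Fin.cons b (fun i => y i) : Fin (m + 2) → ℝ) : Fin (m + 3) → ℝ) 1 = b
  rw [show (1 : Fin (m + 3)) = Fin.succ 0 from rfl, Fin.cons_succ, Fin.cons_zero]


end Crest.Agent.R202.Sph
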