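import Mathlib
import Crest.Agent.R202.SecGrade
import Crest.Agent.R202.GeoDefs
import Crest.Agent.R202.SecSph
import Crest.Agent.R202.SphIndep

-- ▼ part R202/SecForm
section

/-! # Row 202, B4a (helper862): sphere level forms and their invariance under the sectors -/

set_option autoImplicit false

open MvPolynomial MeasureTheory MeasureTheory.Measure Set Metric
open Crest.Agent.R202.Geo

namespace Crest.Agent.R202.Sph

variable {m : ℕ}

/-! ### pointwise formulas -/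

theorem sig_eq (x : EuclideanSpace ℝ (Fin (m + 3))) : sig x = ‖yPart x‖ := by
  rw [EuclideanSpace.norm_eq]
  unfold sig yPart
  congr 1
  exact Finset.sum_congr rfl fun j _ => by rw [Real.norm_eq_abs, sq_abs]

theorem sum_y_pderiv {q : ℕ} {Y : MvPolynomial (Fin (m + 1)) ℝ} (hY : Y.IsHomogeneous q)
    (y : EuclideanSpace ℝ (Fin (m + 1))) : ∑ j, y j * ev (pderiv j Y) y = q * ev Y y := by
  have h := congrArg (fun p => ev p y) hY.sum_X_mul_pderiv
  simp only [ev_sum, ev_mul, ev_X] at h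
  rw [h]
  simp [ev, nsmul_eq_mul]

/-- values of `V` at `(|y|², a, b)` -/
noncomputable def evV (V : MvPolynomial (Fin 3) ℝ) (σ a b : ℝ) : ℝ := eval ![σ ^ 2, a, b] V

theorem ev_vI' (V : MvPolynomial (Fin 3) ℝ) (x : EuclideanSpace ℝ (Fin (m + 3))) :
    ev (vI m V) x = evV V (sig x) (x 0) (x 1) := by
  rw [ev_vI, sig_eq]; rfl

section grad

variable {q : ℕ} {Y : MvPolynomial (Fin (m + 1)) ℝ} (V : MvPolynomial (Fin 3) ℝ)
  (x : EuclideanSpace ℝ (Fin (m + 3)))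

theorem ev_d0 : ev (pderiv 0 (yI m Y * vI m V)) x
    = ev Y (yPart x) * evV (pderiv 1 V) (sig x) (x 0) (x 1) := by
  rw [pderiv_mul, pderiv_yI_zero, zero_mul, zero_add, pderiv_vI_zero, ev_mul, ev_yI, ev_vI']

theorem ev_d1 : ev (pderiv 1 (yI m Y * vI m V)) x
    = ev Y (yPart x) * evV (pderiv 2 V) (sig x) (x 0) (x 1) := by
  rw [pderiv_mul, pderiv_yI_one, zero_mul, zero_add, pderiv_vI_one, ev_mul, ev_yI, ev_vI']

theorem ev_dj (j : Fin (m + 1)) : ev (pderiv (j.succ.succ) (yI m Y * vI m V)) x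
    = ev (pderiv j Y) (yPart x) * evV V (sig x) (x 0) (x 1)
      + 2 * ev Y (yPart x) * evV (pderiv 0 V) (sig x) (x 0) (x 1) * yPart x j := by
  rw [pderiv_mul, pderiv_yI_ss, pderiv_vI_ss, ev_add, ev_mul, ev_mul, ev_mul, ev_mul, ev_yI,
    ev_yI, ev_vI', ev_vI', ev_C, ev_X]
  show _ + _ * (2 * yPart x j * _) = _
  ring

theorem sum_yj_sq : ∑ j : Fin (m + 1), yPart x j * yPart x j = sig x ^ 2 := by
  rw [sig_eq, EuclideanSpace.real_norm_sq_eq]
  exact Finset.sum_congr rfl fun j _ => by ring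

/-- `y · ∇_y p` -/
theorem sum_y_dj (hY : Y.IsHomogeneous q) :
    ∑ j : Fin (m + 1), yPart x j * ev (pderiv (j.succ.succ) (yI m Y * vI m V)) x
      = ev Y (yPart x) * (q * evV V (sig x) (x 0) (x 1)
        + 2 * sig x ^ 2 * evV (pderiv 0 V) (sig x) (x 0) (x 1)) := by
  have h1 : ∀ j : Fin (m + 1), yPart x j * ev (pderiv (j.succ.succ) (yI m Y * vI m V)) x
      = (yPart x j * ev (pderiv j Y) (yPart x)) * evV V (sig x) (x 0) (x 1)
        + (yPart x j * yPart x j) * (2 * ev Y (yPart x)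
          * evV (pderiv 0 V) (sig x) (x 0) (x 1)) := fun j => by rw [ev_dj]; ring
  rw [Finset.sum_congr rfl fun j _ => h1 j, Finset.sum_add_distrib, ← Finset.sum_mul,
    ← Finset.sum_mul, sum_y_pderiv hY, sum_yj_sq]
  ring

/-- the factor of `Y` in `e1 · ∇ (Y V)` -/
noncomputable def E1 (q : ℕ) (V : MvPolynomial (Fin 3) ℝ) (r σ a b : ℝ) : ℝ :=
  -(σ / r) * (a / Real.sqrt (a ^ 2 + b ^ 2)) * evV (pderiv 1 V) σ a b
    + -(σ / r) * (b / Real.sqrt (a ^ 2 + b ^ 2)) * evV (pderiv 2 V) σ a b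
    + (Real.sqrt (a ^ 2 + b ^ 2) / r) / σ * (q * evV V σ a b + 2 * σ ^ 2 * evV (pderiv 0 V) σ a b)

/-- the factor of `Y` in `e2 · ∇ (Y V)` -/
noncomputable def E2 (V : MvPolynomial (Fin 3) ℝ) (σ a b : ℝ) : ℝ :=
  -b / Real.sqrt (a ^ 2 + b ^ 2) * evV (pderiv 1 V) σ a b
    + a / Real.sqrt (a ^ 2 + b ^ 2) * evV (pderiv 2 V) σ a b

theorem e1_grad (hY : Y.IsHomogeneous q) :
    ∑ i, e1 x i * ev (pderiv i (yI m Y * vI m V)) x
      = ev Y (yPart x) * E1 q V ‖x‖ (sig x) (x 0) (x 1) := by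
  rw [Fin.sum_univ_succ, Fin.sum_univ_succ, Fin.succ_zero_eq_one, ev_d0, ev_d1]
  have h0 : e1 x 0 = -(sig x / ‖x‖) * (x 0 / rho x) := rfl
  have h1 : e1 x 1 = -(sig x / ‖x‖) * (x 1 / rho x) := rfl
  have hj : ∀ j : Fin (m + 1), e1 x j.succ.succ = (rho x / ‖x‖) * (yPart x j / sig x) :=
    fun j => rfl
  have hs : ∑ j : Fin (m + 1), e1 x j.succ.succ * ev (pderiv (j.succ.succ) (yI m Y * vI m V)) x
      = (rho x / ‖x‖) / sig x * ∑ j : Fin (m + 1),
        yPart x j * ev (pderiv (j.succ.succ) (yI m Y * vI m V)) x := by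
    rw [Finset.mul_sum]
    refine Finset.sum_congr rfl fun j _ => ?_
    rw [hj]; ring
  rw [hs, sum_y_dj V x hY, h0, h1]
  unfold E1 rho
  ring

theorem e2_grad : ∑ i, e2 x i * ev (pderiv i (yI m Y * vI m V)) x
      = ev Y (yPart x) * E2 V (sig x) (x 0) (x 1) := by
  rw [Fin.sum_univ_succ, Fin.sum_univ_succ, Fin.succ_zero_eq_one, ev_d0, ev_d1]
  have h0 : e2 x 0 = -(x 1) / rho x := rfl
  have h1 : e2 x 1 = x 0 / rho x := rfl
  have hj : ∀ j : Fin (m + 1), e2 x j.succ.succ = 0 := fun j => rfl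
  have hs : ∑ j : Fin (m + 1), e2 x j.succ.succ * ev (pderiv (j.succ.succ) (yI m Y * vI m V)) x
      = 0 := Finset.sum_eq_zero fun j _ => by rw [hj, zero_mul]
  rw [hs, h0, h1]
  unfold E2 rho
  ring

end grad

theorem WW_zero_left (x : EuclideanSpace ℝ (Fin (m + 3))) (j : Fin (m + 3)) : WW x 0 j = 0 := by
  unfold WW; simp

theorem WW_one_left (x : EuclideanSpace ℝ (Fin (m + 3))) (j : Fin (m + 3)) : WW x 1 j = 0 := by
  unfold WW; simp

theorem WW_zero_right (x : EuclideanSpace ℝ (Fin (m + 3))) (j : Fin (m + 3)) : WW x j 0 = 0 := by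
  unfold WW; simp

theorem WW_one_right (x : EuclideanSpace ℝ (Fin (m + 3))) (j : Fin (m + 3)) : WW x j 1 = 0 := by
  unfold WW; simp

theorem WW_ss (x : EuclideanSpace ℝ (Fin (m + 3))) (j k : Fin (m + 1)) :
    WW x j.succ.succ k.succ.succ = (if j = k then 1 else 0) - yPart x j * yPart x k / sig x ^ 2 := by
  unfold WW
  have h : (2 ≤ ((j.succ.succ : Fin (m + 3)) : ℕ) ∧ 2 ≤ ((k.succ.succ : Fin (m + 3)) : ℕ)) := by
    constructor <;> simp
  rw [if_pos h]
  have h2 : ((j.succ.succ : Fin (m + 3)) = k.succ.succ) ↔ j = k :=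
    ⟨fun h => Fin.succ_injective _ (Fin.succ_injective _ h), fun h => by rw [h]⟩
  simp only [h2]
  rfl

theorem sum_ss (F : Fin (m + 3) → Fin (m + 3) → ℝ) (h0 : ∀ j, F 0 j = 0) (h1 : ∀ j, F 1 j = 0)
    (h0' : ∀ j, F j 0 = 0) (h1' : ∀ j, F j 1 = 0) :
    ∑ i, ∑ j, F i j = ∑ i : Fin (m + 1), ∑ j : Fin (m + 1), F i.succ.succ j.succ.succ := by
  rw [Fin.sum_univ_succ (fun i => ∑ j, F i j), Fin.sum_univ_succ (fun i : Fin (m + 2) =>
    ∑ j, F i.succ j), Fin.succ_zero_eq_one, Finset.sum_eq_zero fun j _ => h0 j,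
    Finset.sum_eq_zero fun j _ => h1 j, zero_add, zero_add]
  refine Finset.sum_congr rfl fun i _ => ?_
  rw [Fin.sum_univ_succ, Fin.sum_univ_succ, Fin.succ_zero_eq_one, h0', h1', zero_add, zero_add]

theorem WW_grad {q q' : ℕ} {Y Y' : MvPolynomial (Fin (m + 1)) ℝ} (hY : Y.IsHomogeneous q)
    (hY' : Y'.IsHomogeneous q') (V V' : MvPolynomial (Fin 3) ℝ)
    (x : EuclideanSpace ℝ (Fin (m + 3))) (hx : sig x ≠ 0) :
    ∑ i, ∑ j, WW x i j * ev (pderiv i (yI m Y * vI m V)) x * ev (pderiv j (yI m Y' * vI m V')) x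
      = evV V (sig x) (x 0) (x 1) * evV V' (sig x) (x 0) (x 1) *
        (ev (gp Y Y') (yPart x) - q * q' * ev Y (yPart x) * ev Y' (yPart x) / sig x ^ 2) := by
  set p := yI m Y * vI m V with hp
  set h := yI m Y' * vI m V' with hh
  have e1 : ∑ i, ∑ j, WW x i j * ev (pderiv i p) x * ev (pderiv j h) x
      = ∑ i : Fin (m + 1), ∑ j : Fin (m + 1), WW x i.succ.succ j.succ.succ
        * ev (pderiv i.succ.succ p) x * ev (pderiv j.succ.succ h) x := by
    refine sum_ss (fun i j => WW x i j * ev (pderiv i p) x * ev (pderiv j h) x) ?_ ?_ ?_ ?_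
    · intro j; simp only [WW_zero_left, zero_mul]
    · intro j; simp only [WW_one_left, zero_mul]
    · intro j; simp only [WW_zero_right, zero_mul]
    · intro j; simp only [WW_one_right, zero_mul]
  have e2 : ∑ i : Fin (m + 1), ∑ j : Fin (m + 1), WW x i.succ.succ j.succ.succ
        * ev (pderiv i.succ.succ p) x * ev (pderiv j.succ.succ h) x
      = ∑ j : Fin (m + 1), ev (pderiv j.succ.succ p) x * ev (pderiv j.succ.succ h) x
        - (∑ j : Fin (m + 1), yPart x j * ev (pderiv j.succ.succ p) x)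
          * (∑ j : Fin (m + 1), yPart x j * ev (pderiv j.succ.succ h) x) / sig x ^ 2 := by
    have h1 : ∀ i : Fin (m + 1), ∑ j : Fin (m + 1), WW x i.succ.succ j.succ.succ
        * ev (pderiv i.succ.succ p) x * ev (pderiv j.succ.succ h) x
        = ev (pderiv i.succ.succ p) x * ev (pderiv i.succ.succ h) x
          - (yPart x i * ev (pderiv i.succ.succ p) x)
            * ((∑ j : Fin (m + 1), yPart x j * ev (pderiv j.succ.succ h) x) / sig x ^ 2) := by
      intro i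
      have h2 : ∀ j : Fin (m + 1), WW x i.succ.succ j.succ.succ
          * ev (pderiv i.succ.succ p) x * ev (pderiv j.succ.succ h) x
          = (if i = j then ev (pderiv i.succ.succ p) x * ev (pderiv j.succ.succ h) x else 0)
            - (yPart x i * ev (pderiv i.succ.succ p) x)
              * ((yPart x j * ev (pderiv j.succ.succ h) x) / sig x ^ 2) := by
        intro j
        rw [WW_ss]
        split_ifs <;> ring
      rw [Finset.sum_congr rfl fun j _ => h2 j, Finset.sum_sub_distrib, Finset.sum_ite_eq,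
        if_pos (Finset.mem_univ i), ← Finset.mul_sum, ← Finset.sum_div]
    rw [Finset.sum_congr rfl fun i _ => h1 i, Finset.sum_sub_distrib, ← Finset.sum_mul]
    ring
  rw [e1, e2, sum_y_dj V x hY, sum_y_dj V' x hY']
  have e3 : ∑ j : Fin (m + 1), ev (pderiv j.succ.succ p) x * ev (pderiv j.succ.succ h) x
      = evV V (sig x) (x 0) (x 1) * evV V' (sig x) (x 0) (x 1) * ev (gp Y Y') (yPart x)
        + 2 * ev Y' (yPart x) * evV (pderiv 0 V') (sig x) (x 0) (x 1)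
          * evV V (sig x) (x 0) (x 1) * (q * ev Y (yPart x))
        + 2 * ev Y (yPart x) * evV (pderiv 0 V) (sig x) (x 0) (x 1)
          * evV V' (sig x) (x 0) (x 1) * (q' * ev Y' (yPart x))
        + 4 * ev Y (yPart x) * ev Y' (yPart x) * evV (pderiv 0 V) (sig x) (x 0) (x 1)
          * evV (pderiv 0 V') (sig x) (x 0) (x 1) * sig x ^ 2 := by
    rw [← sum_y_pderiv hY, ← sum_y_pderiv hY', ← sum_yj_sq x, ev_gp, Finset.mul_sum,
      Finset.mul_sum, Finset.mul_sum, Finset.mul_sum, ← Finset.sum_add_distrib,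
      ← Finset.sum_add_distrib, ← Finset.sum_add_distrib]
    refine Finset.sum_congr rfl fun j _ => ?_
    rw [hp, hh, ev_dj, ev_dj]
    ring
  rw [e3]
  field_simp
  ring

end Crest.Agent.R202.Sph
end

-- ▼ part R202/SecMeas
section

/-! # Row 202, B4a (helper862): product coordinates `x = (x0, x1, y)` and vanishing of sphere
integrals by slices -/

set_option autoImplicit false

open MvPolynomial MeasureTheory MeasureTheory.Measure Set Metric

namespace Crest.Agent.R202.Sph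

variable {m : ℕ}

/-- `(a, b, y) ↦ (a, b, y)` as a measurable equivalence -/
noncomputable def mkE (m : ℕ) :
    ℝ × ℝ × EuclideanSpace ℝ (Fin (m + 1)) ≃ᵐ EuclideanSpace ℝ (Fin (m + 3)) :=
  (((MeasurableEquiv.refl ℝ).prodCongr ((MeasurableEquiv.refl ℝ).prodCongr
    (MeasurableEquiv.toLp 2 (Fin (m + 1) → ℝ)).symm)).trans
    ((MeasurableEquiv.refl ℝ).prodCongr
      (MeasurableEquiv.piFinSuccAbove (fun _ : Fin (m + 2) => ℝ) 0).symm)).trans
    ((MeasurableEquiv.piFinSuccAbove (fun _ : Fin (m + 3) => ℝ) 0).symm.trans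
      (MeasurableEquiv.toLp 2 (Fin (m + 3) → ℝ)))

theorem mkE_apply (a b : ℝ) (y : EuclideanSpace ℝ (Fin (m + 1))) :
    mkE m (a, b, y) = mkPt a b y := by
  ext i
  refine Fin.cases ?_ (fun i => Fin.cases ?_ (fun j => ?_) i) i
  · simp [mkE, mkPt, MeasurableEquiv.piFinSuccAbove, Fin.insertNthEquiv, MeasurableEquiv.prodCongr]
  · simp [mkE, mkPt, MeasurableEquiv.piFinSuccAbove, Fin.insertNthEquiv, MeasurableEquiv.prodCongr]
  · simp [mkE, mkPt, MeasurableEquiv.piFinSuccAbove, Fin.insertNthEquiv, MeasurableEquiv.prodCongr]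

theorem measurePreserving_mkE : MeasurePreserving (mkE m) volume volume := by
  have h1 : MeasurePreserving ((MeasurableEquiv.refl ℝ).prodCongr
      ((MeasurableEquiv.refl ℝ).prodCongr (MeasurableEquiv.toLp 2 (Fin (m + 1) → ℝ)).symm))
      (volume : Measure (ℝ × ℝ × EuclideanSpace ℝ (Fin (m + 1)))) volume :=
    (MeasurePreserving.id volume).prod ((MeasurePreserving.id volume).prod
      (PiLp.volume_preserving_ofLp (Fin (m + 1))))
  have h2 : MeasurePreserving ((MeasurableEquiv.refl ℝ).prodCongr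
      (MeasurableEquiv.piFinSuccAbove (fun _ : Fin (m + 2) => ℝ) 0).symm)
      (volume : Measure (ℝ × ℝ × (Fin (m + 1) → ℝ))) volume :=
    (MeasurePreserving.id volume).prod
      (volume_preserving_piFinSuccAbove (fun _ : Fin (m + 2) => ℝ) 0).symm
  have h3 : MeasurePreserving (MeasurableEquiv.piFinSuccAbove (fun _ : Fin (m + 3) => ℝ) 0).symm
      (volume : Measure (ℝ × (Fin (m + 2) → ℝ))) volume :=
    (volume_preserving_piFinSuccAbove (fun _ : Fin (m + 3) => ℝ) 0).symm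
  have h4 : MeasurePreserving (MeasurableEquiv.toLp 2 (Fin (m + 3) → ℝ)) volume volume :=
    PiLp.volume_preserving_toLp (Fin (m + 3))
  exact (h4.comp h3).comp (h2.comp h1)

theorem integral_mkPt (K : EuclideanSpace ℝ (Fin (m + 3)) → ℝ) :
    ∫ x, K x = ∫ t : ℝ × ℝ × EuclideanSpace ℝ (Fin (m + 1)), K (mkPt t.1 t.2.1 t.2.2) := by
  rw [← (measurePreserving_mkE (m := m)).integral_comp (mkE m).measurableEmbedding K]
  refine integral_congr_ae (Filter.Eventually.of_forall fun t => ?_)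
  obtain ⟨a, b, y⟩ := t
  dsimp only
  rw [mkE_apply]

theorem zero_of_fibers {α β : Type*} [MeasurableSpace α] [MeasurableSpace β] {μ : Measure α}
    {ν : Measure β} [SFinite μ] [SFinite ν] {f : α × β → ℝ} (h : ∀ᵐ a ∂μ, ∫ b, f (a, b) ∂ν = 0) :
    ∫ t, f t ∂(μ.prod ν) = 0 := by
  by_cases hf : Integrable f (μ.prod ν)
  · rw [integral_prod f hf]
    exact integral_eq_zero_of_ae h
  · exact integral_undef hf

theorem zero_of_fibers_symm {α β : Type*} [MeasurableSpace α] [MeasurableSpace β] {μ : Measure α}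
    {ν : Measure β} [SFinite μ] [SFinite ν] {f : α × β → ℝ} (h : ∀ᵐ b ∂ν, ∫ a, f (a, b) ∂μ = 0) :
    ∫ t, f t ∂(μ.prod ν) = 0 := by
  by_cases hf : Integrable f (μ.prod ν)
  · rw [integral_prod_symm f hf]
    exact integral_eq_zero_of_ae h
  · exact integral_undef hf


/-- `∫_S g` through the Gaussian integral of the `0`-homogeneous extension -/
theorem sph_eq_zero_of {D : ℕ} [NeZero D] (g : EuclideanSpace ℝ (Fin D) → ℝ)
    (h : ∫ x : EuclideanSpace ℝ (Fin D), g (‖x‖⁻¹ • x) * Real.exp (-(1 / 2) * ‖x‖ ^ 2) = 0) :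
    sph g = 0 := by
  have h1 := integral_homog 0 (fun x : EuclideanSpace ℝ (Fin D) => g (‖x‖⁻¹ • x))
    (fun r x hr => by
      rw [pow_zero, one_mul, norm_smul, Real.norm_eq_abs, abs_of_pos hr, mul_inv, smul_smul]
      congr 2
      field_simp) (fun r => Real.exp (-(1 / 2) * r ^ 2))
  rw [h] at h1
  have h2 : (∫ ω : sphere (0 : EuclideanSpace ℝ (Fin D)) 1,
      g (‖(ω : EuclideanSpace ℝ (Fin D))‖⁻¹ • (ω : EuclideanSpace ℝ (Fin D))) ∂(volume.toSphere))
      = sph g := by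
    unfold sph
    refine integral_congr_ae (Filter.Eventually.of_forall fun ω => ?_)
    dsimp only
    have : ‖(ω : EuclideanSpace ℝ (Fin D))‖ = 1 := by simp
    rw [this, inv_one, one_smul]
  have h3 : ∫ r in Ioi (0 : ℝ), r ^ (D - 1) * (r ^ 0 * Real.exp (-(1 / 2) * r ^ 2))
      = gmom (D - 1) := by
    unfold gmom
    simp
  rw [h2, h3] at h1
  rcases mul_eq_zero.1 h1.symm with h4 | h4
  · exact h4
  · exact absurd h4 (gmom_pos _).ne'

theorem norm_sq_mkPt (a b : ℝ) (y : EuclideanSpace ℝ (Fin (m + 1))) :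
    ‖mkPt a b y‖ ^ 2 = a ^ 2 + b ^ 2 + ‖y‖ ^ 2 := by
  rw [EuclideanSpace.real_norm_sq_eq, EuclideanSpace.real_norm_sq_eq, Fin.sum_univ_succ,
    Fin.sum_univ_succ, Fin.succ_zero_eq_one, mkPt_zero, mkPt_one]
  have : ∀ j : Fin (m + 1), mkPt a b y j.succ.succ = y j := fun j => by simp [mkPt]
  simp only [this]
  ring

theorem smul_mkPt (c a b : ℝ) (y : EuclideanSpace ℝ (Fin (m + 1))) :
    c • mkPt a b y = mkPt (c * a) (c * b) (c • y) := by
  ext i
  refine Fin.cases ?_ (fun i => Fin.cases ?_ (fun j => ?_) i) i <;> simp [mkPt]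

theorem norm_mkPt_pos {a b : ℝ} {y : EuclideanSpace ℝ (Fin (m + 1))} (ha : a ≠ 0) :
    0 < ‖mkPt a b y‖ := by
  have h := norm_sq_mkPt a b y
  have h1 : 0 < ‖mkPt a b y‖ ^ 2 := by rw [h]; positivity
  have h2 := norm_nonneg (mkPt a b y)
  by_contra hcon
  have : ‖mkPt a b y‖ = 0 := le_antisymm (not_lt.1 hcon) h2
  rw [this] at h1
  norm_num at h1

/-- Vanishing of a sphere integral whose slices over the spheres `|y| = const` vanish. -/
theorem sph_zero_of_slices (g : EuclideanSpace ℝ (Fin (m + 3)) → ℝ)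
    (h : ∀ a b s : ℝ, a ≠ 0 → 0 < s → a ^ 2 + b ^ 2 + s ^ 2 = 1 →
      sph (fun ω : EuclideanSpace ℝ (Fin (m + 1)) => g (mkPt a b (s • ω))) = 0) :
    sph g = 0 := by
  apply sph_eq_zero_of
  rw [integral_mkPt]
  refine zero_of_fibers ?_
  have hne : ∀ᵐ a : ℝ, a ≠ 0 := by
    have : (volume : Measure ℝ) {0} = 0 := by simp
    exact compl_mem_ae_iff.2 this
  filter_upwards [hne] with a ha
  refine zero_of_fibers (Filter.Eventually.of_forall fun b => ?_)
  dsimp only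
  rw [integral_polar]
  refine zero_of_fibers_symm (Filter.Eventually.of_forall fun r => ?_)
  have hr : 0 < (r : ℝ) := r.2
  dsimp only
  set R : ℝ := Real.sqrt (a ^ 2 + b ^ 2 + (r : ℝ) ^ 2) with hR
  have hRpos : 0 < R := Real.sqrt_pos.2 (by positivity)
  have hR2 : R ^ 2 = a ^ 2 + b ^ 2 + (r : ℝ) ^ 2 := Real.sq_sqrt (by positivity)
  have hn : ∀ ω : sphere (0 : EuclideanSpace ℝ (Fin (m + 1))) 1,
      ‖mkPt a b ((r : ℝ) • (ω : EuclideanSpace ℝ (Fin (m + 1))))‖ = R := by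
    intro ω
    have h1 := norm_sq_mkPt a b ((r : ℝ) • (ω : EuclideanSpace ℝ (Fin (m + 1))))
    have h2 : ‖(r : ℝ) • (ω : EuclideanSpace ℝ (Fin (m + 1)))‖ = r := by
      rw [norm_smul, Real.norm_eq_abs, abs_of_pos hr]; simp
    rw [h2] at h1
    rw [hR, ← h1, Real.sqrt_sq (norm_nonneg _)]
  have key : ∀ ω : sphere (0 : EuclideanSpace ℝ (Fin (m + 1))) 1,
      g (‖mkPt a b ((r : ℝ) • (ω : EuclideanSpace ℝ (Fin (m + 1))))‖⁻¹ •
        mkPt a b ((r : ℝ) • (ω : EuclideanSpace ℝ (Fin (m + 1)))))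
        * Real.exp (-(1 / 2) * ‖mkPt a b ((r : ℝ) • (ω : EuclideanSpace ℝ (Fin (m + 1))))‖ ^ 2)
      = Real.exp (-(1 / 2) * R ^ 2) * g (mkPt (a / R) (b / R)
        (((r : ℝ) / R) • (ω : EuclideanSpace ℝ (Fin (m + 1))))) := by
    intro ω
    rw [hn ω, smul_mkPt, smul_smul, inv_mul_eq_div, inv_mul_eq_div, inv_mul_eq_div]
    ring
  simp only [key]
  rw [integral_const_mul]
  have h5 := h (a / R) (b / R) ((r : ℝ) / R) (div_ne_zero ha hRpos.ne') (by positivity) (by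
    rw [div_pow, div_pow, div_pow, ← add_div, ← add_div, ← hR2]
    exact div_self (by positivity))
  unfold sph at h5
  rw [h5, mul_zero]

/-- Vanishing of a sphere integral by the reflection `x1 ↦ -x1`. -/
theorem sph_zero_of_odd (g : EuclideanSpace ℝ (Fin (m + 3)) → ℝ)
    (h : ∀ (a b : ℝ) (y : EuclideanSpace ℝ (Fin (m + 1))), a ≠ 0 → y ≠ 0 →
      a ^ 2 + b ^ 2 + ‖y‖ ^ 2 = 1 → g (mkPt a (-b) y) = - g (mkPt a b y)) :
    sph g = 0 := by
  apply sph_eq_zero_of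
  rw [integral_mkPt]
  refine zero_of_fibers ?_
  have hne : ∀ᵐ a : ℝ, a ≠ 0 := by
    have : (volume : Measure ℝ) {0} = 0 := by simp
    exact compl_mem_ae_iff.2 this
  filter_upwards [hne] with a ha
  set L : ℝ × EuclideanSpace ℝ (Fin (m + 1)) → ℝ := fun t =>
    g (‖mkPt a t.1 t.2‖⁻¹ • mkPt a t.1 t.2) * Real.exp (-(1 / 2) * ‖mkPt a t.1 t.2‖ ^ 2) with hL
  have hmp : MeasurePreserving (fun t : ℝ × EuclideanSpace ℝ (Fin (m + 1)) => (-t.1, t.2))
      (volume.prod volume) (volume.prod volume) :=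
    (Measure.measurePreserving_neg (volume : Measure ℝ)).prod (MeasurePreserving.id volume)
  have hemb : MeasurableEmbedding (fun t : ℝ × EuclideanSpace ℝ (Fin (m + 1)) => (-t.1, t.2)) :=
    ((MeasurableEquiv.neg ℝ).prodCongr
      (MeasurableEquiv.refl (EuclideanSpace ℝ (Fin (m + 1))))).measurableEmbedding
  have h1 := hmp.integral_comp hemb L
  have h2 : ∫ t, L (-t.1, t.2) ∂((volume : Measure ℝ).prod
      (volume : Measure (EuclideanSpace ℝ (Fin (m + 1)))))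
      = - ∫ t, L t ∂((volume : Measure ℝ).prod
      (volume : Measure (EuclideanSpace ℝ (Fin (m + 1))))) := by
    rw [← integral_neg]
    have hne2 : ∀ᵐ t ∂((volume : Measure ℝ).prod
        (volume : Measure (EuclideanSpace ℝ (Fin (m + 1))))), t.2 ≠ 0 := by
      have : (volume : Measure (EuclideanSpace ℝ (Fin (m + 1)))) {0} = 0 := by simp
      have h0 : ∀ᵐ y : EuclideanSpace ℝ (Fin (m + 1)), y ≠ 0 := compl_mem_ae_iff.2 this
      exact Measure.quasiMeasurePreserving_snd.ae h0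
    refine integral_congr_ae ?_
    filter_upwards [hne2] with t ht
    have e1 : ‖mkPt a (-t.1) t.2‖ = ‖mkPt a t.1 t.2‖ := by
      have e2 := norm_sq_mkPt a (-t.1) t.2
      have e3 := norm_sq_mkPt a t.1 t.2
      rw [neg_sq] at e2
      have e4 : ‖mkPt a (-t.1) t.2‖ ^ 2 = ‖mkPt a t.1 t.2‖ ^ 2 := by rw [e2, e3]
      exact (sq_eq_sq₀ (norm_nonneg _) (norm_nonneg _)).1 e4
    have hpos : 0 < ‖mkPt a t.1 t.2‖ := norm_mkPt_pos ha
    simp only [hL, e1, smul_mkPt]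
    set R := ‖mkPt a t.1 t.2‖ with hRdef
    rw [show R⁻¹ * -t.1 = -(R⁻¹ * t.1) by ring, h (R⁻¹ * a) (R⁻¹ * t.1) (R⁻¹ • t.2)
      (mul_ne_zero (inv_ne_zero hpos.ne') ha) (smul_ne_zero (inv_ne_zero hpos.ne') ht) ?_]
    · ring
    · have e5 := norm_sq_mkPt (R⁻¹ * a) (R⁻¹ * t.1) (R⁻¹ • t.2)
      rw [← smul_mkPt, norm_smul, norm_inv, norm_norm, ← hRdef, inv_mul_cancel₀ hpos.ne'] at e5
      rw [← e5, one_pow]
  have h3 : ∫ t, L (-t.1, t.2) ∂((volume : Measure ℝ).prod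
      (volume : Measure (EuclideanSpace ℝ (Fin (m + 1)))))
      = ∫ t, L t ∂((volume : Measure ℝ).prod
      (volume : Measure (EuclideanSpace ℝ (Fin (m + 1))))) := h1
  have h4 : ∫ t, L t ∂((volume : Measure ℝ).prod
      (volume : Measure (EuclideanSpace ℝ (Fin (m + 1))))) = 0 := by linarith
  exact h4

end Crest.Agent.R202.Sph
end

-- ▼ part R202/SecQB

/-! # Row 202, B4a (helper862): sphere level forms `QB`, block diagonality in the sectors -/

set_option autoImplicit false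

open MvPolynomial MeasureTheory MeasureTheory.Measure Set Metric
open Crest.Agent.R202.Geo

namespace Crest.Agent.R202.Sph

variable {m n : ℕ}

/-- `L²(S)` product of polynomials -/
noncomputable def ip (p h : MvPolynomial (Fin n) ℝ) : ℝ := sph (ev (p * h))

/-- density of the form -/
noncomputable def qb (B : EuclideanSpace ℝ (Fin n) → Matrix (Fin n) (Fin n) ℝ)
    (p h : MvPolynomial (Fin n) ℝ) (z : EuclideanSpace ℝ (Fin n)) : ℝ :=
  ∑ i, ∑ j, B z i j * ev (pderiv i p) z * ev (pderiv j h) z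

/-- the sphere form `∫_S ⟨B ∇p, ∇h⟩` -/
noncomputable def QB (B : EuclideanSpace ℝ (Fin n) → Matrix (Fin n) (Fin n) ℝ)
    (p h : MvPolynomial (Fin n) ℝ) : ℝ :=
  ∫ z : sphere (0 : EuclideanSpace ℝ (Fin n)) 1, qb B p h z ∂(volume.toSphere)

theorem QB_eq (B : EuclideanSpace ℝ (Fin n) → Matrix (Fin n) (Fin n) ℝ)
    (p h : MvPolynomial (Fin n) ℝ) : QB B p h = sph (qb B p h) := rfl

/-- The class of tangential forms on `S^{n-1}` (`n = m + 3`) invariant under rotations and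
reflections of `y` and under `x1 ↦ -x1`. -/
structure SecForm (B : EuclideanSpace ℝ (Fin (m + 3)) → Matrix (Fin (m + 3)) (Fin (m + 3)) ℝ) :
    Prop where
  cont : ∀ i j, ContinuousOn (fun z => B z i j)
    (sphere (0 : EuclideanSpace ℝ (Fin (m + 3))) 1)
  symm : ∀ z ∈ sphere (0 : EuclideanSpace ℝ (Fin (m + 3))) 1, ∀ i j, B z i j = B z j i
  tang : ∀ z ∈ sphere (0 : EuclideanSpace ℝ (Fin (m + 3))) 1, ∀ i, ∑ j, B z i j * z j = 0
  repr : ∃ c1 c2 c3 : ℝ → ℝ → ℝ → ℝ, (∀ σ a b, c1 σ a (-b) = c1 σ a b) ∧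
    (∀ σ a b, c2 σ a (-b) = c2 σ a b) ∧ (∀ σ a b, c3 σ a (-b) = c3 σ a b) ∧
    ∀ z ∈ sphere (0 : EuclideanSpace ℝ (Fin (m + 3))) 1, z 0 ≠ 0 → sig z ≠ 0 → ∀ i j,
      B z i j = c1 (sig z) (z 0) (z 1) * outer (e1 z) i j
        + c2 (sig z) (z 0) (z 1) * outer (e2 z) i j + c3 (sig z) (z 0) (z 1) * WW z i j

theorem sum_outer (v : EuclideanSpace ℝ (Fin n)) (A A' : Fin n → ℝ) :
    ∑ i, ∑ j, outer v i j * A i * A' j = (∑ i, v i * A i) * (∑ j, v j * A' j) := by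
  rw [Finset.sum_mul]
  refine Finset.sum_congr rfl fun i _ => ?_
  rw [Finset.mul_sum]
  refine Finset.sum_congr rfl fun j _ => ?_
  unfold outer; ring

/-- `α` coefficient -/
noncomputable def alp (c1 c2 c3 : ℝ → ℝ → ℝ → ℝ) (q q' : ℕ) (V V' : MvPolynomial (Fin 3) ℝ)
    (σ a b : ℝ) : ℝ :=
  c1 σ a b * (E1 q V 1 σ a b * E1 q' V' 1 σ a b) + c2 σ a b * (E2 V σ a b * E2 V' σ a b)
    - c3 σ a b * (q * q' * evV V σ a b * evV V' σ a b / σ ^ 2)

/-- `β` coefficient -/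
noncomputable def bet (c3 : ℝ → ℝ → ℝ → ℝ) (V V' : MvPolynomial (Fin 3) ℝ) (σ a b : ℝ) : ℝ :=
  c3 σ a b * (evV V σ a b * evV V' σ a b)

theorem qb_formula {B : EuclideanSpace ℝ (Fin (m + 3)) → Matrix (Fin (m + 3)) (Fin (m + 3)) ℝ}
    {c1 c2 c3 : ℝ → ℝ → ℝ → ℝ}
    {q q' : ℕ} {Y Y' : MvPolynomial (Fin (m + 1)) ℝ} (hY : Y.IsHomogeneous q)
    (hY' : Y'.IsHomogeneous q') (V V' : MvPolynomial (Fin 3) ℝ)
    {z : EuclideanSpace ℝ (Fin (m + 3))} (hz : ‖z‖ = 1) (hs : sig z ≠ 0)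
    (hB : ∀ i j, B z i j = c1 (sig z) (z 0) (z 1) * outer (e1 z) i j
        + c2 (sig z) (z 0) (z 1) * outer (e2 z) i j + c3 (sig z) (z 0) (z 1) * WW z i j) :
    qb B (yI m Y * vI m V) (yI m Y' * vI m V') z
      = ev (Y * Y') (yPart z) * alp c1 c2 c3 q q' V V' (sig z) (z 0) (z 1)
        + ev (gp Y Y') (yPart z) * bet c3 V V' (sig z) (z 0) (z 1) := by
  set p := yI m Y * vI m V with hp
  set h := yI m Y' * vI m V' with hh
  have e1' : qb B p h z = c1 (sig z) (z 0) (z 1) *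
      ∑ i, ∑ j, outer (e1 z) i j * ev (pderiv i p) z * ev (pderiv j h) z
      + c2 (sig z) (z 0) (z 1) *
      ∑ i, ∑ j, outer (e2 z) i j * ev (pderiv i p) z * ev (pderiv j h) z
      + c3 (sig z) (z 0) (z 1) *
      ∑ i, ∑ j, WW z i j * ev (pderiv i p) z * ev (pderiv j h) z := by
    unfold qb
    simp only [Finset.mul_sum, ← Finset.sum_add_distrib]
    refine Finset.sum_congr rfl fun i _ => Finset.sum_congr rfl fun j _ => ?_
    rw [hB]; ring
  rw [e1', sum_outer, sum_outer, hp, hh, e1_grad V z hY, e1_grad V' z hY', e2_grad, e2_grad,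
    WW_grad hY hY' V V' z hs, hz, ev_mul]
  unfold alp bet
  ring

/-! ### orthogonality -/

theorem sph_congr {D : ℕ} {f g : EuclideanSpace ℝ (Fin D) → ℝ}
    (h : ∀ ω : EuclideanSpace ℝ (Fin D), ‖ω‖ = 1 → f ω = g ω) : sph f = sph g := by
  unfold sph
  refine integral_congr_ae (Filter.Eventually.of_forall fun ω => ?_)
  exact h ω (by simp)

theorem sph_const_mul {D : ℕ} (c : ℝ) (f : EuclideanSpace ℝ (Fin D) → ℝ) :
    sph (fun ω => c * f ω) = c * sph f := by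
  unfold sph
  rw [integral_const_mul]

/-- combination of two homogeneous polynomials with vanishing sphere integrals -/
theorem sph_comb_zero {D k1 k2 : ℕ} {P1 P2 : MvPolynomial (Fin D) ℝ} (h1 : P1.IsHomogeneous k1)
    (h2 : P2.IsHomogeneous k2) (z1 : sph (ev P1) = 0) (z2 : sph (ev P2) = 0) (s α β : ℝ) :
    sph (fun ω : EuclideanSpace ℝ (Fin D) => ev P1 (s • ω) * α + ev P2 (s • ω) * β) = 0 := by
  have e : (fun ω : EuclideanSpace ℝ (Fin D) => ev P1 (s • ω) * α + ev P2 (s • ω) * β)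
      = ev ((s ^ k1 * α) • P1 + (s ^ k2 * β) • P2) := by
    funext ω
    rw [ev_add, ev_smul, ev_smul, ev_smul_arg h1, ev_smul_arg h2]
    ring
  rw [e, sph_add, sph_smul, sph_smul, z1, z2]
  ring

theorem gp_homog' {q q' : ℕ} {Y Y' : MvPolynomial (Fin n) ℝ}
    (hY : Y.IsHomogeneous q) (hY' : Y'.IsHomogeneous q') :
    ∃ k, (gp Y Y').IsHomogeneous k :=
  ⟨(q - 1) + (q' - 1), IsHomogeneous.sum _ _ _ fun _ _ => hY.pderiv.mul hY'.pderiv⟩

theorem sig_mkPt (a b : ℝ) (y : EuclideanSpace ℝ (Fin (m + 1))) : sig (mkPt a b y) = ‖y‖ := by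
  rw [sig_eq, yPart_mkPt]

theorem QB_zero_of_orth {B : EuclideanSpace ℝ (Fin (m + 3)) → Matrix (Fin (m + 3)) (Fin (m + 3)) ℝ}
    (hB : SecForm B) {q q' : ℕ} {Y Y' : MvPolynomial (Fin (m + 1)) ℝ} (hY : Y ∈ harm (m + 1) q)
    (hY' : Y' ∈ harm (m + 1) q') (h0 : sph (ev (Y * Y')) = 0) (V V' : MvPolynomial (Fin 3) ℝ) :
    QB B (yI m Y * vI m V) (yI m Y' * vI m V') = 0 := by
  obtain ⟨c1, c2, c3, -, -, -, hrep⟩ := hB.repr
  rw [QB_eq]
  refine sph_zero_of_slices _ fun a b s ha hs hsum => ?_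
  obtain ⟨k, hk⟩ := gp_homog' (mem_harm.1 hY).1 (mem_harm.1 hY').1
  rw [← sph_comb_zero ((mem_harm.1 hY).1.mul (mem_harm.1 hY').1) hk h0 (sph_gp_zero hY hY' h0) s
    (alp c1 c2 c3 q q' V V' s a b) (bet c3 V V' s a b)]
  refine sph_congr fun ω hω => ?_
  have hn : ‖s • ω‖ = s := by rw [norm_smul, Real.norm_eq_abs, abs_of_pos hs, hω, mul_one]
  have hsig : sig (mkPt a b (s • ω)) = s := by rw [sig_mkPt, hn]
  have hz : ‖mkPt a b (s • ω)‖ = 1 := by
    have h1 := norm_sq_mkPt a b (s • ω)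
    rw [hn, hsum] at h1
    have h2 := norm_nonneg (mkPt a b (s • ω))
    nlinarith
  have hzs : mkPt a b (s • ω) ∈ sphere (0 : EuclideanSpace ℝ (Fin (m + 3))) 1 := by
    rw [mem_sphere_zero_iff_norm]; exact hz
  have hsne : sig (mkPt a b (s • ω)) ≠ 0 := by rw [hsig]; exact hs.ne'
  rw [qb_formula (mem_harm.1 hY).1 (mem_harm.1 hY').1 V V' hz hsne
    (hrep _ hzs (by rw [mkPt_zero]; exact ha) hsne), hsig, yPart_mkPt, mkPt_zero, mkPt_one]

theorem ip_zero_of_orth {q q' : ℕ} {Y Y' : MvPolynomial (Fin (m + 1)) ℝ}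
    (hY : Y ∈ harm (m + 1) q) (hY' : Y' ∈ harm (m + 1) q') (h0 : sph (ev (Y * Y')) = 0)
    (V V' : MvPolynomial (Fin 3) ℝ) :
    ip (yI m Y * vI m V) (yI m Y' * vI m V') = 0 := by
  unfold ip
  refine sph_zero_of_slices _ fun a b s ha hs hsum => ?_
  have e : ∀ ω : EuclideanSpace ℝ (Fin (m + 1)), ‖ω‖ = 1 →
      ev (yI m Y * vI m V * (yI m Y' * vI m V')) (mkPt a b (s • ω))
      = (s ^ (q + q') * (evV V s a b * evV V' s a b)) * ev (Y * Y') ω := by
    intro ω hω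
    have hn : ‖s • ω‖ = s := by rw [norm_smul, Real.norm_eq_abs, abs_of_pos hs, hω, mul_one]
    rw [ev_mul, ev_mul, ev_mul, ev_yI, ev_yI, ev_vI', ev_vI', sig_mkPt, hn, yPart_mkPt, mkPt_zero,
      mkPt_one, ev_smul_arg (mem_harm.1 hY).1, ev_smul_arg (mem_harm.1 hY').1, ev_mul, pow_add]
    ring
  rw [sph_congr e, sph_const_mul, h0, mul_zero]

/-! ### parity -/

theorem evV_refl (V : MvPolynomial (Fin 3) ℝ) (σ a b : ℝ) :
    evV (refl3 V) σ a b = evV V σ a (-b) := by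
  unfold evV
  induction V using MvPolynomial.induction_on with
  | C c => rw [refl3_C]; simp
  | add p q hp hq => rw [map_add, map_add, hp, hq, map_add]
  | mul_X p i hp =>
    rw [map_mul, map_mul, hp, map_mul]
    congr 1
    fin_cases i
    · show eval _ (refl3 (X 0)) = eval _ (X 0)
      rw [refl3_X0]; simp
    · show eval _ (refl3 (X 1)) = eval _ (X 1)
      rw [refl3_X1]; simp
    · show eval _ (refl3 (X 2)) = eval _ (X 2)
      rw [refl3_X2]; simp

theorem evV_par {V : MvPolynomial (Fin 3) ℝ} {ε : ℝ} (hV : refl3 V = C ε * V) (σ a b : ℝ) :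
    evV V σ a (-b) = ε * evV V σ a b := by
  rw [← evV_refl, hV]; simp [evV]

theorem evV_par0 {V : MvPolynomial (Fin 3) ℝ} {ε : ℝ} (hV : refl3 V = C ε * V) (σ a b : ℝ) :
    evV (pderiv 0 V) σ a (-b) = ε * evV (pderiv 0 V) σ a b := by
  refine evV_par ?_ σ a b
  rw [refl3_pderiv_zero, hV, pderiv_C_mul]

theorem evV_par1 {V : MvPolynomial (Fin 3) ℝ} {ε : ℝ} (hV : refl3 V = C ε * V) (σ a b : ℝ) :
    evV (pderiv 1 V) σ a (-b) = ε * evV (pderiv 1 V) σ a b := by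
  refine evV_par ?_ σ a b
  rw [refl3_pderiv_one, hV, pderiv_C_mul]

theorem evV_par2 {V : MvPolynomial (Fin 3) ℝ} {ε : ℝ} (hV : refl3 V = C ε * V) (σ a b : ℝ) :
    evV (pderiv 2 V) σ a (-b) = - ε * evV (pderiv 2 V) σ a b := by
  refine evV_par ?_ σ a b
  rw [refl3_pderiv_two, hV, pderiv_C_mul, C_neg]; ring

theorem E1_par {V : MvPolynomial (Fin 3) ℝ} {ε : ℝ} (hV : refl3 V = C ε * V) (q : ℕ)
    (r σ a b : ℝ) : E1 q V r σ a (-b) = ε * E1 q V r σ a b := by
  unfold E1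
  rw [evV_par hV, evV_par0 hV, evV_par1 hV, evV_par2 hV, neg_sq]
  ring

theorem E2_par {V : MvPolynomial (Fin 3) ℝ} {ε : ℝ} (hV : refl3 V = C ε * V)
    (σ a b : ℝ) : E2 V σ a (-b) = - ε * E2 V σ a b := by
  unfold E2
  rw [evV_par1 hV, evV_par2 hV, neg_sq]
  ring

theorem QB_zero_of_parity
    {B : EuclideanSpace ℝ (Fin (m + 3)) → Matrix (Fin (m + 3)) (Fin (m + 3)) ℝ}
    (hB : SecForm B) {q q' : ℕ} {Y Y' : MvPolynomial (Fin (m + 1)) ℝ} (hY : Y ∈ harm (m + 1) q)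
    (hY' : Y' ∈ harm (m + 1) q') {V V' : MvPolynomial (Fin 3) ℝ} {ε ε' : ℝ} (hεε : ε * ε' = -1)
    (hV : refl3 V = C ε * V) (hV' : refl3 V' = C ε' * V') :
    QB B (yI m Y * vI m V) (yI m Y' * vI m V') = 0 := by
  obtain ⟨c1, c2, c3, h1, h2, h3, hrep⟩ := hB.repr
  rw [QB_eq]
  refine sph_zero_of_odd _ fun a b y ha hy hsum => ?_
  have hn : ∀ b, a ^ 2 + b ^ 2 + ‖y‖ ^ 2 = 1 → ‖mkPt a b y‖ = 1 := by
    intro b hb
    have h1 := norm_sq_mkPt a b y
    rw [hb] at h1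
    have h2 := norm_nonneg (mkPt a b y)
    nlinarith
  have hs : ‖y‖ ≠ 0 := norm_ne_zero_iff.2 hy
  have hz1 := hn b hsum
  have hz2 := hn (-b) (by rw [neg_sq]; exact hsum)
  have f1 := qb_formula (B := B) (c1 := c1) (c2 := c2) (c3 := c3)
    (mem_harm.1 hY).1 (mem_harm.1 hY').1 V V' hz1 (by rw [sig_mkPt]; exact hs)
    (hrep _ (by rw [mem_sphere_zero_iff_norm]; exact hz1) (by rw [mkPt_zero]; exact ha)
      (by rw [sig_mkPt]; exact hs))
  have f2 := qb_formula (B := B) (c1 := c1) (c2 := c2) (c3 := c3)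
    (mem_harm.1 hY).1 (mem_harm.1 hY').1 V V' hz2 (by rw [sig_mkPt]; exact hs)
    (hrep _ (by rw [mem_sphere_zero_iff_norm]; exact hz2) (by rw [mkPt_zero]; exact ha)
      (by rw [sig_mkPt]; exact hs))
  rw [f1, f2, sig_mkPt, sig_mkPt, yPart_mkPt, yPart_mkPt, mkPt_zero, mkPt_zero, mkPt_one,
    mkPt_one]
  unfold alp bet
  rw [h1, h2, h3, E1_par hV, E1_par hV', E2_par hV, E2_par hV', evV_par hV, evV_par hV']
  linear_combination (ev (Y * Y') y * (c1 ‖y‖ a b * (E1 q V 1 ‖y‖ a b * E1 q' V' 1 ‖y‖ a b)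
    + c2 ‖y‖ a b * (E2 V ‖y‖ a b * E2 V' ‖y‖ a b)
    - c3 ‖y‖ a b * (q * q' * evV V ‖y‖ a b * evV V' ‖y‖ a b / ‖y‖ ^ 2))
    + ev (gp Y Y') y * (c3 ‖y‖ a b * (evV V ‖y‖ a b * evV V' ‖y‖ a b))) * hεε

theorem ip_zero_of_parity {Y Y' : MvPolynomial (Fin (m + 1)) ℝ}
    {V V' : MvPolynomial (Fin 3) ℝ} {ε ε' : ℝ} (hεε : ε * ε' = -1)
    (hV : refl3 V = C ε * V) (hV' : refl3 V' = C ε' * V') :
    ip (yI m Y * vI m V) (yI m Y' * vI m V') = 0 := by
  unfold ip
  refine sph_zero_of_odd _ fun a b y ha hy hsum => ?_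
  rw [ev_mul, ev_mul, ev_mul, ev_mul, ev_mul, ev_mul, ev_yI, ev_yI, ev_yI, ev_yI, ev_vI', ev_vI',
    ev_vI', ev_vI', sig_mkPt, sig_mkPt, yPart_mkPt, yPart_mkPt, mkPt_zero, mkPt_zero, mkPt_one,
    mkPt_one, evV_par hV, evV_par hV']
  linear_combination (ev Y y * evV V ‖y‖ a b * (ev Y' y * evV V' ‖y‖ a b)) * hεε

end Crest.Agent.R202.Sph
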