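import Crest.Agent.R202.EllRecon
import Crest.Agent.R202.EllDefs

-- ▼ part R202/EllReal
section

/-!
# From the real distributional equation to the complex one; integration by parts
-/

set_option autoImplicit false

noncomputable section

open scoped BigOperators ComplexConjugate FourierTransform ContDiff
open Filter MeasureTheory Crest.GeometryTopology.CoordMetric

namespace Crest.Agent.R202.Ell

variable {n : ℕ}

lemma contDiff_pderiv {φ : EuclideanSpace ℝ (Fin n) → ℝ} (h : ContDiff ℝ ∞ φ) (j : Fin n) :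
    ContDiff ℝ ∞ (pderiv j φ) := by
  unfold pderiv
  exact (h.fderiv_right (m := ∞) (by simp)).clm_apply contDiff_const

lemma contDiffOn_pd {U : Set (EuclideanSpace ℝ (Fin n))} (hU : IsOpen U)
    {φ : EuclideanSpace ℝ (Fin n) → ℝ} (h : ContDiffOn ℝ ∞ φ U) (j : Fin n) :
    ContDiffOn ℝ ∞ (pderiv j φ) U := by
  unfold pderiv
  exact (h.fderiv_of_isOpen hU (m := ∞) (by simp)).clm_apply contDiffOn_const

lemma tsupport_pderiv_subset (φ : EuclideanSpace ℝ (Fin n) → ℝ) (j : Fin n) :
    tsupport (pderiv j φ) ⊆ tsupport φ := by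
  refine (closure_mono ?_).trans (tsupport_fderiv_subset ℝ (f := φ))
  intro x hx
  rw [Function.mem_support] at hx ⊢
  intro h
  apply hx
  unfold pderiv
  rw [h]; simp

lemma hasCompactSupport_pderiv {φ : EuclideanSpace ℝ (Fin n) → ℝ} (h : HasCompactSupport φ)
    (j : Fin n) : HasCompactSupport (pderiv j φ) :=
  h.isCompact.of_isClosed_subset (isClosed_tsupport _) (tsupport_pderiv_subset φ j)

lemma pderiv_congr {φ ψ : EuclideanSpace ℝ (Fin n) → ℝ} {x : EuclideanSpace ℝ (Fin n)}
    (h : φ =ᶠ[nhds x] ψ) (j : Fin n) : pderiv j φ x = pderiv j ψ x := by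
  unfold pderiv
  rw [h.fderiv_eq]

lemma pderiv_eq_zero_of_notMem {φ : EuclideanSpace ℝ (Fin n) → ℝ} {x : EuclideanSpace ℝ (Fin n)}
    (hx : x ∉ tsupport φ) (j : Fin n) : pderiv j φ x = 0 :=
  image_eq_zero_of_notMem_tsupport fun h' => hx (tsupport_pderiv_subset φ j h')

/-- the global matrix field `1 + B`. -/
def AB (B : Fin n → Fin n → EuclideanSpace ℝ (Fin n) → ℝ) (x : EuclideanSpace ℝ (Fin n)) :
    Matrix (Fin n) (Fin n) ℝ := Matrix.of fun i j => (if i = j then 1 else 0) + B i j x

lemma AB_apply (B : Fin n → Fin n → EuclideanSpace ℝ (Fin n) → ℝ) (x : EuclideanSpace ℝ (Fin n))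
    (i j : Fin n) : AB B x i j = (if i = j then 1 else 0) + B i j x := rfl

lemma contDiff_AB {B : Fin n → Fin n → EuclideanSpace ℝ (Fin n) → ℝ}
    (hB : ∀ i j, ContDiff ℝ ∞ (B i j)) (i j : Fin n) : ContDiff ℝ ∞ fun x => AB B x i j := by
  simp only [AB_apply]
  exact contDiff_const.add (hB i j)

lemma contDiff_fluxA {A : EuclideanSpace ℝ (Fin n) → Matrix (Fin n) (Fin n) ℝ}
    (hA : ∀ i j, ContDiff ℝ ∞ fun x => A x i j) {φ : EuclideanSpace ℝ (Fin n) → ℝ}
    (hφ : ContDiff ℝ ∞ φ) (i : Fin n) : ContDiff ℝ ∞ fun y => ∑ j, A y i j * pderiv j φ y :=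
  ContDiff.sum fun j _ => (hA i j).mul (contDiff_pderiv hφ j)

lemma contDiff_divA {A : EuclideanSpace ℝ (Fin n) → Matrix (Fin n) (Fin n) ℝ}
    (hA : ∀ i j, ContDiff ℝ ∞ fun x => A x i j) {φ : EuclideanSpace ℝ (Fin n) → ℝ}
    (hφ : ContDiff ℝ ∞ φ) : ContDiff ℝ ∞ (divA A φ) := by
  unfold divA
  exact ContDiff.sum fun i _ => contDiff_pderiv (contDiff_fluxA hA hφ i) i

lemma cd_ofReal {φ : EuclideanSpace ℝ (Fin n) → ℝ} {x : EuclideanSpace ℝ (Fin n)}
    (h : DifferentiableAt ℝ φ x) (j : Fin n) :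
    cd j (fun y => ((φ y : ℝ) : ℂ)) x = ((pderiv j φ x : ℝ) : ℂ) := by
  unfold cd pderiv
  have h1 : HasFDerivAt (fun y => ((φ y : ℝ) : ℂ)) (Complex.ofRealCLM.comp (fderiv ℝ φ x)) x :=
    Complex.ofRealCLM.hasFDerivAt.comp x h.hasFDerivAt
  rw [h1.fderiv]
  simp

lemma LC_ofReal {B : Fin n → Fin n → EuclideanSpace ℝ (Fin n) → ℝ}
    (hB : ∀ i j, ContDiff ℝ ∞ (B i j)) {φ : EuclideanSpace ℝ (Fin n) → ℝ}
    (hφ : ContDiff ℝ ∞ φ) (x : EuclideanSpace ℝ (Fin n)) :
    LC B (fun y => ((φ y : ℝ) : ℂ)) x = ((divA (AB B) φ x : ℝ) : ℂ) := by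
  unfold LC divA
  rw [Complex.ofReal_sum]
  refine Finset.sum_congr rfl fun i _ => ?_
  have e : (fun y => ∑ j, ac B i j y * cd j (fun y => ((φ y : ℝ) : ℂ)) y) =
      fun y => ((∑ j, AB B y i j * pderiv j φ y : ℝ) : ℂ) := by
    funext y
    rw [Complex.ofReal_sum]
    refine Finset.sum_congr rfl fun j _ => ?_
    rw [cd_ofReal ((hφ.differentiable (by simp)) y)]
    unfold ac
    rw [AB_apply]
    push_cast
    split_ifs <;> simp
  rw [e, cd_ofReal (((contDiff_fluxA (contDiff_AB hB) hφ i).differentiable (by simp)) x)]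

lemma LC_add_mul {B : Fin n → Fin n → EuclideanSpace ℝ (Fin n) → ℝ}
    (hB : ∀ i j, ContDiff ℝ ∞ (B i j)) {φ ψ : EuclideanSpace ℝ (Fin n) → ℂ}
    (hφ : ContDiff ℝ ∞ φ) (hψ : ContDiff ℝ ∞ ψ) (a : ℂ) (x : EuclideanSpace ℝ (Fin n)) :
    LC B (fun y => φ y + a * ψ y) x = LC B φ x + a * LC B ψ x := by
  unfold LC
  rw [Finset.mul_sum, ← Finset.sum_add_distrib]
  refine Finset.sum_congr rfl fun i _ => ?_
  have e : (fun y => ∑ j, ac B i j y * cd j (fun y => φ y + a * ψ y) y) =
      fun y => (∑ j, ac B i j y * cd j φ y) + a * ∑ j, ac B i j y * cd j ψ y := by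
    funext y
    rw [Finset.mul_sum, ← Finset.sum_add_distrib]
    refine Finset.sum_congr rfl fun j _ => ?_
    rw [cd_add j ((hφ.differentiable (by simp)) y) (((hψ.differentiable (by simp)) y).const_mul a),
      cd_const_mul j a ((hψ.differentiable (by simp)) y)]
    ring
  rw [e, cd_add i (((contDiff_flux hB hφ i).differentiable (by simp)) x)
    ((((contDiff_flux hB hψ i).differentiable (by simp)) x).const_mul a),
    cd_const_mul i a (((contDiff_flux hB hψ i).differentiable (by simp)) x)]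

/-- the complex equation from the real one. -/
lemma CEq_of_real {c : EuclideanSpace ℝ (Fin n)} {r1 : ℝ}
    {B : Fin n → Fin n → EuclideanSpace ℝ (Fin n) → ℝ} (hB : ∀ i j, ContDiff ℝ ∞ (B i j))
    {u f : EuclideanSpace ℝ (Fin n) → ℝ} (hu : Integrable u) (hf : ContDiff ℝ ∞ f)
    (h : ∀ φ : EuclideanSpace ℝ (Fin n) → ℝ, ContDiff ℝ ∞ φ → tsupport φ ⊆ Metric.ball c r1 →
      ∫ x, u x * divA (AB B) φ x = ∫ x, f x * φ x) :
    CEq c r1 B (fun x => ((u x : ℝ) : ℂ)) (fun x => ((f x : ℝ) : ℂ)) := by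
  intro Φ hΦ hΦs
  set φ : EuclideanSpace ℝ (Fin n) → ℝ := fun x => (Φ x).re with hφdef
  set ψ : EuclideanSpace ℝ (Fin n) → ℝ := fun x => (Φ x).im with hψdef
  have hφ : ContDiff ℝ ∞ φ := Complex.reCLM.contDiff.comp hΦ
  have hψ : ContDiff ℝ ∞ ψ := Complex.imCLM.contDiff.comp hΦ
  have hφs : tsupport φ ⊆ tsupport Φ := closure_mono fun x hx => by
    rw [Function.mem_support] at hx ⊢
    intro h0; apply hx; simp [hφdef, h0]
  have hψs : tsupport ψ ⊆ tsupport Φ := closure_mono fun x hx => by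
    rw [Function.mem_support] at hx ⊢
    intro h0; apply hx; simp [hψdef, h0]
  have hΦe : Φ = fun y => ((φ y : ℝ) : ℂ) + Complex.I * ((ψ y : ℝ) : ℂ) := by
    funext y
    simp only [hφdef, hψdef]
    rw [mul_comm]
    exact (Complex.re_add_im (Φ y)).symm
  have hcs : HasCompactSupport Φ := hasCompactSupport_of_ball hΦs
  have hφc : HasCompactSupport φ := hasCompactSupport_of_ball (hφs.trans hΦs)
  have hψc : HasCompactSupport ψ := hasCompactSupport_of_ball (hψs.trans hΦs)
  have h1 := h φ hφ (hφs.trans hΦs)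
  have h2 := h ψ hψ (hψs.trans hΦs)
  have uC : Integrable (fun x => ((u x : ℝ) : ℂ)) := hu.ofReal
  have fC : ContDiff ℝ ∞ (fun x => ((f x : ℝ) : ℂ)) := contDiff_ofReal' hf
  have dcs : ∀ {g : EuclideanSpace ℝ (Fin n) → ℝ}, HasCompactSupport g →
      HasCompactSupport (LC B (fun y => ((g y : ℝ) : ℂ))) := by
    intro g hg
    have : HasCompactSupport (fun y => ((g y : ℝ) : ℂ)) :=
      hg.comp_left (g := fun t : ℝ => (t : ℂ)) (by simp)
    exact this.isCompact.of_isClosed_subset (isClosed_tsupport _) (tsupport_LC B _)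
  have i1 : ∀ {g : EuclideanSpace ℝ (Fin n) → ℝ}, ContDiff ℝ ∞ g → HasCompactSupport g →
      Integrable (fun x => ((u x : ℝ) : ℂ) * LC B (fun y => ((g y : ℝ) : ℂ)) x) := by
    intro g hg hgc
    exact integrable_mul_cs uC (contDiff_LC hB (contDiff_ofReal' hg)).continuous (dcs hgc)
  have i2 : ∀ {g : EuclideanSpace ℝ (Fin n) → ℝ}, ContDiff ℝ ∞ g → HasCompactSupport g →
      Integrable (fun x => ((f x : ℝ) : ℂ) * ((g x : ℝ) : ℂ)) := by
    intro g hg hgc
    have : HasCompactSupport (fun y => ((g y : ℝ) : ℂ)) :=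
      hgc.comp_left (g := fun t : ℝ => (t : ℂ)) (by simp)
    exact integrable_of_cs this.mul_left (fC.mul (contDiff_ofReal' hg))
  have e1 : ∫ x, ((u x : ℝ) : ℂ) * LC B Φ x =
      ∫ x, ((u x : ℝ) : ℂ) * LC B (fun y => ((φ y : ℝ) : ℂ)) x +
        Complex.I * (((u x : ℝ) : ℂ) * LC B (fun y => ((ψ y : ℝ) : ℂ)) x) := by
    refine integral_congr_ae (Eventually.of_forall fun x => ?_)
    simp only
    rw [hΦe, LC_add_mul hB (contDiff_ofReal' hφ) (contDiff_ofReal' hψ)]
    ring
  have e2 : ∫ x, ((f x : ℝ) : ℂ) * Φ x =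
      ∫ x, ((f x : ℝ) : ℂ) * ((φ x : ℝ) : ℂ) +
        Complex.I * (((f x : ℝ) : ℂ) * ((ψ x : ℝ) : ℂ)) := by
    refine integral_congr_ae (Eventually.of_forall fun x => ?_)
    simp only
    rw [hΦe]
    ring
  rw [e1, e2, integral_add (i1 hφ hφc) ((i1 hψ hψc).const_mul _),
    integral_add (i2 hφ hφc) ((i2 hψ hψc).const_mul _), integral_const_mul, integral_const_mul]
  have e3 : ∀ {g : EuclideanSpace ℝ (Fin n) → ℝ}, ContDiff ℝ ∞ g →
      ∫ x, ((u x : ℝ) : ℂ) * LC B (fun y => ((g y : ℝ) : ℂ)) x =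
      ((∫ x, u x * divA (AB B) g x : ℝ) : ℂ) := by
    intro g hg
    rw [← integral_complex_ofReal]
    refine integral_congr_ae (Eventually.of_forall fun x => ?_)
    simp only
    rw [LC_ofReal hB hg]
    push_cast
    rfl
  have e4 : ∀ {g : EuclideanSpace ℝ (Fin n) → ℝ},
      ∫ x, ((f x : ℝ) : ℂ) * ((g x : ℝ) : ℂ) = ((∫ x, f x * g x : ℝ) : ℂ) := by
    intro g
    rw [← integral_complex_ofReal]
    refine integral_congr_ae (Eventually.of_forall fun x => ?_)
    simp only
    push_cast
    rfl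
  rw [e3 hφ, e3 hψ, e4, e4, h1, h2]

/-! ### integration by parts -/

lemma ibpR {f g : EuclideanSpace ℝ (Fin n) → ℝ} (hf : ContDiff ℝ ∞ f) (hg : ContDiff ℝ ∞ g)
    (hgc : HasCompactSupport g) (i : Fin n) :
    ∫ x, f x * pderiv i g x = -∫ x, pderiv i f x * g x := by
  have i1 : Integrable (fun x => pderiv i f x * g x) :=
    ((contDiff_pderiv hf i).mul hg).continuous.integrable_of_hasCompactSupport hgc.mul_left
  have i2 : Integrable (fun x => f x * pderiv i g x) :=
    (hf.mul (contDiff_pderiv hg i)).continuous.integrable_of_hasCompactSupport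
      (hasCompactSupport_pderiv hgc i).mul_left
  have i3 : Integrable (fun x => f x * g x) :=
    (hf.mul hg).continuous.integrable_of_hasCompactSupport hgc.mul_left
  exact integral_mul_fderiv_eq_neg_fderiv_mul_of_integrable (μ := volume) (f := f)
    (g := g) (v := EuclideanSpace.single i (1 : ℝ)) i1 i2 i3
    (fun x _ => (hf.differentiable (by simp)) x) (fun x _ => (hg.differentiable (by simp)) x)

lemma green {A : EuclideanSpace ℝ (Fin n) → Matrix (Fin n) (Fin n) ℝ}
    (hA : ∀ i j, ContDiff ℝ ∞ fun x => A x i j) (hsymm : ∀ x i j, A x i j = A x j i)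
    {V φ : EuclideanSpace ℝ (Fin n) → ℝ} (hV : ContDiff ℝ ∞ V) (hφ : ContDiff ℝ ∞ φ)
    (hφc : HasCompactSupport φ) :
    ∫ x, V x * divA A φ x = ∫ x, divA A V x * φ x := by
  have hfl : ∀ i, HasCompactSupport (fun y => ∑ j, A y i j * pderiv j φ y) := by
    intro i
    refine hφc.isCompact.of_isClosed_subset (isClosed_tsupport _) (closure_minimal ?_
      (isClosed_tsupport _))
    intro x hx
    by_contra hx'
    rw [Function.mem_support] at hx
    apply hx
    exact Finset.sum_eq_zero fun j _ => by rw [pderiv_eq_zero_of_notMem hx', mul_zero]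
  have hflc : ∀ i, ContDiff ℝ ∞ fun y => ∑ j, A y i j * pderiv j φ y := contDiff_fluxA hA hφ
  have hflV : ∀ i, ContDiff ℝ ∞ fun y => ∑ j, A y i j * pderiv j V y := contDiff_fluxA hA hV
  have eL : ∫ x, V x * divA A φ x =
      ∑ i, ∫ x, V x * pderiv i (fun y => ∑ j, A y i j * pderiv j φ y) x := by
    rw [← integral_finsetSum]
    · refine integral_congr_ae (Eventually.of_forall fun x => ?_)
      simp only
      unfold divA
      rw [Finset.mul_sum]
    · intro i _
      exact (hV.mul (contDiff_pderiv (hflc i) i)).continuous.integrable_of_hasCompactSupport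
        (hasCompactSupport_pderiv (hfl i) i).mul_left
  have eR : ∫ x, divA A V x * φ x =
      ∑ i, ∫ x, pderiv i (fun y => ∑ j, A y i j * pderiv j V y) x * φ x := by
    rw [← integral_finsetSum]
    · refine integral_congr_ae (Eventually.of_forall fun x => ?_)
      simp only
      unfold divA
      rw [Finset.sum_mul]
    · intro i _
      exact ((contDiff_pderiv (hflV i) i).mul hφ).continuous.integrable_of_hasCompactSupport
        hφc.mul_left
  have e1 : ∀ i, ∫ x, V x * pderiv i (fun y => ∑ j, A y i j * pderiv j φ y) x =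
      -∑ j, ∫ x, A x i j * pderiv i V x * pderiv j φ x := by
    intro i
    rw [ibpR hV (hflc i) (hfl i), ← integral_finsetSum]
    · congr 1
      refine integral_congr_ae (Eventually.of_forall fun x => ?_)
      simp only
      rw [Finset.mul_sum]
      exact Finset.sum_congr rfl fun j _ => by ring
    · intro j _
      exact (((hA i j).mul (contDiff_pderiv hV i)).mul
        (contDiff_pderiv hφ j)).continuous.integrable_of_hasCompactSupport
        (hasCompactSupport_pderiv hφc j).mul_left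
  have e2 : ∀ i, ∫ x, pderiv i (fun y => ∑ j, A y i j * pderiv j V y) x * φ x =
      -∑ j, ∫ x, A x i j * pderiv j V x * pderiv i φ x := by
    intro i
    have := ibpR (hflV i) hφ hφc i
    have e : ∫ x, pderiv i (fun y => ∑ j, A y i j * pderiv j V y) x * φ x =
      -∫ x, (∑ j, A x i j * pderiv j V x) * pderiv i φ x := by rw [this, neg_neg]
    rw [e, ← integral_finsetSum]
    · congr 1
      refine integral_congr_ae (Eventually.of_forall fun x => ?_)
      simp only
      rw [Finset.sum_mul]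
    · intro j _
      exact (((hA i j).mul (contDiff_pderiv hV j)).mul
        (contDiff_pderiv hφ i)).continuous.integrable_of_hasCompactSupport
        (hasCompactSupport_pderiv hφc i).mul_left
  rw [eL, eR]
  simp only [e1, e2]
  rw [Finset.sum_neg_distrib, Finset.sum_neg_distrib, Finset.sum_comm]
  congr 1
  refine Finset.sum_congr rfl fun i _ => Finset.sum_congr rfl fun j _ => ?_
  refine integral_congr_ae (Eventually.of_forall fun x => ?_)
  simp only
  rw [hsymm x j i]

end Crest.Agent.R202.Ell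
end
end

-- ▼ part R202/EllFinal

/-!
# Elliptic regularity for distributional solutions (R1)
-/

set_option autoImplicit false

noncomputable section

open scoped BigOperators ComplexConjugate FourierTransform ContDiff
open Filter MeasureTheory Crest.GeometryTopology.CoordMetric

namespace Crest.Agent.R202.Ell

variable {n : ℕ}

/-- uniform ellipticity on compact sets. -/
lemma exists_lam {K : Set (EuclideanSpace ℝ (Fin n))} (hK : IsCompact K)
    {A : EuclideanSpace ℝ (Fin n) → Matrix (Fin n) (Fin n) ℝ}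
    (hA : ∀ i j, ContinuousOn (fun x => A x i j) K) (hpos : ∀ x ∈ K, (A x).PosDef) :
    ∃ lam : ℝ, 0 < lam ∧ ∀ x ∈ K, ∀ ξ : Fin n → ℝ, lam * ∑ i, ξ i ^ 2 ≤
      ∑ i, ∑ j, A x i j * ξ i * ξ j := by
  set S : Set (EuclideanSpace ℝ (Fin n)) := Metric.sphere 0 1 with hS
  have hSc : IsCompact S := isCompact_sphere 0 1
  set F : EuclideanSpace ℝ (Fin n) × EuclideanSpace ℝ (Fin n) → ℝ := fun p =>
    ∑ i, ∑ j, A p.1 i j * p.2 i * p.2 j with hF
  have hposF : ∀ x ∈ K, ∀ w : EuclideanSpace ℝ (Fin n), w ≠ 0 → 0 < F (x, w) := by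
    intro x hx w hw
    have hw' : (fun i => w i) ≠ 0 := by
      intro h
      apply hw
      ext i
      exact congrFun h i
    have h := (hpos x hx).dotProduct_mulVec_pos hw'
    have e : star (fun i => w i) ⬝ᵥ (A x).mulVec (fun i => w i) = F (x, w) := by
      simp only [hF, dotProduct, Matrix.mulVec, Pi.star_apply, star_trivial]
      refine Finset.sum_congr rfl fun i _ => ?_
      rw [Finset.mul_sum]
      exact Finset.sum_congr rfl fun j _ => by ring
    rwa [e] at h
  have hcont : ContinuousOn F (K ×ˢ S) := by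
    refine continuousOn_finsetSum _ fun i _ => continuousOn_finsetSum _ fun j _ => ?_
    refine ContinuousOn.mul (ContinuousOn.mul ?_ ?_) ?_
    · exact (hA i j).comp continuousOn_fst fun p hp => hp.1
    · exact ((EuclideanSpace.proj i : EuclideanSpace ℝ (Fin n) →L[ℝ] ℝ).continuous.comp
        continuous_snd).continuousOn
    · exact ((EuclideanSpace.proj j : EuclideanSpace ℝ (Fin n) →L[ℝ] ℝ).continuous.comp
        continuous_snd).continuousOn
  have hlam : ∃ lam : ℝ, 0 < lam ∧ ∀ p ∈ K ×ˢ S, lam ≤ F p := by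
    rcases (K ×ˢ S).eq_empty_or_nonempty with he | hne
    · refine ⟨1, one_pos, fun p hp => ?_⟩
      rw [he] at hp
      exact absurd hp (Set.notMem_empty p)
    · obtain ⟨p, hp, hmin⟩ := (hK.prod hSc).exists_isMinOn hne hcont
      refine ⟨F p, ?_, fun q hq => hmin hq⟩
      have h2 : p.2 ≠ 0 := by
        intro h0
        have := hp.2
        rw [hS, mem_sphere_zero_iff_norm, h0, norm_zero] at this
        exact zero_ne_one this
      exact hposF p.1 hp.1 p.2 h2
  obtain ⟨lam, hlam0, hlam1⟩ := hlam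
  refine ⟨lam, hlam0, fun x hx ξ => ?_⟩
  set w : EuclideanSpace ℝ (Fin n) := WithLp.toLp 2 ξ with hw
  have hwi : ∀ i, w i = ξ i := fun i => rfl
  have hnorm : ∑ i, ξ i ^ 2 = ‖w‖ ^ 2 := by
    rw [EuclideanSpace.norm_sq_eq]
    exact Finset.sum_congr rfl fun i _ => by rw [hwi, Real.norm_eq_abs, sq_abs]
  rw [hnorm]
  by_cases h0 : w = 0
  · have hξ : ∀ i, ξ i = 0 := fun i => by rw [← hwi, h0]; rfl
    simp [h0, hξ]
  · have hn : 0 < ‖w‖ := norm_pos_iff.2 h0
    have h1 := hlam1 (x, ‖w‖⁻¹ • w) ⟨hx, by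
      rw [hS, mem_sphere_zero_iff_norm, norm_smul, norm_inv, norm_norm,
        inv_mul_cancel₀ hn.ne']⟩
    have e : F (x, ‖w‖⁻¹ • w) = (‖w‖⁻¹) ^ 2 * ∑ i, ∑ j, A x i j * ξ i * ξ j := by
      simp only [hF, PiLp.smul_apply, smul_eq_mul, hwi]
      rw [Finset.mul_sum]
      refine Finset.sum_congr rfl fun i _ => ?_
      rw [Finset.mul_sum]
      exact Finset.sum_congr rfl fun j _ => by ring
    rw [e] at h1
    have h2 : lam * ‖w‖ ^ 2 ≤ ((‖w‖⁻¹) ^ 2 * ∑ i, ∑ j, A x i j * ξ i * ξ j) * ‖w‖ ^ 2 := by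
      gcongr
    refine h2.trans (le_of_eq ?_)
    field_simp

lemma contDiff_mul_of_tsupport {U : Set (EuclideanSpace ℝ (Fin n))} (hU : IsOpen U)
    {η g : EuclideanSpace ℝ (Fin n) → ℝ} (hη : ContDiff ℝ ∞ η) (hs : tsupport η ⊆ U)
    (hg : ContDiffOn ℝ ∞ g U) : ContDiff ℝ ∞ fun x => η x * g x := by
  rw [contDiff_iff_contDiffAt]
  intro x
  by_cases hx : x ∈ U
  · exact hη.contDiffAt.mul (hg.contDiffAt (hU.mem_nhds hx))
  · have hx' : x ∉ tsupport η := fun h => hx (hs h)
    have : (fun x => η x * g x) =ᶠ[nhds x] fun _ => 0 := by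
      filter_upwards [(isClosed_tsupport η).isOpen_compl.mem_nhds hx'] with y hy
      rw [image_eq_zero_of_notMem_tsupport hy, zero_mul]
    exact contDiffAt_const.congr_of_eventuallyEq this

/-- `divA` only depends on `A` near the support / locally. -/
lemma divA_congr_of_open {W : Set (EuclideanSpace ℝ (Fin n))} (hW : IsOpen W)
    {A A' : EuclideanSpace ℝ (Fin n) → Matrix (Fin n) (Fin n) ℝ}
    (hA : ∀ x ∈ W, ∀ i j, A x i j = A' x i j) {φ ψ : EuclideanSpace ℝ (Fin n) → ℝ}
    (hφ : ∀ x ∈ W, φ x = ψ x) {x : EuclideanSpace ℝ (Fin n)} (hx : x ∈ W) :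
    divA A φ x = divA A' ψ x := by
  unfold divA
  refine Finset.sum_congr rfl fun i _ => pderiv_congr ?_ i
  filter_upwards [hW.mem_nhds hx] with y hy
  refine Finset.sum_congr rfl fun j _ => ?_
  rw [hA y hy i j]
  congr 1
  refine pderiv_congr ?_ j
  filter_upwards [hW.mem_nhds hy] with z hz
  exact hφ z hz

lemma tsupport_divA_subset (A : EuclideanSpace ℝ (Fin n) → Matrix (Fin n) (Fin n) ℝ)
    (φ : EuclideanSpace ℝ (Fin n) → ℝ) : tsupport (divA A φ) ⊆ tsupport φ := by
  refine closure_minimal ?_ (isClosed_tsupport _)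
  intro x hx
  by_contra hx'
  rw [Function.mem_support] at hx
  apply hx
  have hopen := (isClosed_tsupport φ).isOpen_compl
  have : divA A φ x = divA A (fun _ => (0 : ℝ)) x :=
    divA_congr_of_open hopen (A' := A) (fun _ _ _ _ => rfl)
      (fun y hy => image_eq_zero_of_notMem_tsupport hy) hx'
  rw [this]
  unfold divA pderiv
  simp

lemma divA_congr_tsupport {W : Set (EuclideanSpace ℝ (Fin n))} (hW : IsOpen W)
    {A A' : EuclideanSpace ℝ (Fin n) → Matrix (Fin n) (Fin n) ℝ}
    (hA : ∀ x ∈ W, ∀ i j, A x i j = A' x i j) {φ : EuclideanSpace ℝ (Fin n) → ℝ}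
    (hφ : tsupport φ ⊆ W) (x : EuclideanSpace ℝ (Fin n)) :
    divA A φ x = divA A' φ x := by
  by_cases hx : x ∈ W
  · exact divA_congr_of_open hW hA (fun _ _ => rfl) hx
  · have hx' : x ∉ tsupport φ := fun h => hx (hφ h)
    rw [image_eq_zero_of_notMem_tsupport fun h => hx' (tsupport_divA_subset A φ h),
      image_eq_zero_of_notMem_tsupport fun h => hx' (tsupport_divA_subset A' φ h)]

/-- **Local theorem.** -/
theorem local_ell {U : Set (EuclideanSpace ℝ (Fin n))} (hU : IsOpen U)
    {A : EuclideanSpace ℝ (Fin n) → Matrix (Fin n) (Fin n) ℝ}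
    (hA : ∀ i j, ContDiffOn ℝ ∞ (fun x => A x i j) U) (hpos : ∀ x ∈ U, (A x).PosDef)
    {f : EuclideanSpace ℝ (Fin n) → ℝ} (hf : ContDiffOn ℝ ∞ f U)
    {u : EuclideanSpace ℝ (Fin n) → ℝ} (hu : LocallyIntegrableOn u U)
    (h : ∀ φ : EuclideanSpace ℝ (Fin n) → ℝ, ContDiff ℝ ∞ φ → HasCompactSupport φ →
      tsupport φ ⊆ U → ∫ x, u x * divA A φ x = ∫ x, f x * φ x)
    {c : EuclideanSpace ℝ (Fin n)} (hc : c ∈ U) :
    ∃ ρ : ℝ, 0 < ρ ∧ Metric.ball c ρ ⊆ U ∧ ∃ V : EuclideanSpace ℝ (Fin n) → ℝ,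
      ContDiff ℝ ∞ V ∧ (∀ᵐ x, x ∈ Metric.ball c ρ → V x = u x) ∧
      ∀ x ∈ Metric.ball c ρ, divA A V x = f x := by
  obtain ⟨R, hR0, hR⟩ := Metric.isOpen_iff.1 hU c hc
  set r : ℝ := min (R / 2) (1 / 4) with hr
  have hr0 : 0 < r := lt_min (by linarith) (by norm_num)
  have hrR : r < R := (min_le_left _ _).trans_lt (by linarith)
  have hr2 : r < 1 / 2 := (min_le_right _ _).trans_lt (by norm_num)
  have hcb : Metric.closedBall c r ⊆ U := (Metric.closedBall_subset_ball hrR).trans hR
  -- cutoffs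
  let η : ContDiffBump c := ⟨r / 2, 3 * r / 4, by linarith, by linarith⟩
  have hηs : tsupport η ⊆ Metric.ball c r := by
    rw [η.tsupport_eq]
    exact Metric.closedBall_subset_ball (by show 3 * r / 4 < r; linarith)
  have hηc : ContDiff ℝ ∞ (η : EuclideanSpace ℝ (Fin n) → ℝ) := η.contDiff
  have hη1 : ∀ x ∈ Metric.ball c (r / 2), η x = 1 := fun x hx =>
    η.one_of_mem_closedBall (Metric.ball_subset_closedBall hx)
  have hη01 : ∀ x, 0 ≤ η x ∧ η x ≤ 1 := fun x => ⟨η.nonneg, η.le_one⟩
  let χ : ContDiffBump c := ⟨r / 8, r / 4, by linarith, by linarith⟩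
  have hχs : tsupport χ ⊆ Metric.ball c (r / 2) := by
    rw [χ.tsupport_eq]
    exact Metric.closedBall_subset_ball (by show r / 4 < r / 2; linarith)
  have hχ1 : ∀ x ∈ Metric.ball c (r / 8), χ x = 1 := fun x hx =>
    χ.one_of_mem_closedBall (Metric.ball_subset_closedBall hx)
  have hηU : tsupport η ⊆ U := hηs.trans (Metric.ball_subset_closedBall.trans hcb)
  -- coefficients
  set B : Fin n → Fin n → EuclideanSpace ℝ (Fin n) → ℝ := fun i j x =>
    η x * (A x i j - if i = j then 1 else 0) with hB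
  have hBc : ∀ i j, ContDiff ℝ ∞ (B i j) := fun i j =>
    contDiff_mul_of_tsupport hU hηc hηU ((hA i j).sub contDiffOn_const)
  have hBs : ∀ i j, tsupport (B i j) ⊆ Metric.ball c r := fun i j =>
    (tsupport_mul_subset_left).trans hηs
  obtain ⟨lam0, hlam0, hell0⟩ := exists_lam (isCompact_closedBall c r)
    (fun i j => ((hA i j).continuousOn.mono hcb)) fun x hx => hpos x (hcb hx)
  have hell : Elliptic (min lam0 1) B := by
    intro x ξ
    have hsq : 0 ≤ ∑ i, ξ i ^ 2 := Finset.sum_nonneg fun i _ => sq_nonneg _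
    have hδ : ∑ i, ∑ j, ((if i = j then (1 : ℝ) else 0) * ξ i * ξ j) = ∑ i, ξ i ^ 2 := by
      refine Finset.sum_congr rfl fun i _ => ?_
      rw [Finset.sum_eq_single i]
      · simp [sq]
      · intro j _ hj; simp [hj.symm]
      · simp
    have e : ∑ i, ∑ j, ((if i = j then 1 else 0) + B i j x) * ξ i * ξ j =
        (1 - η x) * ∑ i, ξ i ^ 2 + η x * ∑ i, ∑ j, A x i j * ξ i * ξ j := by
      rw [← hδ, Finset.mul_sum, Finset.mul_sum, ← Finset.sum_add_distrib]
      refine Finset.sum_congr rfl fun i _ => ?_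
      rw [Finset.mul_sum, Finset.mul_sum, ← Finset.sum_add_distrib]
      refine Finset.sum_congr rfl fun j _ => ?_
      simp only [hB]
      ring
    rw [e]
    have h1 := hη01 x
    by_cases hx : x ∈ Metric.closedBall c r
    · have h2 := hell0 x hx ξ
      have h3 : min lam0 1 * ∑ i, ξ i ^ 2 ≤ lam0 * ∑ i, ξ i ^ 2 :=
        mul_le_mul_of_nonneg_right (min_le_left _ _) hsq
      have h4 : min lam0 1 * ∑ i, ξ i ^ 2 ≤ 1 * ∑ i, ξ i ^ 2 :=
        mul_le_mul_of_nonneg_right (min_le_right _ _) hsq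
      nlinarith [h1.1, h1.2]
    · have hx0 : η x = 0 := image_eq_zero_of_notMem_tsupport fun h' =>
        hx (Metric.ball_subset_closedBall (hηs h'))
      rw [hx0]
      have h4 : min lam0 1 * ∑ i, ξ i ^ 2 ≤ 1 * ∑ i, ξ i ^ 2 :=
        mul_le_mul_of_nonneg_right (min_le_right _ _) hsq
      linarith
  have hD : LocData c r (min lam0 1) B :=
    ⟨hr2, hBc, hBs, lt_min hlam0 one_pos, hell⟩
  have hAB : ∀ x ∈ Metric.ball c (r / 2), ∀ i j, A x i j = AB B x i j := by
    intro x hx i j
    rw [AB_apply]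
    simp only [hB]
    rw [hη1 x hx]
    ring
  -- truncated data
  set u0 : EuclideanSpace ℝ (Fin n) → ℝ := (Metric.closedBall c r).indicator u with hu0
  have hu0i : Integrable u0 := by
    rw [hu0, integrable_indicator_iff Metric.isClosed_closedBall.measurableSet]
    exact hu.integrableOn_compact_subset hcb (isCompact_closedBall c r)
  set f0 : EuclideanSpace ℝ (Fin n) → ℝ := fun x => η x * f x with hf0
  have hf0c : ContDiff ℝ ∞ f0 := contDiff_mul_of_tsupport hU hηc hηU hf
  have hsub : Metric.ball c (r / 2) ⊆ U :=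
    (Metric.ball_subset_ball (by linarith)).trans (Metric.ball_subset_closedBall.trans hcb)
  have hreal : ∀ φ : EuclideanSpace ℝ (Fin n) → ℝ, ContDiff ℝ ∞ φ →
      tsupport φ ⊆ Metric.ball c (r / 2) →
      ∫ x, u0 x * divA (AB B) φ x = ∫ x, f0 x * φ x := by
    intro φ hφ hφs
    have h1 := h φ hφ (hasCompactSupport_of_ball hφs) (hφs.trans hsub)
    have e1 : ∀ x, u0 x * divA (AB B) φ x = u x * divA A φ x := by
      intro x
      rw [divA_congr_tsupport Metric.isOpen_ball hAB hφs x]
      by_cases hx : x ∈ Metric.closedBall c r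
      · rw [hu0, Set.indicator_of_mem hx]
      · have hx' : x ∉ tsupport φ := fun h' => hx (Metric.ball_subset_closedBall
          (Metric.ball_subset_ball (by linarith) (hφs h')))
        rw [image_eq_zero_of_notMem_tsupport fun h => hx' (tsupport_divA_subset (AB B) φ h)]
        ring
    have e2 : ∀ x, f0 x * φ x = f x * φ x := by
      intro x
      by_cases hx : x ∈ tsupport φ
      · simp only [hf0]
        rw [hη1 x (hφs hx), one_mul]
      · rw [image_eq_zero_of_notMem_tsupport hx]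
        ring
    rw [integral_congr_ae (Eventually.of_forall e1), integral_congr_ae (Eventually.of_forall e2)]
    exact h1
  have hCEq := CEq_of_real hBc hu0i hf0c hreal
  obtain ⟨V, hV, hVu⟩ := local_smooth (by linarith : r / 2 ≤ r) hD hu0i.ofReal
    (contDiff_ofReal' hf0c) hCEq (fun x => ((χ x : ℝ) : ℂ))
    (contDiff_ofReal' χ.contDiff) ((tsupport_ofReal _).trans hχs)
  have hWs : ContDiff ℝ ∞ fun x => (V x).re := Complex.reCLM.contDiff.comp hV
  have hWu : ∀ᵐ x, x ∈ Metric.ball c (r / 8) → (V x).re = u x := by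
    filter_upwards [hVu] with x hx hxb
    have hxb2 : x ∈ Metric.ball c (r / 2) := Metric.ball_subset_ball (by linarith) hxb
    rw [hx hxb2, hχ1 x hxb, hu0, Set.indicator_of_mem (Metric.ball_subset_closedBall
      (Metric.ball_subset_ball (by linarith) hxb))]
    simp
  have hsub8 : Metric.ball c (r / 8) ⊆ U := (Metric.ball_subset_ball (by linarith)).trans hsub
  refine ⟨r / 8, by linarith, hsub8, fun x => (V x).re, hWs, hWu, ?_⟩
  -- the equation
  set W : EuclideanSpace ℝ (Fin n) → ℝ := fun x => (V x).re with hW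
  have hABc := contDiff_AB hBc
  have hdivc : ContDiff ℝ ∞ (divA (AB B) W) := contDiff_divA hABc hWs
  have hsymm : ∀ x i j, AB B x i j = AB B x j i := by
    intro x i j
    rw [AB_apply, AB_apply]
    simp only [hB]
    by_cases hx : x ∈ tsupport η
    · have hs := (hpos x (hηU hx)).isHermitian.apply i j
      simp only [star_trivial] at hs
      rw [hs]
      simp only [eq_comm (a := j) (b := i)]
    · rw [image_eq_zero_of_notMem_tsupport hx]
      simp only [eq_comm (a := j) (b := i)]
      ring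
  have hae : ∀ᵐ x, x ∈ Metric.ball c (r / 8) → divA (AB B) W x - f0 x = 0 := by
    refine IsOpen.ae_eq_zero_of_integral_contDiff_smul_eq_zero Metric.isOpen_ball
      ((hdivc.sub hf0c).continuous.locallyIntegrable.locallyIntegrableOn _) ?_
    intro g hg hgc hgs
    have hgs2 : tsupport g ⊆ Metric.ball c (r / 2) :=
      hgs.trans (Metric.ball_subset_ball (by linarith))
    have h1 := hreal g hg hgs2
    have h2 := green hABc hsymm hWs hg hgc
    have h3 : ∫ x, W x * divA (AB B) g x = ∫ x, u0 x * divA (AB B) g x := by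
      refine integral_congr_ae ?_
      filter_upwards [hWu] with x hx
      by_cases hxg : x ∈ tsupport g
      · have hxb := hgs hxg
        have hWx : W x = u x := hx hxb
        rw [hWx, hu0, Set.indicator_of_mem (Metric.ball_subset_closedBall
          (Metric.ball_subset_ball (by linarith) hxb))]
      · rw [image_eq_zero_of_notMem_tsupport fun h => hxg (tsupport_divA_subset (AB B) g h)]
        ring
    have i1 : Integrable (fun x => divA (AB B) W x * g x) :=
      (hdivc.mul hg).continuous.integrable_of_hasCompactSupport hgc.mul_left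
    have i2 : Integrable (fun x => f0 x * g x) :=
      (hf0c.mul hg).continuous.integrable_of_hasCompactSupport hgc.mul_left
    have h4 : ∫ x, g x • (divA (AB B) W x - f0 x) =
        ∫ x, divA (AB B) W x * g x - f0 x * g x := by
      refine integral_congr_ae (Eventually.of_forall fun x => ?_)
      simp only [smul_eq_mul]
      ring
    rw [h4, integral_sub i1 i2, ← h2, h3, h1, sub_self]
  have hEq : Set.EqOn (divA (AB B) W) f0 (Metric.ball c (r / 8)) := by
    refine Measure.eqOn_open_of_ae_eq (μ := volume) ?_ Metric.isOpen_ball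
      hdivc.continuous.continuousOn hf0c.continuous.continuousOn
    rw [EventuallyEq, ae_restrict_iff' Metric.isOpen_ball.measurableSet]
    filter_upwards [hae] with x hx hxb
    exact sub_eq_zero.1 (hx hxb)
  intro x hx
  have hx2 : x ∈ Metric.ball c (r / 2) := Metric.ball_subset_ball (by linarith) hx
  rw [divA_congr_of_open Metric.isOpen_ball hAB (fun _ _ => rfl) hx2, hEq hx]
  simp only [hf0]
  rw [hη1 x hx2, one_mul]

/-- **(R1) Elliptic regularity**: distributional solutions are smooth. -/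
theorem ell_regularity (n : ℕ) : EllRegularity n := by
  intro U hU A hA hpos f hf u hu h
  have hloc := fun (c : EuclideanSpace ℝ (Fin n)) (hc : c ∈ U) =>
    local_ell hU hA hpos hf hu h hc
  choose! ρ hρ0 hρU V hV hVu hVf using hloc
  -- consistency
  have hcons : ∀ a ∈ U, ∀ b ∈ U, Set.EqOn (V a) (V b) (Metric.ball a (ρ a) ∩ Metric.ball b (ρ b)) := by
    intro a ha b hb
    refine Measure.eqOn_open_of_ae_eq (μ := volume) ?_ (Metric.isOpen_ball.inter Metric.isOpen_ball)
      (hV a ha).continuous.continuousOn (hV b hb).continuous.continuousOn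
    rw [EventuallyEq, ae_restrict_iff' (Metric.isOpen_ball.inter Metric.isOpen_ball).measurableSet]
    filter_upwards [hVu a ha, hVu b hb] with x h1 h2 hx
    rw [h1 hx.1, h2 hx.2]
  have hvloc : ∀ c ∈ U, ∀ x ∈ Metric.ball c (ρ c), V x x = V c x := by
    intro c hc x hx
    have hxU := hρU c hc hx
    exact hcons x hxU c hc ⟨Metric.mem_ball_self (hρ0 x hxU), hx⟩
  refine ⟨fun x => V x x, ?_, ?_, ?_⟩
  · intro c hc
    refine ContDiffAt.contDiffWithinAt ?_
    have he : (fun x => V x x) =ᶠ[nhds c] V c := by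
      filter_upwards [Metric.ball_mem_nhds c (hρ0 c hc)] with x hx
      exact hvloc c hc x hx
    exact (hV c hc).contDiffAt.congr_of_eventuallyEq he
  · rw [ae_iff]
    refine measure_null_of_locally_null _ fun c hc => ?_
    simp only [Classical.not_imp, Set.mem_ofPred_eq] at hc
    refine ⟨_, inter_mem_nhdsWithin _ (Metric.ball_mem_nhds c (hρ0 c hc.1)), ?_⟩
    have h0 := hVu c hc.1
    rw [ae_iff] at h0
    refine measure_mono_null ?_ h0
    intro x hx
    simp only [Classical.not_imp, Set.mem_ofPred_eq, Set.mem_inter_iff] at hx ⊢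
    refine ⟨hx.2, ?_⟩
    rw [← hvloc c hc.1 x hx.2]
    exact hx.1.2
  · intro c hc
    rw [← hVf c hc c (Metric.mem_ball_self (hρ0 c hc))]
    exact divA_congr_of_open Metric.isOpen_ball (fun _ _ _ _ => rfl) (hvloc c hc)
      (Metric.mem_ball_self (hρ0 c hc))

/-- integration by parts with `v` smooth on `U` only. -/
lemma ibpU {U : Set (EuclideanSpace ℝ (Fin n))} (hU : IsOpen U)
    {v φ : EuclideanSpace ℝ (Fin n) → ℝ} (hv : ContDiffOn ℝ ∞ v U) (hφ : ContDiff ℝ ∞ φ)
    (hφc : HasCompactSupport φ) (hφs : tsupport φ ⊆ U) (j : Fin n) :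
    ∫ x, v x * pderiv j φ x = -∫ x, pderiv j v x * φ x := by
  have hg : ContDiff ℝ ∞ fun x => φ x * v x := contDiff_mul_of_tsupport hU hφ hφs hv
  have hgc : HasCompactSupport fun x => φ x * v x := hφc.mul_right
  have h0 := ibpR (f := fun _ => (1 : ℝ)) contDiff_const hg hgc j
  have h1 : ∀ x, pderiv j (fun x => φ x * v x) x = v x * pderiv j φ x + φ x * pderiv j v x := by
    intro x
    by_cases hx : x ∈ U
    · unfold pderiv
      rw [fderiv_fun_mul ((hφ.differentiable (by simp)) x)
        ((hv.contDiffAt (hU.mem_nhds hx)).differentiableAt (by simp))]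
      simp
      ring
    · have hx' : x ∉ tsupport φ := fun h => hx (hφs h)
      rw [pderiv_eq_zero_of_notMem hx', image_eq_zero_of_notMem_tsupport hx',
        pderiv_eq_zero_of_notMem fun h => hx' (tsupport_mul_subset_left h)]
      ring
  have c1 : ContDiff ℝ ∞ fun x => pderiv j φ x * v x :=
    contDiff_mul_of_tsupport hU (contDiff_pderiv hφ j) ((tsupport_pderiv_subset φ j).trans hφs) hv
  have c2 : ContDiff ℝ ∞ fun x => φ x * pderiv j v x :=
    contDiff_mul_of_tsupport hU hφ hφs (contDiffOn_pd hU hv j)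
  have i1 : Integrable fun x => v x * pderiv j φ x :=
    (c1.continuous.integrable_of_hasCompactSupport (hasCompactSupport_pderiv hφc j).mul_right).congr
      (Eventually.of_forall fun x => mul_comm _ _)
  have i2 : Integrable fun x => φ x * pderiv j v x :=
    c2.continuous.integrable_of_hasCompactSupport hφc.mul_right
  have h2 : ∫ x, pderiv j (fun x => φ x * v x) x = 0 := by
    have e : pderiv j (fun _ : EuclideanSpace ℝ (Fin n) => (1 : ℝ)) = fun _ => 0 := by
      funext x; unfold pderiv; simp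
    rw [e] at h0
    simpa using h0
  simp only [h1] at h2
  rw [integral_add i1 i2] at h2
  have e3 : ∫ x, pderiv j v x * φ x = ∫ x, φ x * pderiv j v x :=
    integral_congr_ae (Eventually.of_forall fun x => mul_comm _ _)
  rw [e3]
  linarith

/-- **Corollary**: a weak gradient in `L¹_loc(U)` is the classical gradient a.e. -/
theorem weak_grad_eq {U : Set (EuclideanSpace ℝ (Fin n))} (hU : IsOpen U)
    {u v : EuclideanSpace ℝ (Fin n) → ℝ} (hv : ContDiffOn ℝ ∞ v U)
    (hvu : ∀ᵐ x, x ∈ U → v x = u x) (j : Fin n)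
    {G : EuclideanSpace ℝ (Fin n) → ℝ} (hG : LocallyIntegrableOn G U)
    (h : ∀ φ : EuclideanSpace ℝ (Fin n) → ℝ, ContDiff ℝ ∞ φ → HasCompactSupport φ →
      tsupport φ ⊆ U → ∫ x, u x * pderiv j φ x = -∫ x, G x * φ x) :
    ∀ᵐ x, x ∈ U → G x = pderiv j v x := by
  have hdv : ContinuousOn (pderiv j v) U := (contDiffOn_pd hU hv j).continuousOn
  have hdvl : LocallyIntegrableOn (pderiv j v) U :=
    hdv.locallyIntegrableOn hU.measurableSet
  have key : ∀ᵐ x, x ∈ U → G x - pderiv j v x = 0 := by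
    refine IsOpen.ae_eq_zero_of_integral_contDiff_smul_eq_zero hU (hG.sub hdvl) ?_
    intro φ hφ hφc hφs
    have h1 := h φ hφ hφc hφs
    have h2 := ibpU hU hv hφ hφc hφs j
    have h3 : ∫ x, v x * pderiv j φ x = ∫ x, u x * pderiv j φ x := by
      refine integral_congr_ae ?_
      filter_upwards [hvu] with x hx
      by_cases hxU : x ∈ U
      · rw [hx hxU]
      · rw [pderiv_eq_zero_of_notMem fun h => hxU (hφs h)]
        ring
    have i1 : Integrable fun x => φ x • G x := by
      have hI : Integrable ((tsupport φ).indicator G) := by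
        rw [integrable_indicator_iff (isClosed_tsupport φ).measurableSet]
        exact hG.integrableOn_compact_subset hφs hφc.isCompact
      obtain ⟨C, hC⟩ := hφc.exists_bound_of_continuous hφ.continuous
      refine (hI.mul_bdd hφ.continuous.aestronglyMeasurable (Eventually.of_forall hC)).congr
        (Eventually.of_forall fun x => ?_)
      simp only [smul_eq_mul]
      by_cases hx : x ∈ tsupport φ
      · rw [Set.indicator_of_mem hx, mul_comm]
      · rw [Set.indicator_of_notMem hx, image_eq_zero_of_notMem_tsupport hx]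
        ring
    have c2 : ContDiff ℝ ∞ fun x => φ x * pderiv j v x :=
      contDiff_mul_of_tsupport hU hφ hφs (contDiffOn_pd hU hv j)
    have i2 : Integrable fun x => φ x * pderiv j v x :=
      c2.continuous.integrable_of_hasCompactSupport hφc.mul_right
    have e1 : ∫ x, φ x • (G x - pderiv j v x) = ∫ x, φ x • G x - φ x * pderiv j v x := by
      refine integral_congr_ae (Eventually.of_forall fun x => ?_)
      simp only [smul_eq_mul]; ring
    have e2 : ∫ x, φ x • G x = ∫ x, G x * φ x :=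
      integral_congr_ae (Eventually.of_forall fun x => mul_comm _ _)
    have e3 : ∫ x, φ x * pderiv j v x = ∫ x, pderiv j v x * φ x :=
      integral_congr_ae (Eventually.of_forall fun x => mul_comm _ _)
    rw [e1, integral_sub i1 i2, e2, e3]
    linarith
  filter_upwards [key] with x hx hxU
  exact sub_eq_zero.1 (hx hxU)

end Crest.Agent.R202.Ell
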