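import Mathlib
import Crest.Prelude.Def_CoordMetric
import Crest.Prelude.Def_CoordVolume
import Crest.Agent.R202.GeoDefs

-- ▼ part R202/GeoDist
section

/-!
Row 202, part D4: distance, completeness and asymptotic volume ratio of a coordinate metric field
for which the position vector is the radial unit field (`g x *ᵥ x = x`).
-/

set_option autoImplicit false

open scoped ContDiff
open MeasureTheory Set Filter Topology
open Crest.GeometryTopology.CoordMetric

namespace Crest.Agent.R202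

variable {n : ℕ}

/-- The hypotheses of part D4: a Riemannian metric on all of `ℝⁿ` whose radial lines are unit
speed and orthogonal to the spheres. -/
structure RadialMetric (g : MetricField n) : Prop where
  riem : IsRiemannianOn g Set.univ
  radial : ∀ (x : EuclideanSpace ℝ (Fin n)) (i : Fin n), ∑ j, g x i j * x j = x i

namespace RadialMetric

variable {g : MetricField n}

lemma continuous_entry (hg : RadialMetric g) (i j : Fin n) : Continuous fun x => g x i j :=
  continuousOn_univ.1 (hg.riem.contDiffOn i j).continuousOn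

lemma symm (hg : RadialMetric g) (x : EuclideanSpace ℝ (Fin n)) (i j : Fin n) :
    g x i j = g x j i := by
  have h := (hg.riem.posDef x (mem_univ x)).isHermitian
  have := h.apply j i
  simpa using this

lemma continuous_quadForm (hg : RadialMetric g) :
    Continuous fun p : EuclideanSpace ℝ (Fin n) × EuclideanSpace ℝ (Fin n) =>
      quadForm g p.1 p.2 := by
  unfold quadForm
  refine continuous_finsetSum _ fun i _ => continuous_finsetSum _ fun j _ => ?_
  refine (((hg.continuous_entry i j).comp continuous_fst).mul ?_).mul ?_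
  · exact (EuclideanSpace.proj (𝕜 := ℝ) i).continuous.comp continuous_snd
  · exact (EuclideanSpace.proj (𝕜 := ℝ) j).continuous.comp continuous_snd

lemma quadForm_pos (hg : RadialMetric g) (x v : EuclideanSpace ℝ (Fin n)) (hv : v ≠ 0) :
    0 < quadForm g x v := by
  have h := (hg.riem.posDef x (mem_univ x))
  have hv' : (WithLp.ofLp v : Fin n → ℝ) ≠ 0 := by
    intro h0
    apply hv
    ext i
    exact congrFun h0 i
  have h2 := h.dotProduct_mulVec_pos hv'
  have : quadForm g x v = star (WithLp.ofLp v) ⬝ᵥ (g x).mulVec (WithLp.ofLp v) := by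
    simp only [quadForm, dotProduct, Matrix.mulVec, Finset.mul_sum, star_trivial]
    refine Finset.sum_congr rfl fun i _ => Finset.sum_congr rfl fun j _ => by ring
  rw [this]
  exact h2

lemma quadForm_nonneg (hg : RadialMetric g) (x v : EuclideanSpace ℝ (Fin n)) :
    0 ≤ quadForm g x v := by
  by_cases hv : v = 0
  · subst hv; simp [quadForm]
  · exact (hg.quadForm_pos x v hv).le

lemma inner_eq (hg : RadialMetric g) (x v : EuclideanSpace ℝ (Fin n)) :
    ∑ i, ∑ j, g x i j * x i * v j = inner ℝ x v := by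
  rw [Finset.sum_comm]
  rw [PiLp.inner_apply]
  refine Finset.sum_congr rfl fun j _ => ?_
  have : ∑ i, g x i j * x i * v j = (∑ i, g x j i * x i) * v j := by
    rw [Finset.sum_mul]
    refine Finset.sum_congr rfl fun i _ => ?_
    rw [hg.symm x i j]
  rw [this, hg.radial x j]
  simp [mul_comm]

lemma quadForm_sub_smul (hg : RadialMetric g) (x v : EuclideanSpace ℝ (Fin n)) (s : ℝ) :
    quadForm g x (v - s • x) = quadForm g x v - 2 * s * inner ℝ x v + s ^ 2 * ‖x‖ ^ 2 := by
  have h1 := hg.inner_eq x v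
  have h1' : ∑ i, ∑ j, g x i j * v i * x j = inner ℝ x v := by
    rw [← h1, Finset.sum_comm]
    refine Finset.sum_congr rfl fun i _ => Finset.sum_congr rfl fun j _ => ?_
    rw [hg.symm x i j]; ring
  have h2 := hg.inner_eq x x
  rw [real_inner_self_eq_norm_sq] at h2
  rw [← h2]
  have : 2 * s * inner ℝ x v = s * (∑ i, ∑ j, g x i j * x i * v j)
      + s * (∑ i, ∑ j, g x i j * v i * x j) := by rw [h1, h1']; ring
  rw [this]
  simp only [quadForm, Finset.mul_sum]
  rw [← Finset.sum_add_distrib, ← Finset.sum_sub_distrib, ← Finset.sum_add_distrib]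
  refine Finset.sum_congr rfl fun i _ => ?_
  rw [← Finset.sum_add_distrib, ← Finset.sum_sub_distrib, ← Finset.sum_add_distrib]
  refine Finset.sum_congr rfl fun j _ => ?_
  simp only [PiLp.sub_apply, PiLp.smul_apply, smul_eq_mul]
  ring

/-- Cauchy–Schwarz: the radial component of a vector is at most its `g`-length. -/
lemma abs_inner_le (hg : RadialMetric g) (x v : EuclideanSpace ℝ (Fin n)) :
    |inner ℝ x v| ≤ ‖x‖ * Real.sqrt (quadForm g x v) := by
  by_cases hx : x = 0
  · subst hx; simp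
  have hx' : 0 < ‖x‖ := norm_pos_iff.2 hx
  have h := hg.quadForm_nonneg x (v - (inner ℝ x v / ‖x‖ ^ 2) • x)
  rw [hg.quadForm_sub_smul] at h
  have h3 : (inner ℝ x v) ^ 2 ≤ (‖x‖ * Real.sqrt (quadForm g x v)) ^ 2 := by
    rw [mul_pow, Real.sq_sqrt (hg.quadForm_nonneg x v)]
    have h4 : quadForm g x v - 2 * (inner ℝ x v / ‖x‖ ^ 2) * inner ℝ x v
        + (inner ℝ x v / ‖x‖ ^ 2) ^ 2 * ‖x‖ ^ 2
        = quadForm g x v - (inner ℝ x v) ^ 2 / ‖x‖ ^ 2 := by
      field_simp; ring
    rw [h4, sub_nonneg, div_le_iff₀ (by positivity)] at h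
    linarith
  exact abs_le_of_sq_le_sq h3 (by positivity)

/-- continuity of the length integrand -/
lemma continuous_speed (hg : RadialMetric g) {γ : ℝ → EuclideanSpace ℝ (Fin n)}
    (hγ : ContDiff ℝ 1 γ) :
    Continuous fun t => Real.sqrt (quadForm g (γ t) (deriv γ t)) := by
  have h1 : Continuous γ := hγ.continuous
  have h2 : Continuous (deriv γ) := hγ.continuous_deriv le_rfl
  exact Real.continuous_sqrt.comp (hg.continuous_quadForm.comp (h1.prodMk h2))

lemma abs_norm_sub_le (hg : RadialMetric g) {γ : ℝ → EuclideanSpace ℝ (Fin n)}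
    (hγ : ContDiff ℝ 1 γ) {a b : ℝ} (hab : a ≤ b) :
    |‖γ b‖ - ‖γ a‖| ≤ ∫ t in a..b, Real.sqrt (quadForm g (γ t) (deriv γ t)) := by
  set L := ∫ t in a..b, Real.sqrt (quadForm g (γ t) (deriv γ t)) with hL
  have key : ∀ ε : ℝ, 0 < ε →
      |Real.sqrt (‖γ b‖ ^ 2 + ε ^ 2) - Real.sqrt (‖γ a‖ ^ 2 + ε ^ 2)| ≤ L := by
    intro ε hε
    have hpos : ∀ t, 0 < ‖γ t‖ ^ 2 + ε ^ 2 := fun t => by positivity
    have hd : ∀ t, HasDerivAt (fun t => Real.sqrt (‖γ t‖ ^ 2 + ε ^ 2))
        (inner ℝ (γ t) (deriv γ t) / Real.sqrt (‖γ t‖ ^ 2 + ε ^ 2)) t := by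
      intro t
      have h1 : HasDerivAt γ (deriv γ t) t :=
        ((hγ.differentiable (by norm_num)) t).hasDerivAt
      have h2 : HasDerivAt (fun t => ‖γ t‖ ^ 2 + ε ^ 2) (2 * inner ℝ (γ t) (deriv γ t)) t := by
        have := (h1.norm_sq).add_const (ε ^ 2)
        simpa using this
      have h3 := h2.sqrt (hpos t).ne'
      convert h3 using 1
      field_simp
    have hc : Continuous fun t =>
        inner ℝ (γ t) (deriv γ t) / Real.sqrt (‖γ t‖ ^ 2 + ε ^ 2) := by
      have h1 : Continuous γ := hγ.continuous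
      have h2 : Continuous (deriv γ) := hγ.continuous_deriv le_rfl
      refine (h1.inner h2).div (Real.continuous_sqrt.comp ((h1.norm.pow 2).add continuous_const)) ?_
      intro t
      exact (Real.sqrt_pos.2 (hpos t)).ne'
    have hFTC := intervalIntegral.integral_eq_sub_of_hasDerivAt (fun t _ => hd t)
      (hc.intervalIntegrable a b)
    rw [← hFTC]
    have hbound : ∀ t, |inner ℝ (γ t) (deriv γ t) / Real.sqrt (‖γ t‖ ^ 2 + ε ^ 2)|
        ≤ Real.sqrt (quadForm g (γ t) (deriv γ t)) := by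
      intro t
      have hs : 0 < Real.sqrt (‖γ t‖ ^ 2 + ε ^ 2) := Real.sqrt_pos.2 (hpos t)
      rw [abs_div, abs_of_pos hs, div_le_iff₀ hs]
      have h5 : ‖γ t‖ ≤ Real.sqrt (‖γ t‖ ^ 2 + ε ^ 2) := by
        apply Real.le_sqrt_of_sq_le
        nlinarith [sq_nonneg ε]
      calc |inner ℝ (γ t) (deriv γ t)| ≤ ‖γ t‖ * Real.sqrt (quadForm g (γ t) (deriv γ t)) :=
            hg.abs_inner_le _ _
        _ ≤ Real.sqrt (‖γ t‖ ^ 2 + ε ^ 2) * Real.sqrt (quadForm g (γ t) (deriv γ t)) :=
            mul_le_mul_of_nonneg_right h5 (Real.sqrt_nonneg _)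
        _ = _ := mul_comm _ _
    calc |∫ t in a..b, inner ℝ (γ t) (deriv γ t) / Real.sqrt (‖γ t‖ ^ 2 + ε ^ 2)|
        ≤ ∫ t in a..b, |inner ℝ (γ t) (deriv γ t) / Real.sqrt (‖γ t‖ ^ 2 + ε ^ 2)| :=
          intervalIntegral.abs_integral_le_integral_abs hab
      _ ≤ L := by
          apply intervalIntegral.integral_mono_on hab
            (hc.abs.intervalIntegrable a b) ((hg.continuous_speed hγ).intervalIntegrable a b)
          intro t _
          exact hbound t
  -- let ε → 0
  have hlim : Tendsto (fun ε : ℝ =>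
      |Real.sqrt (‖γ b‖ ^ 2 + ε ^ 2) - Real.sqrt (‖γ a‖ ^ 2 + ε ^ 2)|) (𝓝[>] 0)
      (𝓝 |‖γ b‖ - ‖γ a‖|) := by
    have hcont : Continuous (fun ε : ℝ =>
      |Real.sqrt (‖γ b‖ ^ 2 + ε ^ 2) - Real.sqrt (‖γ a‖ ^ 2 + ε ^ 2)|) := by fun_prop
    have h0 := (hcont.tendsto 0).mono_left (nhdsWithin_le_nhds (s := Ioi 0))
    simpa [Real.sqrt_sq (norm_nonneg _)] using h0
  refine le_of_tendsto hlim ?_
  filter_upwards [self_mem_nhdsWithin] with ε hε
  exact key ε hε

lemma curveLength_nonneg (g : MetricField n) (γ : ℝ → EuclideanSpace ℝ (Fin n)) :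
    0 ≤ curveLength g γ := by
  unfold curveLength
  exact intervalIntegral.integral_nonneg zero_le_one fun t _ => Real.sqrt_nonneg _

lemma partial_le_curveLength (hg : RadialMetric g) {γ : ℝ → EuclideanSpace ℝ (Fin n)}
    (hγ : ContDiff ℝ 1 γ) {t : ℝ} (ht : t ∈ Icc (0:ℝ) 1) :
    ∫ s in (0:ℝ)..t, Real.sqrt (quadForm g (γ s) (deriv γ s)) ≤ curveLength g γ := by
  unfold curveLength
  have h1 := (hg.continuous_speed hγ)
  have h2 := intervalIntegral.integral_add_adjacent_intervals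
    (h1.intervalIntegrable 0 t) (h1.intervalIntegrable t 1) (μ := volume)
  rw [← h2]
  have := intervalIntegral.integral_nonneg (μ := volume) (f := fun s =>
    Real.sqrt (quadForm g (γ s) (deriv γ s))) ht.2 fun s _ => Real.sqrt_nonneg _
  linarith

lemma abs_norm_sub_le_curveLength (hg : RadialMetric g) {γ : ℝ → EuclideanSpace ℝ (Fin n)}
    (hγ : ContDiff ℝ 1 γ) {t : ℝ} (ht : t ∈ Icc (0:ℝ) 1) :
    |‖γ t‖ - ‖γ 0‖| ≤ curveLength g γ :=
  (hg.abs_norm_sub_le hγ ht.1).trans (hg.partial_le_curveLength hγ ht)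

/-- the straight segment as an admissible path -/
noncomputable def segPath (x y : EuclideanSpace ℝ (Fin n)) :
    AdmissiblePath Set.univ x y :=
  ⟨fun t => x + t • (y - x), by fun_prop, by simp, by simp, fun _ _ => mem_univ _⟩

instance (x y : EuclideanSpace ℝ (Fin n)) : Nonempty (AdmissiblePath Set.univ x y) :=
  ⟨segPath x y⟩

lemma deriv_seg (x y : EuclideanSpace ℝ (Fin n)) (t : ℝ) :
    deriv (fun t : ℝ => x + t • (y - x)) t = y - x := by
  have h : HasDerivAt (fun t : ℝ => x + t • (y - x)) ((1:ℝ) • (y - x)) t :=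
    ((hasDerivAt_id t).smul_const (y - x)).const_add x
  rw [h.deriv, one_smul]

lemma bddBelow_length (g : MetricField n) (x y : EuclideanSpace ℝ (Fin n)) :
    BddBelow (range fun γ : AdmissiblePath Set.univ x y => curveLength g γ.1) :=
  ⟨0, by rintro _ ⟨γ, rfl⟩; exact curveLength_nonneg g γ.1⟩

lemma riemDist_nonneg (g : MetricField n) (x y : EuclideanSpace ℝ (Fin n)) :
    0 ≤ riemDist g Set.univ x y :=
  le_ciInf fun γ => curveLength_nonneg g γ.1

lemma riemDist_le_seg (g : MetricField n) (x y : EuclideanSpace ℝ (Fin n)) :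
    riemDist g Set.univ x y ≤ curveLength g (fun t => x + t • (y - x)) :=
  ciInf_le (bddBelow_length g x y) (segPath x y)

lemma abs_norm_sub_le_riemDist (hg : RadialMetric g) (x y : EuclideanSpace ℝ (Fin n)) :
    |‖y‖ - ‖x‖| ≤ riemDist g Set.univ x y := by
  refine le_ciInf fun γ => ?_
  have h := hg.abs_norm_sub_le_curveLength γ.2.1 (t := 1) (by simp)
  rw [γ.2.2.1, γ.2.2.2.1] at h
  exact h

lemma quadForm_radial (hg : RadialMetric g) (x : EuclideanSpace ℝ (Fin n)) {t : ℝ} (ht : t ≠ 0) :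
    quadForm g (t • x) x = ‖x‖ ^ 2 := by
  have h := hg.inner_eq (t • x) (t • x)
  rw [real_inner_self_eq_norm_sq, norm_smul, mul_pow] at h
  have h2 : ∑ i, ∑ j, g (t • x) i j * (t • x) i * (t • x) j = t ^ 2 * quadForm g (t • x) x := by
    simp only [quadForm, Finset.mul_sum]
    refine Finset.sum_congr rfl fun i _ => Finset.sum_congr rfl fun j _ => ?_
    simp only [PiLp.smul_apply, smul_eq_mul]
    ring
  rw [h2, Real.norm_eq_abs, sq_abs] at h
  exact mul_left_cancel₀ (pow_ne_zero 2 ht) h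

/-- The `g`-distance from the origin is the Euclidean norm. -/
theorem riemDist_zero (hg : RadialMetric g) (x : EuclideanSpace ℝ (Fin n)) :
    riemDist g Set.univ 0 x = ‖x‖ := by
  apply le_antisymm
  · refine (riemDist_le_seg g 0 x).trans ?_
    unfold curveLength
    have : ∫ t in (0:ℝ)..1, Real.sqrt (quadForm g ((fun t : ℝ => (0 : EuclideanSpace ℝ (Fin n))
        + t • (x - 0)) t) (deriv (fun t : ℝ => (0 : EuclideanSpace ℝ (Fin n)) + t • (x - 0)) t))
        = ∫ t in (0:ℝ)..1, ‖x‖ := by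
      apply intervalIntegral.integral_congr_ae
      refine Eventually.of_forall fun t ht => ?_
      rw [uIoc_of_le zero_le_one] at ht
      rw [deriv_seg]
      simp only [sub_zero, zero_add]
      rw [hg.quadForm_radial x ht.1.ne', Real.sqrt_sq (norm_nonneg x)]
    rw [this]
    simp
  · have := hg.abs_norm_sub_le_riemDist 0 x
    simpa using this

/-- Balls about the origin are Euclidean balls. -/
theorem riemBall_zero (hg : RadialMetric g) (R : ℝ) : riemBall g 0 R = Metric.ball 0 R := by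
  ext y
  simp [riemBall, hg.riemDist_zero]

/-- Two-sided comparison with the Euclidean metric on bounded sets. -/
lemma exists_bounds (hg : RadialMetric g) (R : ℝ) :
    ∃ c C : ℝ, 0 < c ∧ 0 < C ∧ ∀ x v : EuclideanSpace ℝ (Fin n), ‖x‖ ≤ R →
      c * ‖v‖ ≤ Real.sqrt (quadForm g x v) ∧ Real.sqrt (quadForm g x v) ≤ C * ‖v‖ := by
  -- homogeneity
  have hhom : ∀ (x v : EuclideanSpace ℝ (Fin n)) (s : ℝ),
      Real.sqrt (quadForm g x (s • v)) = |s| * Real.sqrt (quadForm g x v) := by
    intro x v s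
    have : quadForm g x (s • v) = s ^ 2 * quadForm g x v := by
      simp only [quadForm, Finset.mul_sum]
      refine Finset.sum_congr rfl fun i _ => Finset.sum_congr rfl fun j _ => ?_
      simp only [PiLp.smul_apply, smul_eq_mul]
      ring
    rw [this, Real.sqrt_mul (sq_nonneg s), Real.sqrt_sq_eq_abs]
  let K : Set (EuclideanSpace ℝ (Fin n) × EuclideanSpace ℝ (Fin n)) :=
    Metric.closedBall 0 R ×ˢ Metric.sphere 0 1
  have hK : IsCompact K := (isCompact_closedBall 0 R).prod (isCompact_sphere 0 1)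
  let f : EuclideanSpace ℝ (Fin n) × EuclideanSpace ℝ (Fin n) → ℝ :=
    fun p => Real.sqrt (quadForm g p.1 p.2)
  have hf : Continuous f := Real.continuous_sqrt.comp hg.continuous_quadForm
  by_cases hne : K.Nonempty
  · obtain ⟨p, hpK, hp⟩ := hK.exists_isMinOn hne hf.continuousOn
    obtain ⟨q, hqK, hq⟩ := hK.exists_isMaxOn hne hf.continuousOn
    have hfp : 0 < f p := by
      apply Real.sqrt_pos.2
      apply hg.quadForm_pos
      have : ‖p.2‖ = 1 := by simpa using hpK.2
      intro h0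
      rw [h0, norm_zero] at this
      exact zero_ne_one this
    have hfq : 0 < f q := hfp.trans_le (hp hqK)
    refine ⟨f p, f q, hfp, hfq, fun x v hx => ?_⟩
    by_cases hv : v = 0
    · subst hv
      simp [quadForm]
    · have hv' : 0 < ‖v‖ := norm_pos_iff.2 hv
      have hmem : (x, (‖v‖⁻¹ : ℝ) • v) ∈ K := by
        refine ⟨by simpa using hx, ?_⟩
        simp [norm_smul, hv'.ne']
      have h1 : f p ≤ f (x, (‖v‖⁻¹ : ℝ) • v) := hp hmem
      have h2 : f (x, (‖v‖⁻¹ : ℝ) • v) ≤ f q := hq hmem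
      have h3 : f (x, (‖v‖⁻¹ : ℝ) • v) = ‖v‖⁻¹ * Real.sqrt (quadForm g x v) := by
        simp only [f]
        rw [hhom, abs_of_pos (by positivity)]
      rw [h3] at h1 h2
      constructor
      · have := mul_le_mul_of_nonneg_right h1 hv'.le
        rwa [mul_comm ‖v‖⁻¹, mul_assoc, inv_mul_cancel₀ hv'.ne', mul_one] at this
      · have := mul_le_mul_of_nonneg_right h2 hv'.le
        rwa [mul_comm ‖v‖⁻¹, mul_assoc, inv_mul_cancel₀ hv'.ne', mul_one] at this
  · refine ⟨1, 1, one_pos, one_pos, fun x v hx => ?_⟩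
    by_cases hv : v = 0
    · subst hv; simp [quadForm]
    · exfalso
      apply hne
      have hv' : 0 < ‖v‖ := norm_pos_iff.2 hv
      refine ⟨(x, (‖v‖⁻¹ : ℝ) • v), by simpa using hx, ?_⟩
      simp [norm_smul, hv'.ne']

/-- Upper comparison: for `x, y` in the ball of radius `R`, `d(x,y) ≤ C ‖x - y‖`. -/
lemma exists_riemDist_le (hg : RadialMetric g) (R : ℝ) :
    ∃ C : ℝ, 0 < C ∧ ∀ x y : EuclideanSpace ℝ (Fin n), ‖x‖ ≤ R → ‖y‖ ≤ R →
      riemDist g Set.univ x y ≤ C * ‖x - y‖ := by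
  obtain ⟨c, C, hc, hC, h⟩ := hg.exists_bounds R
  refine ⟨C, hC, fun x y hx hy => (riemDist_le_seg g x y).trans ?_⟩
  unfold curveLength
  have hle : ∫ t in (0:ℝ)..1, Real.sqrt (quadForm g ((fun t : ℝ => x + t • (y - x)) t)
      (deriv (fun t : ℝ => x + t • (y - x)) t)) ≤ ∫ t in (0:ℝ)..1, C * ‖x - y‖ := by
    apply intervalIntegral.integral_mono_on zero_le_one
    · exact (hg.continuous_speed (segPath x y).2.1).intervalIntegrable 0 1
    · exact continuous_const.intervalIntegrable 0 1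
    · intro t ht
      rw [deriv_seg]
      have hin : ‖x + t • (y - x)‖ ≤ R := by
        have : x + t • (y - x) = (1 - t) • x + t • y := by
          rw [smul_sub, sub_smul, one_smul]; abel
        rw [this]
        calc ‖(1 - t) • x + t • y‖ ≤ ‖(1 - t) • x‖ + ‖t • y‖ := norm_add_le _ _
          _ = (1 - t) * ‖x‖ + t * ‖y‖ := by
              rw [norm_smul, norm_smul, Real.norm_of_nonneg ht.1,
                Real.norm_of_nonneg (by linarith [ht.2] : (0:ℝ) ≤ 1 - t)]
          _ ≤ (1 - t) * R + t * R := by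
              gcongr
              linarith [ht.2]
              exact ht.1
          _ = R := by ring
      rw [norm_sub_rev x y]
      exact (h _ _ hin).2
  refine hle.trans ?_
  simp

/-- Lower comparison: for `x, y` in the ball of radius `R`, `d(x,y) ≥ min (c ‖x - y‖) 1`. -/
lemma exists_le_riemDist (hg : RadialMetric g) (R : ℝ) :
    ∃ c : ℝ, 0 < c ∧ ∀ x y : EuclideanSpace ℝ (Fin n), ‖x‖ ≤ R → ‖y‖ ≤ R →
      min (c * ‖x - y‖) 1 ≤ riemDist g Set.univ x y := by
  obtain ⟨c, C, hc, hC, h⟩ := hg.exists_bounds (R + 1)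
  refine ⟨c, hc, fun x y hx hy => le_ciInf fun γ => ?_⟩
  by_cases hin : ∀ t ∈ Icc (0:ℝ) 1, ‖γ.1 t‖ ≤ R + 1
  · refine (min_le_left _ _).trans ?_
    have hγ := γ.2.1
    have hd : ∀ t, HasDerivAt γ.1 (deriv γ.1 t) t := fun t =>
      ((hγ.differentiable (by norm_num)) t).hasDerivAt
    have hcd : Continuous (deriv γ.1) := hγ.continuous_deriv le_rfl
    have hFTC := intervalIntegral.integral_eq_sub_of_hasDerivAt (fun t _ => hd t)
      (hcd.intervalIntegrable 0 1)
    rw [γ.2.2.1, γ.2.2.2.1] at hFTC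
    rw [norm_sub_rev, ← hFTC]
    calc c * ‖∫ t in (0:ℝ)..1, deriv γ.1 t‖ ≤ c * ∫ t in (0:ℝ)..1, ‖deriv γ.1 t‖ := by
          gcongr
          exact intervalIntegral.norm_integral_le_integral_norm zero_le_one
      _ = ∫ t in (0:ℝ)..1, c * ‖deriv γ.1 t‖ := by
          rw [intervalIntegral.integral_const_mul]
      _ ≤ curveLength g γ.1 := by
          unfold curveLength
          apply intervalIntegral.integral_mono_on zero_le_one
          · exact (continuous_const.mul hcd.norm).intervalIntegrable 0 1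
          · exact (hg.continuous_speed hγ).intervalIntegrable 0 1
          · intro t ht
            exact (h _ _ (hin t ht)).1
  · push Not at hin
    obtain ⟨t, ht, htR⟩ := hin
    refine (min_le_right _ _).trans ?_
    have := hg.abs_norm_sub_le_curveLength γ.2.1 ht
    rw [γ.2.2.1] at this
    have h2 : ‖γ.1 t‖ - ‖x‖ ≤ |‖γ.1 t‖ - ‖x‖| := le_abs_self _
    linarith

/-- Completeness. -/
theorem complete (hg : RadialMetric g) : IsCompleteOn g Set.univ := by
  intro x _ hC
  obtain ⟨N, hN⟩ := hC 1 one_pos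
  set R : ℝ := ‖x N‖ + 1 with hR
  have hb : ∀ k ≥ N, ‖x k‖ ≤ R := by
    intro k hk
    have h1 := hN N le_rfl k hk
    have h2 := hg.abs_norm_sub_le_riemDist (x N) (x k)
    have h3 : ‖x k‖ - ‖x N‖ ≤ |‖x k‖ - ‖x N‖| := le_abs_self _
    linarith
  obtain ⟨c, hc, hlow⟩ := hg.exists_le_riemDist R
  obtain ⟨C, hC0, hup⟩ := hg.exists_riemDist_le R
  have hcs : CauchySeq x := by
    rw [Metric.cauchySeq_iff]
    intro ε hε
    obtain ⟨M, hM⟩ := hC (min (c * ε) 1) (lt_min (by positivity) one_pos)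
    refine ⟨max M N, fun k hk l hl => ?_⟩
    have h1 := hM k (le_trans (le_max_left _ _) hk) l (le_trans (le_max_left _ _) hl)
    have h2 := hlow (x k) (x l) (hb k (le_trans (le_max_right _ _) hk))
      (hb l (le_trans (le_max_right _ _) hl))
    have h3 := h2.trans_lt h1
    rw [dist_eq_norm]
    by_contra hcon
    push Not at hcon
    have h4 : min (c * ε) 1 ≤ min (c * ‖x k - x l‖) 1 :=
      min_le_min (by gcongr) le_rfl
    exact absurd h3 (not_lt.2 h4)
  obtain ⟨p, hp⟩ := cauchySeq_tendsto_of_complete hcs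
  have hpR : ‖p‖ ≤ R := by
    refine le_of_tendsto (hp.norm) ?_
    filter_upwards [eventually_ge_atTop N] with k hk using hb k hk
  refine ⟨p, mem_univ p, ?_⟩
  have h0 : Tendsto (fun k => C * ‖x k - p‖) atTop (𝓝 0) := by
    have := (tendsto_iff_norm_sub_tendsto_zero.1 hp).const_mul C
    simpa using this
  refine tendsto_of_tendsto_of_tendsto_of_le_of_le' tendsto_const_nhds h0
    (Eventually.of_forall fun k => riemDist_nonneg g _ _) ?_
  filter_upwards [eventually_ge_atTop N] with k hk using hup _ _ (hb k hk) hpR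

lemma continuous_sqrt_det (hg : RadialMetric g) :
    Continuous fun x => Real.sqrt (g x).det := by
  refine Real.continuous_sqrt.comp (Continuous.matrix_det ?_)
  exact continuous_matrix fun i j => hg.continuous_entry i j

/-- Asymptotic volume ratio from the limit of the volume density. -/
theorem volRatio (hg : RadialMetric g) (hn : 0 < n) {v : ℝ}
    (hdet : Tendsto (fun x : EuclideanSpace ℝ (Fin n) => Real.sqrt (g x).det)
      (Bornology.cobounded _) (𝓝 v)) : HasAsymptoticVolumeRatio g v := by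
  set f : EuclideanSpace ℝ (Fin n) → ℝ := fun x => Real.sqrt (g x).det with hf
  have hfc : Continuous f := hg.continuous_sqrt_det
  set w1 : ℝ := (volume (Metric.ball (0 : EuclideanSpace ℝ (Fin n)) 1)).toReal with hw1
  haveI : Nonempty (Fin n) := ⟨⟨0, hn⟩⟩
  haveI : Nontrivial (EuclideanSpace ℝ (Fin n)) := by
    refine ⟨EuclideanSpace.single ⟨0, hn⟩ 1, 0, fun h => ?_⟩
    have := congrArg (fun v : EuclideanSpace ℝ (Fin n) => v ⟨0, hn⟩) h
    simp at this
  have hw1pos : 0 < w1 := by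
    rw [hw1]
    refine ENNReal.toReal_pos ?_ ?_
    · exact (Metric.measure_ball_pos volume 0 one_pos).ne'
    · exact measure_ball_lt_top.ne
  have hvol : ∀ R : ℝ, 0 ≤ R →
      volume.real (Metric.ball (0 : EuclideanSpace ℝ (Fin n)) R) = w1 * R ^ n := by
    intro R hR
    rw [Measure.real, Measure.addHaar_ball volume 0 hR, ENNReal.toReal_mul,
      ENNReal.toReal_ofReal (by positivity), finrank_euclideanSpace, Fintype.card_fin, mul_comm]
  have hint : ∀ R : ℝ, IntegrableOn f (Metric.ball 0 R) := fun R =>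
    (hfc.continuousOn.integrableOn_compact (isCompact_closedBall 0 R)).mono_set
      Metric.ball_subset_closedBall
  have hint' : ∀ R : ℝ, IntegrableOn (fun x => |f x - v|) (Metric.ball 0 R) := fun R =>
    ((hfc.sub continuous_const).abs.continuousOn.integrableOn_compact
      (isCompact_closedBall 0 R)).mono_set Metric.ball_subset_closedBall
  have hriem : ∀ R : ℝ, (riemVolume g (riemBall g 0 R)).toReal
      = ∫ x in Metric.ball 0 R, f x := by
    intro R
    rw [hg.riemBall_zero, riemVolume, integral_eq_lintegral_of_nonneg_ae]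
    · exact Eventually.of_forall fun x => Real.sqrt_nonneg _
    · exact hfc.aestronglyMeasurable.restrict
  unfold HasAsymptoticVolumeRatio
  simp only [hriem]
  rw [Metric.tendsto_atTop]
  intro ε hε
  -- outside a ball, `f` is `ε/2`-close to `v`
  have h1 : ∀ᶠ x in Bornology.cobounded (EuclideanSpace ℝ (Fin n)), |f x - v| < ε / 2 := by
    have := hdet (Metric.ball_mem_nhds v (half_pos hε))
    filter_upwards [this] with x hx
    simpa [Real.dist_eq] using hx
  obtain ⟨R0, hR0⟩ : ∃ R0 : ℝ, ∀ x : EuclideanSpace ℝ (Fin n), R0 ≤ ‖x‖ → |f x - v| < ε / 2 := by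
    rw [(hasBasis_cobounded_norm (E := EuclideanSpace ℝ (Fin n))).eventually_iff] at h1
    obtain ⟨R0, -, h⟩ := h1
    exact ⟨R0, fun x hx => h hx⟩
  set M : ℝ := ∫ x in Metric.ball 0 R0, |f x - v| with hM
  have hMnn : 0 ≤ M := setIntegral_nonneg Metric.isOpen_ball.measurableSet fun x _ => abs_nonneg _
  -- main bound
  have hbound : ∀ R : ℝ, 0 ≤ R →
      |(∫ x in Metric.ball 0 R, f x) - v * (w1 * R ^ n)| ≤ M + ε / 2 * (w1 * R ^ n) := by
    intro R hR
    have e1 : v * (w1 * R ^ n) = ∫ x in Metric.ball (0 : EuclideanSpace ℝ (Fin n)) R, v := by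
      rw [setIntegral_const, hvol R hR, smul_eq_mul, mul_comm]
    have hconst : ∀ c : ℝ, IntegrableOn (fun _ : EuclideanSpace ℝ (Fin n) => c)
        (Metric.ball 0 R) := fun c => integrableOn_const (measure_ball_lt_top.ne)
    rw [e1, ← integral_sub (hint R) (hconst v)]
    calc |∫ x in Metric.ball 0 R, (f x - v)| ≤ ∫ x in Metric.ball 0 R, |f x - v| :=
          abs_integral_le_integral_abs
      _ ≤ ∫ x in Metric.ball 0 R, ((Metric.ball 0 R0).indicator (fun x => |f x - v|) x + ε / 2) := by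
          refine setIntegral_mono_on (hint' R) ?_ Metric.isOpen_ball.measurableSet ?_
          · refine Integrable.add ?_ (hconst _)
            exact (hint' R).indicator Metric.isOpen_ball.measurableSet
          · intro x _
            by_cases hx : x ∈ Metric.ball (0 : EuclideanSpace ℝ (Fin n)) R0
            · rw [indicator_of_mem hx]
              linarith
            · rw [indicator_of_notMem hx]
              have : R0 ≤ ‖x‖ := by simpa using hx
              linarith [hR0 x this]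
      _ = (∫ x in Metric.ball 0 R, (Metric.ball 0 R0).indicator (fun x => |f x - v|) x)
            + ∫ x in Metric.ball (0 : EuclideanSpace ℝ (Fin n)) R, ε / 2 := by
          rw [integral_add ((hint' R).indicator Metric.isOpen_ball.measurableSet) (hconst _)]
      _ ≤ M + ε / 2 * (w1 * R ^ n) := by
          gcongr
          · rw [setIntegral_indicator Metric.isOpen_ball.measurableSet]
            exact setIntegral_mono_set (hint' R0)
              (Eventually.of_forall fun x => abs_nonneg _)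
              (Eventually.of_forall fun x hx => hx.2)
          · rw [setIntegral_const, hvol R hR, smul_eq_mul, mul_comm]
  -- R^n → ∞
  have htend : Tendsto (fun R : ℝ => w1 * R ^ n) atTop atTop :=
    (tendsto_pow_atTop hn.ne').const_mul_atTop hw1pos
  obtain ⟨R1, hR1⟩ := eventually_atTop.1 ((htend.eventually_gt_atTop (2 * M / ε)).and
    (eventually_gt_atTop 0))
  refine ⟨R1, fun R hR => ?_⟩
  obtain ⟨hA, hRpos⟩ := hR1 R hR
  have hA0 : 0 < w1 * R ^ n := by positivity
  rw [Real.dist_eq]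
  have e2 : (∫ x in Metric.ball 0 R, f x) / (w1 * R ^ n) - v
      = ((∫ x in Metric.ball 0 R, f x) - v * (w1 * R ^ n)) / (w1 * R ^ n) := by
    field_simp
  rw [e2, abs_div, abs_of_pos hA0, div_lt_iff₀ hA0]
  have h3 := hbound R hRpos.le
  have h4 : 2 * M < ε * (w1 * R ^ n) := by
    rw [div_lt_iff₀ hε] at hA
    linarith
  linarith

end RadialMetric

end Crest.Agent.R202
end

-- ▼ part R202/GeoDiv
section

/-!
Row 202, part D (GeoDiv, helper523): metrics of the form
`g = ν νᵀ + e^{-2σ} (A - ν νᵀ)`, `ν = x/‖x‖`, `A x = x`, `det A = 1`, on `ℝⁿ`: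
positivity, smoothness, determinant, inverse, divergence form of the Laplace-Beltrami operator.
-/

set_option autoImplicit false

open scoped ContDiff Matrix
open Set Filter Topology
open Crest.GeometryTopology.CoordMetric

namespace Crest.Agent.R202.Geo

variable {n : ℕ}

/-- `ℝⁿ`. -/
abbrev En (n : ℕ) : Type := EuclideanSpace ℝ (Fin n)

/-- The orthogonal projection `ν νᵀ` onto the radial direction (`0` at the origin). -/
noncomputable def radP (x : En n) : Matrix (Fin n) (Fin n) ℝ :=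
  Matrix.of fun i j => x i * x j / ‖x‖ ^ 2

/-- The metric field `ν νᵀ + e^{-2σ} (A - ν νᵀ)`. -/
noncomputable def gR (σ : En n → ℝ) (A : MetricField n) : MetricField n := fun x =>
  radP x + Real.exp (-2 * σ x) • (A x - radP x)

/-- The dual field `ν νᵀ + e^{2σ} (A⁻¹ - ν νᵀ)`. -/
noncomputable def gRInv (σ : En n → ℝ) (A : MetricField n) : MetricField n := fun x =>
  radP x + Real.exp (2 * σ x) • ((A x)⁻¹ - radP x)

/-- The coefficient field `√det g · g⁻¹` of the divergence form. -/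
noncomputable def coefR (σ : En n → ℝ) (A : MetricField n) : MetricField n := fun x =>
  Real.exp (-((n : ℝ) - 1) * σ x) • gRInv σ A x

/-- Hypotheses on the data of a radial metric. -/
structure RadData (σ : En n → ℝ) (A : MetricField n) : Prop where
  smooth_sigma : ContDiff ℝ ∞ σ
  smooth_entry : ∀ i j, ContDiff ℝ ∞ fun x => A x i j
  posDef : ∀ x, (A x).PosDef
  radial : ∀ (x : En n) (i : Fin n), ∑ j, A x i j * x j = x i
  det_one : ∀ x, (A x).det = 1
  near_zero : ∃ r : ℝ, 0 < r ∧ ∀ x : En n, ‖x‖ < r → σ x = 0 ∧ A x = 1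

lemma sum_sq_eq (x : En n) : ∑ i, x i * x i = ‖x‖ ^ 2 := by
  rw [EuclideanSpace.norm_sq_eq]
  exact Finset.sum_congr rfl fun i _ => by rw [Real.norm_eq_abs, sq_abs, sq]

lemma radP_apply (x : En n) (i j : Fin n) : radP x i j = x i * x j / ‖x‖ ^ 2 := rfl

lemma radP_zero : radP (0 : En n) = 0 := by
  ext i j; simp [radP_apply]

lemma radP_symm (x : En n) : (radP x)ᵀ = radP x := by
  ext i j; simp [Matrix.transpose_apply, radP_apply, mul_comm]

lemma radP_eq_vecMulVec (x : En n) :
    radP x = (‖x‖ ^ 2)⁻¹ • Matrix.vecMulVec (WithLp.ofLp x) (WithLp.ofLp x) := by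
  ext i j
  simp [radP_apply, Matrix.vecMulVec_apply, Matrix.smul_apply, div_eq_inv_mul]

lemma radP_mul_self {x : En n} (hx : x ≠ 0) : radP x * radP x = radP x := by
  have hx' : ‖x‖ ^ 2 ≠ 0 := by positivity
  ext i j
  rw [Matrix.mul_apply]
  simp only [radP_apply]
  have : ∑ k, x i * x k / ‖x‖ ^ 2 * (x k * x j / ‖x‖ ^ 2)
      = (∑ k, x k * x k) * (x i * x j / (‖x‖ ^ 2 * ‖x‖ ^ 2)) := by
    rw [Finset.sum_mul]
    refine Finset.sum_congr rfl fun k _ => by field_simp
  rw [this, sum_sq_eq]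
  field_simp

section alg

variable {A : Matrix (Fin n) (Fin n) ℝ} {x : En n}

lemma mul_radP (hA : ∀ i, ∑ j, A i j * x j = x i) : A * radP x = radP x := by
  ext i j
  rw [Matrix.mul_apply]
  simp only [radP_apply]
  have : ∑ k, A i k * (x k * x j / ‖x‖ ^ 2) = (∑ k, A i k * x k) * (x j / ‖x‖ ^ 2) := by
    rw [Finset.sum_mul]
    exact Finset.sum_congr rfl fun k _ => by ring
  rw [this, hA i]; ring

lemma radP_mul (hs : Aᵀ = A) (hA : ∀ i, ∑ j, A i j * x j = x i) : radP x * A = radP x := by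
  have h := congrArg Matrix.transpose (mul_radP (A := A) hA)
  rwa [Matrix.transpose_mul, radP_symm, hs] at h

lemma inv_radial (hdet : IsUnit A.det) (hA : ∀ i, ∑ j, A i j * x j = x i) :
    ∀ i, ∑ j, A⁻¹ i j * x j = x i := by
  have h1 : A.mulVec (WithLp.ofLp x) = WithLp.ofLp x := by
    funext i; simpa [Matrix.mulVec, dotProduct] using hA i
  have h2 : A⁻¹.mulVec (WithLp.ofLp x) = WithLp.ofLp x := by
    conv_lhs => rw [← h1]
    rw [Matrix.mulVec_mulVec, Matrix.nonsing_inv_mul _ hdet, Matrix.one_mulVec]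
  intro i
  simpa [Matrix.mulVec, dotProduct] using congrFun h2 i

lemma mul_inv_aux (hx : x ≠ 0) (hs : Aᵀ = A) (hdet : IsUnit A.det)
    (hA : ∀ i, ∑ j, A i j * x j = x i) (a b : ℝ) (hab : a * b = 1) :
    (radP x + a • (A - radP x)) * (radP x + b • (A⁻¹ - radP x)) = 1 := by
  have hA' := inv_radial hdet hA
  have hs' : (A⁻¹)ᵀ = A⁻¹ := by rw [Matrix.transpose_nonsing_inv, hs]
  have e1 := radP_mul_self hx
  have e2 := mul_radP hA
  have e4 := radP_mul hs' hA'
  have e5 : A * A⁻¹ = 1 := Matrix.mul_nonsing_inv _ hdet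
  rw [add_mul, mul_add, mul_add, e1, Matrix.mul_smul, mul_sub, e4, e1, sub_self, smul_zero,
    Matrix.smul_mul, sub_mul, e2, e1, sub_self, smul_zero, Matrix.smul_mul, Matrix.mul_smul,
    smul_smul, hab, one_smul, sub_mul, mul_sub, mul_sub, e5, e2, e4, e1]
  abel

lemma det_aux (hx : x ≠ 0) (hA : ∀ i, ∑ j, A i j * x j = x i) (a : ℝ) (ha : a ≠ 0) :
    (radP x + a • (A - radP x)).det * a = a ^ n * A.det := by
  have e2 := mul_radP hA
  have key : radP x + a • (A - radP x) = (a • A) * (1 + (a⁻¹ - 1) • radP x) := by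
    rw [mul_add, mul_one, Matrix.mul_smul, Matrix.smul_mul, e2, smul_sub, smul_smul]
    have : (a⁻¹ - 1) * a = 1 - a := by field_simp
    rw [this, sub_smul, one_smul]
    abel
  have hdet : (1 + (a⁻¹ - 1) • radP x).det = a⁻¹ := by
    rw [radP_eq_vecMulVec, smul_smul]
    have : (1 : Matrix (Fin n) (Fin n) ℝ) + ((a⁻¹ - 1) * (‖x‖ ^ 2)⁻¹) •
        Matrix.vecMulVec (WithLp.ofLp x) (WithLp.ofLp x)
        = 1 + Matrix.vecMulVec (((a⁻¹ - 1) * (‖x‖ ^ 2)⁻¹) • (WithLp.ofLp x)) (WithLp.ofLp x) := by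
      rw [Matrix.smul_vecMulVec]
    rw [this, Matrix.vecMulVec_eq (Fin 1), Matrix.det_one_add_replicateCol_mul_replicateRow]
    rw [dotProduct_smul]
    have h3 : (WithLp.ofLp x) ⬝ᵥ (WithLp.ofLp x) = ‖x‖ ^ 2 := by
      rw [← sum_sq_eq]; rfl
    rw [h3]
    have hx' : ‖x‖ ^ 2 ≠ 0 := by positivity
    rw [smul_eq_mul, mul_assoc, inv_mul_cancel₀ hx', mul_one]
    ring
  rw [key, Matrix.det_mul, hdet, Matrix.det_smul, Fintype.card_fin]
  field_simp

end alg

namespace RadData

variable {σ : En n → ℝ} {A : MetricField n}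

lemma symmA (h : RadData σ A) (x : En n) : (A x)ᵀ = A x := by
  have := (h.posDef x).isHermitian
  rw [Matrix.IsHermitian, Matrix.conjTranspose_eq_transpose_of_trivial] at this
  exact this

lemma sigma_zero (h : RadData σ A) : σ 0 = 0 := by
  obtain ⟨r, hr, h1⟩ := h.near_zero
  exact (h1 0 (by simpa using hr)).1

lemma A_zero (h : RadData σ A) : A 0 = 1 := by
  obtain ⟨r, hr, h1⟩ := h.near_zero
  exact (h1 0 (by simpa using hr)).2

lemma isUnit_det (h : RadData σ A) (x : En n) : IsUnit (A x).det := by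
  rw [h.det_one x]; exact isUnit_one

lemma gR_zero (h : RadData σ A) : gR σ A 0 = 1 := by
  simp [gR, h.sigma_zero, h.A_zero, radP_zero]

lemma gRInv_zero (h : RadData σ A) : gRInv σ A 0 = 1 := by
  simp [gRInv, h.sigma_zero, h.A_zero, radP_zero]

/-- the metric is Euclidean near the origin -/
lemma gR_near_zero (h : RadData σ A) :
    ∃ r : ℝ, 0 < r ∧ ∀ x : En n, ‖x‖ < r → gR σ A x = 1 := by
  obtain ⟨r, hr, h1⟩ := h.near_zero
  refine ⟨r, hr, fun x hx => ?_⟩
  obtain ⟨e1, e2⟩ := h1 x hx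
  simp [gR, e1, e2]

lemma gRInv_near_zero (h : RadData σ A) :
    ∃ r : ℝ, 0 < r ∧ ∀ x : En n, ‖x‖ < r → gRInv σ A x = 1 := by
  obtain ⟨r, hr, h1⟩ := h.near_zero
  refine ⟨r, hr, fun x hx => ?_⟩
  obtain ⟨e1, e2⟩ := h1 x hx
  simp [gRInv, e1, e2]

lemma gR_mul_inv (h : RadData σ A) (x : En n) : gR σ A x * gRInv σ A x = 1 := by
  by_cases hx : x = 0
  · subst hx; rw [h.gR_zero, h.gRInv_zero, mul_one]
  · refine mul_inv_aux hx (h.symmA x) (h.isUnit_det x) (h.radial x) _ _ ?_
    rw [← Real.exp_add]; simp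

lemma inverseField_eq (h : RadData σ A) (x : En n) :
    inverseField (gR σ A) x = gRInv σ A x :=
  Matrix.inv_eq_right_inv (h.gR_mul_inv x)

lemma det_gR (h : RadData σ A) (x : En n) :
    (gR σ A x).det = Real.exp (-2 * ((n : ℝ) - 1) * σ x) := by
  by_cases hx : x = 0
  · subst hx; rw [h.gR_zero, h.sigma_zero]; simp
  · have h1 := det_aux hx (h.radial x) (Real.exp (-2 * σ x)) (Real.exp_ne_zero _)
    rw [h.det_one x, mul_one] at h1
    have h2 : (gR σ A x).det * Real.exp (-2 * σ x) = Real.exp (-2 * σ x) ^ n := h1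
    rw [← Real.exp_nat_mul] at h2
    have h3 : Real.exp (-2 * ((n : ℝ) - 1) * σ x) * Real.exp (-2 * σ x)
        = Real.exp (↑n * (-2 * σ x)) := by
      rw [← Real.exp_add]; congr 1; ring
    exact mul_right_cancel₀ (Real.exp_ne_zero _) (h2.trans h3.symm)

lemma sqrt_det (h : RadData σ A) (x : En n) :
    Real.sqrt (gR σ A x).det = Real.exp (-((n : ℝ) - 1) * σ x) := by
  rw [h.det_gR x, Real.sqrt_eq_iff_mul_self_eq (Real.exp_pos _).le (Real.exp_pos _).le,
    ← Real.exp_add]
  congr 1; ring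

lemma radial_gR (h : RadData σ A) (x : En n) (i : Fin n) :
    ∑ j, gR σ A x i j * x j = x i := by
  by_cases hx : x = 0
  · subst hx; simp
  · have hx' : ‖x‖ ^ 2 ≠ 0 := by positivity
    have h1 : ∑ j, radP x i j * x j = x i := by
      have : ∑ j, radP x i j * x j = (∑ j, x j * x j) * (x i / ‖x‖ ^ 2) := by
        rw [Finset.sum_mul]
        exact Finset.sum_congr rfl fun k _ => by rw [radP_apply]; ring
      rw [this, sum_sq_eq]; field_simp
    have h2 := h.radial x i
    have : ∑ j, gR σ A x i j * x j = ∑ j, radP x i j * x j +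
        Real.exp (-2 * σ x) * (∑ j, A x i j * x j - ∑ j, radP x i j * x j) := by
      rw [← Finset.sum_sub_distrib, Finset.mul_sum, ← Finset.sum_add_distrib]
      refine Finset.sum_congr rfl fun j _ => ?_
      simp only [gR, Matrix.add_apply, Matrix.smul_apply, Matrix.sub_apply, smul_eq_mul]
      ring
    rw [this, h1, h2]; ring

lemma transpose_gR (h : RadData σ A) (x : En n) : (gR σ A x)ᵀ = gR σ A x := by
  simp [gR, Matrix.transpose_add, Matrix.transpose_smul, Matrix.transpose_sub, radP_symm,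
    h.symmA x]

lemma transpose_gRInv (h : RadData σ A) (x : En n) : (gRInv σ A x)ᵀ = gRInv σ A x := by
  simp [gRInv, Matrix.transpose_add, Matrix.transpose_smul, Matrix.transpose_sub, radP_symm,
    Matrix.transpose_nonsing_inv, h.symmA x]

/-- Cauchy-Schwarz for a positive definite matrix fixing `x`. -/
lemma sq_inner_le (h : RadData σ A) (x v : En n) :
    (∑ i, x i * v i) ^ 2 ≤ ‖x‖ ^ 2 * quadForm A x v := by
  have hs : ∀ i j, A x i j = A x j i := fun i j => by
    have := congrFun (congrFun (h.symmA x) j) i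
    simpa [Matrix.transpose_apply] using this
  -- positivity of the form on `v - s x`
  have hnn : ∀ s : ℝ, 0 ≤ quadForm A x v - 2 * s * (∑ i, x i * v i) + s ^ 2 * ‖x‖ ^ 2 := by
    intro s
    have h1 := (h.posDef x).posSemidef.dotProduct_mulVec_nonneg
      (fun i => v i - s * x i)
    have h2 : star (fun i => v i - s * x i) ⬝ᵥ (A x).mulVec (fun i => v i - s * x i)
        = quadForm A x v - 2 * s * (∑ i, x i * v i) + s ^ 2 * ‖x‖ ^ 2 := by
      have e1 : ∀ i, (A x).mulVec (fun i => v i - s * x i) i = ∑ j, A x i j * v j - s * x i := by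
        intro i
        have : ∑ j, A x i j * (v j - s * x j) = ∑ j, A x i j * v j - s * ∑ j, A x i j * x j := by
          rw [Finset.mul_sum, ← Finset.sum_sub_distrib]
          exact Finset.sum_congr rfl fun j _ => by ring
        simp only [Matrix.mulVec, dotProduct]
        rw [this, h.radial x i]
      have e2 : ∑ i, x i * ∑ j, A x i j * v j = ∑ j, x j * v j := by
        have : ∑ i, x i * ∑ j, A x i j * v j = ∑ j, (∑ i, A x j i * x i) * v j := by
          simp only [Finset.mul_sum, Finset.sum_mul]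
          rw [Finset.sum_comm]
          refine Finset.sum_congr rfl fun j _ => Finset.sum_congr rfl fun i _ => ?_
          rw [hs i j]; ring
        rw [this]
        exact Finset.sum_congr rfl fun j _ => by rw [h.radial x j]
      have e3 : quadForm A x v = ∑ i, v i * ∑ j, A x i j * v j := by
        simp only [quadForm, Finset.mul_sum]
        exact Finset.sum_congr rfl fun i _ => Finset.sum_congr rfl fun j _ => by ring
      simp only [dotProduct, star_trivial]
      rw [Finset.sum_congr rfl fun i _ => by rw [e1 i]]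
      have e4 : ∑ i, (v i - s * x i) * (∑ j, A x i j * v j - s * x i)
          = ∑ i, v i * ∑ j, A x i j * v j - s * ∑ i, x i * v i
            - s * ∑ i, x i * ∑ j, A x i j * v j + s ^ 2 * ∑ i, x i * x i := by
        simp only [Finset.mul_sum (s := Finset.univ) (a := s), Finset.mul_sum (a := s ^ 2),
          ← Finset.sum_sub_distrib, ← Finset.sum_add_distrib]
        exact Finset.sum_congr rfl fun i _ => by ring
      rw [e4, e2, sum_sq_eq, e3]
      have : ∑ j, x j * v j = ∑ i, x i * v i := rfl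
      ring
    rw [h2] at h1
    exact h1
  by_cases hx : x = 0
  · subst hx; simp
  · have hx' : 0 < ‖x‖ ^ 2 := by positivity
    have h1 := hnn ((∑ i, x i * v i) / ‖x‖ ^ 2)
    have h2 : quadForm A x v - 2 * ((∑ i, x i * v i) / ‖x‖ ^ 2) * (∑ i, x i * v i)
        + ((∑ i, x i * v i) / ‖x‖ ^ 2) ^ 2 * ‖x‖ ^ 2
        = quadForm A x v - (∑ i, x i * v i) ^ 2 / ‖x‖ ^ 2 := by
      field_simp; ring
    rw [h2, sub_nonneg, div_le_iff₀ hx'] at h1
    linarith

lemma quadForm_gR (σ : En n → ℝ) (A : MetricField n) (x v : En n) :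
    quadForm (gR σ A) x v = (∑ i, x i * v i) ^ 2 / ‖x‖ ^ 2 +
      Real.exp (-2 * σ x) * (quadForm A x v - (∑ i, x i * v i) ^ 2 / ‖x‖ ^ 2) := by
  have h1 : ∑ i, ∑ j, radP x i j * v i * v j = (∑ i, x i * v i) ^ 2 / ‖x‖ ^ 2 := by
    rw [sq, Finset.sum_mul_sum, Finset.sum_div]
    refine Finset.sum_congr rfl fun i _ => ?_
    rw [Finset.sum_div]
    exact Finset.sum_congr rfl fun j _ => by rw [radP_apply]; ring
  rw [← h1]
  simp only [quadForm, gR, ← Finset.sum_sub_distrib, Finset.mul_sum, ← Finset.sum_add_distrib,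
    Matrix.add_apply, Matrix.smul_apply, Matrix.sub_apply, smul_eq_mul]
  exact Finset.sum_congr rfl fun i _ => Finset.sum_congr rfl fun j _ => by ring

lemma quadForm_eq_dot (g : MetricField n) (x v : En n) :
    quadForm g x v = star (WithLp.ofLp v) ⬝ᵥ (g x).mulVec (WithLp.ofLp v) := by
  simp only [quadForm, dotProduct, Matrix.mulVec, Finset.mul_sum, star_trivial]
  exact Finset.sum_congr rfl fun i _ => Finset.sum_congr rfl fun j _ => by ring

lemma quadForm_A_pos (h : RadData σ A) (x v : En n) (hv : v ≠ 0) : 0 < quadForm A x v := by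
  rw [quadForm_eq_dot]
  refine (h.posDef x).dotProduct_mulVec_pos fun h0 => hv ?_
  ext i
  exact congrFun h0 i

lemma quadForm_gR_pos (h : RadData σ A) (x v : En n) (hv : v ≠ 0) :
    0 < quadForm (gR σ A) x v := by
  rw [quadForm_gR]
  have h1 := h.sq_inner_le x v
  have h2 := h.quadForm_A_pos x v hv
  have he := Real.exp_pos (-2 * σ x)
  by_cases hx : x = 0
  · subst hx
    simp only [PiLp.zero_apply, zero_mul, Finset.sum_const_zero, ne_eq, OfNat.ofNat_ne_zero,
      not_false_eq_true, zero_pow, zero_div, sub_zero, zero_add]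
    positivity
  · have hx' : 0 < ‖x‖ ^ 2 := by positivity
    have h3 : (∑ i, x i * v i) ^ 2 / ‖x‖ ^ 2 ≤ quadForm A x v := by
      rw [div_le_iff₀ hx']; linarith
    have h4 : 0 ≤ (∑ i, x i * v i) ^ 2 / ‖x‖ ^ 2 := by positivity
    rcases h4.lt_or_eq with h5 | h5
    · have : 0 ≤ Real.exp (-2 * σ x) * (quadForm A x v - (∑ i, x i * v i) ^ 2 / ‖x‖ ^ 2) :=
        mul_nonneg he.le (sub_nonneg.2 h3)
      linarith
    · rw [← h5, zero_add, sub_zero]
      positivity

theorem posDef_gR (h : RadData σ A) (x : En n) : (gR σ A x).PosDef := by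
  refine Matrix.PosDef.of_dotProduct_mulVec_pos ?_ fun v hv => ?_
  · rw [Matrix.IsHermitian, Matrix.conjTranspose_eq_transpose_of_trivial]
    exact h.transpose_gR x
  · have := h.quadForm_gR_pos x (WithLp.toLp 2 v) (fun h0 => hv (by
      have := congrArg WithLp.ofLp h0; simpa using this))
    rw [quadForm_eq_dot] at this
    exact this

lemma contDiffOn_radP (i j : Fin n) : ContDiffOn ℝ ∞ (fun x : En n => radP x i j) {0}ᶜ := by
  simp only [radP_apply]
  intro x hx
  have hx' : ‖x‖ ^ 2 ≠ 0 := by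
    have : x ≠ 0 := hx
    positivity
  have hi : ∀ k : Fin n, ContDiff ℝ ∞ (fun x : En n => x k) := fun k =>
    (EuclideanSpace.proj k : EuclideanSpace ℝ (Fin n) →L[ℝ] ℝ).contDiff
  exact ((((hi i).mul (hi j)).contDiffAt).div (contDiff_norm_sq ℝ).contDiffAt hx').contDiffWithinAt

/-- gluing: smooth off the origin and constant near the origin -/
lemma contDiff_of_punctured {f : En n → ℝ} {c r : ℝ} (hr : 0 < r)
    (h0 : ∀ x : En n, ‖x‖ < r → f x = c) (h1 : ContDiffOn ℝ ∞ f {0}ᶜ) : ContDiff ℝ ∞ f := by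
  rw [contDiff_iff_contDiffAt]
  intro x
  by_cases hx : x = 0
  · subst hx
    have : f =ᶠ[𝓝 0] fun _ => c := by
      filter_upwards [Metric.ball_mem_nhds (0 : En n) hr] with y hy
      exact h0 y (by simpa using hy)
    exact contDiffAt_const.congr_of_eventuallyEq this
  · exact (h1 x hx).contDiffAt (isOpen_compl_singleton.mem_nhds hx)

lemma contDiff_gR (h : RadData σ A) (i j : Fin n) : ContDiff ℝ ∞ fun x => gR σ A x i j := by
  obtain ⟨r, hr, h1⟩ := h.gR_near_zero
  refine contDiff_of_punctured hr (c := (1 : Matrix (Fin n) (Fin n) ℝ) i j)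
    (fun x hx => by rw [h1 x hx]) ?_
  simp only [gR, Matrix.add_apply, Matrix.smul_apply, Matrix.sub_apply, smul_eq_mul]
  exact (contDiffOn_radP i j).add (((h.smooth_sigma.const_smul (-2 : ℝ)).exp).contDiffOn.mul
    ((h.smooth_entry i j).contDiffOn.sub (contDiffOn_radP i j)))

theorem isRiemannianOn (h : RadData σ A) : IsRiemannianOn (gR σ A) Set.univ :=
  ⟨isOpen_univ, fun i j => (h.contDiff_gR i j).contDiffOn, fun x _ => h.posDef_gR x⟩

lemma contDiff_det {B : En n → Matrix (Fin n) (Fin n) ℝ}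
    (hB : ∀ i j, ContDiff ℝ ∞ fun x => B x i j) : ContDiff ℝ ∞ fun x => (B x).det := by
  simp only [Matrix.det_apply]
  refine ContDiff.sum fun τ _ => ?_
  exact (contDiff_prod fun i _ => hB (τ i) i).const_smul _

lemma contDiff_adjugate {B : En n → Matrix (Fin n) (Fin n) ℝ}
    (hB : ∀ i j, ContDiff ℝ ∞ fun x => B x i j) (i j : Fin n) :
    ContDiff ℝ ∞ fun x => (B x).adjugate i j := by
  simp only [Matrix.adjugate_apply]
  refine contDiff_det fun k l => ?_
  by_cases hk : k = j
  · subst hk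
    simp only [Matrix.updateRow_self]
    exact contDiff_const
  · simp only [Matrix.updateRow_ne hk]
    exact hB k l

lemma inv_eq_adjugate (h : RadData σ A) (x : En n) : (A x)⁻¹ = (A x).adjugate := by
  rw [Matrix.inv_def, h.det_one x, Ring.inverse_one, one_smul]

lemma contDiff_inv (h : RadData σ A) (i j : Fin n) : ContDiff ℝ ∞ fun x => (A x)⁻¹ i j := by
  simp only [h.inv_eq_adjugate]
  exact contDiff_adjugate h.smooth_entry i j

lemma contDiff_gRInv (h : RadData σ A) (i j : Fin n) :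
    ContDiff ℝ ∞ fun x => gRInv σ A x i j := by
  obtain ⟨r, hr, h1⟩ := h.gRInv_near_zero
  refine contDiff_of_punctured hr (c := (1 : Matrix (Fin n) (Fin n) ℝ) i j)
    (fun x hx => by rw [h1 x hx]) ?_
  simp only [gRInv, Matrix.add_apply, Matrix.smul_apply, Matrix.sub_apply, smul_eq_mul]
  exact (contDiffOn_radP i j).add (((h.smooth_sigma.const_smul (2 : ℝ)).exp).contDiffOn.mul
    ((h.contDiff_inv i j).contDiffOn.sub (contDiffOn_radP i j)))

lemma contDiff_coefR (h : RadData σ A) (i j : Fin n) :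
    ContDiff ℝ ∞ fun x => coefR σ A x i j := by
  simp only [coefR, Matrix.smul_apply, smul_eq_mul]
  exact ((h.smooth_sigma.const_smul (-((n : ℝ) - 1))).exp).mul (h.contDiff_gRInv i j)

lemma coefR_symm (h : RadData σ A) (x : En n) (i j : Fin n) :
    coefR σ A x i j = coefR σ A x j i := by
  have := congrFun (congrFun (h.transpose_gRInv x) i) j
  simp only [Matrix.transpose_apply] at this
  simp [coefR, Matrix.smul_apply, this]

/-- the coefficient field is the identity near the origin -/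
lemma coefR_near_zero (h : RadData σ A) :
    ∃ r : ℝ, 0 < r ∧ ∀ x : En n, ‖x‖ < r → coefR σ A x = 1 := by
  obtain ⟨r, hr, h1⟩ := h.near_zero
  refine ⟨r, hr, fun x hx => ?_⟩
  obtain ⟨e1, e2⟩ := h1 x hx
  simp [coefR, gRInv, e1, e2]

/-- the Laplace-Beltrami operator in divergence form -/
theorem laplaceBeltrami_eq (h : RadData σ A) (u : En n → ℝ) (x : En n) :
    laplaceBeltrami (gR σ A) u x = Real.exp (((n : ℝ) - 1) * σ x) *
      ∑ i, pderiv i (fun y => ∑ j, coefR σ A y i j * pderiv j u y) x := by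
  have e1 : ∀ i : Fin n, (fun y => Real.sqrt (gR σ A y).det *
      ∑ j, inverseField (gR σ A) y i j * pderiv j u y)
      = fun y => ∑ j, coefR σ A y i j * pderiv j u y := by
    intro i
    funext y
    rw [h.sqrt_det y, h.inverseField_eq y, Finset.mul_sum]
    refine Finset.sum_congr rfl fun j _ => ?_
    simp only [coefR, Matrix.smul_apply, smul_eq_mul]; ring
  unfold laplaceBeltrami
  rw [h.sqrt_det x]
  simp only [e1]
  congr 1
  rw [one_div, ← Real.exp_neg]
  congr 1; ring

theorem isHarmonicOn_iff (h : RadData σ A) (u : En n → ℝ) :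
    IsHarmonicOn (gR σ A) Set.univ u ↔ ContDiff ℝ ∞ u ∧
      ∀ x, ∑ i, pderiv i (fun y => ∑ j, coefR σ A y i j * pderiv j u y) x = 0 := by
  unfold IsHarmonicOn
  rw [contDiffOn_univ]
  refine and_congr_right fun _ => ⟨fun H x => ?_, fun H x _ => ?_⟩
  · have := H x (mem_univ x)
    rw [h.laplaceBeltrami_eq] at this
    exact (mul_eq_zero.1 this).resolve_left (Real.exp_ne_zero _)
  · rw [h.laplaceBeltrami_eq, H x, mul_zero]

theorem radialMetric (h : RadData σ A) : RadialMetric (gR σ A) :=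
  ⟨h.isRiemannianOn, h.radial_gR⟩

end RadData

/-! ### The link with `gRad s A` of `GeoDefs` -/

/-- `s (log ‖x‖)`, with value `0` at the origin. -/
noncomputable def sigOf (s : ℝ → ℝ) (x : En n) : ℝ := if x = 0 then 0 else s (Real.log ‖x‖)

/-- `A` with the value at the origin replaced by `1`. -/
noncomputable def fixA (A : MetricField n) : MetricField n := fun x => if x = 0 then 1 else A x

lemma radP_eq_outer (x : En n) : radP x = outer (nu x) := by
  ext i j
  simp only [radP_apply, outer, nu, PiLp.smul_apply, smul_eq_mul]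
  rw [sq]
  by_cases h : ‖x‖ = 0
  · simp [h]
  · field_simp

lemma gRad_eq (s : ℝ → ℝ) (A : MetricField n) : gRad s A = gR (sigOf s) (fixA A) := by
  funext x
  by_cases hx : x = 0
  · subst hx
    simp [gRad, gR, sigOf, fixA, radP_zero]
  · simp [gRad, gR, sigOf, fixA, hx, radP_eq_outer]

lemma contDiff_sigOf {s : ℝ → ℝ} (hs : ContDiff ℝ ∞ s) {t0 : ℝ} (h0 : ∀ t ≤ t0, s t = 0) :
    ContDiff ℝ ∞ (sigOf s : En n → ℝ) := by
  refine RadData.contDiff_of_punctured (r := Real.exp t0) (c := 0) (Real.exp_pos _) ?_ ?_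
  · intro x hx
    by_cases h : x = 0
    · simp [sigOf, h]
    · have hx' : 0 < ‖x‖ := norm_pos_iff.2 h
      simp only [sigOf, h, if_false]
      exact h0 _ ((Real.log_le_iff_le_exp hx').2 hx.le)
  · have h1 : ContDiffOn ℝ ∞ (fun x : En n => s (Real.log ‖x‖)) {0}ᶜ := by
      intro x hx
      have hx0 : x ≠ 0 := hx
      have h2 : ContDiffAt ℝ ∞ (fun x : En n => Real.log ‖x‖) x :=
        (contDiffAt_norm ℝ hx0).log (norm_ne_zero_iff.2 hx0)
      exact (hs.contDiffAt.comp x h2).contDiffWithinAt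
    exact h1.congr fun x hx => by
      have hx0 : x ≠ 0 := hx
      simp [sigOf, hx0]

end Crest.Agent.R202.Geo
end

-- ▼ part R202/GeoFrame
section

/-!
Row 202, part D (helper523): matrices `v vᵀ + κ (1 - v vᵀ + (p-1) a aᵀ + (q-1) b bᵀ)` for an
orthonormal triple `v, a, b`.
-/

set_option autoImplicit false

open scoped ContDiff Matrix InnerProductSpace
open Set Filter Topology
open Crest.GeometryTopology.CoordMetric

namespace Crest.Agent.R202.Geo

variable {n : ℕ}

/-- Orthonormal triple, by coordinate sums. -/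
structure Tri (v a b : En n) : Prop where
  vv : ∑ i, v i * v i = 1
  aa : ∑ i, a i * a i = 1
  bb : ∑ i, b i * b i = 1
  va : ∑ i, v i * a i = 0
  vb : ∑ i, v i * b i = 0
  ab : ∑ i, a i * b i = 0

/-- The frame matrix. -/
noncomputable def frameM (κ p q : ℝ) (v a b : En n) : Matrix (Fin n) (Fin n) ℝ :=
  outer v + κ • (1 - outer v + (p - 1) • outer a + (q - 1) • outer b)

lemma outer_mul_outer (v a : En n) : outer v * outer a =
    (∑ k, v k * a k) • Matrix.of fun i j => v i * a j := by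
  ext i j
  rw [Matrix.mul_apply, Matrix.smul_apply, Matrix.of_apply, smul_eq_mul, Finset.sum_mul]
  exact Finset.sum_congr rfl fun k _ => by simp only [outer]; ring

lemma outer_mul_self {v : En n} (hv : ∑ i, v i * v i = 1) : outer v * outer v = outer v := by
  rw [outer_mul_outer, hv, one_smul]; rfl

lemma outer_mul_zero {v a : En n} (h : ∑ i, v i * a i = 0) : outer v * outer a = 0 := by
  rw [outer_mul_outer, h, zero_smul]

lemma sum_comm_zero {v a : En n} (h : ∑ i, v i * a i = 0) : ∑ i, a i * v i = 0 := by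
  rw [← h]; exact Finset.sum_congr rfl fun i _ => mul_comm _ _

lemma outer_transpose (v : En n) : (outer v)ᵀ = outer v := by
  ext i j; simp [outer, Matrix.transpose_apply, mul_comm]

lemma frameM_transpose (κ p q : ℝ) (v a b : En n) :
    (frameM κ p q v a b)ᵀ = frameM κ p q v a b := by
  simp [frameM, Matrix.transpose_add, Matrix.transpose_smul, Matrix.transpose_sub,
    outer_transpose]

/-- product formula -/
lemma frameM_eq_mul {κ p q : ℝ} (hκ : κ ≠ 0) {v a b : En n} (h : Tri v a b) :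
    frameM κ p q v a b =
      κ • ((1 + (κ⁻¹ - 1) • outer v) * ((1 + (p - 1) • outer a) * (1 + (q - 1) • outer b))) := by
  have e1 := outer_mul_zero h.ab
  have e2 := outer_mul_zero h.va
  have e3 := outer_mul_zero h.vb
  have h1 : (1 + (p - 1) • outer a) * (1 + (q - 1) • outer b)
      = 1 + (p - 1) • outer a + (q - 1) • outer b := by
    simp only [add_mul, mul_add, one_mul, mul_one, Matrix.mul_smul, Matrix.smul_mul, e1,
      smul_zero, add_zero]
  have h2 : (1 + (κ⁻¹ - 1) • outer v) * (1 + (p - 1) • outer a + (q - 1) • outer b)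
      = 1 + (κ⁻¹ - 1) • outer v + (p - 1) • outer a + (q - 1) • outer b := by
    rw [add_mul, one_mul, mul_add, mul_add, mul_one, Matrix.mul_smul, Matrix.mul_smul,
      Matrix.smul_mul, Matrix.smul_mul, e2, e3]
    simp only [smul_zero, add_zero]
    abel
  rw [h1, h2, frameM]
  have h3 : κ • (κ⁻¹ - 1) • outer v = (1 - κ) • outer v := by
    rw [smul_smul]; congr 1; field_simp
  simp only [smul_add, smul_sub, h3]
  rw [sub_smul 1 κ, one_smul]
  abel

lemma det_one_add_outer (c : ℝ) {v : En n} (hv : ∑ i, v i * v i = 1) :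
    (1 + c • outer v).det = 1 + c := by
  have : (1 : Matrix (Fin n) (Fin n) ℝ) + c • outer v
      = 1 + Matrix.vecMulVec (c • (WithLp.ofLp v)) (WithLp.ofLp v) := by
    rw [Matrix.smul_vecMulVec]; rfl
  rw [this, Matrix.vecMulVec_eq (Fin 1), Matrix.det_one_add_replicateCol_mul_replicateRow,
    dotProduct_smul]
  have h3 : (WithLp.ofLp v) ⬝ᵥ (WithLp.ofLp v) = 1 := hv
  rw [h3]; simp

lemma det_frameM {κ p q : ℝ} (hκ : κ ≠ 0) {v a b : En n} (h : Tri v a b) :
    (frameM κ p q v a b).det * κ = κ ^ n * (p * q) := by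
  rw [frameM_eq_mul hκ h, Matrix.det_smul, Matrix.det_mul, Matrix.det_mul,
    det_one_add_outer _ h.vv, det_one_add_outer _ h.aa, det_one_add_outer _ h.bb,
    Fintype.card_fin]
  have : 1 + (κ⁻¹ - 1) = κ⁻¹ := by ring
  rw [this]
  field_simp
  ring

lemma frameM_mul_inv {κ p q : ℝ} (hκ : κ ≠ 0) (hp : p ≠ 0) (hq : q ≠ 0) {v a b : En n}
    (h : Tri v a b) : frameM κ p q v a b * frameM κ⁻¹ p⁻¹ q⁻¹ v a b = 1 := by
  have e1 := outer_mul_zero h.ab
  have e1' := outer_mul_zero (sum_comm_zero h.ab)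
  have e2 := outer_mul_zero h.va
  have e2' := outer_mul_zero (sum_comm_zero h.va)
  have e3 := outer_mul_zero h.vb
  have e3' := outer_mul_zero (sum_comm_zero h.vb)
  have f1 := outer_mul_self h.vv
  have f2 := outer_mul_self h.aa
  have f3 := outer_mul_self h.bb
  have key : (1 - outer v + (p - 1) • outer a + (q - 1) • outer b) *
      (1 - outer v + (p⁻¹ - 1) • outer a + (q⁻¹ - 1) • outer b) = 1 - outer v := by
    simp only [add_mul, mul_add, sub_mul, mul_sub, Matrix.mul_smul, Matrix.smul_mul, e1, e1', e2,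
      e2', e3, e3', f1, f2, f3, one_mul, mul_one, smul_zero, add_zero, sub_zero,
      sub_self, smul_smul]
    have g1 : p⁻¹ * p = 1 := inv_mul_cancel₀ hp
    have g2 : q⁻¹ * q = 1 := inv_mul_cancel₀ hq
    rw [g1, g2]
    module
  have k1 : outer v * (1 - outer v + (p⁻¹ - 1) • outer a + (q⁻¹ - 1) • outer b) = 0 := by
    simp only [mul_add, mul_sub, Matrix.mul_smul, e2, e3, f1, mul_one, smul_zero, add_zero,
      sub_self]
  have k2 : (1 - outer v + (p - 1) • outer a + (q - 1) • outer b) * outer v = 0 := by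
    simp only [add_mul, sub_mul, Matrix.smul_mul, e2', e3', f1, one_mul, smul_zero, add_zero,
      sub_self]
  rw [frameM, frameM, add_mul, mul_add, mul_add, Matrix.mul_smul, k1, Matrix.smul_mul, k2,
    Matrix.smul_mul, Matrix.mul_smul, key, f1, smul_smul, mul_inv_cancel₀ hκ]
  simp

lemma frameM_radial {κ p q : ℝ} {v a b : En n} (h : Tri v a b) (i : Fin n) :
    ∑ j, frameM κ p q v a b i j * v j = v i := by
  have e1 : ∑ j, outer v i j * v j = v i := by
    have : ∑ j, outer v i j * v j = v i * ∑ j, v j * v j := by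
      rw [Finset.mul_sum]; exact Finset.sum_congr rfl fun j _ => by simp only [outer]; ring
    rw [this, h.vv, mul_one]
  have e2 : ∑ j, outer a i j * v j = 0 := by
    have : ∑ j, outer a i j * v j = a i * ∑ j, a j * v j := by
      rw [Finset.mul_sum]; exact Finset.sum_congr rfl fun j _ => by simp only [outer]; ring
    rw [this, sum_comm_zero h.va, mul_zero]
  have e3 : ∑ j, outer b i j * v j = 0 := by
    have : ∑ j, outer b i j * v j = b i * ∑ j, b j * v j := by
      rw [Finset.mul_sum]; exact Finset.sum_congr rfl fun j _ => by simp only [outer]; ring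
    rw [this, sum_comm_zero h.vb, mul_zero]
  have e4 : ∑ j, (1 : Matrix (Fin n) (Fin n) ℝ) i j * v j = v i := by
    simp [Matrix.one_apply]
  have : ∑ j, frameM κ p q v a b i j * v j = ∑ j, outer v i j * v j
      + κ * (∑ j, (1 : Matrix (Fin n) (Fin n) ℝ) i j * v j - ∑ j, outer v i j * v j
        + (p - 1) * ∑ j, outer a i j * v j + (q - 1) * ∑ j, outer b i j * v j) := by
    simp only [Finset.mul_sum (a := p - 1), Finset.mul_sum (a := q - 1),
      ← Finset.sum_sub_distrib, ← Finset.sum_add_distrib, Finset.mul_sum (a := κ)]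
    refine Finset.sum_congr rfl fun j _ => ?_
    simp only [frameM, Matrix.add_apply, Matrix.smul_apply, Matrix.sub_apply, smul_eq_mul]
    ring
  rw [this, e1, e2, e3, e4]; ring

/-- Bessel for a triple -/
lemma Tri.bessel {v a b : En n} (h : Tri v a b) (w : En n) :
    (∑ i, v i * w i) ^ 2 + (∑ i, a i * w i) ^ 2 + (∑ i, b i * w i) ^ 2 ≤ ∑ i, w i * w i := by
  set c1 := ∑ i, v i * w i with hc1
  set c2 := ∑ i, a i * w i with hc2
  set c3 := ∑ i, b i * w i with hc3
  have h0 : 0 ≤ ∑ i, (w i - c1 * v i - c2 * a i - c3 * b i) ^ 2 :=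
    Finset.sum_nonneg fun i _ => sq_nonneg _
  have h1 : ∑ i, (w i - c1 * v i - c2 * a i - c3 * b i) ^ 2 = ∑ i, w i * w i
      + c1 ^ 2 * ∑ i, v i * v i + c2 ^ 2 * ∑ i, a i * a i + c3 ^ 2 * ∑ i, b i * b i
      - 2 * c1 * ∑ i, v i * w i - 2 * c2 * ∑ i, a i * w i - 2 * c3 * ∑ i, b i * w i
      + 2 * c1 * c2 * ∑ i, v i * a i + 2 * c1 * c3 * ∑ i, v i * b i
      + 2 * c2 * c3 * ∑ i, a i * b i := by
    simp only [Finset.mul_sum, ← Finset.sum_sub_distrib, ← Finset.sum_add_distrib]
    exact Finset.sum_congr rfl fun i _ => by ring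
  rw [h1, h.vv, h.aa, h.bb, h.va, h.vb, h.ab, ← hc1, ← hc2, ← hc3] at h0
  nlinarith

/-- the quadratic form of the frame matrix -/
lemma frameM_quad (κ p q : ℝ) (v a b w : En n) :
    ∑ i, ∑ j, frameM κ p q v a b i j * w i * w j =
      (∑ i, v i * w i) ^ 2 + κ * ((∑ i, w i * w i) - (∑ i, v i * w i) ^ 2
        + (p - 1) * (∑ i, a i * w i) ^ 2 + (q - 1) * (∑ i, b i * w i) ^ 2) := by
  have e1 : ∀ c : En n, ∑ i, ∑ j, outer c i j * w i * w j = (∑ i, c i * w i) ^ 2 := by
    intro c
    rw [sq, Finset.sum_mul_sum]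
    exact Finset.sum_congr rfl fun i _ => Finset.sum_congr rfl fun j _ => by
      simp only [outer]; ring
  have e2 : ∑ i, ∑ j, (1 : Matrix (Fin n) (Fin n) ℝ) i j * w i * w j = ∑ i, w i * w i := by
    refine Finset.sum_congr rfl fun i _ => ?_
    simp [Matrix.one_apply]
  rw [← e1 v, ← e1 a, ← e1 b, ← e2]
  simp only [Finset.mul_sum, ← Finset.sum_sub_distrib, ← Finset.sum_add_distrib]
  refine Finset.sum_congr rfl fun i _ => Finset.sum_congr rfl fun j _ => ?_
  simp only [frameM, Matrix.add_apply, Matrix.smul_apply, Matrix.sub_apply, smul_eq_mul]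
  ring

lemma frameM_quad_ge {κ p q l : ℝ} {v a b : En n} (h : Tri v a b) 
    (h1 : l ≤ 1) (h2 : l ≤ κ) (h3 : l ≤ κ * p) (h4 : l ≤ κ * q) (w : En n) :
    l * ∑ i, w i * w i ≤ ∑ i, ∑ j, frameM κ p q v a b i j * w i * w j := by
  rw [frameM_quad]
  have hb := h.bessel w
  set c1 := (∑ i, v i * w i) ^ 2 with hc1
  set c2 := (∑ i, a i * w i) ^ 2 with hc2
  set c3 := (∑ i, b i * w i) ^ 2 with hc3
  set W := ∑ i, w i * w i with hW
  have p1 : 0 ≤ c1 := sq_nonneg _
  have p2 : 0 ≤ c2 := sq_nonneg _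
  have p3 : 0 ≤ c3 := sq_nonneg _
  have hR : 0 ≤ W - c1 - c2 - c3 := by linarith
  have : c1 + κ * (W - c1 + (p - 1) * c2 + (q - 1) * c3) - l * W
      = (1 - l) * c1 + (κ - l) * (W - c1 - c2 - c3) + (κ * p - l) * c2 + (κ * q - l) * c3 := by
    ring
  have q1 := mul_nonneg (sub_nonneg.2 h1) p1
  have q2 := mul_nonneg (sub_nonneg.2 h2) hR
  have q3 := mul_nonneg (sub_nonneg.2 h3) p2
  have q4 := mul_nonneg (sub_nonneg.2 h4) p3
  linarith

lemma frameM_quad_le {κ p q L : ℝ} {v a b : En n} (h : Tri v a b) 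
    (h1 : 1 ≤ L) (h2 : κ ≤ L) (h3 : κ * p ≤ L) (h4 : κ * q ≤ L) (w : En n) :
    ∑ i, ∑ j, frameM κ p q v a b i j * w i * w j ≤ L * ∑ i, w i * w i := by
  rw [frameM_quad]
  have hb := h.bessel w
  set c1 := (∑ i, v i * w i) ^ 2 with hc1
  set c2 := (∑ i, a i * w i) ^ 2 with hc2
  set c3 := (∑ i, b i * w i) ^ 2 with hc3
  set W := ∑ i, w i * w i with hW
  have p1 : 0 ≤ c1 := sq_nonneg _
  have p2 : 0 ≤ c2 := sq_nonneg _
  have p3 : 0 ≤ c3 := sq_nonneg _
  have hR : 0 ≤ W - c1 - c2 - c3 := by linarith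
  have : L * W - (c1 + κ * (W - c1 + (p - 1) * c2 + (q - 1) * c3))
      = (L - 1) * c1 + (L - κ) * (W - c1 - c2 - c3) + (L - κ * p) * c2 + (L - κ * q) * c3 := by
    ring
  have q1 := mul_nonneg (sub_nonneg.2 h1) p1
  have q2 := mul_nonneg (sub_nonneg.2 h2) hR
  have q3 := mul_nonneg (sub_nonneg.2 h3) p2
  have q4 := mul_nonneg (sub_nonneg.2 h4) p3
  linarith

lemma frameM_posDef {κ p q : ℝ} {v a b : En n} (h : Tri v a b) (hκ : 0 < κ) (hp : 0 < p)
    (hq : 0 < q) : (frameM κ p q v a b).PosDef := by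
  refine Matrix.PosDef.of_dotProduct_mulVec_pos ?_ fun w hw => ?_
  · rw [Matrix.IsHermitian, Matrix.conjTranspose_eq_transpose_of_trivial, frameM_transpose]
  · set l := min 1 (min κ (min (κ * p) (κ * q))) with hl
    have hl0 : 0 < l := lt_min one_pos (lt_min hκ (lt_min (by positivity) (by positivity)))
    have h1 := frameM_quad_ge (l := l) (w := WithLp.toLp 2 w) h (p := p) (q := q)
      (min_le_left _ _) ((min_le_right _ _).trans (min_le_left _ _))
      ((min_le_right _ _).trans ((min_le_right _ _).trans (min_le_left _ _)))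
      ((min_le_right _ _).trans ((min_le_right _ _).trans (min_le_right _ _)))
    have h2 : 0 < ∑ i, w i * w i := by
      obtain ⟨i, hi⟩ := Function.ne_iff.1 hw
      refine Finset.sum_pos' (fun j _ => mul_self_nonneg _) ⟨i, Finset.mem_univ i, ?_⟩
      exact mul_self_pos.2 hi
    have h3 : star w ⬝ᵥ (frameM κ p q v a b).mulVec w
        = ∑ i, ∑ j, frameM κ p q v a b i j * w i * w j := by
      simp only [dotProduct, Matrix.mulVec, Finset.mul_sum, star_trivial]
      exact Finset.sum_congr rfl fun i _ => Finset.sum_congr rfl fun j _ => by ring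
    rw [h3]
    exact (mul_pos hl0 h2).trans_le h1

end Crest.Agent.R202.Geo
end

-- ▼ part R202/GeoSmooth
section

/-!
Row 202, part D (GeoSmooth, helper523): the family `Afam θ P` of `GeoDefs` is smooth, positive
definite, `A x = x`, `det A = 1`; `gfam s θ P` is a `RadialMetric`, Euclidean near `0`.
-/

set_option autoImplicit false

open scoped ContDiff Matrix InnerProductSpace
open Set Filter Topology
open Crest.GeometryTopology.CoordMetric

namespace Crest.Agent.R202.Geo

variable {m : ℕ}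

lemma fsum3 (f : Fin (m + 3) → ℝ) :
    ∑ i, f i = f 0 + f 1 + ∑ j : Fin (m + 1), f j.succ.succ := by
  rw [Fin.sum_univ_succ, Fin.sum_univ_succ, Fin.succ_zero_eq_one]; ring

lemma e1c_zero (x : En (m + 3)) : e1 x 0 = -(sig x / ‖x‖) * (x 0 / rho x) := rfl
lemma e1c_one (x : En (m + 3)) : e1 x 1 = -(sig x / ‖x‖) * (x 1 / rho x) := by
  rw [← Fin.succ_zero_eq_one]; rfl
lemma e1c_succ (x : En (m + 3)) (j : Fin (m + 1)) :
    e1 x j.succ.succ = (rho x / ‖x‖) * (x j.succ.succ / sig x) := rfl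
lemma e2c_zero (x : En (m + 3)) : e2 x 0 = -(x 1) / rho x := rfl
lemma e2c_one (x : En (m + 3)) : e2 x 1 = x 0 / rho x := by
  rw [← Fin.succ_zero_eq_one]; rfl
lemma e2c_succ (x : En (m + 3)) (j : Fin (m + 1)) : e2 x j.succ.succ = 0 := rfl

lemma nu_apply (x : En (m + 3)) (i : Fin (m + 3)) : nu x i = ‖x‖⁻¹ * x i := by
  simp [nu]

lemma rho_nonneg (x : En (m + 3)) : 0 ≤ rho x := Real.sqrt_nonneg _
lemma sig_nonneg (x : En (m + 3)) : 0 ≤ sig x := Real.sqrt_nonneg _

lemma rho_sq (x : En (m + 3)) : rho x ^ 2 = x 0 ^ 2 + x 1 ^ 2 :=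
  Real.sq_sqrt (by positivity)

lemma sig_sq (x : En (m + 3)) : sig x ^ 2 = ∑ j : Fin (m + 1), x j.succ.succ ^ 2 :=
  Real.sq_sqrt (Finset.sum_nonneg fun _ _ => sq_nonneg _)

lemma norm_sq_eq_rs (x : En (m + 3)) : ‖x‖ ^ 2 = rho x ^ 2 + sig x ^ 2 := by
  rw [← sum_sq_eq, fsum3, rho_sq, sig_sq]
  simp only [← sq]

lemma rho_or_sig {x : En (m + 3)} (hx : x ≠ 0) : rho x ≠ 0 ∨ sig x ≠ 0 := by
  by_contra h
  have h' : rho x = 0 ∧ sig x = 0 := by
    constructor
    · by_contra h1; exact h (Or.inl h1)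
    · by_contra h1; exact h (Or.inr h1)
  have := norm_sq_eq_rs x
  rw [h'.1, h'.2] at this
  have h2 : 0 < ‖x‖ ^ 2 := by positivity
  rw [this] at h2
  norm_num at h2

lemma sum_nu_nu {x : En (m + 3)} (hx : x ≠ 0) : ∑ i, nu x i * nu x i = 1 := by
  have hx' : ‖x‖ ≠ 0 := norm_ne_zero_iff.2 hx
  have : ∑ i, nu x i * nu x i = (‖x‖ ^ 2)⁻¹ * ∑ i, x i * x i := by
    rw [Finset.mul_sum]
    exact Finset.sum_congr rfl fun i _ => by rw [nu_apply]; field_simp
  rw [this, sum_sq_eq, inv_mul_cancel₀ (pow_ne_zero 2 hx')]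

lemma tri_e1_e2 {x : En (m + 3)} (hx : x ≠ 0) (hr : rho x ≠ 0) (hs : sig x ≠ 0) :
    Tri (nu x) (e1 x) (e2 x) := by
  have hx' : ‖x‖ ≠ 0 := norm_ne_zero_iff.2 hx
  have h1 := rho_sq x
  have h2 := sig_sq x
  have h3 := norm_sq_eq_rs x
  refine ⟨sum_nu_nu hx, ?_, ?_, ?_, ?_, ?_⟩
  · rw [fsum3, e1c_zero, e1c_one]
    have : ∑ j : Fin (m + 1), e1 x j.succ.succ * e1 x j.succ.succ
        = (rho x / ‖x‖) ^ 2 * (sig x ^ 2)⁻¹ * sig x ^ 2 := by
      rw [h2, Finset.mul_sum]
      refine Finset.sum_congr rfl fun j _ => ?_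
      rw [e1c_succ, ← h2]; field_simp
    rw [this]
    field_simp
    have : sig x ^ 2 * x 0 ^ 2 + sig x ^ 2 * x 1 ^ 2 = sig x ^ 2 * rho x ^ 2 := by rw [h1]; ring
    nlinarith
  · rw [fsum3, e2c_zero, e2c_one]
    simp only [e2c_succ, mul_zero, Finset.sum_const_zero, add_zero]
    field_simp
    linarith
  · rw [fsum3, e1c_zero, e1c_one, nu_apply, nu_apply]
    have : ∑ j : Fin (m + 1), nu x j.succ.succ * e1 x j.succ.succ
        = ‖x‖⁻¹ * (rho x / ‖x‖) * (sig x)⁻¹ * sig x ^ 2 := by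
      rw [h2, Finset.mul_sum]
      refine Finset.sum_congr rfl fun j _ => ?_
      rw [e1c_succ, nu_apply]; field_simp
    rw [this]
    field_simp
    rw [h1]; ring
  · rw [fsum3, e2c_zero, e2c_one, nu_apply, nu_apply]
    simp only [e2c_succ, mul_zero, Finset.sum_const_zero, add_zero]
    field_simp
    ring
  · rw [fsum3, e1c_zero, e1c_one, e2c_zero, e2c_one]
    simp only [e2c_succ, mul_zero, Finset.sum_const_zero, add_zero]
    field_simp
    ring

/-- the projection `T` is `e1 e1ᵀ + e2 e2ᵀ` off the axes -/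
lemma TT_eq {x : En (m + 3)} (hx : x ≠ 0) (hr : rho x ≠ 0) (hs : sig x ≠ 0) :
    TT x = outer (e1 x) + outer (e2 x) := by
  have hx' : ‖x‖ ≠ 0 := norm_ne_zero_iff.2 hx
  have h1 := rho_sq x
  have h3 := norm_sq_eq_rs x
  have hWz : ∀ j, WW x 0 j = 0 := fun j => by simp [WW]
  have hWo : ∀ j, WW x 1 j = 0 := fun j => by
    have : ¬ (2 ≤ ((1 : Fin (m + 3)) : ℕ)) := by
      rw [← Fin.succ_zero_eq_one]; simp
    simp only [WW, this, false_and, if_false]
  have hWs : ∀ i j : Fin (m + 1), WW x i.succ.succ j.succ.succ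
      = (if i = j then 1 else 0) - x i.succ.succ * x j.succ.succ / sig x ^ 2 := fun i j => by
    have e1 : 2 ≤ ((i.succ.succ : Fin (m + 3)) : ℕ) := by simp
    have e2 : 2 ≤ ((j.succ.succ : Fin (m + 3)) : ℕ) := by simp
    simp only [WW, e1, e2, and_self, if_true, Fin.succ_inj]
  have symT : (TT x)ᵀ = TT x := by
    have hW : (WW x)ᵀ = WW x := by
      ext i j
      simp only [Matrix.transpose_apply, WW, and_comm, mul_comm (x j) (x i), eq_comm (a := j)]
    simp [TT, Matrix.transpose_sub, outer_transpose, hW]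
  have symT' : ∀ i j, TT x i j = TT x j i := fun i j => by
    have := congrFun (congrFun symT j) i
    simpa [Matrix.transpose_apply] using this
  have h0 : ∀ i j, TT x i j = (if i = j then 1 else 0) - nu x i * nu x j - WW x i j := by
    intro i j; simp [TT, outer, Matrix.sub_apply, Matrix.one_apply]
  have key : ∀ i j : Fin (m + 3), TT x i j = e1 x i * e1 x j + e2 x i * e2 x j := by
    have k00 : TT x 0 0 = e1 x 0 * e1 x 0 + e2 x 0 * e2 x 0 := by
      rw [h0, hWz, nu_apply, e1c_zero, e2c_zero, if_pos rfl]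
      field_simp
      nlinarith
    have k11 : TT x 1 1 = e1 x 1 * e1 x 1 + e2 x 1 * e2 x 1 := by
      rw [h0, hWo, nu_apply, e1c_one, e2c_one, if_pos rfl]
      field_simp
      nlinarith
    have k01 : TT x 0 1 = e1 x 0 * e1 x 1 + e2 x 0 * e2 x 1 := by
      rw [h0, hWz, nu_apply, nu_apply, e1c_zero, e2c_zero, e1c_one, e2c_one, if_neg (by
        rw [← Fin.succ_zero_eq_one]; exact (Fin.succ_ne_zero _).symm)]
      field_simp
      rw [h3]; ring
    have k0s : ∀ j : Fin (m + 1), TT x 0 j.succ.succ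
        = e1 x 0 * e1 x j.succ.succ + e2 x 0 * e2 x j.succ.succ := by
      intro j
      rw [h0, hWz, nu_apply, nu_apply, e1c_zero, e1c_succ, e2c_succ,
        if_neg (Fin.succ_ne_zero _).symm]
      field_simp
      ring
    have k1s : ∀ j : Fin (m + 1), TT x 1 j.succ.succ
        = e1 x 1 * e1 x j.succ.succ + e2 x 1 * e2 x j.succ.succ := by
      intro j
      rw [h0, hWo, nu_apply, nu_apply, e1c_one, e1c_succ, e2c_succ, if_neg (by
        rw [← Fin.succ_zero_eq_one]
        exact fun h => (Fin.succ_ne_zero _).symm (Fin.succ_injective _ h))]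
      field_simp
      ring
    have kss : ∀ i j : Fin (m + 1), TT x i.succ.succ j.succ.succ
        = e1 x i.succ.succ * e1 x j.succ.succ + e2 x i.succ.succ * e2 x j.succ.succ := by
      intro i j
      rw [h0, hWs, nu_apply, nu_apply, e1c_succ, e1c_succ, e2c_succ]
      simp only [Fin.succ_inj]
      field_simp
      rw [h3]; ring
    intro i j
    refine Fin.cases ?_ (fun i => ?_) i
    · refine Fin.cases k00 (fun j => ?_) j
      refine Fin.cases ?_ (fun j => k0s j) j
      rw [Fin.succ_zero_eq_one]; exact k01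
    · refine Fin.cases ?_ (fun i => ?_) i
      · rw [Fin.succ_zero_eq_one]
        refine Fin.cases ?_ (fun j => ?_) j
        · rw [symT', k01]; ring
        · refine Fin.cases ?_ (fun j => k1s j) j
          rw [Fin.succ_zero_eq_one]; exact k11
      · refine Fin.cases ?_ (fun j => ?_) j
        · rw [symT', k0s]; ring
        · refine Fin.cases ?_ (fun j => kss i j) j
          rw [Fin.succ_zero_eq_one, symT', k1s]; ring
  ext i j
  rw [key i j]; rfl

/-! ### Smoothness of the coordinate functions -/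

lemma cd_coord (i : Fin (m + 3)) : ContDiff ℝ ∞ fun x : En (m + 3) => x i :=
  (EuclideanSpace.proj i : EuclideanSpace ℝ (Fin (m + 3)) →L[ℝ] ℝ).contDiff

lemma continuous_rho : Continuous (rho : En (m + 3) → ℝ) := by
  unfold rho
  exact Real.continuous_sqrt.comp
    (((cd_coord 0).continuous.pow 2).add ((cd_coord 1).continuous.pow 2))

lemma continuous_sig : Continuous (sig : En (m + 3) → ℝ) := by
  unfold sig
  exact Real.continuous_sqrt.comp
    (continuous_finsetSum _ fun j _ => (cd_coord j.succ.succ).continuous.pow 2)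

lemma cd_rho {x : En (m + 3)} (h : rho x ≠ 0) : ContDiffAt ℝ ∞ rho x := by
  have h1 : x 0 ^ 2 + x 1 ^ 2 ≠ 0 := by rw [← rho_sq]; exact pow_ne_zero 2 h
  exact (((cd_coord 0).pow 2).add ((cd_coord 1).pow 2)).contDiffAt.sqrt h1

lemma cd_sig {x : En (m + 3)} (h : sig x ≠ 0) : ContDiffAt ℝ ∞ sig x := by
  have h1 : ∑ j : Fin (m + 1), x j.succ.succ ^ 2 ≠ 0 := by rw [← sig_sq]; exact pow_ne_zero 2 h
  exact (ContDiff.sum fun j _ => (cd_coord j.succ.succ).pow 2).contDiffAt.sqrt h1

lemma cd_norm {x : En (m + 3)} (h : x ≠ 0) : ContDiffAt ℝ ∞ (fun x : En (m + 3) => ‖x‖) x :=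
  contDiffAt_norm ℝ h

lemma cd_log {x : En (m + 3)} (h : x ≠ 0) :
    ContDiffAt ℝ ∞ (fun x : En (m + 3) => Real.log ‖x‖) x :=
  (cd_norm h).log (norm_ne_zero_iff.2 h)

lemma cd_XX {x : En (m + 3)} (hx : x ≠ 0) (h : sig x ≠ 0) : ContDiffAt ℝ ∞ XX x :=
  (cd_sig h).div (cd_norm hx) (norm_ne_zero_iff.2 hx)

lemma cd_uu {x : En (m + 3)} (h : rho x ≠ 0) : ContDiffAt ℝ ∞ uu x := by
  have h0 : ContDiff ℝ ∞ (fun t : ℝ => (t : ℂ)) := Complex.ofRealCLM.contDiff
  have h1 : ContDiffAt ℝ ∞ (fun x : En (m + 3) => (x 0 : ℂ) + (x 1 : ℂ) * Complex.I) x :=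
    (h0.comp (cd_coord 0)).contDiffAt.add
      ((h0.comp (cd_coord 1)).contDiffAt.mul contDiffAt_const)
  have h2 : ContDiffAt ℝ ∞ (fun x : En (m + 3) => (rho x : ℂ)) x :=
    h0.contDiffAt.comp x (cd_rho h)
  have h3 : ContDiffAt ℝ ∞ (fun x : En (m + 3) =>
      ((x 0 : ℂ) + (x 1 : ℂ) * Complex.I) * (rho x : ℂ)⁻¹) x :=
    h1.mul (h2.inv (Complex.ofReal_ne_zero.2 h))
  have h4 : (uu : En (m + 3) → ℂ) = fun x : En (m + 3) =>
      ((x 0 : ℂ) + (x 1 : ℂ) * Complex.I) * (rho x : ℂ)⁻¹ := by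
    funext y; rw [uu, div_eq_mul_inv]
  rw [h4]; exact h3

lemma cd_nu {x : En (m + 3)} (hx : x ≠ 0) (i : Fin (m + 3)) :
    ContDiffAt ℝ ∞ (fun x : En (m + 3) => nu x i) x := by
  simp only [nu_apply]
  exact ((cd_norm hx).inv (norm_ne_zero_iff.2 hx)).mul (cd_coord i).contDiffAt

lemma cd_outer_nu {x : En (m + 3)} (hx : x ≠ 0) (i j : Fin (m + 3)) :
    ContDiffAt ℝ ∞ (fun x : En (m + 3) => outer (nu x) i j) x :=
  (cd_nu hx i).mul (cd_nu hx j)

lemma cd_e2 {x : En (m + 3)} (h : rho x ≠ 0) (i : Fin (m + 3)) :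
    ContDiffAt ℝ ∞ (fun x : En (m + 3) => e2 x i) x := by
  refine Fin.cases ?_ (fun i => ?_) i
  · simp only [e2c_zero]
    exact (cd_coord 1).neg.contDiffAt.div (cd_rho h) h
  · refine Fin.cases ?_ (fun i => ?_) i
    · rw [Fin.succ_zero_eq_one]
      simp only [e2c_one]
      exact (cd_coord 0).contDiffAt.div (cd_rho h) h
    · simp only [e2c_succ]
      exact contDiffAt_const

lemma cd_e1 {x : En (m + 3)} (hx : x ≠ 0) (hr : rho x ≠ 0) (hs : sig x ≠ 0) (i : Fin (m + 3)) :
    ContDiffAt ℝ ∞ (fun x : En (m + 3) => e1 x i) x := by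
  have hn := norm_ne_zero_iff.2 hx
  refine Fin.cases ?_ (fun i => ?_) i
  · simp only [e1c_zero]
    exact ((cd_sig hs).div (cd_norm hx) hn).neg.mul ((cd_coord 0).contDiffAt.div (cd_rho hr) hr)
  · refine Fin.cases ?_ (fun i => ?_) i
    · rw [Fin.succ_zero_eq_one]
      simp only [e1c_one]
      exact ((cd_sig hs).div (cd_norm hx) hn).neg.mul
        ((cd_coord 1).contDiffAt.div (cd_rho hr) hr)
    · simp only [e1c_succ]
      exact ((cd_rho hr).div (cd_norm hx) hn).mul
        ((cd_coord i.succ.succ).contDiffAt.div (cd_sig hs) hs)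

lemma cd_WW {x : En (m + 3)} (hs : sig x ≠ 0) (i j : Fin (m + 3)) :
    ContDiffAt ℝ ∞ (fun x : En (m + 3) => WW x i j) x := by
  unfold WW
  by_cases h : 2 ≤ (i : ℕ) ∧ 2 ≤ (j : ℕ)
  · simp only [h, and_self, if_true]
    exact contDiffAt_const.sub ((((cd_coord i).mul (cd_coord j)).contDiffAt).div
      ((cd_sig hs).pow 2) (pow_ne_zero 2 hs))
  · simp only [h, if_false]
    exact contDiffAt_const

lemma cd_TT {x : En (m + 3)} (hx : x ≠ 0) (hs : sig x ≠ 0) (i j : Fin (m + 3)) :
    ContDiffAt ℝ ∞ (fun x : En (m + 3) => TT x i j) x := by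
  simp only [TT, Matrix.sub_apply]
  exact (contDiffAt_const.sub (cd_outer_nu hx i j)).sub (cd_WW hs i j)

/-! ### The family -/

/-- The exponent `κ = θ^{-2/(n-1)}`. -/
noncomputable def kap (m : ℕ) (θ : ℝ → ℝ) (t : ℝ) : ℝ := (θ t) ^ (-(2 : ℝ) / ((m : ℝ) + 2))

namespace Fam

variable {s θ : ℝ → ℝ} {P : ℝ → ℝ → ℂ → ℝ} {t0 X0 X1 : ℝ}

lemma kap_pos (h : Fam s θ P t0 X0 X1) (t : ℝ) : 0 < kap m θ t :=
  Real.rpow_pos_of_pos (h.θ_pos t) _

lemma cd_kap (h : Fam s θ P t0 X0 X1) : ContDiff ℝ ∞ (kap m θ) := by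
  unfold kap
  exact contDiff_iff_contDiffAt.2 fun t =>
    (h.smooth_θ.contDiffAt).rpow_const_of_ne (h.θ_pos t).ne'

lemma kap_pow (h : Fam s θ P t0 X0 X1) (t : ℝ) :
    kap m θ t ^ (m + 2) = (θ t ^ 2)⁻¹ := by
  unfold kap
  rw [← Real.rpow_natCast, ← Real.rpow_mul (h.θ_pos t).le]
  have : -(2 : ℝ) / ((m : ℝ) + 2) * ((m + 2 : ℕ) : ℝ) = -((2 : ℕ) : ℝ) := by
    push_cast
    have : (m : ℝ) + 2 ≠ 0 := by positivity
    field_simp
  rw [this, Real.rpow_neg (h.θ_pos t).le, Real.rpow_natCast]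

lemma cd_P (h : Fam s θ P t0 X0 X1) {x : En (m + 3)} (hx : x ≠ 0) (hr : rho x ≠ 0)
    (hs : sig x ≠ 0) :
    ContDiffAt ℝ ∞ (fun x : En (m + 3) => P (Real.log ‖x‖) (XX x) (uu x)) x :=
  h.smooth_P.contDiffAt.comp x ((cd_log hx).prodMk ((cd_XX hx hs).prodMk (cd_uu hr)))

lemma XX_zero {x : En (m + 3)} (hs : sig x = 0) : XX x = 0 := by simp [XX, hs]

lemma XX_one {x : En (m + 3)} (hx : x ≠ 0) (hr : rho x = 0) : XX x = 1 := by
  have h1 := norm_sq_eq_rs x
  rw [hr] at h1
  have h2 : ‖x‖ = sig x := by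
    have : ‖x‖ ^ 2 = sig x ^ 2 := by rw [h1]; ring
    exact (pow_left_inj₀ (norm_nonneg x) (sig_nonneg x) two_ne_zero).1 this
  rw [XX, h2, div_self]
  rw [← h2]; exact norm_ne_zero_iff.2 hx

lemma continuousAt_XX {x : En (m + 3)} (hx : x ≠ 0) : ContinuousAt XX x :=
  continuous_sig.continuousAt.div continuous_norm.continuousAt (norm_ne_zero_iff.2 hx)

/-- where `X` is near `1` the matrix is given by the regular formula -/
lemma Afam_high (h : Fam s θ P t0 X0 X1) {x : En (m + 3)} (hx : x ≠ 0) (hX : X1 ≤ XX x) :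
    Afam θ P x = outer (nu x) + kap m θ (Real.log ‖x‖) •
      (1 - outer (nu x) + (θ (Real.log ‖x‖) - 1) • TT x) := by
  have hs : sig x ≠ 0 := by
    intro hs
    rw [XX_zero hs] at hX
    linarith [h.hX0, h.hX01]
  unfold Afam kap
  by_cases hr : rho x = 0
  · simp only [hr, if_true]
  · simp only [hr, if_false]
    rw [h.P_high _ _ _ hX, TT_eq hx hr hs]
    have h1 := (h.θ_pos (Real.log ‖x‖)).ne'
    have h2 : (θ (Real.log ‖x‖)) ^ 2 * (θ (Real.log ‖x‖))⁻¹ = θ (Real.log ‖x‖) := by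
      field_simp
    rw [inv_inv, h2, smul_add (θ (Real.log ‖x‖) - 1)]

/-- where `X` is near `0` -/
lemma Afam_low (h : Fam s θ P t0 X0 X1) {x : En (m + 3)} (hx : x ≠ 0) (hX : XX x ≤ X0) :
    Afam θ P x = outer (nu x) + kap m θ (Real.log ‖x‖) •
      (1 - outer (nu x) + ((θ (Real.log ‖x‖)) ^ 2 - 1) • outer (e2 x)) := by
  have hr : rho x ≠ 0 := by
    intro hr
    rw [XX_one hx hr] at hX
    linarith [h.hX1, h.hX01]
  unfold Afam kap
  simp only [hr, if_false]
  rw [h.P_low _ _ _ hX]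
  simp

lemma Afam_mid (θ : ℝ → ℝ) (P : ℝ → ℝ → ℂ → ℝ) {x : En (m + 3)} (hr : rho x ≠ 0) :
    Afam θ P x = outer (nu x) + kap m θ (Real.log ‖x‖) •
      (1 - outer (nu x) + (((P (Real.log ‖x‖) (XX x) (uu x))⁻¹ - 1) • outer (e1 x)
        + ((θ (Real.log ‖x‖)) ^ 2 * P (Real.log ‖x‖) (XX x) (uu x) - 1) • outer (e2 x))) := by
  unfold Afam kap
  simp only [hr, if_false]

lemma cd_logθ (h : Fam s θ P t0 X0 X1) {x : En (m + 3)} (hx : x ≠ 0) :
    ContDiffAt ℝ ∞ (fun x : En (m + 3) => θ (Real.log ‖x‖)) x :=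
  h.smooth_θ.contDiffAt.comp x (cd_log hx)

lemma cd_logkap (h : Fam s θ P t0 X0 X1) {x : En (m + 3)} (hx : x ≠ 0) :
    ContDiffAt ℝ ∞ (fun x : En (m + 3) => kap m θ (Real.log ‖x‖)) x :=
  (h.cd_kap (m := m)).contDiffAt.comp x (cd_log hx)

theorem cd_Afam (h : Fam s θ P t0 X0 X1) {x : En (m + 3)} (hx : x ≠ 0) (i j : Fin (m + 3)) :
    ContDiffAt ℝ ∞ (fun x : En (m + 3) => Afam θ P x i j) x := by
  have hne : ∀ᶠ y in 𝓝 x, y ≠ 0 := isOpen_compl_singleton.mem_nhds hx
  by_cases hr : rho x = 0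
  · have hs : sig x ≠ 0 := (rho_or_sig hx).resolve_left (not_not.2 hr)
    have hX : ∀ᶠ y in 𝓝 x, X1 ≤ XX y := by
      have := (continuousAt_XX hx).eventually (lt_mem_nhds (by rw [XX_one hx hr]; exact h.hX1 :
        X1 < XX x))
      exact this.mono fun y hy => hy.le
    refine ContDiffAt.congr_of_eventuallyEq (f := fun y => outer (nu y) i j +
      kap m θ (Real.log ‖y‖) * ((1 : Matrix (Fin (m + 3)) (Fin (m + 3)) ℝ) i j - outer (nu y) i j
        + (θ (Real.log ‖y‖) - 1) * TT y i j)) ?_ ?_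
    · exact (cd_outer_nu hx i j).add ((h.cd_logkap hx).mul ((contDiffAt_const.sub
        (cd_outer_nu hx i j)).add (((h.cd_logθ hx).sub contDiffAt_const).mul (cd_TT hx hs i j))))
    · filter_upwards [hX, hne] with y hy hy0
      rw [h.Afam_high hy0 hy]
      simp only [Matrix.add_apply, Matrix.smul_apply, Matrix.sub_apply, smul_eq_mul]
  · by_cases hs : sig x = 0
    · have hX : ∀ᶠ y in 𝓝 x, XX y ≤ X0 := by
        have := (continuousAt_XX hx).eventually (gt_mem_nhds (by rw [XX_zero hs]; exact h.hX0 :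
          XX x < X0))
        exact this.mono fun y hy => hy.le
      refine ContDiffAt.congr_of_eventuallyEq (f := fun y => outer (nu y) i j +
        kap m θ (Real.log ‖y‖) * ((1 : Matrix (Fin (m + 3)) (Fin (m + 3)) ℝ) i j
          - outer (nu y) i j
          + ((θ (Real.log ‖y‖)) ^ 2 - 1) * (e2 y i * e2 y j))) ?_ ?_
      · exact (cd_outer_nu hx i j).add ((h.cd_logkap hx).mul ((contDiffAt_const.sub
          (cd_outer_nu hx i j)).add ((((h.cd_logθ hx).pow 2).sub contDiffAt_const).mul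
            ((cd_e2 hr i).mul (cd_e2 hr j)))))
      · filter_upwards [hX, hne] with y hy hy0
        rw [h.Afam_low hy0 hy]
        simp only [Matrix.add_apply, Matrix.smul_apply, Matrix.sub_apply, smul_eq_mul, outer]
    · have hr' : ∀ᶠ y in 𝓝 x, rho y ≠ 0 :=
        continuous_rho.continuousAt.eventually (isOpen_compl_singleton.mem_nhds hr)
      have hP0 : P (Real.log ‖x‖) (XX x) (uu x) ≠ 0 := (h.P_pos _ _ _).ne'
      refine ContDiffAt.congr_of_eventuallyEq (f := fun y => outer (nu y) i j +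
        kap m θ (Real.log ‖y‖) * ((1 : Matrix (Fin (m + 3)) (Fin (m + 3)) ℝ) i j
          - outer (nu y) i j
          + (((P (Real.log ‖y‖) (XX y) (uu y))⁻¹ - 1) * (e1 y i * e1 y j)
          + ((θ (Real.log ‖y‖)) ^ 2 * P (Real.log ‖y‖) (XX y) (uu y) - 1)
            * (e2 y i * e2 y j)))) ?_ ?_
      · have hP := h.cd_P hx hr hs
        exact (cd_outer_nu hx i j).add ((h.cd_logkap hx).mul ((contDiffAt_const.sub
          (cd_outer_nu hx i j)).add ((((hP.inv hP0).sub contDiffAt_const).mul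
            ((cd_e1 hx hr hs i).mul (cd_e1 hx hr hs j))).add
            (((((h.cd_logθ hx).pow 2).mul hP).sub contDiffAt_const).mul
            ((cd_e2 hr i).mul (cd_e2 hr j))))))
      · filter_upwards [hr'] with y hy
        rw [Afam_mid θ P hy]
        simp only [Matrix.add_apply, Matrix.smul_apply, Matrix.sub_apply, smul_eq_mul, outer]

end Fam

end Crest.Agent.R202.Geo
end

-- ▼ part R202/GeoFam

/-!
Row 202, part D (helper523): `gfam s θ P` is a `RadialMetric`; determinant, inverse, divergence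
form, frame representation and quadratic form bounds.
-/

set_option autoImplicit false

open scoped ContDiff Matrix InnerProductSpace
open Set Filter Topology
open Crest.GeometryTopology.CoordMetric

namespace Crest.Agent.R202.Geo

variable {m : ℕ}

lemma sig_zero_coord {x : En (m + 3)} (hs : sig x = 0) (j : Fin (m + 1)) :
    x j.succ.succ = 0 := by
  have h := sig_sq x
  rw [hs] at h
  have h1 : ∑ j : Fin (m + 1), x j.succ.succ ^ 2 = 0 := by rw [← h]; ring
  have := (Finset.sum_eq_zero_iff_of_nonneg (fun j _ => sq_nonneg (x (Fin.succ (Fin.succ j))))).1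
    h1 j (Finset.mem_univ j)
  exact pow_eq_zero_iff two_ne_zero |>.1 this

lemma rho_zero_coord {x : En (m + 3)} (hr : rho x = 0) : x 0 = 0 ∧ x 1 = 0 := by
  have h := rho_sq x
  rw [hr] at h
  have h0 : x 0 ^ 2 = 0 := by nlinarith [sq_nonneg (x 0), sq_nonneg (x 1)]
  have h1 : x 1 ^ 2 = 0 := by nlinarith [sq_nonneg (x 0), sq_nonneg (x 1)]
  exact ⟨pow_eq_zero_iff two_ne_zero |>.1 h0, pow_eq_zero_iff two_ne_zero |>.1 h1⟩

lemma one_ne_zero_fin3 : (1 : Fin (m + 3)) ≠ 0 := by
  rw [← Fin.succ_zero_eq_one]; exact Fin.succ_ne_zero _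


/-- basis vectors -/
noncomputable abbrev bvec (i : Fin (m + 3)) : En (m + 3) := EuclideanSpace.single i (1 : ℝ)

lemma bvec_apply (i j : Fin (m + 3)) : bvec i j = if j = i then 1 else 0 := by
  simp [bvec]

lemma sum_mul_bv (v : En (m + 3)) (i : Fin (m + 3)) : ∑ j, v j * bvec i j = v i := by
  simp [bvec_apply]

lemma TT_rho_zero {x : En (m + 3)} (hx : x ≠ 0) (hr : rho x = 0) :
    TT x = outer (bvec 0) + outer (bvec 1) := by
  have hs : sig x ≠ 0 := (rho_or_sig hx).resolve_left (not_not.2 hr)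
  obtain ⟨h0, h1⟩ := rho_zero_coord hr
  have h3 : ‖x‖ ^ 2 = sig x ^ 2 := by rw [norm_sq_eq_rs, hr]; ring
  have hn : ‖x‖ ≠ 0 := norm_ne_zero_iff.2 hx
  have hsmall : ∀ i : Fin (m + 3), ¬ 2 ≤ (i : ℕ) → i = 0 ∨ i = 1 := by
    intro i hi
    have : (i : ℕ) = 0 ∨ (i : ℕ) = 1 := by omega
    rcases this with h | h
    · left; exact Fin.ext h
    · right; apply Fin.ext; rw [h, ← Fin.succ_zero_eq_one]; simp
  have hbig : ∀ i : Fin (m + 3), 2 ≤ (i : ℕ) → i ≠ 0 ∧ i ≠ 1 := by
    intro i hi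
    constructor
    · rintro rfl; simp at hi
    · rintro rfl; rw [← Fin.succ_zero_eq_one] at hi; simp at hi
  have hxz : ∀ i : Fin (m + 3), ¬ 2 ≤ (i : ℕ) → x i = 0 := by
    intro i hi
    rcases hsmall i hi with rfl | rfl
    · exact h0
    · exact h1
  ext i j
  simp only [TT, Matrix.sub_apply, Matrix.add_apply, outer, nu_apply, WW, bvec_apply,
    Matrix.one_apply]
  by_cases hi : 2 ≤ (i : ℕ)
  · obtain ⟨hi0, hi1⟩ := hbig i hi
    by_cases hj : 2 ≤ (j : ℕ)
    · obtain ⟨hj0, hj1⟩ := hbig j hj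
      simp only [hi, hj, and_self, if_true, hi0, hi1, if_false]
      field_simp
      rw [h3]; ring
    · have hij : i ≠ j := by rintro rfl; exact hj hi
      simp only [hi, hj, and_false, if_false, hi0, hi1, hxz j hj, hij]
      ring
  · by_cases hj : 2 ≤ (j : ℕ)
    · obtain ⟨hj0, hj1⟩ := hbig j hj
      have hij : i ≠ j := by rintro rfl; exact hi hj
      simp only [hi, hj, false_and, if_false, hj0, hj1, hxz i hi, hij]
      ring
    · simp only [hi, false_and, if_false, hxz i hi, hxz j hj]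
      rcases hsmall i hi with rfl | rfl <;> rcases hsmall j hj with rfl | rfl <;>
        simp [one_ne_zero_fin3, one_ne_zero_fin3.symm]

namespace Fam

variable {s θ : ℝ → ℝ} {P : ℝ → ℝ → ℂ → ℝ} {t0 X0 X1 : ℝ}

/-- frame representation of the family at every `x ≠ 0` -/
theorem frame_exists (h : Fam s θ P t0 X0 X1) {x : En (m + 3)} (hx : x ≠ 0) :
    ∃ (a b : En (m + 3)) (X : ℝ) (u : ℂ), Tri (nu x) a b ∧
      Afam θ P x = frameM (kap m θ (Real.log ‖x‖)) (P (Real.log ‖x‖) X u)⁻¹
        ((θ (Real.log ‖x‖)) ^ 2 * P (Real.log ‖x‖) X u) (nu x) a b := by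
  by_cases hr : rho x = 0
  · have hX := XX_one hx hr
    obtain ⟨h0, h1⟩ := rho_zero_coord hr
    refine ⟨bvec 0, bvec 1, 1, 0, ⟨sum_nu_nu hx, ?_, ?_, ?_, ?_, ?_⟩, ?_⟩
    · rw [sum_mul_bv, bvec_apply, if_pos rfl]
    · rw [sum_mul_bv, bvec_apply, if_pos rfl]
    · rw [sum_mul_bv, nu_apply, h0, mul_zero]
    · rw [sum_mul_bv, nu_apply, h1, mul_zero]
    · rw [sum_mul_bv, bvec_apply, if_neg one_ne_zero_fin3]
    · rw [h.Afam_high hx (by rw [hX]; exact h.hX1.le), TT_rho_zero hx hr, frameM,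
        h.P_high _ _ _ h.hX1.le, inv_inv]
      have h2 : (θ (Real.log ‖x‖)) ^ 2 * (θ (Real.log ‖x‖))⁻¹ = θ (Real.log ‖x‖) := by
        have := (h.θ_pos (Real.log ‖x‖)).ne'
        field_simp
      rw [h2, smul_add (θ (Real.log ‖x‖) - 1)]
      congr 2
      abel
  · by_cases hs : sig x = 0
    · have hX := XX_zero hs
      refine ⟨bvec (Fin.succ (Fin.succ 0)), e2 x, 0, 0, ⟨sum_nu_nu hx, ?_, ?_, ?_, ?_, ?_⟩, ?_⟩
      · rw [sum_mul_bv, bvec_apply, if_pos rfl]
      · rw [fsum3, e2c_zero, e2c_one]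
        simp only [e2c_succ, mul_zero, Finset.sum_const_zero, add_zero]
        have := rho_sq x
        field_simp
        linarith
      · rw [sum_mul_bv, nu_apply, sig_zero_coord hs, mul_zero]
      · rw [fsum3, e2c_zero, e2c_one, nu_apply, nu_apply]
        simp only [e2c_succ, mul_zero, Finset.sum_const_zero, add_zero]
        ring
      · have : ∑ i, bvec (Fin.succ (Fin.succ (0 : Fin (m + 1)))) i * e2 x i
            = e2 x (Fin.succ (Fin.succ 0)) := by
          rw [← sum_mul_bv (e2 x)]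
          exact Finset.sum_congr rfl fun i _ => mul_comm _ _
        rw [this, e2c_succ]
      · rw [h.Afam_low hx (by rw [hX]; exact h.hX0.le), frameM, h.P_low _ _ _ h.hX0.le]
        simp
    · refine ⟨e1 x, e2 x, XX x, uu x, tri_e1_e2 hx hr hs, ?_⟩
      rw [Afam_mid θ P hr, frameM]
      congr 2
      abel

lemma kap_ne (h : Fam s θ P t0 X0 X1) (t : ℝ) : kap m θ t ≠ 0 := (h.kap_pos t).ne'

lemma det_Afam (h : Fam s θ P t0 X0 X1) {x : En (m + 3)} (hx : x ≠ 0) :
    (Afam θ P x).det = 1 := by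
  obtain ⟨a, b, X, u, hT, hA⟩ := h.frame_exists hx
  have h1 := det_frameM (h.kap_ne (m := m) (Real.log ‖x‖))
    (p := (P (Real.log ‖x‖) X u)⁻¹) (q := (θ (Real.log ‖x‖)) ^ 2 * P (Real.log ‖x‖) X u) hT
  rw [← hA] at h1
  have h2 := h.kap_pow (m := m) (Real.log ‖x‖)
  have h3 := (h.P_pos (Real.log ‖x‖) X u).ne'
  have h4 := (h.θ_pos (Real.log ‖x‖)).ne'
  have h5 : kap m θ (Real.log ‖x‖) ^ (m + 3) * ((P (Real.log ‖x‖) X u)⁻¹ *
      ((θ (Real.log ‖x‖)) ^ 2 * P (Real.log ‖x‖) X u)) = kap m θ (Real.log ‖x‖) := by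
    rw [pow_succ, h2]
    field_simp
  rw [h5] at h1
  exact mul_right_cancel₀ (h.kap_ne (m := m) _) (h1.trans (one_mul _).symm)

lemma posDef_Afam (h : Fam s θ P t0 X0 X1) {x : En (m + 3)} (hx : x ≠ 0) :
    (Afam θ P x).PosDef := by
  obtain ⟨a, b, X, u, hT, hA⟩ := h.frame_exists hx
  have h3 := h.P_pos (Real.log ‖x‖) X u
  have h4 := h.θ_pos (Real.log ‖x‖)
  rw [hA]
  exact frameM_posDef hT (h.kap_pos _) (inv_pos.2 h3) (by positivity)

lemma radial_Afam (h : Fam s θ P t0 X0 X1) {x : En (m + 3)} (hx : x ≠ 0) (i : Fin (m + 3)) :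
    ∑ j, Afam θ P x i j * x j = x i := by
  obtain ⟨a, b, X, u, hT, hA⟩ := h.frame_exists hx
  have hn : ‖x‖ ≠ 0 := norm_ne_zero_iff.2 hx
  have h1 := frameM_radial (κ := kap m θ (Real.log ‖x‖)) (p := (P (Real.log ‖x‖) X u)⁻¹)
    (q := (θ (Real.log ‖x‖)) ^ 2 * P (Real.log ‖x‖) X u) hT i
  rw [← hA] at h1
  simp only [nu_apply] at h1
  have h2 : ∑ j, Afam θ P x i j * x j = ‖x‖ * ∑ j, Afam θ P x i j * (‖x‖⁻¹ * x j) := by
    rw [Finset.mul_sum]
    exact Finset.sum_congr rfl fun j _ => by field_simp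
  rw [h2, h1]; field_simp

lemma Afam_init (h : Fam s θ P t0 X0 X1) {x : En (m + 3)} (hx : x ≠ 0)
    (ht : Real.log ‖x‖ ≤ t0) : Afam θ P x = 1 := by
  obtain ⟨a, b, X, u, hT, hA⟩ := h.frame_exists hx
  rw [hA, h.θ_init _ ht, h.P_init _ ht]
  have hk : kap m θ (Real.log ‖x‖) = 1 := by rw [kap, h.θ_init _ ht, Real.one_rpow]
  rw [hk, frameM]
  simp

theorem radData (h : Fam s θ P t0 X0 X1) :
    RadData (sigOf s) (fixA (Afam (m := m) θ P)) where
  smooth_sigma := contDiff_sigOf h.smooth_s h.s_init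
  smooth_entry i j := by
    refine RadData.contDiff_of_punctured (r := Real.exp t0)
      (c := (1 : Matrix (Fin (m + 3)) (Fin (m + 3)) ℝ) i j) (Real.exp_pos _) ?_ ?_
    · intro x hx
      by_cases h0 : x = 0
      · simp [fixA, h0]
      · have hx' : 0 < ‖x‖ := norm_pos_iff.2 h0
        simp only [fixA, h0, if_false]
        rw [h.Afam_init h0 ((Real.log_le_iff_le_exp hx').2 hx.le)]
    · refine ContDiffOn.congr (f := fun x => Afam θ P x i j)
        (fun x hx => (h.cd_Afam (by exact hx) i j).contDiffWithinAt) fun x hx => ?_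
      have hx0 : x ≠ 0 := hx
      simp [fixA, hx0]
  posDef x := by
    by_cases h0 : x = 0
    · simp only [fixA, h0, if_true]; exact Matrix.PosDef.one
    · simp only [fixA, h0, if_false]; exact h.posDef_Afam h0
  radial x i := by
    by_cases h0 : x = 0
    · subst h0; simp
    · simp only [fixA, h0, if_false]; exact h.radial_Afam h0 i
  det_one x := by
    by_cases h0 : x = 0
    · simp [fixA, h0]
    · simp only [fixA, h0, if_false]; exact h.det_Afam h0
  near_zero := by
    refine ⟨Real.exp t0, Real.exp_pos _, fun x hx => ?_⟩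
    by_cases h0 : x = 0
    · simp [sigOf, fixA, h0]
    · have hx' : 0 < ‖x‖ := norm_pos_iff.2 h0
      have ht := (Real.log_le_iff_le_exp hx').2 hx.le
      simp only [sigOf, fixA, h0, if_false]
      exact ⟨h.s_init _ ht, h.Afam_init h0 ht⟩

/-- `gfam s θ P` is a smooth Riemannian metric, radial lines are unit speed. -/
theorem radialMetric (h : Fam s θ P t0 X0 X1) : RadialMetric (gfam (m := m) s θ P) := by
  rw [gfam, gRad_eq]; exact h.radData.radialMetric

theorem gfam_near_zero (h : Fam s θ P t0 X0 X1) :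
    ∃ r : ℝ, 0 < r ∧ ∀ x : En (m + 3), ‖x‖ < r → gfam s θ P x = 1 := by
  rw [gfam, gRad_eq]; exact h.radData.gR_near_zero

theorem sqrt_det_gfam (h : Fam s θ P t0 X0 X1) {x : En (m + 3)} (hx : x ≠ 0) :
    Real.sqrt (gfam s θ P x).det = Real.exp (-((m : ℝ) + 2) * s (Real.log ‖x‖)) := by
  rw [gfam, gRad_eq, h.radData.sqrt_det x]
  have : sigOf s x = s (Real.log ‖x‖) := by simp [sigOf, hx]
  rw [this]
  congr 2
  push_cast; ring

/-- asymptotic volume ratio -/
theorem volRatio (h : Fam s θ P t0 X0 X1) {v : ℝ}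
    (hv : Tendsto (fun t => Real.exp (-((m : ℝ) + 2) * s t)) atTop (𝓝 v)) :
    HasAsymptoticVolumeRatio (gfam (m := m) s θ P) v := by
  refine (h.radialMetric (m := m)).volRatio (by omega) ?_
  have h1 : Tendsto (fun x : En (m + 3) => Real.log ‖x‖) (Bornology.cobounded _) atTop :=
    Real.tendsto_log_atTop.comp tendsto_norm_cobounded_atTop
  refine (hv.comp h1).congr' ?_
  have h2 : ∀ᶠ x : En (m + 3) in Bornology.cobounded _, x ≠ 0 :=
    (tendsto_norm_cobounded_atTop.eventually (eventually_gt_atTop (0 : ℝ))).mono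
      fun x hx => norm_pos_iff.1 hx
  filter_upwards [h2] with x hx
  rw [h.sqrt_det_gfam hx]; rfl

end Fam

end Crest.Agent.R202.Geo
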