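import Mathlib
import Crest.Agent.R202.Miranda

/-! # Row 202, PART A: setting of the mixing theorem (helper206)

`H` = real inner product space (functions on the cross-section), `e 0, …, e (N-1)` orthonormal
(the `N` lowest modes), `E = Fin N → ℝ` = the space of solutions (parametrised by their boundary
data in the lowest modes at the outer end of the outermost home).  Homes are numbered `0, …, P`
(`0` innermost), gate `k : Fin P` lies between home `k` (inside) and home `k + 1` (outside).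
`Jm q κ u`, `Jp q κ u` are the values of the solution `u` at the inner / outer end of home `q`. -/

set_option autoImplicit false

open Set
open scoped InnerProductSpace

namespace Crest.Agent.R202.Mix

variable {H : Type*} [NormedAddCommGroup H] [InnerProductSpace ℝ H] {N P : ℕ}

/-- Orthogonal projection onto the first `l` modes. -/
noncomputable def pr (e : Fin N → H) (l : ℕ) : H →ₗ[ℝ] H where
  toFun x := ∑ j : Fin N, if j.1 < l then ⟪e j, x⟫_ℝ • e j else 0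
  map_add' x y := by
    rw [← Finset.sum_add_distrib]
    refine Finset.sum_congr rfl fun j _ => ?_
    split_ifs
    · rw [inner_add_right, add_smul]
    · simp
  map_smul' c x := by
    rw [RingHom.id_apply, Finset.smul_sum]
    refine Finset.sum_congr rfl fun j _ => ?_
    split_ifs
    · rw [real_inner_smul_right, mul_smul]
    · simp

theorem pr_apply (e : Fin N → H) (l : ℕ) (x : H) :
    pr e l x = ∑ j : Fin N, if j.1 < l then ⟪e j, x⟫_ℝ • e j else 0 := rfl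

theorem inner_pr {e : Fin N → H} (he : Orthonormal ℝ e) (l : ℕ) (i : Fin N) (x : H) :
    ⟪e i, pr e l x⟫_ℝ = if i.1 < l then ⟪e i, x⟫_ℝ else 0 := by
  rw [pr_apply, inner_sum]
  rw [Finset.sum_eq_single i]
  · split_ifs with h
    · rw [real_inner_smul_right, orthonormal_iff_ite.1 he i i]; simp
    · simp
  · intro j _ hj
    split_ifs with h
    · rw [real_inner_smul_right, orthonormal_iff_ite.1 he i j]; simp [Ne.symm hj]
    · simp
  · intro h; exact absurd (Finset.mem_univ i) h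

theorem inner_pr_self {e : Fin N → H} (_he : Orthonormal ℝ e) (l : ℕ) (x y : H) :
    ⟪pr e l x, y⟫_ℝ = ∑ j : Fin N, if j.1 < l then ⟪e j, x⟫_ℝ * ⟪e j, y⟫_ℝ else 0 := by
  rw [pr_apply, sum_inner]
  refine Finset.sum_congr rfl fun j _ => ?_
  split_ifs
  · rw [real_inner_smul_left]
  · simp

theorem norm_pr_sq {e : Fin N → H} (he : Orthonormal ℝ e) (l : ℕ) (x : H) :
    ‖pr e l x‖ ^ 2 = ∑ j : Fin N, if j.1 < l then ⟪e j, x⟫_ℝ ^ 2 else 0 := by
  rw [← real_inner_self_eq_norm_sq, inner_pr_self he]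
  refine Finset.sum_congr rfl fun j _ => ?_
  split_ifs with h
  · rw [inner_pr he, if_pos h, sq]
  · rfl

theorem inner_pr_sub {e : Fin N → H} (he : Orthonormal ℝ e) (l : ℕ) (x y : H) :
    ⟪pr e l x, y - pr e l y⟫_ℝ = 0 := by
  rw [inner_pr_self he]
  refine Finset.sum_eq_zero fun j _ => ?_
  split_ifs with h
  · rw [inner_sub_right, inner_pr he, if_pos h]; ring
  · rfl

theorem norm_sq_split {e : Fin N → H} (he : Orthonormal ℝ e) (l : ℕ) (x : H) :
    ‖x‖ ^ 2 = ‖pr e l x‖ ^ 2 + ‖x - pr e l x‖ ^ 2 := by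
  have h : x = pr e l x + (x - pr e l x) := by abel
  conv_lhs => rw [h]
  rw [norm_add_sq_real, inner_pr_sub he]; ring

theorem pr_zero (e : Fin N → H) (x : H) : pr e 0 x = 0 := by
  rw [pr_apply]; simp

theorem pr_succ (e : Fin N → H) (l : ℕ) (hl : l < N) (x : H) :
    pr e (l + 1) x = pr e l x + ⟪e ⟨l, hl⟩, x⟫_ℝ • e ⟨l, hl⟩ := by
  rw [pr_apply, pr_apply]
  rw [← Finset.sum_erase_add Finset.univ
      (fun j : Fin N => if j.1 < l + 1 then ⟪e j, x⟫_ℝ • e j else 0)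
      (Finset.mem_univ (⟨l, hl⟩ : Fin N)),
    ← Finset.sum_erase_add Finset.univ
      (fun j : Fin N => if j.1 < l then ⟪e j, x⟫_ℝ • e j else 0)
      (Finset.mem_univ (⟨l, hl⟩ : Fin N))]
  have h1 : ∑ j ∈ Finset.univ.erase (⟨l, hl⟩ : Fin N),
      (if j.1 < l + 1 then ⟪e j, x⟫_ℝ • e j else 0)
      = ∑ j ∈ Finset.univ.erase (⟨l, hl⟩ : Fin N),
      (if j.1 < l then ⟪e j, x⟫_ℝ • e j else 0) := by
    refine Finset.sum_congr rfl fun j hj => ?_
    have hne : j.1 ≠ l := fun h => (Finset.ne_of_mem_erase hj) (Fin.ext h)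
    have : (j.1 < l + 1) ↔ (j.1 < l) := by omega
    simp only [this]
  rw [h1]
  simp

theorem pr_pr {e : Fin N → H} (he : Orthonormal ℝ e) (l m : ℕ) (x : H) :
    pr e l (pr e m x) = pr e (min l m) x := by
  rw [pr_apply, pr_apply e (min l m)]
  refine Finset.sum_congr rfl fun j _ => ?_
  rw [inner_pr he]
  by_cases h1 : j.1 < l <;> by_cases h2 : j.1 < m <;> simp [h1, h2]

theorem norm_pr_succ_sq {e : Fin N → H} (he : Orthonormal ℝ e) (l : ℕ) (hl : l < N) (x : H) :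
    ‖pr e (l + 1) x‖ ^ 2 = ‖pr e l x‖ ^ 2 + ⟪e ⟨l, hl⟩, x⟫_ℝ ^ 2 := by
  rw [norm_pr_sq he, norm_pr_sq he]
  rw [← Finset.sum_erase_add Finset.univ
      (fun j : Fin N => if j.1 < l + 1 then ⟪e j, x⟫_ℝ ^ 2 else 0)
      (Finset.mem_univ (⟨l, hl⟩ : Fin N)),
    ← Finset.sum_erase_add Finset.univ
      (fun j : Fin N => if j.1 < l then ⟪e j, x⟫_ℝ ^ 2 else 0)
      (Finset.mem_univ (⟨l, hl⟩ : Fin N))]
  have h1 : ∑ j ∈ Finset.univ.erase (⟨l, hl⟩ : Fin N),
      (if j.1 < l + 1 then ⟪e j, x⟫_ℝ ^ 2 else 0)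
      = ∑ j ∈ Finset.univ.erase (⟨l, hl⟩ : Fin N),
      (if j.1 < l then ⟪e j, x⟫_ℝ ^ 2 else 0) := by
    refine Finset.sum_congr rfl fun j hj => ?_
    have hne : j.1 ≠ l := fun h => (Finset.ne_of_mem_erase hj) (Fin.ext h)
    have : (j.1 < l + 1) ↔ (j.1 < l) := by omega
    simp only [this]
  rw [h1]
  simp

theorem norm_sub_pr_succ_sq {e : Fin N → H} (he : Orthonormal ℝ e) (l : ℕ) (hl : l < N) (x : H) :
    ‖x - pr e l x‖ ^ 2 = ‖x - pr e (l + 1) x‖ ^ 2 + ⟪e ⟨l, hl⟩, x⟫_ℝ ^ 2 := by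
  have h1 := norm_sq_split he l x
  have h2 := norm_sq_split he (l + 1) x
  have h3 := norm_pr_succ_sq he l hl x
  linarith



/-- `pr` is determined by the coordinates. -/
theorem pr_eq_zero_iff {e : Fin N → H} (he : Orthonormal ℝ e) (l : ℕ) (x : H) :
    pr e l x = 0 ↔ ∀ j : Fin N, j.1 < l → ⟪e j, x⟫_ℝ = 0 := by
  constructor
  · intro h j hj
    have := inner_pr he l j x
    rw [h, if_pos hj, inner_zero_right] at this
    exact this.symm
  · intro h
    rw [pr_apply]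
    refine Finset.sum_eq_zero fun j _ => ?_
    split_ifs with hj
    · rw [h j hj, zero_smul]
    · rfl

/-- The parameter cube. -/
abbrev Cube (P : ℕ) := Fin P → Set.Icc (-1 : ℝ) 1

/-- Matrix whose upper left `d × d` block is `a` and which is the identity elsewhere. -/
def blk (d : ℕ) (a : Fin N → Fin N → ℝ) : Matrix (Fin N) (Fin N) ℝ :=
  fun i j => if i.1 < d ∧ j.1 < d then a i j else if i = j then 1 else 0

/-- The data of the mixing theorem (one sector). Cuts are `l ∈ [i0, N]` (and the trivial cut `0`);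
the levels below `i0` form one block. -/
structure MixData (H : Type*) [NormedAddCommGroup H] [InnerProductSpace ℝ H] (N P : ℕ) where
  /-- the lowest `N` modes -/
  e : Fin N → H
  /-- first cut -/
  i0 : ℕ
  /-- `a l` = growth exponent of the slow space of cut `l` -/
  a : ℕ → ℝ
  /-- log-lengths of the homes -/
  T : ℕ → ℝ
  /-- errors of the growth exponents, integrated over the homes -/
  ε : ℕ → ℝ
  /-- designated cut of gate `k` in this sector (`none`: the gate is designated elsewhere) -/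
  d : Fin P → Option ℕ
  /-- orientation signs -/
  σ : Fin P → ℝ
  /-- norm bounds of the gates -/
  Γ : Fin P → ℝ
  /-- value at the inner end of home `q` -/
  Jm : ℕ → Cube P → (Fin N → ℝ) →ₗ[ℝ] H
  /-- value at the outer end of home `q` -/
  Jp : ℕ → Cube P → (Fin N → ℝ) →ₗ[ℝ] H
  orth : Orthonormal ℝ e
  i0_pos : 1 ≤ i0
  i0_le : i0 ≤ N
  T_pos : ∀ q, q ≤ P → 0 < T q
  d_ge : ∀ k l, d k = some l → i0 ≤ l
  d_lt : ∀ k l, d k = some l → l < N
  σ_sq : ∀ k, σ k = 1 ∨ σ k = -1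
  cont_m : ∀ q, q ≤ P → ∀ u, Continuous fun κ => Jm q κ u
  cont_p : ∀ q, q ≤ P → ∀ u, Continuous fun κ => Jp q κ u
  /-- cones in a home -/
  home_cone : ∀ q, q ≤ P → ∀ κ l, i0 ≤ l → l ≤ N → ∀ u,
    ‖Jp q κ u - pr e l (Jp q κ u)‖ ≤ 20 * ‖pr e l (Jp q κ u)‖ →
    ‖Jm q κ u - pr e l (Jm q κ u)‖ ≤ (1 / 20) * ‖pr e l (Jm q κ u)‖
  /-- growth in a home -/
  home_growth : ∀ q, q ≤ P → ∀ κ l, i0 ≤ l → l ≤ N → ∀ u,
    ‖Jp q κ u - pr e l (Jp q κ u)‖ ≤ 3 * ‖pr e l (Jp q κ u)‖ →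
    ‖Jp q κ u‖ ≤ Real.exp (a l * T q + ε q) * ‖Jm q κ u‖
  home_mono : ∀ q, q ≤ P → ∀ κ u, ‖Jm q κ u‖ ≤ ‖Jp q κ u‖
  /-- approximate boundary data at the outer end of the outermost home -/
  top : ∀ κ u, ‖Jp P κ u - ∑ j, u j • e j‖ ^ 2 ≤ (1 / 400) * ∑ j, u j ^ 2
  /-- cone preservation at gate `k` -/
  gate : ∀ (k : Fin P) (κ : Cube P) (l : ℕ), i0 ≤ l → l ≤ N →
    (d k ≠ some l ∨ (κ k : ℝ) = 1 ∨ (κ k : ℝ) = -1) → ∀ u,
    ‖Jm (k.1 + 1) κ u - pr e l (Jm (k.1 + 1) κ u)‖ ≤ ‖pr e l (Jm (k.1 + 1) κ u)‖ →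
    ‖Jp k.1 κ u - pr e l (Jp k.1 κ u)‖ ≤ ‖pr e l (Jp k.1 κ u)‖
  /-- orientation at the designated cut on the two faces -/
  sign : ∀ (k : Fin P) (l : ℕ), d k = some l →
    ∀ (κ : Cube P), ((κ k : ℝ) = 1 ∨ (κ k : ℝ) = -1) →
    ∀ v : Fin N → (Fin N → ℝ), LinearIndependent ℝ v →
    (∀ c : Fin N → ℝ, (∀ j : Fin N, l ≤ j.1 → c j = 0) →
      ‖Jm (k.1 + 1) κ (∑ j, c j • v j) - pr e l (Jm (k.1 + 1) κ (∑ j, c j • v j))‖
        ≤ ‖pr e l (Jm (k.1 + 1) κ (∑ j, c j • v j))‖) →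
    0 < σ k * (κ k : ℝ) * (blk l fun i j => ⟪e i, Jp k.1 κ (v j)⟫_ℝ).det
      * (blk l fun i j => ⟪e i, Jm (k.1 + 1) κ (v j)⟫_ℝ).det
  /-- norm bound of gate `k` in the outward direction -/
  norm_gate : ∀ (k : Fin P) (κ : Cube P) u, ‖Jm (k.1 + 1) κ u‖ ≤ Γ k * ‖Jp k.1 κ u‖

/-- The output of the flag construction (fixed parameter `κ`), cuts `l ∈ [i0, N]`. -/
structure Flags {H : Type*} [NormedAddCommGroup H] [InnerProductSpace ℝ H] {N P : ℕ}
    (D : MixData H N P) (κ : Cube P) where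
  /-- slow spaces -/
  V : ℕ → ℕ → Submodule ℝ (Fin N → ℝ)
  /-- past-fast spaces -/
  U : ℕ → ℕ → Submodule ℝ (Fin N → ℝ)
  V_mono : ∀ q, q ≤ P → ∀ l, D.i0 ≤ l → l < N → V q l ≤ V q (l + 1)
  U_anti : ∀ q, q ≤ P → ∀ l, D.i0 ≤ l → l < N → U q (l + 1) ≤ U q l
  finrank_V : ∀ q, q ≤ P → ∀ l, D.i0 ≤ l → l ≤ N → Module.finrank ℝ (V q l) = l
  finrank_U : ∀ q, q ≤ P → ∀ l, D.i0 ≤ l → l ≤ N → Module.finrank ℝ (U q l) = N - l
  cone_V : ∀ q, q ≤ P → ∀ l, D.i0 ≤ l → l ≤ N → ∀ u ∈ V q l,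
    ‖D.Jp q κ u - pr D.e l (D.Jp q κ u)‖ ≤ 3 * ‖pr D.e l (D.Jp q κ u)‖
  cone_U : ∀ q, q ≤ P → ∀ l, D.i0 ≤ l → l ≤ N → ∀ u ∈ U q l,
    ‖pr D.e l (D.Jm q κ u)‖ ≤ 3 * ‖D.Jm q κ u - pr D.e l (D.Jm q κ u)‖
  V_const : ∀ (k : Fin P) (l : ℕ), D.i0 ≤ l → l ≤ N → D.d k ≠ some l → V (k.1 + 1) l = V k.1 l
  U_const : ∀ (k : Fin P) (l : ℕ), D.i0 ≤ l → l ≤ N → D.d k ≠ some l → U (k.1 + 1) l = U k.1 l
  meet : ∀ (k : Fin P) (l : ℕ), D.d k = some l → ∃ u ∈ V (k.1 + 1) l, u ∈ U k.1 l ∧ u ≠ 0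

section Inj

variable (D : MixData H N P)


/-- all solutions are in the cone of the top cut at the outer ends -/
theorem MixData.coneN_p (q : ℕ) (hq : q ≤ P) (κ : Cube P) (u : Fin N → ℝ) :
    ‖D.Jp q κ u - pr D.e N (D.Jp q κ u)‖ ≤ ‖pr D.e N (D.Jp q κ u)‖ := by
  induction hn : P - q generalizing q with
  | zero =>
    have hqP : q = P := by omega
    subst hqP
    set y := D.Jp q κ u with hy
    set s := ∑ j, u j • D.e j with hs
    have hs1 : pr D.e N s = s := by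
      rw [pr_apply]
      rw [hs]
      refine Finset.sum_congr rfl fun j _ => ?_
      rw [if_pos j.2, inner_sum, Finset.sum_eq_single j]
      · rw [real_inner_smul_right, orthonormal_iff_ite.1 D.orth j j]; simp
      · intro i _ hi
        rw [real_inner_smul_right, orthonormal_iff_ite.1 D.orth j i]; simp [Ne.symm hi]
      · intro h; exact absurd (Finset.mem_univ j) h
    have hs2 : ‖s‖ ^ 2 = ∑ j, u j ^ 2 := by
      rw [← hs1, norm_pr_sq D.orth]
      refine Finset.sum_congr rfl fun j _ => ?_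
      rw [if_pos j.2, hs, inner_sum, Finset.sum_eq_single j]
      · rw [real_inner_smul_right, orthonormal_iff_ite.1 D.orth j j]; simp
      · intro i _ hi
        rw [real_inner_smul_right, orthonormal_iff_ite.1 D.orth j i]; simp [Ne.symm hi]
      · intro h; exact absurd (Finset.mem_univ j) h
    have ht := D.top κ u
    rw [← hs2] at ht
    have ht' : ‖y - s‖ ≤ (1 / 20) * ‖s‖ := by
      refine le_of_sq_le_sq ?_ (by positivity)
      calc ‖y - s‖ ^ 2 ≤ (1 / 400) * ‖s‖ ^ 2 := ht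
        _ = ((1 / 20) * ‖s‖) ^ 2 := by ring
    have h1 : ‖y - pr D.e N y‖ ≤ ‖y - s‖ := by
      have e1 : y - pr D.e N y = (y - s) - pr D.e N (y - s) := by
        rw [map_sub, hs1]; abel
      rw [e1]
      have := norm_sq_split D.orth N (y - s)
      refine le_of_sq_le_sq ?_ (norm_nonneg _)
      nlinarith [sq_nonneg ‖pr D.e N (y - s)‖]
    have h2 : ‖s‖ - ‖y - s‖ ≤ ‖pr D.e N y‖ := by
      have e1 : s = pr D.e N y - pr D.e N (y - s) := by
        rw [map_sub, hs1]; abel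
      have h3 : ‖pr D.e N (y - s)‖ ≤ ‖y - s‖ := by
        have := norm_sq_split D.orth N (y - s)
        refine le_of_sq_le_sq ?_ (norm_nonneg _)
        nlinarith [sq_nonneg ‖(y - s) - pr D.e N (y - s)‖]
      have h4 : ‖s‖ ≤ ‖pr D.e N y‖ + ‖pr D.e N (y - s)‖ := by
        calc ‖s‖ = ‖pr D.e N y - pr D.e N (y - s)‖ := by rw [← e1]
          _ ≤ _ := norm_sub_le _ _
      linarith
    have h5 := norm_nonneg s
    linarith
  | succ n ih =>
    have hqP : q < P := by omega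
    have h1 := ih (q + 1) (by omega) (by omega)
    have h2 := D.home_cone (q + 1) (by omega) κ N D.i0_le le_rfl u
      (h1.trans (by linarith [norm_nonneg (pr D.e N (D.Jp (q + 1) κ u))]))
    exact D.gate ⟨q, hqP⟩ κ N D.i0_le le_rfl
      (Or.inl (fun h => absurd (D.d_lt _ _ h) (lt_irrefl _))) u
      (h2.trans (by linarith [norm_nonneg (pr D.e N (D.Jm (q + 1) κ u))]))

theorem MixData.coneN_m (q : ℕ) (hq : q ≤ P) (κ : Cube P) (u : Fin N → ℝ) :
    ‖D.Jm q κ u - pr D.e N (D.Jm q κ u)‖ ≤ (1 / 20) * ‖pr D.e N (D.Jm q κ u)‖ :=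
  D.home_cone q hq κ N D.i0_le le_rfl u
    ((D.coneN_p q hq κ u).trans (by linarith [norm_nonneg (pr D.e N (D.Jp q κ u))]))

theorem MixData.Jp_eq_zero_of_Jm (q : ℕ) (hq : q ≤ P) (κ : Cube P) (u : Fin N → ℝ)
    (h : D.Jm q κ u = 0) : D.Jp q κ u = 0 := by
  have h1 := D.home_growth q hq κ N D.i0_le le_rfl u
    ((D.coneN_p q hq κ u).trans (by linarith [norm_nonneg (pr D.e N (D.Jp q κ u))]))
  rw [h, norm_zero, mul_zero] at h1
  exact norm_le_zero_iff.1 h1

theorem MixData.inj (q : ℕ) (hq : q ≤ P) (κ : Cube P) (u : Fin N → ℝ)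
    (h : D.Jp q κ u = 0) : u = 0 := by
  induction hn : P - q generalizing q with
  | zero =>
    have hqP : q = P := by omega
    subst hqP
    have ht := D.top κ u
    rw [h, zero_sub, norm_neg] at ht
    have hs2 : ‖∑ j, u j • D.e j‖ ^ 2 = ∑ j, u j ^ 2 := by
      rw [← real_inner_self_eq_norm_sq, D.orth.inner_sum]
      refine Finset.sum_congr rfl fun j _ => ?_
      simp [sq]
    rw [hs2] at ht
    have h0 : ∑ j, u j ^ 2 = 0 := by
      have : 0 ≤ ∑ j, u j ^ 2 := Finset.sum_nonneg fun j _ => sq_nonneg _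
      linarith
    funext j
    have := (Finset.sum_eq_zero_iff_of_nonneg fun j _ => sq_nonneg (u j)).1 h0 j (Finset.mem_univ j)
    exact pow_eq_zero_iff (two_ne_zero) |>.1 this
  | succ n ih =>
    have hqP : q < P := by omega
    refine ih (q + 1) (by omega) ?_ (by omega)
    refine D.Jp_eq_zero_of_Jm (q + 1) (by omega) κ u ?_
    have := D.norm_gate ⟨q, hqP⟩ κ u
    simp only at this
    rw [h, norm_zero, mul_zero] at this
    exact norm_le_zero_iff.1 this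

theorem MixData.inj_m (q : ℕ) (hq : q ≤ P) (κ : Cube P) (u : Fin N → ℝ)
    (h : D.Jm q κ u = 0) : u = 0 := D.inj q hq κ u (D.Jp_eq_zero_of_Jm q hq κ u h)

end Inj

end Crest.Agent.R202.Mix
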