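import Mathlib
import Crest.Agent.R202.MixDefs

-- ▼ part R202/MixPot
section

/-! # Row 202, PART A2: the potential and the growth recursion (helper14)

Levels `0,…,m` (level `0` is the block of the modes below the first cut, level `c` is the
`c`-th single mode above it) with exponents `β 0 ≤ … ≤ β m`.  The gates are numbered by `q`
(between home `q` and home `q+1`); with a cycle of `M ≥ m` slots and an offset `off`, gate `q`
has the slot `s = (q + off) % M`; if `s < m` it mixes the levels `s` and `s+1` in such a way that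
level `s+1` is sent to level `s`; if `m ≤ s` nothing happens in this sector. -/

set_option autoImplicit false

namespace Crest.Agent.R202.Mix

open Finset

noncomputable section

/-- mean of the levels -/
def abar (β : ℕ → ℝ) (m : ℕ) : ℝ := (∑ c ∈ range (m + 1), β c) / (m + 1)

/-- centred level -/
def bt (β : ℕ → ℝ) (m : ℕ) (c : ℕ) : ℝ := β c - abar β m

/-- partial sums of the centred levels -/
def SS (β : ℕ → ℝ) (m : ℕ) (c : ℕ) : ℝ := ∑ i ∈ range c, bt β m i

/-- the potential -/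
def Ph (β : ℕ → ℝ) (m M : ℕ) (c s : ℕ) : ℝ :=
  if c = s then - SS β m c
  else if c < s then ((M : ℝ) - s + c) * bt β m c + ((M : ℝ) - 1) * SS β m c
  else ((c : ℝ) - s) * bt β m c + ((M : ℝ) - 1) * SS β m c

/-- the potential in home `q` -/
def Phi (β : ℕ → ℝ) (m M off : ℕ) (q c : ℕ) : ℝ := Ph β m M c ((q + off) % M)

/-- the allowed transitions at the gate between home `q` and home `q+1` -/
def Rl (m M off : ℕ) (q j j' : ℕ) : Prop :=
  ((q + off) % M < m ∧ j = (q + off) % M ∧ (j' = (q + off) % M ∨ j' = (q + off) % M + 1)) ∨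
  ((q + off) % M < m ∧ j = (q + off) % M + 1 ∧ j' = (q + off) % M) ∨
  ((m ≤ (q + off) % M ∨ (j ≠ (q + off) % M ∧ j ≠ (q + off) % M + 1)) ∧ j' = j)

variable {β : ℕ → ℝ} {m M off : ℕ}

lemma SS_zero : SS β m 0 = 0 := by simp [SS]

lemma SS_succ (c : ℕ) : SS β m (c + 1) = SS β m c + bt β m c := by
  simp [SS, sum_range_succ]

lemma SS_last : SS β m (m + 1) = 0 := by
  unfold SS bt
  rw [sum_sub_distrib, sum_const, card_range, nsmul_eq_mul, abar]
  have : ((m + 1 : ℕ) : ℝ) ≠ 0 := by positivity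
  push_cast at this ⊢
  field_simp
  ring

lemma SS_nonpos (hβ : ∀ i j, i ≤ j → j ≤ m → β i ≤ β j) (c : ℕ) (hc : c ≤ m + 1) :
    SS β m c ≤ 0 := by
  by_contra h
  push Not at h
  have h1 : ∃ i ∈ range c, 0 < bt β m i := by
    by_contra hn
    push Not at hn
    exact absurd (sum_nonpos hn) (not_le.2 h)
  obtain ⟨i, hi, hib⟩ := h1
  rw [mem_range] at hi
  have h2 : SS β m (m + 1) = SS β m c + ∑ k ∈ Ico c (m + 1), bt β m k := by
    unfold SS
    rw [range_eq_Ico, range_eq_Ico, sum_Ico_consecutive _ (Nat.zero_le _) hc]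
  have h3 : 0 ≤ ∑ k ∈ Ico c (m + 1), bt β m k := by
    refine sum_nonneg fun k hk => ?_
    rw [mem_Ico] at hk
    have := hβ i k (by omega) (by omega)
    unfold bt at hib ⊢
    linarith
  rw [SS_last] at h2
  linarith

/-- next gate index -/
lemma next_mod (hM : 1 ≤ M) (q : ℕ) :
    (q % M + 1 < M ∧ (q + 1) % M = q % M + 1) ∨ (q % M + 1 = M ∧ (q + 1) % M = 0) := by
  have h1 : q % M < M := Nat.mod_lt _ (by omega)
  have h2 : (q + 1) % M = (q % M + 1) % M := by rw [Nat.add_mod, Nat.add_mod (q % M)]; simp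
  rcases lt_or_eq_of_le (Nat.succ_le_of_lt h1) with h | h
  · left
    exact ⟨h, by rw [h2]; exact Nat.mod_eq_of_lt h⟩
  · right
    refine ⟨h, ?_⟩
    rw [h2]
    have : q % M + 1 = M := h
    rw [this, Nat.mod_self]

/-- **The potential is a supersolution.** -/
theorem Phi_super (hm : 1 ≤ m) (hM : m ≤ M) (hβ : ∀ i j, i ≤ j → j ≤ m → β i ≤ β j)
    (q j j' : ℕ) (hj : j ≤ m) (hR : Rl m M off q j j') :
    β j - abar β m + Phi β m M off (q + 1) j' ≤ Phi β m M off q j := by
  have hS := fun c hc => SS_nonpos (β := β) (m := m) hβ c hc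
  have hM1 : (1 : ℝ) ≤ M := by exact_mod_cast hm.trans hM
  have hmod := next_mod (hm.trans hM) (q + off)
  have hlt : (q + off) % M < M := Nat.mod_lt _ (by omega)
  have hl : SS β m (m + 1) = 0 := SS_last
  have hle : SS β m (m + 1) = SS β m m + bt β m m := SS_succ m
  rw [show q + off + 1 = q + 1 + off by ring] at hmod
  obtain ⟨s, hs⟩ : ∃ s, (q + off) % M = s := ⟨_, rfl⟩
  unfold Rl at hR
  rw [hs] at hR hmod hlt
  have e2 : β j - abar β m = bt β m j := rfl
  rw [e2]
  unfold Phi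
  rw [hs]
  rcases hR with ⟨h0, h1, h2⟩ | ⟨h0, h1, h2⟩ | ⟨h1, h2⟩
  · -- level `s`, it stays or climbs
    subst h1
    have e1 : Ph β m M j j = - SS β m j := by rw [Ph, if_pos rfl]
    rw [e1]
    have hSs := SS_succ (β := β) (m := m) j
    have hSn := hS (j + 1) (by omega)
    rcases h2 with h2 | h2
    · -- stays
      rw [h2]
      have e3 : Ph β m M j ((q + 1 + off) % M) = ((M : ℝ) - 1) * SS β m (j + 1) := by
        rcases hmod with ⟨ha, hb⟩ | ⟨ha, hb⟩
        · rw [hb, Ph, if_neg (by omega), if_pos (by omega), hSs]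
          push_cast
          ring
        · rw [hb, Ph]
          by_cases hs0 : j = 0
          · have hM' : M = 1 := by omega
            rw [if_pos hs0, hs0, SS_zero, hM']
            simp
          · rw [if_neg hs0, if_neg (by omega), hSs]
            have : (M : ℝ) = j + 1 := by exact_mod_cast ha.symm
            rw [this]
            push_cast
            ring
      rw [e3]
      nlinarith
    · -- climbs
      rw [h2]
      have e3 : Ph β m M (j + 1) ((q + 1 + off) % M) = - SS β m (j + 1) := by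
        rcases hmod with ⟨ha, hb⟩ | ⟨ha, hb⟩
        · rw [hb, Ph, if_pos rfl]
        · rw [hb, Ph, if_neg (by omega), if_neg (by omega)]
          have hjm : j + 1 = m := by omega
          rw [← hjm] at hl hle
          rw [hjm] at hl hle ⊢
          have hMr : (M : ℝ) = m := by
            have : M = m := by omega
            exact_mod_cast this
          have : bt β m m = - SS β m m := by linarith
          rw [this, hMr]
          push_cast
          ring
      rw [e3, hSs]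
      linarith
  · -- level `s+1` falls
    subst h2
    rw [h1]
    have e1 : Ph β m M (j' + 1) j' = bt β m (j' + 1) + ((M : ℝ) - 1) * SS β m (j' + 1) := by
      rw [Ph, if_neg (by omega), if_neg (by omega)]
      push_cast
      ring
    have e3 : Ph β m M j' ((q + 1 + off) % M) = ((M : ℝ) - 1) * SS β m (j' + 1) := by
      rcases hmod with ⟨ha, hb⟩ | ⟨ha, hb⟩
      · rw [hb, Ph, if_neg (by omega), if_pos (by omega), SS_succ]
        push_cast
        ring
      · rw [hb, Ph]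
        by_cases hs0 : j' = 0
        · have hM' : M = 1 := by omega
          rw [if_pos hs0, hs0, SS_zero, hM']
          simp
        · rw [if_neg hs0, if_neg (by omega), SS_succ]
          have : (M : ℝ) = j' + 1 := by exact_mod_cast ha.symm
          rw [this]
          push_cast
          ring
    rw [e1, e3]
  · -- the level stays
    subst h2
    by_cases hcs : j' = s
    · -- then `s = m` and the gate is not active
      have hsm : s = m := by omega
      have hjm : j' = m := by omega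
      have hb0 : bt β m m = - SS β m m := by linarith
      rw [hjm, hsm]
      have e1 : Ph β m M m m = - SS β m m := by rw [Ph, if_pos rfl]
      rw [e1]
      rcases hmod with ⟨ha, hb⟩ | ⟨ha, hb⟩
      · rw [hb, hsm, Ph, if_neg (by omega), if_pos (by omega), hb0]
        push_cast
        apply le_of_eq
        ring
      · rw [hb, Ph, if_neg (by omega), if_neg (by omega), hb0]
        have hMr : (M : ℝ) = m + 1 := by
          have : M = m + 1 := by omega
          rw [this]; push_cast; ring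
        rw [hMr]
        push_cast
        apply le_of_eq
        ring
    · rcases hmod with ⟨ha, hb⟩ | ⟨ha, hb⟩
      · rw [hb, Ph, Ph, if_neg (show ¬ j' = s + 1 by omega), if_neg hcs]
        by_cases hc : j' < s
        · rw [if_pos (show j' < s + 1 by omega), if_pos hc]
          push_cast
          apply le_of_eq
          ring
        · rw [if_neg (show ¬ j' < s + 1 by omega), if_neg hc]
          push_cast
          apply le_of_eq
          ring
      · rw [hb, Ph, Ph, if_neg hcs, if_pos (show j' < s by omega)]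
        have hMr : (M : ℝ) = s + 1 := by exact_mod_cast ha.symm
        by_cases hc : j' = 0
        · rw [if_pos hc, hc, SS_zero, hMr]
          apply le_of_eq
          push_cast
          ring
        · rw [if_neg hc, if_neg (by omega), hMr]
          apply le_of_eq
          push_cast
          ring

/-- The case of one level. -/
lemma Ph_zero (hM1 : 1 ≤ M) (s : ℕ) (hs : s < M) : Ph β 0 M 0 s = 0 := by
  have h0 : bt β 0 0 = 0 := by simp [bt, abar]
  rw [Ph]
  split_ifs with h1 h2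
  · rw [SS_zero, neg_zero]
  · rw [h0, SS_zero]; ring
  · omega

/-- The potential is a supersolution (`m = 0` allowed). -/
theorem Phi_super' (hM1 : 1 ≤ M) (hM : m ≤ M) (hβ : ∀ i j, i ≤ j → j ≤ m → β i ≤ β j)
    (q j j' : ℕ) (hj : j ≤ m) (hR : Rl m M off q j j') :
    β j - abar β m + Phi β m M off (q + 1) j' ≤ Phi β m M off q j := by
  rcases Nat.eq_zero_or_pos m with hm | hm
  · subst hm
    have hj0 : j = 0 := by omega
    subst hj0
    have hj' : j' = 0 := by
      rcases hR with ⟨h1, -⟩ | ⟨h1, -⟩ | ⟨-, h1⟩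
      · omega
      · omega
      · exact h1
    subst hj'
    have h0 : β 0 - abar β 0 = 0 := by simp [abar]
    rw [Phi, Phi, Ph_zero hM1 _ (Nat.mod_lt _ (by omega)), Ph_zero hM1 _ (Nat.mod_lt _ (by omega)),
      h0]
    simp
  · exact Phi_super hm hM hβ q j j' hj hR

/-- bound of the potential -/
def MP (β : ℕ → ℝ) (m M : ℕ) : ℝ := ∑ c ∈ range (m + 1), ∑ s ∈ range M, |Ph β m M c s|

lemma MP_nonneg : 0 ≤ MP β m M := sum_nonneg fun _ _ => sum_nonneg fun _ _ => abs_nonneg _

lemma Phi_le_MP (hM : 1 ≤ M) (q j : ℕ) (hj : j ≤ m) : |Phi β m M off q j| ≤ MP β m M := by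
  unfold Phi
  have h1 : j ∈ range (m + 1) := by rw [mem_range]; omega
  have h2 : (q + off) % M ∈ range M := by rw [mem_range]; exact Nat.mod_lt _ (by omega)
  refine le_trans ?_ (single_le_sum (f := fun c => ∑ s ∈ range M, |Ph β m M c s|)
    (fun c _ => sum_nonneg fun _ _ => abs_nonneg _) h1)
  exact single_le_sum (f := fun s => |Ph β m M j s|) (fun _ _ => abs_nonneg _) h2

open Classical in
/-- **Growth recursion** (abstract supersolution lemma). -/
theorem super_rec (N : ℕ) (α : ℕ → ℝ) (a M : ℝ) (Φ : ℕ → ℕ → ℝ) (R : ℕ → ℕ → ℕ → Prop)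
    (hΦ : ∀ q, ∀ j < N, |Φ q j| ≤ M)
    (hR : ∀ q, ∀ j < N, ∀ j' < N, R q j j' → α j - a + Φ (q + 1) j' ≤ Φ q j)
    (T K : ℕ → ℝ) (x : ℕ → ℕ → ℝ) (P : ℕ) (hx : ∀ q j, 0 ≤ x q j) (hK : ∀ q, 0 ≤ K q)
    (hT : ∀ q, 0 ≤ T q)
    (hstep : ∀ q < P, ∀ j' < N, x (q + 1) j' ≤
      K q * ∑ j ∈ range N, if R q j j' then Real.exp (α j * T q) * x q j else 0) :
    ∀ q ≤ P, ∑ j ∈ range N, x q j ≤ Real.exp (M * (T q + T 0)) * (∏ i ∈ range q, (N * K i)) *
      Real.exp (a * ∑ i ∈ range q, T i + M * ∑ i ∈ range q, |T (i + 1) - T i|) *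
        ∑ j ∈ range N, x 0 j := by
  -- the weighted sums
  set b : ℕ → ℝ := fun q => ∑ j ∈ range N, Real.exp (T q * Φ q j) * x q j with hb
  have hb0 : ∀ q, 0 ≤ b q := fun q => sum_nonneg fun j _ => mul_nonneg (Real.exp_pos _).le (hx _ _)
  have step : ∀ q < P, b (q + 1) ≤
      (N * K q) * Real.exp (a * T q + M * |T (q + 1) - T q|) * b q := by
    intro q hq
    have h1 : ∀ j' ∈ range N, Real.exp (T (q + 1) * Φ (q + 1) j') * x (q + 1) j' ≤
        K q * Real.exp (a * T q + M * |T (q + 1) - T q|) * b q := by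
      intro j' hj'
      rw [mem_range] at hj'
      refine le_trans (mul_le_mul_of_nonneg_left (hstep q hq j' hj') (Real.exp_pos _).le) ?_
      rw [show ∀ y : ℝ, Real.exp (T (q + 1) * Φ (q + 1) j') * (K q * y) =
        K q * (Real.exp (T (q + 1) * Φ (q + 1) j') * y) from fun y => by ring, mul_assoc]
      refine mul_le_mul_of_nonneg_left ?_ (hK q)
      rw [hb, mul_sum, mul_sum]
      refine sum_le_sum fun j hj => ?_
      rw [mem_range] at hj
      split_ifs with hr
      · rw [← mul_assoc, ← mul_assoc, ← Real.exp_add, ← Real.exp_add]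
        refine mul_le_mul_of_nonneg_right (Real.exp_le_exp.2 ?_) (hx _ _)
        have e1 := hR q j hj j' hj' hr
        have e2 := hΦ (q + 1) j' hj'
        have e3 : (T (q + 1) - T q) * Φ (q + 1) j' ≤ M * |T (q + 1) - T q| := by
          calc (T (q + 1) - T q) * Φ (q + 1) j' ≤ |(T (q + 1) - T q) * Φ (q + 1) j'| := le_abs_self _
            _ = |T (q + 1) - T q| * |Φ (q + 1) j'| := abs_mul _ _
            _ ≤ |T (q + 1) - T q| * M := mul_le_mul_of_nonneg_left e2 (abs_nonneg _)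
            _ = _ := mul_comm _ _
        have e4 : T q * (α j - a + Φ (q + 1) j') ≤ T q * Φ q j :=
          mul_le_mul_of_nonneg_left e1 (hT q)
        nlinarith
      · rw [mul_zero]
        exact mul_nonneg (Real.exp_pos _).le (mul_nonneg (Real.exp_pos _).le (hx _ _))
    calc b (q + 1) ≤ ∑ j' ∈ range N, K q * Real.exp (a * T q + M * |T (q + 1) - T q|) * b q :=
          sum_le_sum h1
      _ = _ := by rw [sum_const, card_range, nsmul_eq_mul]; ring
  have main : ∀ q ≤ P, b q ≤ (∏ i ∈ range q, (N * K i)) *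
      Real.exp (a * ∑ i ∈ range q, T i + M * ∑ i ∈ range q, |T (i + 1) - T i|) * b 0 := by
    intro q
    induction q with
    | zero => intro _; simp
    | succ q ih =>
      intro hq
      refine (step q (by omega)).trans ?_
      have h2 := ih (by omega)
      have h3 : 0 ≤ (N * K q) * Real.exp (a * T q + M * |T (q + 1) - T q|) :=
        mul_nonneg (mul_nonneg (Nat.cast_nonneg _) (hK q)) (Real.exp_pos _).le
      refine (mul_le_mul_of_nonneg_left h2 h3).trans (le_of_eq ?_)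
      rw [prod_range_succ, sum_range_succ, sum_range_succ,
        show a * (∑ i ∈ range q, T i + T q) + M * (∑ i ∈ range q, |T (i + 1) - T i| +
          |T (q + 1) - T q|) = (a * T q + M * |T (q + 1) - T q|) +
            (a * ∑ i ∈ range q, T i + M * ∑ i ∈ range q, |T (i + 1) - T i|) by ring,
        Real.exp_add (a * T q + M * |T (q + 1) - T q|)]
      generalize Real.exp (a * T q + M * |T (q + 1) - T q|) = A
      generalize Real.exp (a * ∑ i ∈ range q, T i + M * ∑ i ∈ range q, |T (i + 1) - T i|) = B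
      ring
  intro q hq
  have hlow : ∑ j ∈ range N, x q j ≤ Real.exp (M * T q) * b q := by
    rw [hb, mul_sum]
    refine sum_le_sum fun j hj => ?_
    rw [mem_range] at hj
    rw [← mul_assoc, ← Real.exp_add]
    refine le_mul_of_one_le_left (hx _ _) (Real.one_le_exp ?_)
    have := (abs_le.1 (hΦ q j hj)).1
    nlinarith [hT q]
  have hup : b 0 ≤ Real.exp (M * T 0) * ∑ j ∈ range N, x 0 j := by
    rw [hb, mul_sum]
    refine sum_le_sum fun j hj => ?_
    rw [mem_range] at hj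
    refine mul_le_mul_of_nonneg_right (Real.exp_le_exp.2 ?_) (hx _ _)
    have := (abs_le.1 (hΦ 0 j hj)).2
    nlinarith [hT 0]
  have hPn : 0 ≤ ∏ i ∈ range q, (N * K i) :=
    prod_nonneg fun i _ => mul_nonneg (Nat.cast_nonneg _) (hK i)
  calc ∑ j ∈ range N, x q j ≤ Real.exp (M * T q) * b q := hlow
    _ ≤ Real.exp (M * T q) * ((∏ i ∈ range q, (N * K i)) *
        Real.exp (a * ∑ i ∈ range q, T i + M * ∑ i ∈ range q, |T (i + 1) - T i|) * b 0) :=
        mul_le_mul_of_nonneg_left (main q hq) (Real.exp_pos _).le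
    _ ≤ Real.exp (M * T q) * ((∏ i ∈ range q, (N * K i)) *
        Real.exp (a * ∑ i ∈ range q, T i + M * ∑ i ∈ range q, |T (i + 1) - T i|) *
          (Real.exp (M * T 0) * ∑ j ∈ range N, x 0 j)) := by
        refine mul_le_mul_of_nonneg_left ?_ (Real.exp_pos _).le
        exact mul_le_mul_of_nonneg_left hup (mul_nonneg hPn (Real.exp_pos _).le)
    _ = _ := by
        rw [show M * (T q + T 0) = M * T q + M * T 0 by ring, Real.exp_add (M * T q)]
        generalize Real.exp (a * ∑ i ∈ range q, T i + M * ∑ i ∈ range q, |T (i + 1) - T i|) = B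
        ring

end

end Crest.Agent.R202.Mix
end

-- ▼ part R202/MixGrow
section

/-! # Row 202, PART A2: growth from the flags (helper14)

`E` = space of solutions (finite dimensional, `finrank E = N = i0 + m`), cuts `l ∈ [i0, N]`.
Levels `c = 0,…,m`: level `0` = the block of the modes `0,…,i0-1`, level `c` = mode `i0+c-1`. -/

set_option autoImplicit false

open scoped InnerProductSpace

namespace Crest.Agent.R202.Mix

open Finset

noncomputable section

/-! ## One home -/

section Home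

variable {H : Type*} [NormedAddCommGroup H] [InnerProductSpace ℝ H] {N : ℕ} {e : Fin N → H}

/-- Transversality of a slow and a fast cone, quantitatively. -/
lemma split_bound (he : Orthonormal ℝ e) (l : ℕ) {y z : H}
    (hy : ‖y - pr e l y‖ ≤ (3 / 20) * ‖pr e l y‖) (hz : ‖pr e l z‖ ≤ 3 * ‖z - pr e l z‖) :
    ‖y‖ ≤ 8 * ‖y + z‖ := by
  have h1 := norm_sq_split he l (y + z)
  have h2 := norm_sq_split he l y
  have h3 : ‖pr e l y‖ ≤ ‖pr e l (y + z)‖ + ‖pr e l z‖ := by
    have : pr e l y = pr e l (y + z) - pr e l z := by rw [map_add]; abel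
    rw [this]
    exact norm_sub_le _ _
  have h4 : ‖z - pr e l z‖ ≤ ‖y + z - pr e l (y + z)‖ + ‖y - pr e l y‖ := by
    have : z - pr e l z = (y + z - pr e l (y + z)) - (y - pr e l y) := by rw [map_add]; abel
    rw [this]
    exact norm_sub_le _ _
  refine le_of_sq_le_sq ?_ (by positivity)
  generalize ‖pr e l (y + z)‖ = X at *
  generalize ‖y + z - pr e l (y + z)‖ = W at *
  generalize hA : ‖pr e l y‖ = A at *
  generalize hB : ‖y - pr e l y‖ = B at *
  generalize ‖z - pr e l z‖ = C at *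
  generalize ‖pr e l z‖ = D at *
  have hA0 : 0 ≤ A := by rw [← hA]; exact norm_nonneg _
  have hB0 : 0 ≤ B := by rw [← hB]; exact norm_nonneg _
  have h5 : (11 / 20) * A ≤ X + 3 * W := by linarith
  have h6 : ((11 / 20) * A) ^ 2 ≤ (X + 3 * W) ^ 2 := by
    have := mul_self_le_mul_self (by positivity : 0 ≤ (11 / 20) * A) h5
    nlinarith
  have h7 : (X + 3 * W) ^ 2 ≤ 10 * (X ^ 2 + W ^ 2) := by nlinarith [sq_nonneg (3 * X - W)]
  rw [h2, mul_pow, h1]
  have h9 : B ^ 2 ≤ ((3 / 20) * A) ^ 2 := by nlinarith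
  nlinarith

end Home

/-! ## The chain -/

/-- Data of PART A2: one sector, one parameter `κ`. -/
structure FlagChain (H : Type*) [NormedAddCommGroup H] [InnerProductSpace ℝ H]
    (E : Type*) [AddCommGroup E] [Module ℝ E] (N i0 m P : ℕ) where
  /-- the modes -/
  e : Fin N → H
  /-- growth bounds of the homes, per cut -/
  G : ℕ → ℕ → ℝ
  /-- gate bounds (outward) -/
  Γ : ℕ → ℝ
  /-- designated cuts, `0` = none -/
  d : ℕ → ℕ
  /-- values at the inner end -/
  Jm : ℕ → E →ₗ[ℝ] H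
  /-- values at the outer end -/
  Jp : ℕ → E →ₗ[ℝ] H
  /-- slow spaces -/
  V : ℕ → ℕ → Submodule ℝ E
  /-- past-fast spaces -/
  U : ℕ → ℕ → Submodule ℝ E
  hN : N = i0 + m
  hi0 : 1 ≤ i0
  finE : Module.finrank ℝ E = N
  orth : Orthonormal ℝ e
  inj_m : ∀ q ≤ P, ∀ u, Jm q u = 0 → u = 0
  V_mono : ∀ q ≤ P, ∀ l, i0 ≤ l → l < N → V q l ≤ V q (l + 1)
  U_anti : ∀ q ≤ P, ∀ l, i0 ≤ l → l < N → U q (l + 1) ≤ U q l
  finrank_V : ∀ q ≤ P, ∀ l, i0 ≤ l → l ≤ N → Module.finrank ℝ (V q l) = l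
  finrank_U : ∀ q ≤ P, ∀ l, i0 ≤ l → l ≤ N → Module.finrank ℝ (U q l) = N - l
  cone_V : ∀ q ≤ P, ∀ l, i0 ≤ l → l ≤ N → ∀ u ∈ V q l,
    ‖Jm q u - pr e l (Jm q u)‖ ≤ (3 / 20) * ‖pr e l (Jm q u)‖
  cone_U : ∀ q ≤ P, ∀ l, i0 ≤ l → l ≤ N → ∀ u ∈ U q l,
    ‖pr e l (Jm q u)‖ ≤ 3 * ‖Jm q u - pr e l (Jm q u)‖
  grow : ∀ q ≤ P, ∀ l, i0 ≤ l → l ≤ N → ∀ u ∈ V q l, ‖Jp q u‖ ≤ G q l * ‖Jm q u‖
  V_const : ∀ k < P, ∀ l, i0 ≤ l → l ≤ N → l ≠ d k → V (k + 1) l = V k l
  U_const : ∀ k < P, ∀ l, i0 ≤ l → l ≤ N → l ≠ d k → U (k + 1) l = U k l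
  meet : ∀ k < P, i0 ≤ d k → d k < N → ∃ u ∈ V (k + 1) (d k), u ∈ U k (d k) ∧ u ≠ 0
  norm_gate : ∀ k < P, ∀ u, ‖Jm (k + 1) u‖ ≤ Γ k * ‖Jp k u‖

namespace FlagChain

variable {H : Type*} [NormedAddCommGroup H] [InnerProductSpace ℝ H]
  {E : Type*} [AddCommGroup E] [Module ℝ E] {N i0 m P : ℕ} (F : FlagChain H E N i0 m P)

include F in
lemma finiteE : Module.Finite ℝ E := by
  apply Module.finite_of_finrank_pos
  rw [F.finE, F.hN]
  have := F.hi0
  omega

/-- slow space of the cut index `c` -/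
def Vc (q c : ℕ) : Submodule ℝ E := if c = 0 then ⊥ else F.V q (i0 + c - 1)

/-- fast space of the cut index `c` -/
def Uc (q c : ℕ) : Submodule ℝ E := if c = 0 then ⊤ else F.U q (i0 + c - 1)

lemma Vc_zero (q : ℕ) : F.Vc q 0 = ⊥ := if_pos rfl
lemma Uc_zero (q : ℕ) : F.Uc q 0 = ⊤ := if_pos rfl
lemma Vc_succ (q c : ℕ) : F.Vc q (c + 1) = F.V q (i0 + c) := by
  rw [Vc, if_neg (by omega)]; rfl
lemma Uc_succ (q c : ℕ) : F.Uc q (c + 1) = F.U q (i0 + c) := by
  rw [Uc, if_neg (by omega)]; rfl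

lemma Vc_mono {q : ℕ} (hq : q ≤ P) {c : ℕ} (hc : c ≤ m) : F.Vc q c ≤ F.Vc q (c + 1) := by
  rcases Nat.eq_zero_or_pos c with rfl | h
  · rw [Vc_zero]; exact bot_le
  · obtain ⟨c, rfl⟩ : ∃ b, c = b + 1 := ⟨c - 1, by omega⟩
    rw [Vc_succ, Vc_succ]
    exact F.V_mono q hq (i0 + c) (by omega) (by have := F.hN; omega)

lemma Uc_anti {q : ℕ} (hq : q ≤ P) {c : ℕ} (hc : c ≤ m) : F.Uc q (c + 1) ≤ F.Uc q c := by
  rcases Nat.eq_zero_or_pos c with rfl | h
  · rw [Uc_zero]; exact le_top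
  · obtain ⟨c, rfl⟩ : ∃ b, c = b + 1 := ⟨c - 1, by omega⟩
    rw [Uc_succ, Uc_succ]
    exact F.U_anti q hq (i0 + c) (by omega) (by have := F.hN; omega)

lemma Vc_le {q : ℕ} (hq : q ≤ P) {a b : ℕ} (hab : a ≤ b) (hb : b ≤ m + 1) :
    F.Vc q a ≤ F.Vc q b := by
  induction b, hab using Nat.le_induction with
  | base => exact le_rfl
  | succ k hk ih => exact (ih (by omega)).trans (F.Vc_mono hq (by omega))

lemma Uc_le {q : ℕ} (hq : q ≤ P) {a b : ℕ} (hab : a ≤ b) (hb : b ≤ m + 1) :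
    F.Uc q b ≤ F.Uc q a := by
  induction b, hab using Nat.le_induction with
  | base => exact le_rfl
  | succ k hk ih => exact (F.Uc_anti hq (by omega)).trans (ih (by omega))

lemma split {q : ℕ} (hq : q ≤ P) {l : ℕ} (h0 : i0 ≤ l) (hl : l ≤ N) {v w : E} (hv : v ∈ F.V q l)
    (hw : w ∈ F.U q l) : ‖F.Jm q v‖ ≤ 8 * ‖F.Jm q (v + w)‖ := by
  rw [map_add]
  exact split_bound F.orth l (F.cone_V q hq l h0 hl v hv) (F.cone_U q hq l h0 hl w hw)

lemma disj {q : ℕ} (hq : q ≤ P) {l : ℕ} (h0 : i0 ≤ l) (hl : l ≤ N) :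
    Disjoint (F.V q l) (F.U q l) := by
  rw [Submodule.disjoint_def]
  intro u hu hu'
  have h1 := F.split hq h0 hl hu ((F.U q l).neg_mem hu')
  rw [add_neg_cancel, map_zero, norm_zero, mul_zero] at h1
  exact F.inj_m q hq u (norm_le_zero_iff.1 h1)

lemma compl {q : ℕ} (hq : q ≤ P) {c : ℕ} (hc : c ≤ m + 1) : IsCompl (F.Vc q c) (F.Uc q c) := by
  have := F.finiteE
  rcases Nat.eq_zero_or_pos c with rfl | h
  · rw [Vc_zero, Uc_zero]; exact isCompl_bot_top
  · obtain ⟨c, rfl⟩ : ∃ b, c = b + 1 := ⟨c - 1, by omega⟩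
    have hN := F.hN
    rw [Vc_succ, Uc_succ]
    have hd := F.disj hq (l := i0 + c) (by omega) (by omega)
    refine ⟨hd, ?_⟩
    rw [codisjoint_iff]
    apply Submodule.eq_top_of_finrank_eq
    have h1 := Submodule.finrank_sup_add_finrank_inf_eq (F.V q (i0 + c)) (F.U q (i0 + c))
    rw [hd.eq_bot, finrank_bot, add_zero, F.finrank_V q hq _ (by omega) (by omega),
      F.finrank_U q hq _ (by omega) (by omega)] at h1
    rw [h1, F.finE]
    omega

lemma exists_proj {q : ℕ} (hq : q ≤ P) {c : ℕ} (hc : c ≤ m + 1) :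
    ∃ π : E →ₗ[ℝ] E, (∀ x, π x ∈ F.Vc q c) ∧ ∀ x, x - π x ∈ F.Uc q c := by
  have h := F.compl hq hc
  refine ⟨(F.Vc q c).projection _ h, fun x => Submodule.projection_apply_mem h x, fun x => ?_⟩
  rw [← Submodule.projection_eq_self_sub_projection h x]
  exact Submodule.projection_apply_mem h.symm x

open Classical in
/-- the projection onto `Vc q c` along `Uc q c` -/
def proj (q c : ℕ) : E →ₗ[ℝ] E :=
  if h : q ≤ P ∧ c ≤ m + 1 then (F.exists_proj h.1 h.2).choose else 0

lemma proj_mem {q : ℕ} (hq : q ≤ P) {c : ℕ} (hc : c ≤ m + 1) (x : E) : F.proj q c x ∈ F.Vc q c := by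
  rw [proj, dif_pos ⟨hq, hc⟩]
  exact (F.exists_proj hq hc).choose_spec.1 x

lemma sub_proj_mem {q : ℕ} (hq : q ≤ P) {c : ℕ} (hc : c ≤ m + 1) (x : E) :
    x - F.proj q c x ∈ F.Uc q c := by
  rw [proj, dif_pos ⟨hq, hc⟩]
  exact (F.exists_proj hq hc).choose_spec.2 x

lemma proj_eq {q : ℕ} (hq : q ≤ P) {c : ℕ} (hc : c ≤ m + 1) {x a : E} (ha : a ∈ F.Vc q c)
    (hb : x - a ∈ F.Uc q c) : F.proj q c x = a := by
  have h1 := F.proj_mem hq hc x
  have h2 := F.sub_proj_mem hq hc x
  have h3 : F.proj q c x - a ∈ F.Vc q c := Submodule.sub_mem _ h1 ha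
  have h4 : F.proj q c x - a ∈ F.Uc q c := by
    have := Submodule.sub_mem _ hb h2
    have e : x - a - (x - F.proj q c x) = F.proj q c x - a := by abel
    rwa [e] at this
  have h5 := (Submodule.disjoint_def.1 (F.compl hq hc).disjoint) _ h3 h4
  exact sub_eq_zero.1 h5

lemma proj_of_mem {q : ℕ} (hq : q ≤ P) {a c : ℕ} (hac : a ≤ c) (hc : c ≤ m + 1) {x : E}
    (hx : x ∈ F.Vc q a) : F.proj q c x = x :=
  F.proj_eq hq hc (F.Vc_le hq hac hc hx) (by rw [sub_self]; exact Submodule.zero_mem _)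

lemma proj_of_mem_U {q : ℕ} (hq : q ≤ P) {b c : ℕ} (hcb : c ≤ b) (hb : b ≤ m + 1) {x : E}
    (hx : x ∈ F.Uc q b) : F.proj q c x = 0 :=
  F.proj_eq hq (hcb.trans hb) (Submodule.zero_mem _) (by rw [sub_zero]; exact F.Uc_le hq hcb hb hx)

lemma proj_zero {q : ℕ} (hq : q ≤ P) (x : E) : F.proj q 0 x = 0 :=
  F.proj_of_mem_U hq le_rfl (Nat.zero_le _) (x := x) (by rw [Uc_zero]; trivial)

lemma Vc_last {q : ℕ} (hq : q ≤ P) : F.Vc q (m + 1) = ⊤ := by
  have := F.finiteE
  rw [Vc_succ]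
  apply Submodule.eq_top_of_finrank_eq
  have hN := F.hN
  rw [F.finrank_V q hq _ (by omega) (by omega), F.finE, hN]

lemma proj_last {q : ℕ} (hq : q ≤ P) (x : E) : F.proj q (m + 1) x = x :=
  F.proj_of_mem hq le_rfl le_rfl (by rw [F.Vc_last hq]; trivial)

lemma norm_proj {q : ℕ} (hq : q ≤ P) {c : ℕ} (hc : c ≤ m + 1) (x : E) :
    ‖F.Jm q (F.proj q c x)‖ ≤ 8 * ‖F.Jm q x‖ := by
  rcases Nat.eq_zero_or_pos c with rfl | h
  · rw [F.proj_zero hq, map_zero, norm_zero]; positivity
  · obtain ⟨c, rfl⟩ : ∃ b, c = b + 1 := ⟨c - 1, by omega⟩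
    have h1 := F.proj_mem hq hc x
    have h2 := F.sub_proj_mem hq hc x
    rw [Vc_succ] at h1
    rw [Uc_succ] at h2
    have hN := F.hN
    have h3 := F.split hq (by omega) (by omega) h1 h2
    rwa [add_sub_cancel] at h3

/-- the component of `u` in the level `c` -/
def comp (q c : ℕ) (u : E) : E := F.proj q (c + 1) u - F.proj q c u

lemma comp_mem_V {q : ℕ} (hq : q ≤ P) {c : ℕ} (hc : c ≤ m) (u : E) :
    F.comp q c u ∈ F.Vc q (c + 1) :=
  Submodule.sub_mem _ (F.proj_mem hq (by omega) u)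
    (F.Vc_mono hq hc (F.proj_mem hq (by omega) u))

lemma comp_mem_U {q : ℕ} (hq : q ≤ P) {c : ℕ} (hc : c ≤ m) (u : E) :
    F.comp q c u ∈ F.Uc q c := by
  have h1 := F.sub_proj_mem hq (c := c) (by omega) u
  have h2 := F.Uc_anti hq hc (F.sub_proj_mem hq (c := c + 1) (by omega) u)
  have e : F.comp q c u = (u - F.proj q c u) - (u - F.proj q (c + 1) u) := by
    rw [comp]; abel
  rw [e]
  exact Submodule.sub_mem _ h1 h2

lemma norm_comp {q : ℕ} (hq : q ≤ P) {c : ℕ} (hc : c ≤ m) (u : E) :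
    ‖F.Jm q (F.comp q c u)‖ ≤ 16 * ‖F.Jm q u‖ := by
  rw [comp, map_sub]
  have h1 := F.norm_proj hq (c := c + 1) (by omega) u
  have h2 := F.norm_proj hq (c := c) (by omega) u
  have := norm_sub_le (F.Jm q (F.proj q (c + 1) u)) (F.Jm q (F.proj q c u))
  linarith

lemma sum_comp {q : ℕ} (hq : q ≤ P) (u : E) : ∑ c ∈ range (m + 1), F.comp q c u = u := by
  unfold comp
  rw [sum_range_sub (fun c => F.proj q c u), F.proj_last hq, F.proj_zero hq, sub_zero]

/-- growth of a level in a home -/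
lemma level_growth {q : ℕ} (hq : q ≤ P) {c : ℕ} (hc : c ≤ m) (u : E) :
    ‖F.Jp q (F.comp q c u)‖ ≤ F.G q (i0 + c) * ‖F.Jm q (F.comp q c u)‖ := by
  have h1 := F.comp_mem_V hq hc u
  rw [Vc_succ] at h1
  have hN := F.hN
  exact F.grow q hq _ (by omega) (by omega) _ h1

/-! ### The gates -/

variable {F}

/-- components of an element of `V_a ∩ U_b` vanish outside `[b, a)` -/
lemma comp_zero {q : ℕ} (hq : q ≤ P) {a b j : ℕ} (hb : b ≤ m + 1) (hj : j ≤ m)
    {z : E} (hz : z ∈ F.Vc q a) (hz' : z ∈ F.Uc q b) (h : a ≤ j ∨ j < b) : F.comp q j z = 0 := by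
  rw [comp]
  rcases h with h | h
  · rw [F.proj_of_mem hq (a := a) (by omega) (by omega) hz,
      F.proj_of_mem hq (a := a) (by omega) (by omega) hz, sub_self]
  · rw [F.proj_of_mem_U hq (b := b) (by omega) hb hz',
      F.proj_of_mem_U hq (b := b) (by omega) hb hz', sub_self]

lemma Vc_const {k : ℕ} (hk : k < P) {c : ℕ} (hc : c ≤ m + 1)
    (h : c = 0 ∨ i0 + c ≠ F.d k + 1) :
    F.Vc (k + 1) c = F.Vc k c := by
  rcases Nat.eq_zero_or_pos c with rfl | h0
  · rw [Vc_zero, Vc_zero]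
  · obtain ⟨c, rfl⟩ : ∃ b, c = b + 1 := ⟨c - 1, by omega⟩
    rw [Vc_succ, Vc_succ]
    have hN := F.hN
    exact F.V_const k hk _ (by omega) (by omega) (by omega)

lemma Uc_const {k : ℕ} (hk : k < P) {c : ℕ} (hc : c ≤ m + 1)
    (h : c = 0 ∨ i0 + c ≠ F.d k + 1) :
    F.Uc (k + 1) c = F.Uc k c := by
  rcases Nat.eq_zero_or_pos c with rfl | h0
  · rw [Uc_zero, Uc_zero]
  · obtain ⟨c, rfl⟩ : ∃ b, c = b + 1 := ⟨c - 1, by omega⟩
    rw [Uc_succ, Uc_succ]
    have hN := F.hN
    exact F.U_const k hk _ (by omega) (by omega) (by omega)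

/-- At the designated cut `i0 + s` the level `s+1` inside is contained in the slow space of the
outside. -/
lemma level_falls {k : ℕ} (hk : k < P) {s : ℕ} (hs : s < m) (hd : F.d k = i0 + s) {z : E}
    (hz : z ∈ F.Vc k (s + 2)) (hz' : z ∈ F.Uc k (s + 1)) : z ∈ F.Vc (k + 1) (s + 1) := by
  have := F.finiteE
  have hN := F.hN
  obtain ⟨u, hu, hu', hu0⟩ := F.meet k hk (by omega) (by omega)
  rw [hd, ← Vc_succ] at hu
  rw [hd, ← Uc_succ] at hu'
  have h1 : u ∈ F.Vc k (s + 2) := by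
    rw [← F.Vc_const hk (c := s + 2) (by omega) (by omega)]
    exact F.Vc_mono (by omega) (c := s + 1) (by omega) hu
  have h2 : Module.finrank ℝ ↥(F.Vc k (s + 2) ⊓ F.Uc k (s + 1)) ≤ 1 := by
    have e1 := Submodule.finrank_sup_add_finrank_inf_eq (F.Vc k (s + 2) ⊓ F.Uc k (s + 1))
      (F.Vc k (s + 1))
    have e2 : (F.Vc k (s + 2) ⊓ F.Uc k (s + 1)) ⊓ F.Vc k (s + 1) = ⊥ := by
      rw [eq_bot_iff]
      rintro x ⟨⟨-, hx1⟩, hx2⟩
      exact (Submodule.mem_bot ℝ).2 ((Submodule.disjoint_def.1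
        (F.compl (show k ≤ P by omega) (show s + 1 ≤ m + 1 by omega)).disjoint) x hx2 hx1)
    have e3 : (F.Vc k (s + 2) ⊓ F.Uc k (s + 1)) ⊔ F.Vc k (s + 1) ≤ F.Vc k (s + 2) :=
      sup_le inf_le_left (F.Vc_mono (by omega) (by omega))
    have e4 := Submodule.finrank_mono e3
    have e5 : Module.finrank ℝ (F.Vc k (s + 2)) = i0 + (s + 1) := by
      rw [Vc_succ]; exact F.finrank_V k (by omega) _ (by omega) (by omega)
    have e6 : Module.finrank ℝ (F.Vc k (s + 1)) = i0 + s := by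
      rw [Vc_succ]; exact F.finrank_V k (by omega) _ (by omega) (by omega)
    rw [e2, finrank_bot] at e1
    omega
  obtain ⟨v, hv⟩ := finrank_le_one_iff.1 h2
  obtain ⟨c1, hc1⟩ := hv ⟨u, h1, hu'⟩
  obtain ⟨c2, hc2⟩ := hv ⟨z, hz, hz'⟩
  have hc1' : c1 • (v : E) = u := by
    have := congrArg Subtype.val hc1
    simpa using this
  have hc2' : c2 • (v : E) = z := by
    have := congrArg Subtype.val hc2
    simpa using this
  have hc10 : c1 ≠ 0 := by
    rintro rfl
    rw [zero_smul] at hc1'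
    exact hu0 hc1'.symm
  have : z = (c2 * c1⁻¹) • u := by
    rw [← hc1', smul_smul, mul_assoc, inv_mul_cancel₀ hc10, mul_one, hc2']
  rw [this]
  exact Submodule.smul_mem _ _ hu

/-- Only the allowed transitions occur. -/
lemma trans_zero {k M off : ℕ} (hk : k < P)
    (hd : F.d k = if (k + off) % M < m then i0 + (k + off) % M else 0)
    {j j' : ℕ} (hj : j ≤ m) (hj' : j' ≤ m) (hR : ¬ Rl m M off k j j') (u : E) :
    F.comp (k + 1) j' (F.comp k j u) = 0 := by
  have hi0 := F.hi0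
  have hq : k ≤ P := hk.le
  have hq' : k + 1 ≤ P := hk
  have h1 := F.comp_mem_V hq hj u
  have h2 := F.comp_mem_U hq hj u
  unfold Rl at hR
  generalize (k + off) % M = s at hd hR
  push Not at hR
  obtain ⟨hR1, hR2, hR3⟩ := hR
  split_ifs at hd with hs
  · by_cases c1 : j = s
    · -- level `s`
      have hR1' := hR1 hs c1
      have h1' : F.comp k j u ∈ F.Vc (k + 1) (s + 2) := by
        rw [F.Vc_const hk (c := s + 2) (by omega) (by omega)]
        rw [c1] at h1 ⊢
        exact F.Vc_mono hq (c := s + 1) (by omega) h1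
      have h2' : F.comp k j u ∈ F.Uc (k + 1) s := by
        rw [F.Uc_const hk (c := s) (by omega) (by omega)]
        rw [c1] at h2 ⊢
        exact h2
      exact comp_zero hq' (by omega) hj' h1' h2' (by omega)
    · by_cases c2 : j = s + 1
      · -- level `s+1`
        have hR2' := hR2 hs c2
        rw [c2] at h1 h2 ⊢
        have h1' := level_falls hk hs hd h1 h2
        have h2' : F.comp k (s + 1) u ∈ F.Uc (k + 1) s := by
          rw [F.Uc_const hk (c := s) (by omega) (by omega)]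
          exact F.Uc_anti hq (c := s) (by omega) h2
        exact comp_zero hq' (by omega) hj' h1' h2' (by omega)
      · have hR3' := hR3 (Or.inr ⟨c1, c2⟩)
        rw [← F.Vc_const hk (c := j + 1) (by omega) (by omega)] at h1
        rw [← F.Uc_const hk (c := j) (by omega) (by omega)] at h2
        exact comp_zero hq' (by omega) hj' h1 h2 (by omega)
  · have hR3' := hR3 (Or.inl (by omega))
    rw [← F.Vc_const hk (c := j + 1) (by omega) (by omega)] at h1
    rw [← F.Uc_const hk (c := j) (by omega) (by omega)] at h2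
    exact comp_zero hq' (by omega) hj' h1 h2 (by omega)

/-- **Growth from the flags.** -/
theorem growth (F : FlagChain H E N i0 m P) (M off : ℕ) (hM1 : 1 ≤ M) (hM : m ≤ M)
    (hd : ∀ k < P, F.d k = if (k + off) % M < m then i0 + (k + off) % M else 0)
    (β : ℕ → ℝ) (hβ : ∀ i j, i ≤ j → j ≤ m → β i ≤ β j)
    (T ρ : ℕ → ℝ) (hT : ∀ q, 0 ≤ T q) (hρ : ∀ q, 0 ≤ ρ q)
    (hG : ∀ q ≤ P, ∀ c ≤ m, F.G q (i0 + c) ≤ ρ q * Real.exp (β c * T q))
    (hΓ : ∀ q, 0 ≤ F.Γ q) :
    ∀ q ≤ P, ∀ u, ‖F.Jm q u‖ ≤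
      16 * (m + 1) * Real.exp (MP β m M * (T q + T 0)) *
        (∏ i ∈ range q, (16 * (m + 1) * F.Γ i * ρ i)) *
        Real.exp (abar β m * ∑ i ∈ range q, T i + MP β m M * ∑ i ∈ range q, |T (i + 1) - T i|) *
        ‖F.Jm 0 u‖ := by
  classical
  intro q hq u
  have key := super_rec (m + 1) β (abar β m) (MP β m M) (Phi β m M off) (Rl m M off)
    (fun q j hj => Phi_le_MP hM1 q j (by omega))
    (fun q j hj j' _ hR => Phi_super' hM1 hM hβ q j j' (by omega) hR)
    T (fun i => 16 * F.Γ i * ρ i) (fun q j => ‖F.Jm q (F.comp q j u)‖) P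
    (fun q j => norm_nonneg _) (fun i => mul_nonneg (mul_nonneg (by norm_num) (hΓ i)) (hρ i)) hT
    ?_ q hq
  · have h1 : ‖F.Jm q u‖ ≤ ∑ j ∈ range (m + 1), ‖F.Jm q (F.comp q j u)‖ := by
      conv_lhs => rw [← F.sum_comp hq u, map_sum]
      exact norm_sum_le _ _
    have h2 : ∑ j ∈ range (m + 1), ‖F.Jm 0 (F.comp 0 j u)‖ ≤ 16 * (m + 1) * ‖F.Jm 0 u‖ := by
      calc ∑ j ∈ range (m + 1), ‖F.Jm 0 (F.comp 0 j u)‖
          ≤ ∑ j ∈ range (m + 1), 16 * ‖F.Jm 0 u‖ := by
            refine sum_le_sum fun j hj => ?_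
            rw [mem_range] at hj
            exact F.norm_comp (Nat.zero_le _) (by omega) u
        _ = 16 * (m + 1) * ‖F.Jm 0 u‖ := by
            rw [sum_const, card_range, nsmul_eq_mul]; push_cast; ring
    have h3 : (∏ i ∈ range q, (((m + 1 : ℕ) : ℝ) * (16 * F.Γ i * ρ i))) =
        ∏ i ∈ range q, (16 * (m + 1) * F.Γ i * ρ i) := by
      refine prod_congr rfl fun i _ => ?_
      push_cast
      ring
    rw [h3] at key
    have h4 : 0 ≤ ∏ i ∈ range q, (16 * (m + 1) * F.Γ i * ρ i) :=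
      prod_nonneg fun i _ => mul_nonneg (mul_nonneg (by positivity) (hΓ i)) (hρ i)
    refine h1.trans (key.trans ?_)
    refine (mul_le_mul_of_nonneg_left h2 (mul_nonneg (mul_nonneg (Real.exp_pos _).le h4)
      (Real.exp_pos _).le)).trans (le_of_eq ?_)
    ring
  · intro k hk j' hj'
    have hk' : k ≤ P := hk.le
    have e1 : F.comp (k + 1) j' u = ∑ j ∈ range (m + 1), F.comp (k + 1) j' (F.comp k j u) := by
      conv_lhs => rw [← F.sum_comp hk' u]
      unfold comp
      rw [map_sum, map_sum, ← sum_sub_distrib]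
    have e2 : ‖F.Jm (k + 1) (F.comp (k + 1) j' u)‖ ≤
        ∑ j ∈ range (m + 1), ‖F.Jm (k + 1) (F.comp (k + 1) j' (F.comp k j u))‖ := by
      rw [e1, map_sum]
      exact norm_sum_le _ _
    refine e2.trans ?_
    rw [mul_sum]
    refine sum_le_sum fun j hj => ?_
    rw [mem_range] at hj
    split_ifs with hR
    · have f1 := F.norm_comp (q := k + 1) hk (c := j') (by omega) (F.comp k j u)
      have f2 := F.norm_gate k hk (F.comp k j u)
      have f3 := F.level_growth hk' (c := j) (by omega) u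
      have f4 := hG k hk' j (by omega)
      set X := ‖F.Jp k (F.comp k j u)‖
      set Y := ‖F.Jm k (F.comp k j u)‖
      have hY : 0 ≤ Y := norm_nonneg _
      have f5 : X ≤ (ρ k * Real.exp (β j * T k)) * Y := f3.trans (mul_le_mul_of_nonneg_right f4 hY)
      calc ‖F.Jm (k + 1) (F.comp (k + 1) j' (F.comp k j u))‖
          ≤ 16 * ‖F.Jm (k + 1) (F.comp k j u)‖ := f1
        _ ≤ 16 * (F.Γ k * X) := mul_le_mul_of_nonneg_left f2 (by norm_num)
        _ ≤ 16 * (F.Γ k * ((ρ k * Real.exp (β j * T k)) * Y)) :=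
            mul_le_mul_of_nonneg_left (mul_le_mul_of_nonneg_left f5 (hΓ k)) (by norm_num)
        _ = _ := by ring
    · rw [trans_zero hk (hd k hk) (by omega) (by omega) hR u, map_zero, norm_zero, mul_zero]

end FlagChain

/-! ## The flags of the mixing theorem -/

section Flags

variable {H : Type*} [NormedAddCommGroup H] [InnerProductSpace ℝ H] {N P : ℕ}
  {D : MixData H N P} {κ : Cube P}

/-- designated cut as a number, `0` = none -/
def dNat (D : MixData H N P) (k : ℕ) : ℕ :=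
  if h : k < P then (D.d ⟨k, h⟩).getD 0 else 0

lemma dNat_eq (D : MixData H N P) {k : ℕ} (hk : k < P) {l : ℕ} (hl : 1 ≤ l) :
    dNat D k = l ↔ D.d ⟨k, hk⟩ = some l := by
  rw [dNat, dif_pos hk]
  cases h : D.d ⟨k, hk⟩ with
  | none => simp; omega
  | some a => simp

/-- The flags give a chain. -/
def Flags.toChain (F : Flags D κ) (Γ : ℕ → ℝ) (hΓ : ∀ k : Fin P, D.Γ k ≤ Γ k.1) :
    FlagChain H (Fin N → ℝ) N D.i0 (N - D.i0) P where
  e := D.e
  G := fun q l => Real.exp (D.a l * D.T q + D.ε q)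
  Γ := Γ
  d := dNat D
  Jm := fun q => D.Jm q κ
  Jp := fun q => D.Jp q κ
  V := F.V
  U := F.U
  hN := by have := D.i0_le; omega
  hi0 := D.i0_pos
  finE := by simp
  orth := D.orth
  inj_m := fun q hq u h => D.inj_m q hq κ u h
  V_mono := F.V_mono
  U_anti := F.U_anti
  finrank_V := F.finrank_V
  finrank_U := F.finrank_U
  cone_V := by
    intro q hq l h0 hl u hu
    have h1 := F.cone_V q hq l h0 hl u hu
    have h2 := D.home_cone q hq κ l h0 hl u (h1.trans (by
      linarith [norm_nonneg (pr D.e l (D.Jp q κ u))]))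
    linarith [norm_nonneg (pr D.e l (D.Jm q κ u))]
  cone_U := F.cone_U
  grow := fun q hq l h0 hl u hu => D.home_growth q hq κ l h0 hl u (F.cone_V q hq l h0 hl u hu)
  V_const := by
    intro k hk l h0 hl hne
    refine F.V_const ⟨k, hk⟩ l h0 hl fun h => hne ?_
    exact ((dNat_eq D hk (D.i0_pos.trans h0)).2 h).symm
  U_const := by
    intro k hk l h0 hl hne
    refine F.U_const ⟨k, hk⟩ l h0 hl fun h => hne ?_
    exact ((dNat_eq D hk (D.i0_pos.trans h0)).2 h).symm
  meet := by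
    intro k hk h0 _
    exact F.meet ⟨k, hk⟩ _ ((dNat_eq D hk (D.i0_pos.trans h0)).1 rfl)
  norm_gate := fun k hk u => (D.norm_gate ⟨k, hk⟩ κ u).trans
    (mul_le_mul_of_nonneg_right (hΓ ⟨k, hk⟩) (norm_nonneg _))

/-- **PART A2**: growth of all solutions, in one sector, from the flags.  `M` = number of slots of
a cycle, `off` = offset of the sector, `Γ` = bounds of the gates. -/
theorem Flags.growth (F : Flags D κ) (M off : ℕ) (hM1 : 1 ≤ M) (hM : N - D.i0 ≤ M)
    (hd : ∀ k : Fin P, D.d k =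
      if (k.1 + off) % M < N - D.i0 then some (D.i0 + (k.1 + off) % M) else none)
    (ha : ∀ i j, D.i0 ≤ i → i ≤ j → j ≤ N → D.a i ≤ D.a j)
    (Γ : ℕ → ℝ) (hΓ0 : ∀ k, 0 ≤ Γ k) (hΓ : ∀ k : Fin P, D.Γ k ≤ Γ k.1) :
    ∀ q ≤ P, ∀ u, ‖D.Jm q κ u‖ ≤
      16 * ((N - D.i0 : ℕ) + 1) *
        Real.exp (MP (fun c => D.a (D.i0 + c)) (N - D.i0) M * (D.T q + D.T 0)) *
        (∏ i ∈ range q, (16 * ((N - D.i0 : ℕ) + 1) * Γ i * Real.exp (D.ε i))) *
        Real.exp (abar (fun c => D.a (D.i0 + c)) (N - D.i0) * ∑ i ∈ range q, D.T i +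
          MP (fun c => D.a (D.i0 + c)) (N - D.i0) M * ∑ i ∈ range q, |D.T (i + 1) - D.T i|) *
        ‖D.Jm 0 κ u‖ := by
  intro q hq u
  have hi0 := D.i0_pos
  have hi0N := D.i0_le
  have key := FlagChain.growth (F.toChain Γ hΓ) M off hM1 hM ?_
    (fun c => D.a (D.i0 + c)) ?_ (fun i => if i ≤ P then D.T i else 0)
    (fun i => Real.exp (D.ε i)) ?_ (fun i => (Real.exp_pos _).le) ?_ hΓ0 q hq u
  · have e1 : ∑ i ∈ range q, (if i ≤ P then D.T i else 0) = ∑ i ∈ range q, D.T i := by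
      refine sum_congr rfl fun i hi => ?_
      rw [mem_range] at hi
      rw [if_pos (by omega)]
    have e2 : ∑ i ∈ range q, |(if i + 1 ≤ P then D.T (i + 1) else 0) - (if i ≤ P then D.T i else 0)|
        = ∑ i ∈ range q, |D.T (i + 1) - D.T i| := by
      refine sum_congr rfl fun i hi => ?_
      rw [mem_range] at hi
      rw [if_pos (by omega), if_pos (by omega)]
    simp only [e1, e2, if_pos hq, if_pos (Nat.zero_le P)] at key
    exact key
  · intro k hk
    have h := hd ⟨k, hk⟩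
    simp only at h
    split_ifs with hs
    · rw [if_pos hs] at h
      exact (dNat_eq D hk (by omega)).2 h
    · rw [if_neg hs] at h
      change dNat D k = 0
      rw [dNat, dif_pos hk, h]
      rfl
  · intro i j hij hj
    exact ha _ _ (by omega) (by omega) (by omega)
  · intro i
    split_ifs with h
    · exact (D.T_pos i h).le
    · exact le_rfl
  · intro i hi c _
    rw [if_pos hi]
    change Real.exp (D.a (D.i0 + c) * D.T i + D.ε i) ≤ _
    rw [← Real.exp_add]
    exact Real.exp_le_exp.2 (by linarith)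

end Flags

end

end Crest.Agent.R202.Mix
end

-- ▼ part R202/MixAsym

/-! # Row 202, PART A3: uniform exponential growth (helper14)

From `Flags.growth` to a bound `C * exp (K * ∑_{i<q} T i)` with `C` independent of the number `P`
of homes, for every `K` larger than the mean exponent. -/

set_option autoImplicit false

open scoped InnerProductSpace Topology
open Filter Finset

namespace Crest.Agent.R202.Mix

/-- summation of an eventual inequality -/
lemma sum_le_of_eventually {f T : ℕ → ℝ} {lam : ℝ} (h : ∀ᶠ i in atTop, f i ≤ lam * T i) :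
    ∃ B : ℝ, 0 ≤ B ∧ ∀ q, ∑ i ∈ range q, f i ≤ lam * ∑ i ∈ range q, T i + B := by
  obtain ⟨n0, hn0⟩ := eventually_atTop.1 h
  refine ⟨∑ i ∈ range n0, |f i - lam * T i|, sum_nonneg fun _ _ => abs_nonneg _, fun q => ?_⟩
  have h1 : ∑ i ∈ range q, (f i - lam * T i) ≤ ∑ i ∈ range n0, |f i - lam * T i| := by
    calc ∑ i ∈ range q, (f i - lam * T i)
        ≤ ∑ i ∈ range q, (if i < n0 then |f i - lam * T i| else 0) := by
          refine sum_le_sum fun i _ => ?_
          split_ifs with hi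
          · exact le_abs_self _
          · linarith [hn0 i (by omega)]
      _ = ∑ i ∈ (range q).filter (· < n0), |f i - lam * T i| := by rw [sum_filter]
      _ ≤ ∑ i ∈ range n0, |f i - lam * T i| := by
          refine sum_le_sum_of_subset_of_nonneg ?_ fun _ _ _ => abs_nonneg _
          intro i hi
          rw [mem_filter] at hi
          exact mem_range.2 hi.2
  rw [sum_sub_distrib, ← mul_sum] at h1
  linarith

/-- `T q` is small compared with the sum of the previous ones -/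
lemma last_le_sum {T : ℕ → ℝ} (hT : ∀ q, 0 < T q)
    (hr : Tendsto (fun q => (T (q + 1) - T q) / T q) atTop (𝓝 0)) {η : ℝ} (hη : 0 < η) :
    ∃ B : ℝ, 0 ≤ B ∧ ∀ q, T q ≤ η * ∑ i ∈ range q, T i + B := by
  have h1 : ∀ᶠ i in atTop, T (i + 1) - T i ≤ η * T i := by
    filter_upwards [hr.eventually (gt_mem_nhds hη)] with i hi
    rw [div_lt_iff₀ (hT i)] at hi
    exact hi.le
  obtain ⟨B, hB, h⟩ := sum_le_of_eventually h1
  refine ⟨B + T 0, add_nonneg hB (hT 0).le, fun q => ?_⟩
  have h2 := h q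
  rw [sum_range_sub] at h2
  linarith

/-- **Asymptotic form of the growth bound.** -/
theorem asym_bound (L Mp ab δ K : ℝ) (hMp : 0 ≤ Mp) (hL : 0 < L) (hK : ab + δ < K)
    {T g : ℕ → ℝ} (hT : ∀ q, 0 < T q) (hTinf : Tendsto T atTop atTop)
    (hr : Tendsto (fun q => (T (q + 1) - T q) / T q) atTop (𝓝 0))
    (hg : Tendsto (fun q => g q / T q) atTop (𝓝 0))
    {ρ : ℕ → ℝ} (hρ0 : ∀ i, 0 ≤ ρ i) (hρ : ∀ i, ρ i ≤ Real.exp (δ * T i + g i)) :
    ∃ C : ℝ, 0 < C ∧ ∀ q, Real.exp (Mp * (T q + T 0)) * (∏ i ∈ range q, (L * ρ i)) *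
      Real.exp (ab * ∑ i ∈ range q, T i + Mp * ∑ i ∈ range q, |T (i + 1) - T i|) ≤
      C * Real.exp (K * ∑ i ∈ range q, T i) := by
  set η : ℝ := (K - ab - δ) / 4 with hη
  have hη0 : 0 < η := by rw [hη]; linarith
  -- the summands
  have h1 : ∀ᶠ i in atTop, Real.log L + (δ * T i + g i) + ab * T i + Mp * |T (i + 1) - T i| ≤
      (ab + δ + 3 * η) * T i := by
    have e1 : Tendsto (fun i => Real.log L / T i) atTop (𝓝 0) :=
      Tendsto.div_atTop tendsto_const_nhds hTinf
    have e2 : Tendsto (fun q => Mp * |(T (q + 1) - T q) / T q|) atTop (𝓝 0) := by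
      have := (hr.abs.const_mul Mp)
      simpa using this
    filter_upwards [e1.eventually (gt_mem_nhds hη0), e2.eventually (gt_mem_nhds hη0),
      hg.eventually (gt_mem_nhds hη0)] with i h1 h2 h3
    have hTi := hT i
    rw [div_lt_iff₀ hTi] at h1 h3
    rw [abs_div, abs_of_pos hTi, ← mul_div_assoc, div_lt_iff₀ hTi] at h2
    linarith
  obtain ⟨B1, hB1, hs⟩ := sum_le_of_eventually h1
  obtain ⟨B2, hB2, hl⟩ := last_le_sum hT hr (η := η / (Mp + 1)) (by positivity)
  refine ⟨Real.exp (B1 + Mp * B2 + Mp * T 0), Real.exp_pos _, fun q => ?_⟩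
  have hp : ∏ i ∈ range q, (L * ρ i) ≤
      Real.exp (∑ i ∈ range q, (Real.log L + (δ * T i + g i))) := by
    rw [Real.exp_sum]
    refine prod_le_prod (fun i _ => mul_nonneg hL.le (hρ0 i)) fun i _ => ?_
    rw [Real.exp_add, Real.exp_log hL]
    exact mul_le_mul_of_nonneg_left (hρ i) hL.le
  have hS0 : 0 ≤ ∑ i ∈ range q, T i := sum_nonneg fun i _ => (hT i).le
  have hTq : Mp * T q ≤ η * ∑ i ∈ range q, T i + Mp * B2 := by
    have h2 := mul_le_mul_of_nonneg_left (hl q) hMp
    have h3 : Mp * (η / (Mp + 1) * ∑ i ∈ range q, T i) ≤ η * ∑ i ∈ range q, T i := by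
      have h4 : Mp / (Mp + 1) ≤ 1 := by rw [div_le_one (by linarith)]; linarith
      have h5 : 0 ≤ η * ∑ i ∈ range q, T i := mul_nonneg hη0.le hS0
      calc Mp * (η / (Mp + 1) * ∑ i ∈ range q, T i)
          = Mp / (Mp + 1) * (η * ∑ i ∈ range q, T i) := by ring
        _ ≤ 1 * (η * ∑ i ∈ range q, T i) := mul_le_mul_of_nonneg_right h4 h5
        _ = _ := one_mul _
    linarith
  calc Real.exp (Mp * (T q + T 0)) * (∏ i ∈ range q, (L * ρ i)) *
      Real.exp (ab * ∑ i ∈ range q, T i + Mp * ∑ i ∈ range q, |T (i + 1) - T i|)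
      ≤ Real.exp (Mp * (T q + T 0)) *
        Real.exp (∑ i ∈ range q, (Real.log L + (δ * T i + g i))) *
        Real.exp (ab * ∑ i ∈ range q, T i + Mp * ∑ i ∈ range q, |T (i + 1) - T i|) := by
        gcongr
    _ = Real.exp (Mp * (T q + T 0) + ∑ i ∈ range q, (Real.log L + (δ * T i + g i) + ab * T i +
          Mp * |T (i + 1) - T i|)) := by
        rw [← Real.exp_add, ← Real.exp_add]
        congr 1
        have : ∑ i ∈ range q, (Real.log L + (δ * T i + g i) + ab * T i +
          Mp * |T (i + 1) - T i|) = ∑ i ∈ range q, (Real.log L + (δ * T i + g i)) +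
            (ab * ∑ i ∈ range q, T i + Mp * ∑ i ∈ range q, |T (i + 1) - T i|) := by
          rw [mul_sum, mul_sum, ← sum_add_distrib, ← sum_add_distrib]
          exact sum_congr rfl fun i _ => by ring
        rw [this]
        ring
    _ ≤ Real.exp ((B1 + Mp * B2 + Mp * T 0) + K * ∑ i ∈ range q, T i) := by
        refine Real.exp_le_exp.2 ?_
        have h2 := hs q
        have h6 : K = ab + δ + 4 * η := by rw [hη]; ring
        rw [h6]
        nlinarith
    _ = _ := by rw [Real.exp_add]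

/-- Fixed data of a sector (independent of the number of homes). -/
structure SecData where
  /-- number of modes -/
  N : ℕ
  /-- first cut -/
  i0 : ℕ
  /-- exponents of the cuts -/
  a : ℕ → ℝ
  /-- offset of the sector in the schedule -/
  off : ℕ
  i0_pos : 1 ≤ i0
  i0_le : i0 ≤ N
  mono : ∀ i j, i0 ≤ i → i ≤ j → j ≤ N → a i ≤ a j

/-- the mean of the exponents of the cuts `i0, …, N` -/
noncomputable def SecData.mean (s : SecData) : ℝ :=
  (∑ c ∈ range (s.N - s.i0 + 1), s.a (s.i0 + c)) / ((s.N - s.i0 : ℕ) + 1)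

/-- Fixed schedule (independent of the number of homes). -/
structure Sched where
  /-- lengths of the homes -/
  T : ℕ → ℝ
  /-- errors -/
  ε : ℕ → ℝ
  /-- bounds of the gates -/
  Γ : ℕ → ℝ
  /-- small exponent -/
  δ : ℝ
  /-- lower order terms -/
  g : ℕ → ℝ
  /-- number of slots of a cycle -/
  M : ℕ
  M_pos : 1 ≤ M
  T_pos : ∀ q, 0 < T q
  T_inf : Tendsto T atTop atTop
  T_rel : Tendsto (fun q => (T (q + 1) - T q) / T q) atTop (𝓝 0)
  g_rel : Tendsto (fun q => g q / T q) atTop (𝓝 0)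
  Γ_ge : ∀ q, 1 ≤ Γ q
  rate : ∀ q, Γ q * Real.exp (ε q) ≤ Real.exp (δ * T q + g q)

/-- `D` is an instance of the sector `s` with the schedule `S`. -/
structure Fits {H : Type*} [NormedAddCommGroup H] [InnerProductSpace ℝ H] (s : SecData) (S : Sched)
    {P : ℕ} (D : MixData H s.N P) : Prop where
  i0 : D.i0 = s.i0
  a : ∀ l, s.i0 ≤ l → l ≤ s.N → D.a l = s.a l
  T : ∀ q, q ≤ P → D.T q = S.T q
  ε : ∀ q, q ≤ P → D.ε q = S.ε q
  Γ : ∀ k : Fin P, D.Γ k ≤ S.Γ k.1
  d : ∀ k : Fin P, D.d k =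
    if (k.1 + s.off) % S.M < s.N - s.i0 then some (s.i0 + (k.1 + s.off) % S.M) else none

lemma MP_congr {β β' : ℕ → ℝ} {m M : ℕ} (h : ∀ c ≤ m, β c = β' c) : MP β m M = MP β' m M := by
  have h1 : abar β m = abar β' m := by
    unfold abar
    congr 1
    refine sum_congr rfl fun c hc => h c ?_
    rw [mem_range] at hc
    omega
  unfold MP
  refine sum_congr rfl fun c hc => sum_congr rfl fun s _ => ?_
  rw [mem_range] at hc
  have h2 : bt β m c = bt β' m c := by rw [bt, bt, h1, h c (by omega)]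
  have h3 : SS β m c = SS β' m c := by
    unfold SS
    refine sum_congr rfl fun i hi => ?_
    rw [mem_range] at hi
    rw [bt, bt, h1, h i (by omega)]
  unfold Ph
  rw [h2, h3]

lemma abar_congr {β β' : ℕ → ℝ} {m : ℕ} (h : ∀ c ≤ m, β c = β' c) : abar β m = abar β' m := by
  unfold abar
  congr 1
  refine sum_congr rfl fun c hc => h c ?_
  rw [mem_range] at hc
  omega

/-- **Uniform growth** in one sector: the constant does not depend on the number of homes, on the
space `H`, on the data nor on the parameter. -/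
theorem uniform_growth (s : SecData) (S : Sched) (hM : s.N - s.i0 ≤ S.M) {K : ℝ}
    (hK : s.mean + S.δ < K) :
    ∃ C : ℝ, 0 < C ∧ ∀ (H : Type*) [NormedAddCommGroup H] [InnerProductSpace ℝ H] (P : ℕ)
      (D : MixData H s.N P) (_ : Fits s S D) (κ : Cube P) (_ : Flags D κ),
      ∀ q ≤ P, ∀ u, ‖D.Jm q κ u‖ ≤ C * Real.exp (K * ∑ i ∈ range q, S.T i) * ‖D.Jm 0 κ u‖ ∧
        ‖D.Jp q κ u‖ ≤ C * Real.exp (K * ∑ i ∈ range q, S.T i) * ‖D.Jm 0 κ u‖ := by
  set m := s.N - s.i0 with hm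
  set β : ℕ → ℝ := fun c => s.a (s.i0 + c) with hβ
  set K' : ℝ := (s.mean + S.δ + K) / 2 with hK'
  have hKK' : K' < K := by rw [hK']; linarith
  have hmean : s.mean = abar β m := rfl
  obtain ⟨C0, hC0, h0⟩ := asym_bound (16 * ((m : ℝ) + 1)) (MP β m S.M) (abar β m) S.δ K' MP_nonneg
    (by positivity) (by rw [← hmean, hK']; linarith) S.T_pos S.T_inf S.T_rel S.g_rel
    (ρ := fun i => S.Γ i * Real.exp (S.ε i))
    (fun i => mul_nonneg (zero_le_one.trans (S.Γ_ge i)) (Real.exp_pos _).le) S.rate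
  -- the last home
  have hlast : ∃ B : ℝ, 0 ≤ B ∧ ∀ q, s.a s.N * S.T q + S.ε q ≤
      (K - K') * ∑ i ∈ range q, S.T i + B := by
    have e1 : ∀ᶠ q in atTop, S.g q ≤ 1 * S.T q := by
      filter_upwards [S.g_rel.eventually (gt_mem_nhds one_pos)] with q hq
      rw [div_lt_iff₀ (S.T_pos q)] at hq
      exact hq.le
    obtain ⟨n0, hn0⟩ := eventually_atTop.1 e1
    have e2 : ∀ q, S.g q ≤ S.T q + ∑ i ∈ range n0, |S.g i| := by
      intro q
      by_cases hq : n0 ≤ q
      · have := hn0 q hq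
        have h2 : 0 ≤ ∑ i ∈ range n0, |S.g i| := sum_nonneg fun _ _ => abs_nonneg _
        linarith
      · have h2 : |S.g q| ≤ ∑ i ∈ range n0, |S.g i| :=
          single_le_sum (f := fun i => |S.g i|) (fun _ _ => abs_nonneg _)
            (mem_range.2 (by omega))
        have h3 := le_abs_self (S.g q)
        have h4 := (S.T_pos q).le
        linarith
    have e3 : ∀ q, S.ε q ≤ S.δ * S.T q + S.g q := by
      intro q
      have h1 : Real.exp (S.ε q) ≤ Real.exp (S.δ * S.T q + S.g q) := by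
        refine le_trans ?_ (S.rate q)
        exact le_mul_of_one_le_left (Real.exp_pos _).le (S.Γ_ge q)
      exact Real.exp_le_exp.1 h1
    set A : ℝ := |s.a s.N| + |S.δ| + 1 with hA
    have hA0 : 0 < A := by positivity
    obtain ⟨B, hB, hl⟩ := last_le_sum S.T_pos S.T_rel (η := (K - K') / A)
      (div_pos (by linarith) hA0)
    refine ⟨A * B + ∑ i ∈ range n0, |S.g i|,
      add_nonneg (mul_nonneg hA0.le hB) (sum_nonneg fun _ _ => abs_nonneg _), fun q => ?_⟩
    have hT := (S.T_pos q).le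
    have f1 : s.a s.N * S.T q + S.ε q ≤ A * S.T q + ∑ i ∈ range n0, |S.g i| := by
      have g1 : s.a s.N * S.T q ≤ |s.a s.N| * S.T q :=
        mul_le_mul_of_nonneg_right (le_abs_self _) hT
      have g2 : S.δ * S.T q ≤ |S.δ| * S.T q := mul_le_mul_of_nonneg_right (le_abs_self _) hT
      have g3 := e2 q
      have g4 := e3 q
      rw [hA]
      linarith
    have f2 := mul_le_mul_of_nonneg_left (hl q) hA0.le
    have f3 : A * ((K - K') / A * ∑ i ∈ range q, S.T i + B) =
        (K - K') * ∑ i ∈ range q, S.T i + A * B := by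
      field_simp
    linarith
  obtain ⟨B, hB, hlast⟩ := hlast
  refine ⟨16 * ((m : ℝ) + 1) * C0 * Real.exp B, by positivity, ?_⟩
  intro H _ _ P D hf κ F q hq u
  have hi0 := hf.i0
  have hNm : s.N - D.i0 = m := by rw [hi0]
  have hβD : ∀ c ≤ m, D.a (D.i0 + c) = β c := by
    intro c hc
    rw [hi0, hf.a _ (by omega) (by have := s.i0_le; omega)]
  have hMPD : MP (fun c => D.a (D.i0 + c)) m S.M = MP β m S.M := MP_congr hβD
  have habD : abar (fun c => D.a (D.i0 + c)) m = abar β m := abar_congr hβD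
  have key := F.growth S.M s.off S.M_pos (by rw [hNm]; exact hM)
    (by intro k; rw [hf.d k, hi0])
    (by
      intro i j h1 h2 h3
      rw [hi0] at h1
      rw [hf.a i h1 (by omega), hf.a j (by omega) h3]
      exact s.mono i j h1 h2 h3)
    S.Γ (fun k => zero_le_one.trans (S.Γ_ge k)) hf.Γ q hq u
  rw [hNm, hMPD, habD] at key
  have hS0 : 0 ≤ ∑ i ∈ range q, S.T i := sum_nonneg fun i _ => (S.T_pos i).le
  have e1 : ∑ i ∈ range q, D.T i = ∑ i ∈ range q, S.T i := by
    refine sum_congr rfl fun i hi => ?_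
    rw [mem_range] at hi
    exact hf.T i (by omega)
  have e2 : ∑ i ∈ range q, |D.T (i + 1) - D.T i| = ∑ i ∈ range q, |S.T (i + 1) - S.T i| := by
    refine sum_congr rfl fun i hi => ?_
    rw [mem_range] at hi
    rw [hf.T i (by omega), hf.T (i + 1) (by omega)]
  have e3 : ∏ i ∈ range q, (16 * ((m : ℝ) + 1) * S.Γ i * Real.exp (D.ε i)) =
      ∏ i ∈ range q, (16 * ((m : ℝ) + 1) * (S.Γ i * Real.exp (S.ε i))) := by
    refine prod_congr rfl fun i hi => ?_
    rw [mem_range] at hi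
    rw [hf.ε i (by omega)]
    ring
  rw [e1, e2, e3, hf.T q hq, hf.T 0 (Nat.zero_le _)] at key
  have h0q := h0 q
  have hJ0 : 0 ≤ ‖D.Jm 0 κ u‖ := norm_nonneg _
  have hm0 : 0 ≤ 16 * ((m : ℝ) + 1) := by positivity
  have hJm : ‖D.Jm q κ u‖ ≤ 16 * ((m : ℝ) + 1) * C0 * Real.exp (K' * ∑ i ∈ range q, S.T i) *
      ‖D.Jm 0 κ u‖ := by
    refine key.trans ?_
    refine mul_le_mul_of_nonneg_right ?_ hJ0
    have := mul_le_mul_of_nonneg_left h0q hm0
    linarith
  constructor
  · refine hJm.trans (mul_le_mul_of_nonneg_right ?_ hJ0)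
    have f1 : Real.exp (K' * ∑ i ∈ range q, S.T i) ≤ Real.exp (K * ∑ i ∈ range q, S.T i) :=
      Real.exp_le_exp.2 (mul_le_mul_of_nonneg_right hKK'.le hS0)
    have f2 : 1 ≤ Real.exp B := Real.one_le_exp hB
    calc 16 * ((m : ℝ) + 1) * C0 * Real.exp (K' * ∑ i ∈ range q, S.T i)
        ≤ 16 * ((m : ℝ) + 1) * C0 * Real.exp (K * ∑ i ∈ range q, S.T i) :=
          mul_le_mul_of_nonneg_left f1 (by positivity)
      _ = 16 * ((m : ℝ) + 1) * C0 * 1 * Real.exp (K * ∑ i ∈ range q, S.T i) := by ring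
      _ ≤ 16 * ((m : ℝ) + 1) * C0 * Real.exp B * Real.exp (K * ∑ i ∈ range q, S.T i) := by
          gcongr
  · have hc := D.coneN_p q hq κ u
    have hg := D.home_growth q hq κ s.N D.i0_le le_rfl u
      (hc.trans (by linarith [norm_nonneg (pr D.e s.N (D.Jp q κ u))]))
    rw [hf.a s.N s.i0_le le_rfl, hf.T q hq, hf.ε q hq] at hg
    have f1 : Real.exp (s.a s.N * S.T q + S.ε q) ≤
        Real.exp ((K - K') * ∑ i ∈ range q, S.T i) * Real.exp B := by
      rw [← Real.exp_add]
      exact Real.exp_le_exp.2 (hlast q)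
    calc ‖D.Jp q κ u‖ ≤ Real.exp (s.a s.N * S.T q + S.ε q) * ‖D.Jm q κ u‖ := hg
      _ ≤ (Real.exp ((K - K') * ∑ i ∈ range q, S.T i) * Real.exp B) *
          (16 * ((m : ℝ) + 1) * C0 * Real.exp (K' * ∑ i ∈ range q, S.T i) * ‖D.Jm 0 κ u‖) :=
          mul_le_mul f1 hJm (norm_nonneg _) (by positivity)
      _ = 16 * ((m : ℝ) + 1) * C0 * Real.exp B * (Real.exp ((K - K') * ∑ i ∈ range q, S.T i) *
          Real.exp (K' * ∑ i ∈ range q, S.T i)) * ‖D.Jm 0 κ u‖ := by ring
      _ = _ := by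
          rw [← Real.exp_add]
          congr 3
          ring

end Crest.Agent.R202.Mix
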