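import Mathlib
import Crest.Agent.R202.MixDefs
import Crest.Agent.R202.MixAsym

-- ▼ part R202/MixLin
section

/-! # Row 202, PART A1: linear algebra of frames (helper206) -/

set_option autoImplicit false

open Set
open scoped InnerProductSpace

namespace Crest.Agent.R202.Mix

section Frames

variable {N : ℕ} {E : Type*} [AddCommGroup E] [Module ℝ E]

/-- Span of the frame vectors with index in `S`. -/
def sp (v : Fin N → E) (S : Set (Fin N)) : Submodule ℝ E := Submodule.span ℝ (v '' S)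

theorem mem_sp_iff (v : Fin N → E) (S : Set (Fin N)) (x : E) :
    x ∈ sp v S ↔ ∃ c : Fin N → ℝ, (∀ j, j ∉ S → c j = 0) ∧ ∑ j, c j • v j = x := by
  classical
  constructor
  · intro hx
    refine Submodule.span_induction (p := fun y _ => ∃ c : Fin N → ℝ, (∀ j, j ∉ S → c j = 0) ∧
      ∑ j, c j • v j = y) ?_ ?_ ?_ ?_ hx
    · rintro _ ⟨i, hi, rfl⟩
      refine ⟨Pi.single i 1, ?_, ?_⟩
      · intro j hj
        have : j ≠ i := fun h => hj (h ▸ hi)
        simp [this]
      · rw [Finset.sum_eq_single i]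
        · simp
        · intro j _ hj; simp [hj]
        · intro h; exact absurd (Finset.mem_univ i) h
    · exact ⟨0, fun _ _ => rfl, by simp⟩
    · rintro a b _ _ ⟨c, hc, rfl⟩ ⟨c', hc', rfl⟩
      refine ⟨c + c', fun j hj => by simp [hc j hj, hc' j hj], ?_⟩
      rw [← Finset.sum_add_distrib]
      refine Finset.sum_congr rfl fun j _ => ?_
      rw [Pi.add_apply, add_smul]
    · rintro t a _ ⟨c, hc, rfl⟩
      refine ⟨t • c, fun j hj => by simp [hc j hj], ?_⟩
      rw [Finset.smul_sum]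
      refine Finset.sum_congr rfl fun j _ => ?_
      rw [Pi.smul_apply, smul_eq_mul, mul_smul]
  · rintro ⟨c, hc, rfl⟩
    refine Submodule.sum_mem _ fun j _ => ?_
    by_cases hj : j ∈ S
    · exact Submodule.smul_mem _ _ (Submodule.subset_span ⟨j, hj, rfl⟩)
    · rw [hc j hj, zero_smul]; exact Submodule.zero_mem _

theorem sum_mem_sp (v : Fin N → E) (S : Set (Fin N)) (c : Fin N → ℝ) (hc : ∀ j, j ∉ S → c j = 0) :
    ∑ j, c j • v j ∈ sp v S := (mem_sp_iff v S _).2 ⟨c, hc, rfl⟩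

theorem sp_mono (v : Fin N → E) {S R : Set (Fin N)} (h : S ⊆ R) : sp v S ≤ sp v R :=
  Submodule.span_mono (Set.image_mono h)

theorem mem_sp_of_mem (v : Fin N → E) {S : Set (Fin N)} {j : Fin N} (h : j ∈ S) : v j ∈ sp v S :=
  Submodule.subset_span ⟨j, h, rfl⟩

theorem finrank_sp (v : Fin N → E) (hv : LinearIndependent ℝ v) (S : Set (Fin N)) [Fintype S] :
    Module.finrank ℝ (sp v S) = Fintype.card S := by
  have h1 : LinearIndependent ℝ (fun j : S => v j) := hv.comp _ Subtype.val_injective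
  have h2 := finrank_span_eq_card h1
  have h3 : Set.range (fun j : S => v j) = v '' S := by
    rw [Set.image_eq_range]
  rw [h3] at h2
  exact h2

theorem exchange (v : Fin N → E) (hv : LinearIndependent ℝ v) (S B : Set (Fin N))
    [DecidablePred (· ∈ B)] (hSB : ∀ i ∈ S, i ∉ B) (φ : Fin N → E →ₗ[ℝ] ℝ) (z : Fin N → E)
    (hz : ∀ j ∈ B, z j ∈ sp v (S ∪ B))
    (h1 : ∀ i ∈ B, ∀ j ∈ B, φ i (z j) = if i = j then 1 else 0)
    (h5 : ∀ i ∈ S, ∀ j ∈ B, φ i (z j) = 0)
    (h7 : ∀ y ∈ sp v S, (∀ i ∈ S, φ i y = 0) → y = 0) :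
    LinearIndependent ℝ (fun j => if j ∈ B then z j else v j) ∧
    ∀ R : Set (Fin N), S ⊆ R → B ⊆ R →
      sp (fun j => if j ∈ B then z j else v j) R = sp v R := by
  classical
  set v' : Fin N → E := fun j => if j ∈ B then z j else v j with hv'
  have hvB : ∀ j ∈ B, v' j = z j := fun j hj => by simp [hv', hj]
  have hvo : ∀ j, j ∉ B → v' j = v j := fun j hj => by simp [hv', hj]
  have hind : LinearIndependent ℝ v' := by
    rw [Fintype.linearIndependent_iff]
    intro g hg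
    set g' : Fin N → ℝ := fun i => if i ∈ B then 0 else g i with hg'
    set x : E := ∑ j, (if j ∈ B then g j • z j else 0) with hx
    have hsum : ∑ i, g' i • v i + x = 0 := by
      rw [← hg, hx, ← Finset.sum_add_distrib]
      refine Finset.sum_congr rfl fun i _ => ?_
      by_cases hi : i ∈ B
      · simp [hg', hi, hvB i hi]
      · simp [hg', hi, hvo i hi]
    have hxm : x ∈ sp v (S ∪ B) := by
      rw [hx]
      refine Submodule.sum_mem _ fun j _ => ?_
      split_ifs with hj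
      · exact Submodule.smul_mem _ _ (hz j hj)
      · exact Submodule.zero_mem _
    obtain ⟨c, hc, hc'⟩ := (mem_sp_iff _ _ _).1 hxm
    have hcoef : ∑ i, (g' i + c i) • v i = 0 := by
      rw [← hsum, ← hc', ← Finset.sum_add_distrib]
      exact Finset.sum_congr rfl fun i _ => add_smul _ _ _
    have hzero := (Fintype.linearIndependent_iff.1 hv) _ hcoef
    have hout : ∀ i, i ∉ S → g' i = 0 := by
      intro i hi
      by_cases hb : i ∈ B
      · simp [hg', hb]
      · have := hzero i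
        rw [hc i (by simp [hi, hb])] at this
        simpa using this
    have hyS : ∑ i, g' i • v i ∈ sp v S := sum_mem_sp v S g' hout
    have hφx : ∀ i ∈ S, φ i x = 0 := by
      intro i hi
      rw [hx, map_sum]
      refine Finset.sum_eq_zero fun j _ => ?_
      split_ifs with hj
      · rw [map_smul, h5 i hi j hj, smul_zero]
      · exact map_zero _
    have hy0 : ∑ i, g' i • v i = 0 := by
      refine h7 _ hyS fun i hi => ?_
      have := congrArg (φ i) hsum
      rw [map_add, hφx i hi, map_zero, add_zero] at this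
      exact this
    have hg'0 := (Fintype.linearIndependent_iff.1 hv) _ hy0
    rw [hy0, zero_add] at hsum
    intro i
    by_cases hi : i ∈ B
    · have h2 := congrArg (φ i) hsum
      rw [hx, map_sum, map_zero, Finset.sum_eq_single i] at h2
      · rw [if_pos hi, map_smul, h1 i hi i hi, if_pos rfl, smul_eq_mul, mul_one] at h2
        exact h2
      · intro j _ hj
        split_ifs with hjB
        · rw [map_smul, h1 i hi j hjB, if_neg (Ne.symm hj), smul_zero]
        · exact map_zero _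
      · intro h; exact absurd (Finset.mem_univ i) h
    · have := hg'0 i
      simpa [hg', hi] using this
  refine ⟨hind, fun R hSR hBR => ?_⟩
  have hsub : S ∪ B ⊆ R := Set.union_subset hSR hBR
  have hle : sp v' R ≤ sp v R := by
    refine Submodule.span_le.2 ?_
    rintro _ ⟨i, hi, rfl⟩
    by_cases hb : i ∈ B
    · rw [SetLike.mem_coe, hvB i hb]; exact sp_mono v hsub (hz i hb)
    · rw [SetLike.mem_coe, hvo i hb]; exact mem_sp_of_mem v hi
  have : Fintype R := Fintype.ofFinite R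
  have : Module.Finite ℝ (sp v R) := by
    unfold sp
    exact Module.Finite.span_of_finite ℝ (Set.toFinite _)
  exact Submodule.eq_of_le_of_finrank_eq hle (by rw [finrank_sp v' hind, finrank_sp v hv])

end Frames

section Solve

variable {N : ℕ}

/-- The solution of the linear system `G c = b` by Cramer's rule. -/
noncomputable def sol (G : Matrix (Fin N) (Fin N) ℝ) (b : Fin N → ℝ) : Fin N → ℝ :=
  (G.det)⁻¹ • G.cramer b

theorem mulVec_sol (G : Matrix (Fin N) (Fin N) ℝ) (hG : G.det ≠ 0) (b : Fin N → ℝ) :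
    G.mulVec (sol G b) = b := by
  rw [sol, Matrix.mulVec_smul, Matrix.mulVec_cramer, smul_smul, inv_mul_cancel₀ hG, one_smul]

theorem continuous_sol {X : Type*} [TopologicalSpace X] (G : X → Matrix (Fin N) (Fin N) ℝ)
    (hG : Continuous G) (hd : ∀ x, (G x).det ≠ 0) (b : Fin N → ℝ) (j : Fin N) :
    Continuous fun x => sol (G x) b j := by
  have h1 : Continuous fun x => (G x).det := hG.matrix_det
  have h2 : Continuous fun x => (G x).cramer b j := by
    simp only [Matrix.cramer_apply]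
    exact (hG.matrix_updateCol j continuous_const).matrix_det
  have : (fun x => sol (G x) b j) = fun x => ((G x).det)⁻¹ * (G x).cramer b j := by
    funext x; simp [sol]
  rw [this]
  exact (h1.inv₀ hd).mul h2

/-- General block matrix: `a` on `S × S`, identity elsewhere. -/
def blkS (S : Set (Fin N)) [DecidablePred (· ∈ S)] (a : Fin N → Fin N → ℝ) :
    Matrix (Fin N) (Fin N) ℝ :=
  fun i j => if i ∈ S ∧ j ∈ S then a i j else if i = j then 1 else 0

theorem blk_eq_blkS (d : ℕ) (a : Fin N → Fin N → ℝ) : blk d a = blkS {j : Fin N | j.1 < d} a := by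
  funext i j
  simp [blk, blkS]

theorem continuous_blkS {X : Type*} [TopologicalSpace X] (S : Set (Fin N)) [DecidablePred (· ∈ S)]
    (a : X → Fin N → Fin N → ℝ) (ha : ∀ i j, Continuous fun x => a x i j) :
    Continuous fun x => blkS S (a x) := by
  refine continuous_pi fun i => continuous_pi fun j => ?_
  unfold blkS
  by_cases h : i ∈ S ∧ j ∈ S
  · simp only [h, if_true, and_self]; exact ha i j
  · simp only [h, if_false]; exact continuous_const

theorem blkS_mulVec_mem (S : Set (Fin N)) [DecidablePred (· ∈ S)] (a : Fin N → Fin N → ℝ)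
    (c : Fin N → ℝ) (i : Fin N) (hi : i ∈ S) (hc : ∀ j, j ∉ S → c j = 0) :
    (blkS S a).mulVec c i = ∑ j, c j * a i j := by
  rw [Matrix.mulVec, dotProduct]
  refine Finset.sum_congr rfl fun j _ => ?_
  by_cases hj : j ∈ S
  · simp [blkS, hi, hj, mul_comm]
  · simp [hc j hj]

theorem blkS_mulVec_notMem (S : Set (Fin N)) [DecidablePred (· ∈ S)] (a : Fin N → Fin N → ℝ)
    (c : Fin N → ℝ) (i : Fin N) (hi : i ∉ S) :
    (blkS S a).mulVec c i = c i := by
  rw [Matrix.mulVec, dotProduct, Finset.sum_eq_single i]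
  · simp [blkS, hi]
  · intro j _ hj
    simp [blkS, hi, Ne.symm hj]
  · intro h; exact absurd (Finset.mem_univ i) h

theorem blkS_det_ne_zero (S : Set (Fin N)) [DecidablePred (· ∈ S)] (a : Fin N → Fin N → ℝ)
    (h : ∀ c : Fin N → ℝ, (∀ j, j ∉ S → c j = 0) → (∀ i ∈ S, ∑ j, c j * a i j = 0) → c = 0) :
    (blkS S a).det ≠ 0 := by
  intro hdet
  obtain ⟨c, hc, hc0⟩ := Matrix.exists_mulVec_eq_zero_iff.2 hdet
  refine hc ?_
  have hout : ∀ j, j ∉ S → c j = 0 := by
    intro j hj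
    rw [← blkS_mulVec_notMem S a c j hj, hc0]; rfl
  refine h c hout fun i hi => ?_
  rw [← blkS_mulVec_mem S a c i hi hout, hc0]; rfl

theorem sol_notMem (S : Set (Fin N)) [DecidablePred (· ∈ S)] (a : Fin N → Fin N → ℝ)
    (hdet : (blkS S a).det ≠ 0) (m : Fin N) (hm : m ∈ S) (j : Fin N) (hj : j ∉ S) :
    sol (blkS S a) (Pi.single m 1) j = 0 := by
  have h1 := blkS_mulVec_notMem S a (sol (blkS S a) (Pi.single m 1)) j hj
  rw [mulVec_sol _ hdet] at h1
  have : j ≠ m := fun h => hj (h ▸ hm)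
  rw [← h1]
  simp [this]

theorem sol_mem (S : Set (Fin N)) [DecidablePred (· ∈ S)] (a : Fin N → Fin N → ℝ)
    (hdet : (blkS S a).det ≠ 0) (m : Fin N) (hm : m ∈ S) (i : Fin N) (hi : i ∈ S) :
    ∑ j, sol (blkS S a) (Pi.single m 1) j * a i j = if i = m then 1 else 0 := by
  have h1 := blkS_mulVec_mem S a (sol (blkS S a) (Pi.single m 1)) i hi
    (fun j hj => sol_notMem S a hdet m hm j hj)
  rw [mulVec_sol _ hdet] at h1
  rw [← h1]
  by_cases h : i = m
  · subst h; simp
  · simp [h]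

/-- Sign of the determinant of a matrix whose columns are transversal. -/
theorem det_block_sign (S : Set (Fin N)) [DecidablePred (· ∈ S)] (M : Matrix (Fin N) (Fin N) ℝ)
    (h : ∀ s ∈ Set.Icc (0 : ℝ) 1, ∀ c : Fin N → ℝ,
      (∀ i ∈ S, ∑ j, (if j ∈ S then M i j * c j else s * M i j * c j) = 0) →
      (∀ i, i ∉ S → ∑ j, (if j ∈ S then s * M i j * c j else M i j * c j) = 0) → c = 0) :
    0 < M.det * (blkS S M).det * (blkS Sᶜ M).det := by
  classical
  let W : ℝ → Matrix (Fin N) (Fin N) ℝ := fun s i j =>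
    if (i ∈ S ∧ j ∈ S) ∨ (i ∉ S ∧ j ∉ S) then M i j else s * M i j
  have hWc : Continuous W := by
    refine continuous_pi fun i => continuous_pi fun j => ?_
    simp only [W]
    by_cases hh : (i ∈ S ∧ j ∈ S) ∨ (i ∉ S ∧ j ∉ S)
    · simp only [hh, if_true]; exact continuous_const
    · simp only [hh, if_false]; exact continuous_id.mul continuous_const
  have hW1 : W 1 = M := by
    funext i j; simp [W]
  have hW0 : W 0 = blkS S M * blkS Sᶜ M := by
    funext i j
    rw [Matrix.mul_apply]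
    by_cases hi : i ∈ S
    · by_cases hj : j ∈ S
      · rw [Finset.sum_eq_single j]
        · simp [W, blkS, hi, hj]
        · intro k _ hk
          by_cases hkS : k ∈ S
          · simp [blkS, hkS, hk]
          · have : i ≠ k := fun h => hkS (h ▸ hi)
            simp [blkS, hkS, this]
        · intro h; exact absurd (Finset.mem_univ j) h
      · rw [Finset.sum_eq_zero]
        · simp [W, hi, hj]
        · intro k _
          by_cases hkS : k ∈ S
          · have : k ≠ j := fun h => hj (h ▸ hkS)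
            simp [blkS, hkS, this]
          · have : i ≠ k := fun h => hkS (h ▸ hi)
            simp [blkS, hkS, this]
    · rw [Finset.sum_eq_single i]
      · by_cases hj : j ∈ S
        · have : i ≠ j := fun h => hi (h ▸ hj)
          simp [W, blkS, hi, hj, this]
        · simp [W, blkS, hi, hj]
      · intro k _ hk
        simp [blkS, hi, Ne.symm hk]
      · intro h; exact absurd (Finset.mem_univ i) h
  have hne : ∀ s ∈ Set.Icc (0 : ℝ) 1, (W s).det ≠ 0 := by
    intro s hs hdet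
    obtain ⟨c, hc, hc0⟩ := Matrix.exists_mulVec_eq_zero_iff.2 hdet
    refine hc (h s hs c ?_ ?_)
    · intro i hi
      have := congrFun hc0 i
      rw [Matrix.mulVec, dotProduct, Pi.zero_apply] at this
      rw [← this]
      refine Finset.sum_congr rfl fun j _ => ?_
      by_cases hj : j ∈ S <;> simp [W, hi, hj]
    · intro i hi
      have := congrFun hc0 i
      rw [Matrix.mulVec, dotProduct, Pi.zero_apply] at this
      rw [← this]
      refine Finset.sum_congr rfl fun j _ => ?_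
      by_cases hj : j ∈ S <;> simp [W, hi, hj]
  have hdc : Continuous fun s => (W s).det := hWc.matrix_det
  have h0 : (W 0).det = (blkS S M).det * (blkS Sᶜ M).det := by rw [hW0, Matrix.det_mul]
  have h1 : (W 1).det = M.det := by rw [hW1]
  have hne0 := hne 0 ⟨le_refl _, zero_le_one⟩
  have hne1 := hne 1 ⟨zero_le_one, le_refl _⟩
  have hsame : 0 < (W 1).det * (W 0).det := by
    by_contra hcon
    push Not at hcon
    have hneg : (W 1).det * (W 0).det < 0 := lt_of_le_of_ne hcon (mul_ne_zero hne1 hne0)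
    rcases lt_or_gt_of_ne hne0 with hlt | hgt
    · have hp : 0 < (W 1).det := by
        by_contra hq; push Not at hq
        have := mul_nonneg_of_nonpos_of_nonpos hq hlt.le
        linarith
      obtain ⟨s, hs, hs0⟩ := intermediate_value_Icc (zero_le_one) hdc.continuousOn
        (show (0 : ℝ) ∈ Set.Icc (W 0).det (W 1).det from ⟨hlt.le, hp.le⟩)
      exact hne s hs hs0
    · have hp : (W 1).det < 0 := by
        by_contra hq; push Not at hq
        have := mul_nonneg hq hgt.le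
        linarith
      obtain ⟨s, hs, hs0⟩ := intermediate_value_Icc' (zero_le_one) hdc.continuousOn
        (show (0 : ℝ) ∈ Set.Icc (W 1).det (W 0).det from ⟨hp.le, hgt.le⟩)
      exact hne s hs hs0
  rw [h0, h1, ← mul_assoc] at hsame
  exact hsame

end Solve

end Crest.Agent.R202.Mix
end

-- ▼ part R202/MixStep
section

/-! # Row 202, PART A1: the exchange steps of the flags (helper206) -/

set_option autoImplicit false

open Set
open scoped InnerProductSpace

namespace Crest.Agent.R202.Mix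

variable {H : Type*} [NormedAddCommGroup H] [InnerProductSpace ℝ H] {N P : ℕ}

/-- continuity of `J κ (f κ)` -/
theorem continuous_apply_J {X : Type*} [TopologicalSpace X] (J : X → (Fin N → ℝ) →ₗ[ℝ] H)
    (hJ : ∀ u, Continuous fun x => J x u) (f : X → Fin N → ℝ) (hf : Continuous f) :
    Continuous fun x => J x (f x) := by
  have h : ∀ x, J x (f x) = ∑ m, f x m • J x (Pi.single m 1) := by
    intro x
    conv_lhs => rw [pi_eq_sum_univ' (f x)]
    rw [map_sum]
    refine Finset.sum_congr rfl fun m _ => ?_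
    rw [map_smul]
  simp only [h]
  refine continuous_finset_sum _ fun m _ => ?_
  exact ((continuous_apply m).comp hf).smul (hJ _)

/-- The generic exchange step of frames depending on a parameter. -/
theorem frame_step {X : Type*} [TopologicalSpace X] (e : Fin N → H)
    (v : X → Fin N → Fin N → ℝ) (hvc : ∀ j, Continuous fun x => v x j)
    (hvi : ∀ x, LinearIndependent ℝ (v x))
    (J : X → (Fin N → ℝ) →ₗ[ℝ] H) (hJ : ∀ u, Continuous fun x => J x u)
    (S B : Set (Fin N)) (hSB : ∀ i ∈ S, i ∉ B)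
    (hK : ∀ x, ∀ y ∈ sp (v x) (S ∪ B), (∀ i ∈ S ∪ B, ⟪e i, J x y⟫_ℝ = 0) → y = 0)
    (hK' : ∀ x, ∀ y ∈ sp (v x) S, (∀ i ∈ S, ⟪e i, J x y⟫_ℝ = 0) → y = 0) :
    ∃ v' : X → Fin N → Fin N → ℝ, (∀ j, Continuous fun x => v' x j) ∧
      (∀ x, LinearIndependent ℝ (v' x)) ∧
      (∀ x (R : Set (Fin N)), S ⊆ R → B ⊆ R → sp (v' x) R = sp (v x) R) ∧
      (∀ x j, j ∉ B → v' x j = v x j) ∧
      (∀ x, ∀ j ∈ B, v' x j ∈ sp (v x) (S ∪ B) ∧
        ∀ i ∈ S ∪ B, ⟪e i, J x (v' x j)⟫_ℝ = if i = j then 1 else 0) := by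
  classical
  let G : X → Matrix (Fin N) (Fin N) ℝ := fun x => blkS (S ∪ B) fun i j => ⟪e i, J x (v x j)⟫_ℝ
  have hJv : ∀ j, Continuous fun x => J x (v x j) := fun j => continuous_apply_J J hJ _ (hvc j)
  have hGc : Continuous G := continuous_blkS _ _ fun i j => continuous_const.inner (hJv j)
  have hlin : ∀ x (c : Fin N → ℝ) (i : Fin N),
      ⟪e i, J x (∑ j, c j • v x j)⟫_ℝ = ∑ j, c j * ⟪e i, J x (v x j)⟫_ℝ := by
    intro x c i
    rw [map_sum, inner_sum]
    refine Finset.sum_congr rfl fun j _ => ?_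
    rw [map_smul, real_inner_smul_right]
  have hGd : ∀ x, (G x).det ≠ 0 := by
    intro x
    refine blkS_det_ne_zero _ _ fun c hc hc' => ?_
    have h1 := hK x (∑ j, c j • v x j) (sum_mem_sp _ _ _ hc) (fun i hi => by
      rw [hlin]; exact hc' i hi)
    funext j
    exact (Fintype.linearIndependent_iff.1 (hvi x)) c h1 j
  let z : X → Fin N → Fin N → ℝ := fun x m => ∑ j, sol (G x) (Pi.single m 1) j • v x j
  have hzc : ∀ m, Continuous fun x => z x m := by
    intro m
    refine continuous_finset_sum _ fun j _ => ?_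
    exact (continuous_sol G hGc hGd _ j).smul (hvc j)
  have hzm : ∀ x, ∀ m ∈ B, z x m ∈ sp (v x) (S ∪ B) := by
    intro x m hm
    exact sum_mem_sp _ _ _ fun j hj => sol_notMem _ _ (hGd x) m (Or.inr hm) j hj
  have hzi : ∀ x, ∀ m ∈ B, ∀ i ∈ S ∪ B, ⟪e i, J x (z x m)⟫_ℝ = if i = m then 1 else 0 := by
    intro x m hm i hi
    rw [hlin]
    exact sol_mem _ _ (hGd x) m (Or.inr hm) i hi
  have hex := fun x => exchange (v x) (hvi x) S B hSB
    (fun i => (innerₛₗ ℝ (e i)).comp (J x)) (z x) (hzm x)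
    (fun i hi j hj => hzi x j hj i (Or.inr hi))
    (fun i hi j hj => by
      have := hzi x j hj i (Or.inl hi)
      have hne : i ≠ j := fun h => hSB i hi (h ▸ hj)
      rw [if_neg hne] at this
      exact this)
    (fun y hy hy' => hK' x y hy hy')
  refine ⟨fun x j => if j ∈ B then z x j else v x j, ?_, fun x => (hex x).1,
    fun x R h1 h2 => (hex x).2 R h1 h2, ?_, ?_⟩
  · intro j
    by_cases hj : j ∈ B
    · simp only [hj, if_true]; exact hzc j
    · simp only [hj, if_false]; exact hvc j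
  · intro x j hj
    simp [hj]
  · intro x j hj
    simp only [hj, if_true]
    exact ⟨hzm x j hj, fun i hi => hzi x j hj i hi⟩

variable (D : MixData H N P)

/-- invariant of the slow frames at home `q` -/
def VGood (q : ℕ) (v : Cube P → Fin N → Fin N → ℝ) : Prop :=
  (∀ j, Continuous fun κ => v κ j) ∧ (∀ κ, LinearIndependent ℝ (v κ)) ∧
  ∀ κ l, D.i0 ≤ l → l ≤ N → ∀ u ∈ sp (v κ) {j | j.1 < l},
    ‖D.Jp q κ u - pr D.e l (D.Jp q κ u)‖ ≤ 3 * ‖pr D.e l (D.Jp q κ u)‖

/-- invariant of the fast frames at home `q` -/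
def UGood (q : ℕ) (w : Cube P → Fin N → Fin N → ℝ) : Prop :=
  (∀ j, Continuous fun κ => w κ j) ∧ (∀ κ, LinearIndependent ℝ (w κ)) ∧
  ∀ κ l, D.i0 ≤ l → l ≤ N → ∀ u ∈ sp (w κ) {j | l ≤ j.1},
    ‖pr D.e l (D.Jm q κ u)‖ ≤ 3 * ‖D.Jm q κ u - pr D.e l (D.Jm q κ u)‖

variable {D}

theorem VGood.cone_m {q : ℕ} (hq : q ≤ P) {v : Cube P → Fin N → Fin N → ℝ} (h : VGood D q v)
    (κ : Cube P) (l : ℕ) (h1 : D.i0 ≤ l) (h2 : l ≤ N) (u : Fin N → ℝ)
    (hu : u ∈ sp (v κ) {j | j.1 < l}) :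
    ‖D.Jm q κ u - pr D.e l (D.Jm q κ u)‖ ≤ (1 / 20) * ‖pr D.e l (D.Jm q κ u)‖ :=
  D.home_cone q hq κ l h1 h2 u ((h.2.2 κ l h1 h2 u hu).trans
    (by linarith [norm_nonneg (pr D.e l (D.Jp q κ u))]))

/-- after the gate: cone `1` at the outer end of the next home -/
theorem VGood.gate {k : Fin P} {v : Cube P → Fin N → Fin N → ℝ} (h : VGood D (k.1 + 1) v)
    (κ : Cube P) (l : ℕ) (h1 : D.i0 ≤ l) (h2 : l ≤ N)
    (hd : D.d k ≠ some l ∨ (κ k : ℝ) = 1 ∨ (κ k : ℝ) = -1) (u : Fin N → ℝ)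
    (hu : u ∈ sp (v κ) {j | j.1 < l}) :
    ‖D.Jp k.1 κ u - pr D.e l (D.Jp k.1 κ u)‖ ≤ ‖pr D.e l (D.Jp k.1 κ u)‖ :=
  D.gate k κ l h1 h2 hd u ((h.cone_m (by have := k.2; omega) κ l h1 h2 u hu).trans
    (by linarith [norm_nonneg (pr D.e l (D.Jm (k.1 + 1) κ u))]))

theorem UGood.strict_p {q : ℕ} (hq : q ≤ P) {w : Cube P → Fin N → Fin N → ℝ} (h : UGood D q w)
    (κ : Cube P) (l : ℕ) (h1 : D.i0 ≤ l) (h2 : l ≤ N) (u : Fin N → ℝ)
    (hu : u ∈ sp (w κ) {j | l ≤ j.1}) (hu0 : u ≠ 0) :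
    20 * ‖pr D.e l (D.Jp q κ u)‖ < ‖D.Jp q κ u - pr D.e l (D.Jp q κ u)‖ := by
  by_contra hcon
  push Not at hcon
  have h3 := D.home_cone q hq κ l h1 h2 u hcon
  have h4 := h.2.2 κ l h1 h2 u hu
  have h5 : ‖D.Jm q κ u - pr D.e l (D.Jm q κ u)‖ = 0 := by
    have := norm_nonneg (D.Jm q κ u - pr D.e l (D.Jm q κ u))
    linarith
  have h6 : ‖pr D.e l (D.Jm q κ u)‖ = 0 := by
    have := norm_nonneg (pr D.e l (D.Jm q κ u))
    linarith
  have h7 := norm_sq_split D.orth l (D.Jm q κ u)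
  rw [h5, h6] at h7
  have h8 : D.Jm q κ u = 0 := by
    have : ‖D.Jm q κ u‖ ^ 2 = 0 := by rw [h7]; ring
    exact norm_eq_zero.1 (pow_eq_zero_iff (two_ne_zero) |>.1 this)
  exact hu0 (D.inj_m q hq κ u h8)

theorem UGood.gate {k : Fin P} {w : Cube P → Fin N → Fin N → ℝ} (h : UGood D k.1 w)
    (κ : Cube P) (l : ℕ) (h1 : D.i0 ≤ l) (h2 : l ≤ N)
    (hd : D.d k ≠ some l ∨ (κ k : ℝ) = 1 ∨ (κ k : ℝ) = -1) (u : Fin N → ℝ)
    (hu : u ∈ sp (w κ) {j | l ≤ j.1}) :
    ‖pr D.e l (D.Jm (k.1 + 1) κ u)‖ ≤ ‖D.Jm (k.1 + 1) κ u - pr D.e l (D.Jm (k.1 + 1) κ u)‖ := by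
  by_cases hu0 : u = 0
  · subst hu0; simp
  by_contra hcon
  push Not at hcon
  have h3 := D.gate k κ l h1 h2 hd u hcon.le
  have h4 := h.strict_p (by have := k.2; omega) κ l h1 h2 u hu hu0
  have := norm_nonneg (pr D.e l (D.Jp k.1 κ u))
  linarith

/-- pythagoras for nested projections -/
theorem norm_pr_sq_split {e : Fin N → H} (he : Orthonormal ℝ e) {l m : ℕ} (h : l ≤ m) (x : H) :
    ‖pr e m x‖ ^ 2 = ‖pr e l x‖ ^ 2 + ‖pr e m x - pr e l x‖ ^ 2 := by
  have := norm_sq_split he l (pr e m x)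
  rw [pr_pr he, min_eq_left h] at this
  exact this

theorem norm_sub_pr_sq_split {e : Fin N → H} (he : Orthonormal ℝ e) {l m : ℕ} (h : l ≤ m) (x : H) :
    ‖x - pr e l x‖ ^ 2 = ‖pr e m x - pr e l x‖ ^ 2 + ‖x - pr e m x‖ ^ 2 := by
  have h1 := norm_sq_split he l x
  have h2 := norm_sq_split he m x
  have h3 := norm_pr_sq_split he h x
  linarith

/-- arithmetic of the V-step -/
theorem arith_V {A b c s h g : ℝ} (hA : 0 ≤ A) (hb : 0 ≤ b) (hh : 0 ≤ h) (hs : 0 ≤ s)
    (h1 : b ^ 2 + h ^ 2 ≤ A ^ 2) (h2 : c ≤ s + b) (hc : 0 ≤ c) (hg : g ≤ h + c) (hg0 : 0 ≤ g) :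
    g ^ 2 ≤ 9 * (A ^ 2 + s ^ 2) := by
  have h3 : g ≤ h + s + b := by linarith
  have h4 : g ^ 2 ≤ (h + s + b) ^ 2 := by
    exact pow_le_pow_left₀ hg0 h3 2
  nlinarith [sq_nonneg (h - s), sq_nonneg (h - b), sq_nonneg (s - b)]

/-- arithmetic of the U-step -/
theorem arith_U {F R B b c f r g Y : ℝ} (hF : 0 ≤ F) (hR : 0 ≤ R) (hB : 0 ≤ B)
    (hc0 : 0 ≤ c) (hf0 : 0 ≤ f) (hr0 : 0 ≤ r) (hg0 : 0 ≤ g) (hY : 0 ≤ Y)
    (hb : b ≤ F) (hg : g ≤ F) (hc : c ≤ B + b) (hFR : F ≤ R + c * f) (hf : f ≤ 2 / 25)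
    (hr : r ≤ 51 / 50) (hY2 : Y ^ 2 = B ^ 2 + R ^ 2) : g + c * r ≤ 3 * Y := by
  have h1 : c ≤ B + F := by linarith
  have h2 : c * f ≤ (B + F) * (2 / 25) := mul_le_mul h1 hf hf0 (by linarith)
  have h3 : c * r ≤ (B + F) * (51 / 50) := mul_le_mul h1 hr hr0 (by linarith)
  have h4 : F ≤ (R + (2 / 25) * B) * (25 / 23) := by linarith
  have h5 : g + c * r ≤ (11 / 5) * R + (6 / 5) * B := by linarith
  have h6 : (11 / 5) * R + (6 / 5) * B ≤ 3 * Y := by
    refine le_of_sq_le_sq ?_ (by linarith)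
    have : (3 * Y) ^ 2 = 9 * (B ^ 2 + R ^ 2) := by rw [mul_pow, hY2]; ring
    rw [this]
    nlinarith [sq_nonneg (R - B), sq_nonneg R, sq_nonneg B]
  linarith

end Crest.Agent.R202.Mix
end

-- ▼ part R202/MixStepV
section

/-! # Row 202, PART A1: the V-step and the U-step of the flags (helper206) -/

set_option autoImplicit false

open Set
open scoped InnerProductSpace

namespace Crest.Agent.R202.Mix

variable {H : Type*} [NormedAddCommGroup H] [InnerProductSpace ℝ H] {N P : ℕ}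

theorem sp_empty' (v : Fin N → Fin N → ℝ) (S : Set (Fin N)) (hS : ∀ j, j ∉ S) (u : Fin N → ℝ)
    (hu : u ∈ sp v S) : u = 0 := by
  obtain ⟨c, hc, rfl⟩ := (mem_sp_iff _ _ _).1 hu
  exact Finset.sum_eq_zero fun j _ => by rw [hc j (hS j), zero_smul]

/-- spans only depend on the frame vectors with index in the set -/
theorem sp_congr (v v' : Fin N → Fin N → ℝ) (S : Set (Fin N)) (h : ∀ j ∈ S, v' j = v j) :
    sp v' S = sp v S := by
  unfold sp
  congr 1
  exact Set.image_congr h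

theorem eq_zero_of_norms {e : Fin N → H} (he : Orthonormal ℝ e) (l : ℕ) (x : H)
    (h1 : ‖pr e l x‖ = 0) (h2 : ‖x - pr e l x‖ = 0) : x = 0 := by
  have h7 := norm_sq_split he l x
  rw [h1, h2] at h7
  have : ‖x‖ ^ 2 = 0 := by rw [h7]; ring
  exact norm_eq_zero.1 (pow_eq_zero_iff (two_ne_zero) |>.1 this)

/-- two projections agree if the coordinates in between vanish -/
theorem pr_eq_pr {e : Fin N → H} (l m : ℕ) (x : H) (hlm : l ≤ m)
    (h : ∀ i : Fin N, l ≤ i.1 → i.1 < m → ⟪e i, x⟫_ℝ = 0) : pr e l x = pr e m x := by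
  rw [pr_apply, pr_apply]
  refine Finset.sum_congr rfl fun j _ => ?_
  by_cases h1 : j.1 < l
  · have h2 : j.1 < m := by omega
    simp [h1, h2]
  · by_cases h2 : j.1 < m
    · simp [h1, h2, h j (by omega) h2]
    · simp [h1, h2]

theorem V_step (D : MixData H N P) (k : Fin P) (v : Cube P → Fin N → Fin N → ℝ)
    (hv : VGood D (k.1 + 1) v) :
    ∃ v' : Cube P → Fin N → Fin N → ℝ, VGood D k.1 v' ∧
      ∀ κ l, D.i0 ≤ l → l ≤ N → D.d k ≠ some l →
        sp (v κ) {j | j.1 < l} = sp (v' κ) {j | j.1 < l} := by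
  classical
  rcases hd : D.d k with _ | d
  · refine ⟨v, ⟨hv.1, hv.2.1, fun κ l h1 h2 u hu => ?_⟩, fun κ l _ _ _ => rfl⟩
    have := hv.gate κ l h1 h2 (Or.inl (by rw [hd]; simp)) u hu
    linarith [norm_nonneg (pr D.e l (D.Jp k.1 κ u))]
  have hd1 := D.d_ge k d hd
  have hd2 := D.d_lt k d hd
  have hkP := k.2
  set p : ℕ := if d = D.i0 then 0 else d - 1 with hp
  have hpd : p ≤ d := by rw [hp]; split_ifs <;> omega
  have hpcase : p = 0 ∨ (D.i0 ≤ p ∧ p ≠ d) := by
    rw [hp]; split_ifs with h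
    · exact Or.inl rfl
    · right
      have := D.i0_pos
      constructor <;> omega
  have hplow : ∀ l, D.i0 ≤ l → l ≤ N → l ≠ d → l ≤ p ∨ d + 1 ≤ l := by
    intro l h1 h2 h3
    rw [hp]; split_ifs with h
    · right; omega
    · by_cases h4 : l ≤ d - 1
      · left; exact h4
      · right; omega
  have hdp : p < d ∨ d = 0 := by
    have := D.i0_pos
    rw [hp]; split_ifs <;> omega
  have hd0 : d ≠ 0 := by have := D.i0_pos; omega
  have hpd' : p < d := by rcases hdp with h | h; exact h; exact absurd h hd0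
  set S : Set (Fin N) := {j | j.1 < p} with hS
  set B : Set (Fin N) := {j | p ≤ j.1 ∧ j.1 < d + 1} with hB
  have hSBu : S ∪ B = {j | j.1 < d + 1} := by
    ext j; simp only [hS, hB, Set.mem_union, Set.mem_ofPred_eq]; omega
  have hSB : ∀ i ∈ S, i ∉ B := by
    intro i hi hb
    simp only [hS, hB, Set.mem_ofPred_eq] at hi hb
    omega
  -- cone at the cut d+1
  have hcone1 : ∀ κ, ∀ u ∈ sp (v κ) {j | j.1 < d + 1},
      ‖D.Jp k.1 κ u - pr D.e (d + 1) (D.Jp k.1 κ u)‖ ≤ ‖pr D.e (d + 1) (D.Jp k.1 κ u)‖ := by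
    intro κ u hu
    exact hv.gate κ (d + 1) (by omega) (by omega) (Or.inl (by rw [hd]; simp)) u hu
  have hconep : ∀ κ, ∀ u ∈ sp (v κ) {j | j.1 < p},
      ‖D.Jp k.1 κ u - pr D.e p (D.Jp k.1 κ u)‖ ≤ ‖pr D.e p (D.Jp k.1 κ u)‖ := by
    intro κ u hu
    rcases hpcase with h0 | ⟨h1, h2⟩
    · have : u = 0 := sp_empty' _ _ (fun j => by simp [h0]) u hu
      subst this; simp
    · exact hv.gate κ p h1 (by omega) (Or.inl (by rw [hd]; simpa using (Ne.symm h2))) u hu
  have hkill : ∀ κ l, l ≤ N → ∀ u, 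
      ‖D.Jp k.1 κ u - pr D.e l (D.Jp k.1 κ u)‖ ≤ ‖pr D.e l (D.Jp k.1 κ u)‖ →
      (∀ i : Fin N, i.1 < l → ⟪D.e i, D.Jp k.1 κ u⟫_ℝ = 0) → u = 0 := by
    intro κ l hl u hu h
    have h1 := (pr_eq_zero_iff D.orth l (D.Jp k.1 κ u)).2 h
    rw [h1, norm_zero] at hu
    have h2 : ‖D.Jp k.1 κ u - pr D.e l (D.Jp k.1 κ u)‖ = 0 := by
      rw [h1]; exact le_antisymm hu (norm_nonneg _)
    exact D.inj k.1 (by omega) κ u (eq_zero_of_norms D.orth l _ (by rw [h1, norm_zero]) h2)
  obtain ⟨v', hv'c, hv'i, hv'R, hv'o, hv'B⟩ := frame_step D.e v hv.1 hv.2.1 (fun κ => D.Jp k.1 κ)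
    (fun u => D.cont_p k.1 (by omega) u) S B hSB
    (fun κ y hy h => hkill κ (d + 1) (by omega) y (hcone1 κ y (by rw [← hSBu]; exact hy))
      (fun i hi => h i (by rw [hSBu]; exact hi)))
    (fun κ y hy h => hkill κ p (by omega) y (hconep κ y hy) (fun i hi => h i hi))
  have hspan : ∀ κ l, D.i0 ≤ l → l ≤ N → l ≠ d →
      sp (v κ) {j | j.1 < l} = sp (v' κ) {j | j.1 < l} := by
    intro κ l h1 h2 h3
    rcases hplow l h1 h2 h3 with h4 | h4
    · refine (sp_congr _ _ _ fun j hj => hv'o κ j ?_).symm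
      simp only [hB, Set.mem_ofPred_eq] at hj ⊢
      omega
    · refine (hv'R κ _ ?_ ?_).symm
      · intro j hj; simp only [hS, Set.mem_ofPred_eq] at hj ⊢; omega
      · intro j hj; simp only [hB, Set.mem_ofPred_eq] at hj ⊢; omega
  refine ⟨v', ⟨hv'c, hv'i, fun κ l h1 h2 u hu => ?_⟩, fun κ l h1 h2 h3 =>
    hspan κ l h1 h2 (fun h => h3 (by rw [h]))⟩
  by_cases hld : l = d
  swap
  · rw [← hspan κ l h1 h2 hld] at hu
    have := hv.gate κ l h1 h2 (Or.inl (by rw [hd]; simpa using (Ne.symm hld))) u hu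
    linarith [norm_nonneg (pr D.e l (D.Jp k.1 κ u))]
  -- the new cone
  subst hld
  obtain ⟨c, hc, rfl⟩ := (mem_sp_iff _ _ _).1 hu
  set y : Fin N → ℝ := ∑ j, (if j.1 < p then c j else 0) • v' κ j with hy
  set z : Fin N → ℝ := ∑ j, (if j.1 < p then 0 else c j) • v' κ j with hz
  have huyz : ∑ j, c j • v' κ j = y + z := by
    rw [hy, hz, ← Finset.sum_add_distrib]
    refine Finset.sum_congr rfl fun j _ => ?_
    split_ifs <;> simp
  have hyS : y ∈ sp (v κ) {j | j.1 < p} := by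
    rw [← sp_congr (v κ) (v' κ) {j | j.1 < p} (fun j hj => hv'o κ j (hSB j hj))]
    exact sum_mem_sp _ _ _ fun j hj => if_neg hj
  have hzm : z ∈ sp (v κ) {j | j.1 < l + 1} := by
    rw [← hSBu, hz]
    refine Submodule.sum_mem _ fun j _ => ?_
    split_ifs with hj
    · rw [zero_smul]; exact Submodule.zero_mem _
    · by_cases hjl : j.1 < l
      · refine Submodule.smul_mem _ _ (hv'B κ j ?_).1
        simp only [hB, Set.mem_ofPred_eq]; omega
      · rw [hc j (by simpa using hjl), zero_smul]; exact Submodule.zero_mem _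
  have hzcoord : ∀ i : Fin N, i.1 < l + 1 →
      ⟪D.e i, D.Jp k.1 κ z⟫_ℝ = if i.1 < p then 0 else c i := by
    intro i hi
    rw [hz, map_sum, inner_sum, Finset.sum_eq_single i]
    · by_cases hip : i.1 < p
      · simp [hip]
      · have hiB : i ∈ B := by simp only [hB, Set.mem_ofPred_eq]; omega
        rw [if_neg hip, map_smul, real_inner_smul_right,
          (hv'B κ i hiB).2 i (Or.inr hiB), if_pos rfl, mul_one]
    · intro j _ hj
      by_cases hjp : j.1 < p
      · simp [hjp]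
      · rw [if_neg hjp, map_smul, real_inner_smul_right]
        by_cases hjl : j.1 < l
        · have hjB : j ∈ B := by simp only [hB, Set.mem_ofPred_eq]; omega
          rw [(hv'B κ j hjB).2 i (by rw [hSBu]; exact hi), if_neg (Ne.symm hj), mul_zero]
        · rw [hc j (by simpa using hjl), zero_mul]
    · intro h; exact absurd (Finset.mem_univ i) h
  rw [huyz, map_add]
  set Y := D.Jp k.1 κ y with hY
  set Z := D.Jp k.1 κ z with hZ
  have hprZ0 : pr D.e p Z = 0 := by
    rw [pr_eq_zero_iff D.orth]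
    intro j hj
    rw [hzcoord j (by omega), if_pos hj]
  have hZl : ⟪D.e ⟨l, hd2⟩, Z⟫_ℝ = 0 := by
    rw [hzcoord ⟨l, hd2⟩ (by simp), if_neg (by simp; omega)]
    exact hc _ (by simp)
  have hprZ : pr D.e (l + 1) Z = pr D.e l Z := by
    rw [pr_succ D.e l hd2, hZl, zero_smul, add_zero]
  have hcz := hcone1 κ z hzm
  rw [← hZ, hprZ] at hcz
  have hcy := hconep κ y hyS
  rw [← hY] at hcy
  have hsq : ‖(Y + Z) - pr D.e l (Y + Z)‖ ^ 2 ≤ 9 * ‖pr D.e l (Y + Z)‖ ^ 2 := by
    have e1 : ‖pr D.e l (Y + Z)‖ ^ 2 = ‖pr D.e p Y‖ ^ 2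
        + ‖(pr D.e l Y - pr D.e p Y) + pr D.e l Z‖ ^ 2 := by
      rw [norm_pr_sq_split D.orth hpd]
      rw [map_add, map_add, hprZ0, add_zero]
      congr 2
      congr 1
      abel
    rw [e1]
    refine arith_V (A := ‖pr D.e p Y‖) (b := ‖pr D.e l Y - pr D.e p Y‖) (c := ‖pr D.e l Z‖)
      (s := ‖(pr D.e l Y - pr D.e p Y) + pr D.e l Z‖) (h := ‖Y - pr D.e l Y‖)
      (norm_nonneg _) (norm_nonneg _) (norm_nonneg _) (norm_nonneg _) ?_ ?_ (norm_nonneg _) ?_
      (norm_nonneg _)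
    · have h3 := norm_sub_pr_sq_split D.orth hpd Y
      have h4 : ‖Y - pr D.e p Y‖ ^ 2 ≤ ‖pr D.e p Y‖ ^ 2 :=
        pow_le_pow_left₀ (norm_nonneg _) hcy 2
      linarith
    · have : pr D.e l Z = ((pr D.e l Y - pr D.e p Y) + pr D.e l Z)
          - (pr D.e l Y - pr D.e p Y) := by abel
      calc ‖pr D.e l Z‖ = ‖((pr D.e l Y - pr D.e p Y) + pr D.e l Z)
          - (pr D.e l Y - pr D.e p Y)‖ := by rw [← this]
        _ ≤ _ := norm_sub_le _ _
    · have : (Y + Z) - pr D.e l (Y + Z) = (Y - pr D.e l Y) + (Z - pr D.e l Z) := by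
        rw [map_add]; abel
      rw [this]
      exact (norm_add_le _ _).trans (by linarith)
  refine le_of_sq_le_sq ?_ (by positivity)
  have h9 : (3 * ‖pr D.e l (Y + Z)‖) ^ 2 = 9 * ‖pr D.e l (Y + Z)‖ ^ 2 := by ring
  rw [h9]
  exact hsq

theorem U_step (D : MixData H N P) (k : Fin P) (w : Cube P → Fin N → Fin N → ℝ)
    (hw : UGood D k.1 w) :
    ∃ w' : Cube P → Fin N → Fin N → ℝ, UGood D (k.1 + 1) w' ∧
      ∀ κ l, D.i0 ≤ l → l ≤ N → D.d k ≠ some l →
        sp (w' κ) {j | l ≤ j.1} = sp (w κ) {j | l ≤ j.1} := by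
  classical
  have hkP := k.2
  rcases hd : D.d k with _ | d
  · refine ⟨w, ⟨hw.1, hw.2.1, fun κ l h1 h2 u hu => ?_⟩, fun κ l _ _ _ => rfl⟩
    have := hw.gate κ l h1 h2 (Or.inl (by rw [hd]; simp)) u hu
    linarith [norm_nonneg (D.Jm (k.1 + 1) κ u - pr D.e l (D.Jm (k.1 + 1) κ u))]
  have hd1 := D.d_ge k d hd
  have hd2 := D.d_lt k d hd
  set p : ℕ := if d = D.i0 then 0 else d - 1 with hp
  have hd0 : d ≠ 0 := by have := D.i0_pos; omega
  have hpd' : p < d := by have := D.i0_pos; rw [hp]; split_ifs <;> omega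
  have hpcase : p = 0 ∨ (D.i0 ≤ p ∧ p ≠ d) := by
    rw [hp]; split_ifs with h
    · exact Or.inl rfl
    · right
      have := D.i0_pos
      constructor <;> omega
  have hplow : ∀ l, D.i0 ≤ l → l ≤ N → l ≠ d → l ≤ p ∨ d + 1 ≤ l := by
    intro l h1 h2 h3
    rw [hp]; split_ifs with h
    · right; omega
    · by_cases h4 : l ≤ d - 1
      · left; exact h4
      · right; omega
  set S : Set (Fin N) := {j | d + 1 ≤ j.1} with hS
  set B : Set (Fin N) := {j | p ≤ j.1 ∧ j.1 < d + 1} with hB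
  have hSBu : S ∪ B = {j | p ≤ j.1} := by
    ext j; simp only [hS, hB, Set.mem_union, Set.mem_ofPred_eq]; omega
  have hSB : ∀ i ∈ S, i ∉ B := by
    intro i hi hb
    simp only [hS, hB, Set.mem_ofPred_eq] at hi hb
    omega
  have hcone1 : ∀ κ, ∀ u ∈ sp (w κ) {j | d + 1 ≤ j.1},
      ‖pr D.e (d + 1) (D.Jm (k.1 + 1) κ u)‖
        ≤ ‖D.Jm (k.1 + 1) κ u - pr D.e (d + 1) (D.Jm (k.1 + 1) κ u)‖ := by
    intro κ u hu
    exact hw.gate κ (d + 1) (by omega) (by omega) (Or.inl (by rw [hd]; simp)) u hu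
  have hconep : ∀ κ, ∀ u ∈ sp (w κ) {j | p ≤ j.1},
      ‖pr D.e p (D.Jm (k.1 + 1) κ u)‖
        ≤ ‖D.Jm (k.1 + 1) κ u - pr D.e p (D.Jm (k.1 + 1) κ u)‖ := by
    intro κ u hu
    rcases hpcase with h0 | ⟨h1, h2⟩
    · rw [h0, pr_zero, norm_zero]; exact norm_nonneg _
    · exact hw.gate κ p h1 (by omega) (Or.inl (by rw [hd]; simpa using (Ne.symm h2))) u hu
  have hkill : ∀ κ l, l ≤ N → ∀ u,
      ‖pr D.e l (D.Jm (k.1 + 1) κ u)‖ ≤ ‖D.Jm (k.1 + 1) κ u - pr D.e l (D.Jm (k.1 + 1) κ u)‖ →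
      (∀ i : Fin N, l ≤ i.1 → ⟪D.e i, D.Jm (k.1 + 1) κ u⟫_ℝ = 0) → u = 0 := by
    intro κ l hl u hu h
    have h1 : pr D.e l (D.Jm (k.1 + 1) κ u) = pr D.e N (D.Jm (k.1 + 1) κ u) :=
      pr_eq_pr l N _ hl (fun i hi _ => h i hi)
    have h2 := D.coneN_m (k.1 + 1) (by omega) κ u
    rw [← h1] at h2
    have h3 := norm_nonneg (pr D.e l (D.Jm (k.1 + 1) κ u))
    have h4 := norm_nonneg (D.Jm (k.1 + 1) κ u - pr D.e l (D.Jm (k.1 + 1) κ u))
    exact D.inj_m (k.1 + 1) (by omega) κ u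
      (eq_zero_of_norms D.orth l _ (by linarith) (by linarith))
  obtain ⟨w', hw'c, hw'i, hw'R, hw'o, hw'B⟩ := frame_step D.e w hw.1 hw.2.1
    (fun κ => D.Jm (k.1 + 1) κ)
    (fun u => D.cont_m (k.1 + 1) (by omega) u) S B hSB
    (fun κ y hy h => hkill κ p (by omega) y (hconep κ y (by rw [← hSBu]; exact hy))
      (fun i hi => h i (by rw [hSBu]; exact hi)))
    (fun κ y hy h => hkill κ (d + 1) (by omega) y (hcone1 κ y hy) (fun i hi => h i hi))
  have hspan : ∀ κ l, D.i0 ≤ l → l ≤ N → l ≠ d →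
      sp (w' κ) {j | l ≤ j.1} = sp (w κ) {j | l ≤ j.1} := by
    intro κ l h1 h2 h3
    rcases hplow l h1 h2 h3 with h4 | h4
    · refine hw'R κ _ ?_ ?_
      · intro j hj; simp only [hS, Set.mem_ofPred_eq] at hj ⊢; omega
      · intro j hj; simp only [hB, Set.mem_ofPred_eq] at hj ⊢; omega
    · refine sp_congr _ _ _ fun j hj => hw'o κ j ?_
      simp only [hB, Set.mem_ofPred_eq] at hj ⊢
      omega
  refine ⟨w', ⟨hw'c, hw'i, fun κ l h1 h2 u hu => ?_⟩, fun κ l h1 h2 h3 =>
    hspan κ l h1 h2 (fun h => h3 (by rw [h]))⟩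
  by_cases hld : l = d
  swap
  · rw [hspan κ l h1 h2 hld] at hu
    have := hw.gate κ l h1 h2 (Or.inl (by rw [hd]; simpa using (Ne.symm hld))) u hu
    linarith [norm_nonneg (D.Jm (k.1 + 1) κ u - pr D.e l (D.Jm (k.1 + 1) κ u))]
  subst hld
  obtain ⟨c, hc, rfl⟩ := (mem_sp_iff _ _ _).1 hu
  set m : Fin N := ⟨l, hd2⟩ with hm
  have hmB : m ∈ B := by simp only [hB, hm, Set.mem_ofPred_eq]; omega
  set y : Fin N → ℝ := ∑ j, (if j = m then 0 else c j) • w' κ j with hy
  have huyz : ∑ j, c j • w' κ j = y + c m • w' κ m := by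
    have : ∀ j, c j • w' κ j = (if j = m then 0 else c j) • w' κ j
        + (if j = m then c m • w' κ m else 0) := by
      intro j
      by_cases hj : j = m
      · subst hj; simp
      · simp [hj]
    rw [Finset.sum_congr rfl fun j _ => this j, Finset.sum_add_distrib]
    simp [hy]
  have hyS : y ∈ sp (w κ) {j | l + 1 ≤ j.1} := by
    rw [← sp_congr (w κ) (w' κ) {j | l + 1 ≤ j.1} (fun j hj => hw'o κ j (hSB j hj))]
    refine sum_mem_sp _ _ _ fun j hj => ?_
    by_cases hjm : j = m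
    · rw [if_pos hjm]
    · rw [if_neg hjm]
      refine hc j ?_
      simp only [Set.mem_ofPred_eq] at hj ⊢
      intro h
      apply hjm
      apply Fin.ext
      simp only [hm]
      omega
  rw [huyz, map_add, map_smul]
  set Y := D.Jm (k.1 + 1) κ y with hY
  set Z := D.Jm (k.1 + 1) κ (w' κ m) with hZ
  have hZc : ∀ i : Fin N, p ≤ i.1 → ⟪D.e i, Z⟫_ℝ = if i = m then 1 else 0 := by
    intro i hi
    exact (hw'B κ m hmB).2 i (by rw [hSBu]; exact hi)
  have hZl : ⟪D.e m, Z⟫_ℝ = 1 := by rw [hZc m (by simp only [hm]; omega), if_pos rfl]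
  have hprp : pr D.e p Z = pr D.e l Z := pr_eq_pr p l Z (by omega) (fun i h3 h4 => by
    rw [hZc i h3, if_neg]; intro h; rw [h, hm] at h4; simp at h4)
  have hprN : pr D.e (l + 1) Z = pr D.e N Z := pr_eq_pr (l + 1) N Z (by omega) (fun i h3 h4 => by
    rw [hZc i (by omega), if_neg]; intro h; rw [h, hm] at h3; simp at h3)
  have hZr : ‖pr D.e l Z‖ ≤ ‖Z - pr D.e l Z‖ := by
    have := hconep κ (w' κ m) (by rw [← hSBu]; exact (hw'B κ m hmB).1)
    rw [← hZ, hprp] at this
    exact this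
  have hZf : ‖Z - pr D.e (l + 1) Z‖ ≤ (1 / 20) * ‖pr D.e (l + 1) Z‖ := by
    have := D.coneN_m (k.1 + 1) (by omega) κ (w' κ m)
    rw [← hZ, ← hprN] at this
    exact this
  have hZ1 := norm_pr_succ_sq D.orth l hd2 Z
  have hZ2 := norm_sub_pr_succ_sq D.orth l hd2 Z
  rw [← hm, hZl] at hZ1 hZ2
  have hr0 := norm_nonneg (pr D.e l Z)
  have hf0 := norm_nonneg (Z - pr D.e (l + 1) Z)
  have hr2 : ‖pr D.e l Z‖ ^ 2 ≤ ‖Z - pr D.e (l + 1) Z‖ ^ 2 + 1 := by
    have := pow_le_pow_left₀ hr0 hZr 2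
    linarith
  have hf2 : ‖Z - pr D.e (l + 1) Z‖ ^ 2 ≤ (1 / 400) * (‖pr D.e l Z‖ ^ 2 + 1) := by
    have := pow_le_pow_left₀ hf0 hZf 2
    rw [mul_pow, hZ1] at this
    linarith
  have hf : ‖Z - pr D.e (l + 1) Z‖ ≤ 2 / 25 := by
    refine le_of_sq_le_sq ?_ (by norm_num)
    linarith
  have hr : ‖pr D.e l Z‖ ≤ 51 / 50 := by
    refine le_of_sq_le_sq ?_ (by norm_num)
    linarith
  have hcy := hcone1 κ y hyS
  rw [← hY] at hcy
  have hY1 := norm_pr_succ_sq D.orth l hd2 Y
  rw [← hm] at hY1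
  have hF0 := norm_nonneg (Y - pr D.e (l + 1) Y)
  have hYF := pow_le_pow_left₀ (norm_nonneg _) hcy 2
  have hg : ‖pr D.e l Y‖ ≤ ‖Y - pr D.e (l + 1) Y‖ := by
    refine le_of_sq_le_sq ?_ hF0
    nlinarith [sq_nonneg ⟪D.e m, Y⟫_ℝ]
  have hb : |⟪D.e m, Y⟫_ℝ| ≤ ‖Y - pr D.e (l + 1) Y‖ := by
    refine abs_le_of_sq_le_sq ?_ hF0
    nlinarith [sq_nonneg ‖pr D.e l Y‖]
  have hX := norm_sub_pr_succ_sq D.orth l hd2 (Y + c m • Z)
  rw [← hm] at hX
  have hXm : ⟪D.e m, Y + c m • Z⟫_ℝ = ⟪D.e m, Y⟫_ℝ + c m := by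
    rw [inner_add_right, real_inner_smul_right, hZl, mul_one]
  have hmain := arith_U (F := ‖Y - pr D.e (l + 1) Y‖)
    (R := ‖(Y + c m • Z) - pr D.e (l + 1) (Y + c m • Z)‖)
    (B := |⟪D.e m, Y⟫_ℝ + c m|) (b := |⟪D.e m, Y⟫_ℝ|) (c := |c m|)
    (f := ‖Z - pr D.e (l + 1) Z‖) (r := ‖pr D.e l Z‖) (g := ‖pr D.e l Y‖)
    (Y := ‖(Y + c m • Z) - pr D.e l (Y + c m • Z)‖)
    hF0 (norm_nonneg _) (abs_nonneg _) (abs_nonneg _) hf0 hr0 (norm_nonneg _) (norm_nonneg _)
    hb hg ?_ ?_ hf hr ?_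
  · refine le_trans ?_ hmain
    rw [map_add, map_smul]
    refine (norm_add_le _ _).trans ?_
    rw [norm_smul, Real.norm_eq_abs]
  · have : c m = (⟪D.e m, Y⟫_ℝ + c m) - ⟪D.e m, Y⟫_ℝ := by ring
    calc |c m| = |(⟪D.e m, Y⟫_ℝ + c m) - ⟪D.e m, Y⟫_ℝ| := by rw [← this]
      _ ≤ _ := abs_sub _ _
  · have : Y - pr D.e (l + 1) Y = ((Y + c m • Z) - pr D.e (l + 1) (Y + c m • Z))
        - c m • (Z - pr D.e (l + 1) Z) := by
      rw [map_add, map_smul, smul_sub]; abel
    calc ‖Y - pr D.e (l + 1) Y‖ = ‖((Y + c m • Z) - pr D.e (l + 1) (Y + c m • Z))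
        - c m • (Z - pr D.e (l + 1) Z)‖ := by rw [← this]
      _ ≤ _ := norm_sub_le _ _
      _ = _ := by rw [norm_smul, Real.norm_eq_abs]
  · rw [hX, hXm, sq_abs]; ring

end Crest.Agent.R202.Mix
end

-- ▼ part R202/MixFlag
section

/-! # Row 202, PART A1: existence of the flags (helper206) -/

set_option autoImplicit false

open Set
open scoped InnerProductSpace

namespace Crest.Agent.R202.Mix

variable {H : Type*} [NormedAddCommGroup H] [InnerProductSpace ℝ H] {N P : ℕ}

theorem card_lt_set (l : ℕ) (hl : l ≤ N) [Fintype ({j : Fin N | j.1 < l} : Set (Fin N))] :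
    Fintype.card ({j : Fin N | j.1 < l} : Set (Fin N)) = l := by
  have e : ({j : Fin N | j.1 < l} : Set (Fin N)) ≃ Fin l :=
    { toFun := fun j => ⟨j.1.1, j.2⟩
      invFun := fun i => ⟨⟨i.1, lt_of_lt_of_le i.2 hl⟩, i.2⟩
      left_inv := fun j => rfl
      right_inv := fun i => rfl }
  rw [Fintype.card_congr e, Fintype.card_fin]

theorem card_ge_set (l : ℕ) (hl : l ≤ N) [Fintype ({j : Fin N | l ≤ j.1} : Set (Fin N))] :
    Fintype.card ({j : Fin N | l ≤ j.1} : Set (Fin N)) = N - l := by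
  have e : ({j : Fin N | l ≤ j.1} : Set (Fin N)) ≃ Fin (N - l) :=
    { toFun := fun j => ⟨j.1.1 - l, by
        have h1 := j.1.2
        have h2 : l ≤ j.1.1 := j.2
        omega⟩
      invFun := fun i => ⟨⟨i.1 + l, by have := i.2; omega⟩, by
        show l ≤ i.1 + l
        omega⟩
      left_inv := fun j => by
        have h2 : l ≤ j.1.1 := j.2
        apply Subtype.ext
        apply Fin.ext
        show j.1.1 - l + l = j.1.1
        omega
      right_inv := fun i => by
        apply Fin.ext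
        show i.1 + l - l = i.1
        omega }
  rw [Fintype.card_congr e, Fintype.card_fin]

theorem linInd_single : LinearIndependent ℝ (fun j : Fin N => (Pi.single j 1 : Fin N → ℝ)) := by
  have := (Pi.basisFun ℝ (Fin N)).linearIndependent
  convert this using 2
  rename_i j
  exact (Pi.basisFun_apply ℝ (Fin N) j).symm

theorem V_base (D : MixData H N P) : ∃ v : Cube P → Fin N → Fin N → ℝ, VGood D P v := by
  classical
  refine ⟨fun _ j => Pi.single j 1, fun j => continuous_const, fun _ => linInd_single,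
    fun κ l h1 h2 u hu => ?_⟩
  obtain ⟨c, hc, rfl⟩ := (mem_sp_iff _ _ _).1 hu
  have hcu : ∑ j, c j • (Pi.single j 1 : Fin N → ℝ) = c := by
    rw [← pi_eq_sum_univ' c]
  rw [hcu]
  set y := D.Jp P κ c with hy
  set s := ∑ j, c j • D.e j with hs
  have hsi : ∀ j, ⟪D.e j, s⟫_ℝ = c j := by
    intro j
    rw [hs, inner_sum, Finset.sum_eq_single j]
    · rw [real_inner_smul_right, orthonormal_iff_ite.1 D.orth j j]; simp
    · intro i _ hi
      rw [real_inner_smul_right, orthonormal_iff_ite.1 D.orth j i]; simp [Ne.symm hi]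
    · intro h; exact absurd (Finset.mem_univ j) h
  have hs1 : pr D.e l s = s := by
    rw [pr_apply]
    conv_rhs => rw [hs]
    refine Finset.sum_congr rfl fun j _ => ?_
    rw [hsi]
    by_cases hj : j.1 < l
    · rw [if_pos hj]
    · rw [if_neg hj, hc j hj, zero_smul]
  have hs2 : ‖s‖ ^ 2 = ∑ j, c j ^ 2 := by
    rw [← hs1, norm_pr_sq D.orth]
    refine Finset.sum_congr rfl fun j _ => ?_
    rw [hsi]
    by_cases hj : j.1 < l
    · rw [if_pos hj]
    · rw [if_neg hj, hc j hj]; ring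
  have ht := D.top κ c
  rw [← hs2] at ht
  have ht' : ‖y - s‖ ≤ (1 / 20) * ‖s‖ := by
    refine le_of_sq_le_sq ?_ (by positivity)
    calc ‖y - s‖ ^ 2 ≤ (1 / 400) * ‖s‖ ^ 2 := ht
      _ = ((1 / 20) * ‖s‖) ^ 2 := by ring
  have h1 : ‖y - pr D.e l y‖ ≤ ‖y - s‖ := by
    have e1 : y - pr D.e l y = (y - s) - pr D.e l (y - s) := by
      rw [map_sub, hs1]; abel
    rw [e1]
    have := norm_sq_split D.orth l (y - s)
    refine le_of_sq_le_sq ?_ (norm_nonneg _)
    nlinarith [sq_nonneg ‖pr D.e l (y - s)‖]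
  have h2 : ‖s‖ - ‖y - s‖ ≤ ‖pr D.e l y‖ := by
    have e1 : s = pr D.e l y - pr D.e l (y - s) := by
      rw [map_sub, hs1]; abel
    have h3 : ‖pr D.e l (y - s)‖ ≤ ‖y - s‖ := by
      have := norm_sq_split D.orth l (y - s)
      refine le_of_sq_le_sq ?_ (norm_nonneg _)
      nlinarith [sq_nonneg ‖(y - s) - pr D.e l (y - s)‖]
    have h4 : ‖s‖ ≤ ‖pr D.e l y‖ + ‖pr D.e l (y - s)‖ := by
      calc ‖s‖ = ‖pr D.e l y - pr D.e l (y - s)‖ := by rw [← e1]
        _ ≤ _ := norm_sub_le _ _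
    linarith
  have h5 := norm_nonneg s
  linarith

theorem U_base (D : MixData H N P) : ∃ w : Cube P → Fin N → Fin N → ℝ, UGood D 0 w := by
  classical
  have hkill : ∀ κ u, (∀ i : Fin N, ⟪D.e i, D.Jm 0 κ u⟫_ℝ = 0) → u = 0 := by
    intro κ u h
    have h1 := (pr_eq_zero_iff D.orth N (D.Jm 0 κ u)).2 (fun j _ => h j)
    have h2 := D.coneN_m 0 (Nat.zero_le _) κ u
    rw [h1, norm_zero, mul_zero] at h2
    exact D.inj_m 0 (Nat.zero_le _) κ u (eq_zero_of_norms D.orth N _ (by rw [h1, norm_zero])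
      (by rw [h1]; exact le_antisymm h2 (norm_nonneg _)))
  obtain ⟨w, hwc, hwi, -, -, hwB⟩ := frame_step D.e
    (fun (_ : Cube P) (j : Fin N) => (Pi.single j 1 : Fin N → ℝ))
    (fun j => continuous_const) (fun _ => linInd_single) (fun κ => D.Jm 0 κ)
    (fun u => D.cont_m 0 (Nat.zero_le _) u) ∅ Set.univ (fun i hi => absurd hi (by simp))
    (fun κ y _ h => hkill κ y (fun i => h i (Or.inr (Set.mem_univ i))))
    (fun κ y hy _ => sp_empty' _ _ (fun j => by simp) y hy)
  refine ⟨w, hwc, hwi, fun κ l h1 h2 u hu => ?_⟩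
  obtain ⟨c, hc, rfl⟩ := (mem_sp_iff _ _ _).1 hu
  have : pr D.e l (D.Jm 0 κ (∑ j, c j • w κ j)) = 0 := by
    rw [pr_eq_zero_iff D.orth]
    intro i hi
    rw [map_sum, inner_sum]
    refine Finset.sum_eq_zero fun j _ => ?_
    rw [map_smul, real_inner_smul_right, (hwB κ j (Set.mem_univ j)).2 i (Or.inr (Set.mem_univ i))]
    by_cases hij : i = j
    · subst hij
      rw [hc i (by simpa using hi), zero_mul]
    · rw [if_neg hij, mul_zero]
  rw [this, norm_zero]
  positivity

theorem V_chain (D : MixData H N P) : ∃ v : ℕ → Cube P → Fin N → Fin N → ℝ,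
    (∀ q, q ≤ P → VGood D q (v q)) ∧
    ∀ (k : Fin P) κ l, D.i0 ≤ l → l ≤ N → D.d k ≠ some l →
        sp (v (k.1 + 1) κ) {j | j.1 < l} = sp (v k.1 κ) {j | j.1 < l} := by
  classical
  have key : ∀ n, n ≤ P → ∃ v : ℕ → Cube P → Fin N → Fin N → ℝ,
      (∀ q, q ≤ P → P - n ≤ q → VGood D q (v q)) ∧
      ∀ (k : Fin P), P - n ≤ k.1 → ∀ κ l, D.i0 ≤ l → l ≤ N → D.d k ≠ some l →
        sp (v (k.1 + 1) κ) {j | j.1 < l} = sp (v k.1 κ) {j | j.1 < l} := by
    intro n
    induction n with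
    | zero =>
      intro _
      obtain ⟨v0, hv0⟩ := V_base D
      refine ⟨fun _ => v0, fun q h1 h2 => ?_, fun k hk => ?_⟩
      · have : q = P := by omega
        subst this; exact hv0
      · have := k.2; omega
    | succ n ih =>
      intro hn
      obtain ⟨v, hv1, hv2⟩ := ih (by omega)
      have hk : P - (n + 1) < P := by omega
      set k : Fin P := ⟨P - (n + 1), hk⟩ with hkdef
      have hk1 : k.1 + 1 = P - n := by simp only [hkdef]; omega
      obtain ⟨v', hv'1, hv'2⟩ := V_step D k (v (k.1 + 1)) (hv1 _ (by omega) (by omega))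
      refine ⟨Function.update v k.1 v', fun q h1 h2 => ?_, fun k' hk' => ?_⟩
      · by_cases hq : q = k.1
        · subst hq; rw [Function.update_self]; exact hv'1
        · rw [Function.update_of_ne hq]
          refine hv1 q h1 ?_
          have : k.1 = P - (n + 1) := rfl
          omega
      · by_cases hkk : k'.1 = k.1
        · have hkeq : k' = k := Fin.ext hkk
          subst hkeq
          intro κ l h1 h2 h3
          rw [Function.update_self, Function.update_of_ne (by omega)]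
          exact hv'2 κ l h1 h2 h3
        · intro κ l h1 h2 h3
          have : k.1 = P - (n + 1) := rfl
          rw [Function.update_of_ne hkk, Function.update_of_ne (by omega)]
          exact hv2 k' (by omega) κ l h1 h2 h3
  obtain ⟨v, hv1, hv2⟩ := key P le_rfl
  exact ⟨v, fun q hq => hv1 q hq (by omega), fun k => hv2 k (by omega)⟩

theorem U_chain (D : MixData H N P) : ∃ w : ℕ → Cube P → Fin N → Fin N → ℝ,
    (∀ q, q ≤ P → UGood D q (w q)) ∧
    ∀ (k : Fin P) κ l, D.i0 ≤ l → l ≤ N → D.d k ≠ some l →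
        sp (w (k.1 + 1) κ) {j | l ≤ j.1} = sp (w k.1 κ) {j | l ≤ j.1} := by
  classical
  have key : ∀ n, n ≤ P → ∃ w : ℕ → Cube P → Fin N → Fin N → ℝ,
      (∀ q, q ≤ n → UGood D q (w q)) ∧
      ∀ (k : Fin P), k.1 < n → ∀ κ l, D.i0 ≤ l → l ≤ N → D.d k ≠ some l →
        sp (w (k.1 + 1) κ) {j | l ≤ j.1} = sp (w k.1 κ) {j | l ≤ j.1} := by
    intro n
    induction n with
    | zero =>
      intro _
      obtain ⟨w0, hw0⟩ := U_base D
      refine ⟨fun _ => w0, fun q h1 => ?_, fun k hk => absurd hk (by omega)⟩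
      have : q = 0 := by omega
      subst this; exact hw0
    | succ n ih =>
      intro hn
      obtain ⟨w, hw1, hw2⟩ := ih (by omega)
      set k : Fin P := ⟨n, by omega⟩ with hkdef
      have hkn : k.1 = n := rfl
      obtain ⟨w', hw'1, hw'2⟩ := U_step D k (w k.1) (hw1 _ (by omega))
      refine ⟨Function.update w (n + 1) w', fun q h1 => ?_, fun k' hk' => ?_⟩
      · by_cases hq : q = n + 1
        · subst hq; rw [Function.update_self]; exact hw'1
        · rw [Function.update_of_ne hq]; exact hw1 q (by omega)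
      · by_cases hkk : k'.1 = n
        · have hkeq : k' = k := Fin.ext hkk
          subst hkeq
          intro κ l h1 h2 h3
          have e1 : k.1 + 1 = n + 1 := by omega
          rw [e1, Function.update_self, Function.update_of_ne (by omega)]
          exact hw'2 κ l h1 h2 h3
        · intro κ l h1 h2 h3
          rw [Function.update_of_ne (by omega), Function.update_of_ne (by omega)]
          exact hw2 k' (by omega) κ l h1 h2 h3
  obtain ⟨w, hw1, hw2⟩ := key P le_rfl
  exact ⟨w, fun q hq => hw1 q hq, fun k => hw2 k k.2⟩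

/-- The matrix whose vanishing determinant means that the outer slow space meets the inner fast
space. -/
noncomputable def cmat (D : MixData H N P) (v w : Cube P → Fin N → Fin N → ℝ) (k : Fin P) (d : ℕ)
    (κ : Cube P) : Matrix (Fin N) (Fin N) ℝ :=
  fun i j => ⟪D.e i, D.Jp k.1 κ (if j.1 < d then v κ j else w κ j)⟫_ℝ

/-- The scalar function of the gate `k`. -/
noncomputable def cfun (D : MixData H N P) (v w : Cube P → Fin N → Fin N → ℝ) (k : Fin P) (d : ℕ)
    (κ : Cube P) : ℝ :=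
  D.σ k * (cmat D v w k d κ).det *
    (blk d fun i j => ⟪D.e i, D.Jm (k.1 + 1) κ (v κ j)⟫_ℝ).det *
    (blkS {j : Fin N | j.1 < d}ᶜ (cmat D v w k d κ)).det

theorem cfun_continuous (D : MixData H N P) (v w : Cube P → Fin N → Fin N → ℝ) (k : Fin P) (d : ℕ)
    (hv : ∀ j, Continuous fun κ => v κ j) (hw : ∀ j, Continuous fun κ => w κ j) :
    Continuous (cfun D v w k d) := by
  have hk := k.2
  have h1 : Continuous (cmat D v w k d) := by
    refine continuous_pi fun i => continuous_pi fun j => ?_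
    unfold cmat
    refine continuous_const.inner (continuous_apply_J (fun κ => D.Jp k.1 κ)
      (fun u => D.cont_p k.1 (by omega) u) _ ?_)
    by_cases hj : j.1 < d
    · simp only [hj, if_true]; exact hv j
    · simp only [hj, if_false]; exact hw j
  have h2 : Continuous fun κ => blk d fun i j => ⟪D.e i, D.Jm (k.1 + 1) κ (v κ j)⟫_ℝ := by
    simp only [blk_eq_blkS]
    refine continuous_blkS _ _ fun i j => continuous_const.inner
      (continuous_apply_J (fun κ => D.Jm (k.1 + 1) κ) (fun u => D.cont_m (k.1 + 1) (by omega) u) _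
        (hv j))
  have h3 : Continuous fun κ => blkS {j : Fin N | j.1 < d}ᶜ (cmat D v w k d κ) := by
    refine continuous_blkS _ _ fun i j => ?_
    exact (continuous_apply j).comp ((continuous_apply i).comp h1)
  unfold cfun
  exact ((continuous_const.mul h1.matrix_det).mul h2.matrix_det).mul h3.matrix_det

section Gate

variable (D : MixData H N P) (k : Fin P) (d : ℕ) (hd : D.d k = some d)
  (v w : Cube P → Fin N → Fin N → ℝ) (hv : VGood D (k.1 + 1) v) (hw : UGood D k.1 w)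

include hd hv in
theorem detA_ne (κ : Cube P) :
    (blk d fun i j => ⟪D.e i, D.Jm (k.1 + 1) κ (v κ j)⟫_ℝ).det ≠ 0 := by
  have hk := k.2
  rw [blk_eq_blkS]
  refine blkS_det_ne_zero _ _ fun c hc hc' => ?_
  set u : Fin N → ℝ := ∑ j, c j • v κ j with hu
  have hu1 : u ∈ sp (v κ) {j | j.1 < d} := sum_mem_sp _ _ _ hc
  have h1 : pr D.e d (D.Jm (k.1 + 1) κ u) = 0 := by
    rw [pr_eq_zero_iff D.orth]
    intro i hi
    rw [hu, map_sum, inner_sum, ← hc' i hi]
    refine Finset.sum_congr rfl fun j _ => ?_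
    rw [map_smul, real_inner_smul_right]
  have h2 := hv.cone_m (by omega) κ d (D.d_ge k d hd) (D.d_lt k d hd).le u hu1
  rw [h1, norm_zero, mul_zero] at h2
  have h3 : u = 0 := D.inj_m (k.1 + 1) (by omega) κ u
    (eq_zero_of_norms D.orth d _ (by rw [h1, norm_zero]) (by
      rw [h1]; exact le_antisymm h2 (norm_nonneg _)))
  funext j
  exact (Fintype.linearIndependent_iff.1 (hv.2.1 κ)) c h3 j

include hd hw in
theorem U_kill_p (κ : Cube P) (x : Fin N → ℝ) (hx : x ∈ sp (w κ) {j | d ≤ j.1})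
    (h : ‖pr D.e N (D.Jp k.1 κ x) - pr D.e d (D.Jp k.1 κ x)‖ ≤ ‖pr D.e d (D.Jp k.1 κ x)‖) :
    x = 0 := by
  have hk := k.2
  by_contra hx0
  have h1 := hw.strict_p (by omega) κ d (D.d_ge k d hd) (D.d_lt k d hd).le x hx hx0
  have h2 := D.coneN_p k.1 (by omega) κ x
  have h3 := norm_sub_pr_sq_split D.orth (D.d_lt k d hd).le (D.Jp k.1 κ x)
  have h4 := norm_pr_sq_split D.orth (D.d_lt k d hd).le (D.Jp k.1 κ x)
  have h5 := norm_nonneg (pr D.e d (D.Jp k.1 κ x))
  have h6 := norm_nonneg (D.Jp k.1 κ x - pr D.e N (D.Jp k.1 κ x))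
  have h7 := norm_nonneg (pr D.e N (D.Jp k.1 κ x) - pr D.e d (D.Jp k.1 κ x))
  have h8 := pow_le_pow_left₀ h6 h2 2
  have h9 := pow_le_pow_left₀ h7 h 2
  have h10 : (20 * ‖pr D.e d (D.Jp k.1 κ x)‖) ^ 2
      < ‖D.Jp k.1 κ x - pr D.e d (D.Jp k.1 κ x)‖ ^ 2 :=
    pow_lt_pow_left₀ h1 (by positivity) (by norm_num)
  rw [mul_pow] at h10
  nlinarith [sq_nonneg ‖pr D.e d (D.Jp k.1 κ x)‖]

include hd hw in
theorem detW_ne (κ : Cube P) :
    (blkS {j : Fin N | j.1 < d}ᶜ (cmat D v w k d κ)).det ≠ 0 := by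
  have hk := k.2
  refine blkS_det_ne_zero _ _ fun c hc hc' => ?_
  set u : Fin N → ℝ := ∑ j, c j • w κ j with hu
  have hu1 : u ∈ sp (w κ) {j | d ≤ j.1} := sum_mem_sp _ _ _ (fun j hj => hc j (by
    simpa using hj))
  have h1 : ∀ i : Fin N, d ≤ i.1 → ⟪D.e i, D.Jp k.1 κ u⟫_ℝ = 0 := by
    intro i hi
    rw [hu, map_sum, inner_sum, ← hc' i (by simpa using hi)]
    refine Finset.sum_congr rfl fun j _ => ?_
    rw [map_smul, real_inner_smul_right]
    by_cases hj : j.1 < d
    · rw [hc j (by simpa using hj), zero_mul, zero_mul]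
    · simp only [cmat, hj, if_false]
  have h2 : pr D.e d (D.Jp k.1 κ u) = pr D.e N (D.Jp k.1 κ u) :=
    pr_eq_pr d N _ (D.d_lt k d hd).le (fun i hi _ => h1 i hi)
  have h3 : u = 0 := U_kill_p D k d hd w hw κ u hu1 (by
    rw [← h2, sub_self, norm_zero]; exact norm_nonneg _)
  funext j
  exact (Fintype.linearIndependent_iff.1 (hw.2.1 κ)) c h3 j

include hd hv hw in
theorem block_sign (κ : Cube P) (hκ : (κ k : ℝ) = 1 ∨ (κ k : ℝ) = -1) :
    0 < (cmat D v w k d κ).det * (blkS {j : Fin N | j.1 < d} (cmat D v w k d κ)).det *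
      (blkS {j : Fin N | j.1 < d}ᶜ (cmat D v w k d κ)).det := by
  have hk := k.2
  have hd1 := D.d_ge k d hd
  have hd2 := D.d_lt k d hd
  refine det_block_sign {j : Fin N | j.1 < d} (cmat D v w k d κ) ?_
  intro s hs c h1 h2
  set cv : Fin N → ℝ := fun j => if j.1 < d then c j else 0 with hcv
  set cw : Fin N → ℝ := fun j => if j.1 < d then 0 else c j with hcw
  set y : Fin N → ℝ := ∑ j, cv j • v κ j with hy
  set x : Fin N → ℝ := ∑ j, cw j • w κ j with hx
  have hym : y ∈ sp (v κ) {j | j.1 < d} := sum_mem_sp _ _ _ (fun j hj => by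
    simp only [hcv]; exact if_neg hj)
  have hxm : x ∈ sp (w κ) {j | d ≤ j.1} := sum_mem_sp _ _ _ (fun j hj => by
    have : j.1 < d := by simpa using hj
    simp [hcw, this])
  set Y := D.Jp k.1 κ y with hY
  set X := D.Jp k.1 κ x with hX
  have hYi : ∀ i, ⟪D.e i, Y⟫_ℝ = ∑ j, (if j.1 < d then cmat D v w k d κ i j * c j else 0) := by
    intro i
    rw [hY, hy, map_sum, inner_sum]
    refine Finset.sum_congr rfl fun j _ => ?_
    rw [map_smul, real_inner_smul_right]
    by_cases hj : j.1 < d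
    · simp only [hcv, cmat, hj, if_true]; ring
    · simp only [hcv, hj, if_false, zero_mul]
  have hXi : ∀ i, ⟪D.e i, X⟫_ℝ = ∑ j, (if j.1 < d then 0 else cmat D v w k d κ i j * c j) := by
    intro i
    rw [hX, hx, map_sum, inner_sum]
    refine Finset.sum_congr rfl fun j _ => ?_
    rw [map_smul, real_inner_smul_right]
    by_cases hj : j.1 < d
    · simp only [hcw, hj, if_true, zero_mul]
    · simp only [hcw, cmat, hj, if_false]; ring
  have hlow : ∀ i : Fin N, i.1 < d → ⟪D.e i, Y + s • X⟫_ℝ = 0 := by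
    intro i hi
    rw [inner_add_right, real_inner_smul_right, hYi, hXi, Finset.mul_sum, ← Finset.sum_add_distrib]
    refine Eq.trans ?_ (h1 i hi)
    refine Finset.sum_congr rfl fun j _ => ?_
    by_cases hj : j.1 < d
    · rw [if_pos hj, if_pos hj, if_pos (show j ∈ {j : Fin N | j.1 < d} from hj)]; ring
    · rw [if_neg hj, if_neg hj, if_neg (show j ∉ {j : Fin N | j.1 < d} from hj)]; ring
  have hhigh : ∀ i : Fin N, ¬ i.1 < d → ⟪D.e i, s • Y + X⟫_ℝ = 0 := by
    intro i hi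
    rw [inner_add_right, real_inner_smul_right, hYi, hXi, Finset.mul_sum, ← Finset.sum_add_distrib]
    refine Eq.trans ?_ (h2 i hi)
    refine Finset.sum_congr rfl fun j _ => ?_
    by_cases hj : j.1 < d
    · rw [if_pos hj, if_pos hj, if_pos (show j ∈ {j : Fin N | j.1 < d} from hj)]; ring
    · rw [if_neg hj, if_neg hj, if_neg (show j ∉ {j : Fin N | j.1 < d} from hj)]; ring
  -- low parts
  have e1 : pr D.e d Y = - (s • pr D.e d X) := by
    have h3 := (pr_eq_zero_iff D.orth d (Y + s • X)).2 hlow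
    rw [map_add, map_smul] at h3
    exact eq_neg_of_add_eq_zero_left h3
  have e2 : pr D.e N X - pr D.e d X = - (s • (pr D.e N Y - pr D.e d Y)) := by
    have h3 : pr D.e d (s • Y + X) = pr D.e N (s • Y + X) :=
      pr_eq_pr d N _ hd2.le (fun i hi _ => hhigh i (by omega))
    rw [map_add, map_add, map_smul, map_smul] at h3
    rw [smul_sub]
    have h4 : s • pr D.e N Y + pr D.e N X - (s • pr D.e d Y + pr D.e d X) = 0 :=
      sub_eq_zero.2 h3.symm
    have h5 : pr D.e N X - pr D.e d X + (s • pr D.e N Y - s • pr D.e d Y) = 0 := by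
      rw [← h4]; abel
    exact eq_neg_of_add_eq_zero_left h5
  have hs1 : |s| ≤ 1 := by rw [abs_le]; constructor <;> linarith [hs.1, hs.2]
  have n1 : ‖pr D.e d Y‖ ≤ ‖pr D.e d X‖ := by
    rw [e1, norm_neg, norm_smul, Real.norm_eq_abs]
    exact mul_le_of_le_one_left (norm_nonneg _) hs1
  have n2 : ‖pr D.e N X - pr D.e d X‖ ≤ ‖pr D.e N Y - pr D.e d Y‖ := by
    rw [e2, norm_neg, norm_smul, Real.norm_eq_abs]
    exact mul_le_of_le_one_left (norm_nonneg _) hs1
  have n3 : ‖pr D.e N Y - pr D.e d Y‖ ≤ ‖Y - pr D.e d Y‖ := by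
    have := norm_sub_pr_sq_split D.orth hd2.le Y
    refine le_of_sq_le_sq ?_ (norm_nonneg _)
    nlinarith [sq_nonneg ‖Y - pr D.e N Y‖]
  have n4 : ‖Y - pr D.e d Y‖ ≤ ‖pr D.e d Y‖ := hv.gate κ d hd1 hd2.le (Or.inr hκ) y hym
  have hx0 : x = 0 := U_kill_p D k d hd w hw κ x hxm (by rw [← hX]; linarith)
  have hX0 : X = 0 := by rw [hX, hx0, map_zero]
  have hY0 : y = 0 := by
    refine D.inj k.1 (by omega) κ y (eq_zero_of_norms D.orth d _ ?_ ?_)
    · have : ‖pr D.e d X‖ = 0 := by rw [hX0, map_zero, norm_zero]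
      rw [this] at n1
      exact le_antisymm n1 (norm_nonneg _)
    · have : ‖pr D.e d X‖ = 0 := by rw [hX0, map_zero, norm_zero]
      rw [this] at n1
      exact le_antisymm (n4.trans n1) (norm_nonneg _)
  have c1 := (Fintype.linearIndependent_iff.1 (hv.2.1 κ)) cv hY0
  have c2 := (Fintype.linearIndependent_iff.1 (hw.2.1 κ)) cw hx0
  funext j
  by_cases hj : j.1 < d
  · have := c1 j; simpa [hcv, hj] using this
  · have := c2 j; simpa [hcw, hj] using this

include hd hv hw in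
theorem cfun_sign (κ : Cube P) (hκ : (κ k : ℝ) = 1 ∨ (κ k : ℝ) = -1) :
    0 < (κ k : ℝ) * cfun D v w k d κ := by
  have hk := k.2
  have hd1 := D.d_ge k d hd
  have hd2 := D.d_lt k d hd
  have h1 := block_sign D k d hd v w hv hw κ hκ
  have h2 := D.sign k d hd κ hκ (v κ) (hv.2.1 κ) (fun c hc => by
    have := hv.cone_m (by omega) κ d hd1 hd2.le (∑ j, c j • v κ j)
      (sum_mem_sp _ _ _ (fun j hj => hc j (by simpa using hj)))
    linarith [norm_nonneg (pr D.e d (D.Jm (k.1 + 1) κ (∑ j, c j • v κ j)))])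
  have hA : (blkS {j : Fin N | j.1 < d} (cmat D v w k d κ)).det
      = (blk d fun i j => ⟪D.e i, D.Jp k.1 κ (v κ j)⟫_ℝ).det := by
    rw [blk_eq_blkS]
    congr 1
    funext i j
    unfold blkS
    by_cases h : i ∈ {j : Fin N | j.1 < d} ∧ j ∈ {j : Fin N | j.1 < d}
    · rw [if_pos h, if_pos h]
      have : j.1 < d := h.2
      simp only [cmat, this, if_true]
    · rw [if_neg h, if_neg h]
  rw [hA] at h1
  set a := (blk d fun i j => ⟪D.e i, D.Jp k.1 κ (v κ j)⟫_ℝ).det
  set b := (blk d fun i j => ⟪D.e i, D.Jm (k.1 + 1) κ (v κ j)⟫_ℝ).det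
  set m := (cmat D v w k d κ).det
  set t := (blkS {j : Fin N | j.1 < d}ᶜ (cmat D v w k d κ)).det
  have h3 := mul_pos h1 h2
  have ha : a ≠ 0 := by
    intro h0
    rw [h0] at h1; simp at h1
  have h4 : 0 < a ^ 2 := by positivity
  have h5 : m * a * t * (D.σ k * (κ k : ℝ) * a * b) = a ^ 2 * ((κ k : ℝ) * (D.σ k * m * b * t)) := by
    ring
  rw [h5] at h3
  have := (mul_pos_iff_of_pos_left h4).1 h3
  simpa [cfun] using this

include hd hv hw in
theorem cfun_zero (κ : Cube P) (h : cfun D v w k d κ = 0) :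
    ∃ u ∈ sp (v κ) {j | j.1 < d}, u ∈ sp (w κ) {j | d ≤ j.1} ∧ u ≠ 0 := by
  have hk := k.2
  have hσ : D.σ k ≠ 0 := by rcases D.σ_sq k with h | h <;> rw [h] <;> norm_num
  have hm : (cmat D v w k d κ).det = 0 := by
    unfold cfun at h
    rcases mul_eq_zero.1 h with h | h
    · rcases mul_eq_zero.1 h with h | h
      · rcases mul_eq_zero.1 h with h | h
        · exact absurd h hσ
        · exact h
      · exact absurd h (detA_ne D k d hd v hv κ)
    · exact absurd h (detW_ne D k d hd v w hw κ)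
  obtain ⟨c, hc, hc0⟩ := Matrix.exists_mulVec_eq_zero_iff.2 hm
  set x : Fin N → Fin N → ℝ := fun j => if j.1 < d then v κ j else w κ j with hx
  have h1 : D.Jp k.1 κ (∑ j, c j • x j) = 0 := by
    have h2 : pr D.e N (D.Jp k.1 κ (∑ j, c j • x j)) = 0 := by
      rw [pr_eq_zero_iff D.orth]
      intro i _
      have := congrFun hc0 i
      rw [Matrix.mulVec, dotProduct, Pi.zero_apply] at this
      rw [map_sum, inner_sum, ← this]
      refine Finset.sum_congr rfl fun j _ => ?_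
      rw [map_smul, real_inner_smul_right]
      simp only [cmat, hx]
      ring
    have h3 := D.coneN_p k.1 (by omega) κ (∑ j, c j • x j)
    rw [h2, norm_zero] at h3
    exact eq_zero_of_norms D.orth N _ (by rw [h2, norm_zero]) (by
      rw [h2]; exact le_antisymm h3 (norm_nonneg _))
  have h2 : ∑ j, c j • x j = 0 := D.inj k.1 (by omega) κ _ h1
  set cv : Fin N → ℝ := fun j => if j.1 < d then c j else 0 with hcv
  set cw : Fin N → ℝ := fun j => if j.1 < d then 0 else - c j with hcw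
  have h3 : ∑ j, cv j • v κ j = ∑ j, cw j • w κ j := by
    rw [← sub_eq_zero, ← Finset.sum_sub_distrib, ← h2]
    refine Finset.sum_congr rfl fun j _ => ?_
    by_cases hj : j.1 < d
    · simp [hcv, hcw, hx, hj]
    · simp [hcv, hcw, hx, hj]
  refine ⟨∑ j, cv j • v κ j, sum_mem_sp _ _ _ (fun j hj => by
      simp only [hcv]; exact if_neg hj), ?_, ?_⟩
  · rw [h3]
    refine sum_mem_sp _ _ _ (fun j hj => ?_)
    have : j.1 < d := by simpa using hj
    simp [hcw, this]
  · intro h0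
    have c1 := (Fintype.linearIndependent_iff.1 (hv.2.1 κ)) cv h0
    rw [h3] at h0
    have c2 := (Fintype.linearIndependent_iff.1 (hw.2.1 κ)) cw h0
    apply hc
    funext j
    by_cases hj : j.1 < d
    · have := c1 j; simpa [hcv, hj] using this
    · have := c2 j; simpa [hcw, hj] using this

end Gate

/-- Poincaré–Miranda on the cube as a type. -/
theorem pm_cube (F : Fin P → Cube P → ℝ) (hF : ∀ k, Continuous (F k))
    (h1 : ∀ k κ, (κ k : ℝ) = 1 → 0 ≤ F k κ) (h2 : ∀ k κ, (κ k : ℝ) = -1 → F k κ ≤ 0) :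
    ∃ κ : Cube P, ∀ k, F k κ = 0 := by
  let pj : (Fin P → ℝ) → Cube P := fun x i => Set.projIcc (-1 : ℝ) 1 (by norm_num) (x i)
  have hpj : Continuous pj :=
    continuous_pi fun i => continuous_projIcc.comp (continuous_apply i)
  obtain ⟨x, hx, hx0⟩ := poincare_miranda (fun x k => F k (pj x))
    (continuous_pi fun k => (hF k).comp hpj).continuousOn
    (fun x hx i hi => h1 i _ (by
      simp only [pj, hi, Set.projIcc_right]))
    (fun x hx i hi => h2 i _ (by
      simp only [pj, hi, Set.projIcc_left]))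
  exact ⟨pj x, hx0⟩

/-- One sector: scalar functions whose common zeros give flags. -/
theorem sector_flags (D : MixData H N P) : ∃ F : Fin P → Cube P → ℝ,
    (∀ k, D.d k ≠ none → Continuous (F k)) ∧
    (∀ k, D.d k ≠ none → ∀ κ, (κ k : ℝ) = 1 → 0 ≤ F k κ) ∧
    (∀ k, D.d k ≠ none → ∀ κ, (κ k : ℝ) = -1 → F k κ ≤ 0) ∧
    ∀ κ, (∀ k, D.d k ≠ none → F k κ = 0) → Nonempty (Flags D κ) := by
  classical
  obtain ⟨v, hv1, hv2⟩ := V_chain D
  obtain ⟨w, hw1, hw2⟩ := U_chain D
  refine ⟨fun k => cfun D (v (k.1 + 1)) (w k.1) k ((D.d k).getD 0), ?_, ?_, ?_, ?_⟩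
  · intro k _
    have hk := k.2
    exact cfun_continuous D _ _ k _ (hv1 (k.1 + 1) (by omega)).1 (hw1 k.1 (by omega)).1
  · intro k hk κ hκ
    obtain ⟨d, hd⟩ := Option.ne_none_iff_exists'.1 hk
    have hkP := k.2
    have := cfun_sign D k d hd _ _ (hv1 (k.1 + 1) (by omega)) (hw1 k.1 (by omega)) κ (Or.inl hκ)
    rw [hκ, one_mul] at this
    simp only [hd, Option.getD_some]
    exact this.le
  · intro k hk κ hκ
    obtain ⟨d, hd⟩ := Option.ne_none_iff_exists'.1 hk
    have hkP := k.2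
    have := cfun_sign D k d hd _ _ (hv1 (k.1 + 1) (by omega)) (hw1 k.1 (by omega)) κ (Or.inr hκ)
    rw [hκ] at this
    simp only [hd, Option.getD_some]
    linarith
  · intro κ hκ
    refine ⟨{ V := fun q l => sp (v q κ) {j | j.1 < l}
              U := fun q l => sp (w q κ) {j | l ≤ j.1}
              V_mono := ?_, U_anti := ?_, finrank_V := ?_, finrank_U := ?_, cone_V := ?_,
              cone_U := ?_, V_const := ?_, U_const := ?_, meet := ?_ }⟩
    · intro q _ l _ _
      refine sp_mono _ fun j hj => ?_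
      simp only [Set.mem_ofPred_eq] at hj ⊢; omega
    · intro q _ l _ _
      refine sp_mono _ fun j hj => ?_
      simp only [Set.mem_ofPred_eq] at hj ⊢; omega
    · intro q hq l _ hl
      rw [finrank_sp _ ((hv1 q hq).2.1 κ)]
      exact card_lt_set l hl
    · intro q hq l _ hl
      rw [finrank_sp _ ((hw1 q hq).2.1 κ)]
      exact card_ge_set l hl
    · intro q hq l h1 h2 u hu
      exact (hv1 q hq).2.2 κ l h1 h2 u hu
    · intro q hq l h1 h2 u hu
      exact (hw1 q hq).2.2 κ l h1 h2 u hu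
    · intro k l h1 h2 h3
      exact hv2 k κ l h1 h2 h3
    · intro k l h1 h2 h3
      exact hw2 k κ l h1 h2 h3
    · intro k l hd
      have hkP := k.2
      have h0 := hκ k (by rw [hd]; simp)
      simp only [hd, Option.getD_some] at h0
      exact cfun_zero D k l hd _ _ (hv1 (k.1 + 1) (by omega)) (hw1 k.1 (by omega)) κ h0

/-- **PART A1**: finitely many (indeed arbitrarily many) sectors, one common parameter. -/
theorem exists_flags {ι : Type*} {Hs : ι → Type*} [∀ s, NormedAddCommGroup (Hs s)]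
    [∀ s, InnerProductSpace ℝ (Hs s)] {Ns : ι → ℕ} (D : ∀ s, MixData (Hs s) (Ns s) P)
    (huniq : ∀ k s s', (D s).d k ≠ none → (D s').d k ≠ none → s = s') :
    ∃ κ : Cube P, ∀ s, Nonempty (Flags (D s) κ) := by
  classical
  choose F hF1 hF2 hF3 hF4 using fun s => sector_flags (D s)
  let G : Fin P → Cube P → ℝ := fun k κ =>
    if h : ∃ s, (D s).d k ≠ none then F h.choose k κ else (κ k : ℝ)
  obtain ⟨κ, hκ⟩ := pm_cube G (by
    intro k
    by_cases h : ∃ s, (D s).d k ≠ none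
    · simp only [G, h, dif_pos]
      exact hF1 _ k h.choose_spec
    · simp only [G, h, dif_neg, not_false_eq_true]
      exact continuous_subtype_val.comp (continuous_apply k)) (by
    intro k κ hκ
    by_cases h : ∃ s, (D s).d k ≠ none
    · simp only [G, h, dif_pos]
      exact hF2 _ k h.choose_spec κ hκ
    · simp only [G, h, dif_neg, not_false_eq_true, hκ]
      norm_num) (by
    intro k κ hκ
    by_cases h : ∃ s, (D s).d k ≠ none
    · simp only [G, h, dif_pos]
      exact hF3 _ k h.choose_spec κ hκ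
    · simp only [G, h, dif_neg, not_false_eq_true, hκ]
      norm_num)
  refine ⟨κ, fun s => hF4 s κ fun k hk => ?_⟩
  have h : ∃ s, (D s).d k ≠ none := ⟨s, hk⟩
  have h1 := hκ k
  simp only [G, h, dif_pos] at h1
  have h2 : h.choose = s := huniq k _ _ h.choose_spec hk
  rw [h2] at h1
  exact h1

end Crest.Agent.R202.Mix
end

-- ▼ part R202/Mixing

/-! # Row 202, PART A: the mixing theorem (helper14, on top of helper206's `exists_flags`) -/

set_option autoImplicit false

open scoped InnerProductSpace Topology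
open Filter Finset

namespace Crest.Agent.R202.Mix

/-- **THE MIXING THEOREM.**  Finitely many sectors, one schedule; the constant `C` does not depend
on the number of homes, on the spaces and on the data; one parameter for all sectors. -/
theorem mixing {ι : Type*} [Finite ι] (sd : ι → SecData) (S : Sched)
    (hM : ∀ s, (sd s).N - (sd s).i0 ≤ S.M)
    (huniq : ∀ k s s', (k + (sd s).off) % S.M < (sd s).N - (sd s).i0 →
      (k + (sd s').off) % S.M < (sd s').N - (sd s').i0 → s = s')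
    {K : ℝ} (hK : ∀ s, (sd s).mean + S.δ < K) :
    ∃ C : ℝ, 0 < C ∧ ∀ (P : ℕ) (Hs : ι → Type*) [∀ s, NormedAddCommGroup (Hs s)]
      [∀ s, InnerProductSpace ℝ (Hs s)] (D : ∀ s, MixData (Hs s) (sd s).N P)
      (_ : ∀ s, Fits (sd s) S (D s)),
      ∃ κ : Cube P, ∀ s, ∀ q ≤ P, ∀ u,
        ‖(D s).Jm q κ u‖ ≤ C * Real.exp (K * ∑ i ∈ range q, S.T i) * ‖(D s).Jm 0 κ u‖ ∧
        ‖(D s).Jp q κ u‖ ≤ C * Real.exp (K * ∑ i ∈ range q, S.T i) * ‖(D s).Jm 0 κ u‖ := by
  classical
  choose C hC0 hC using fun s => uniform_growth (sd s) S (hM s) (hK s)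
  cases nonempty_fintype ι
  refine ⟨1 + ∑ s, C s, by
    have : 0 ≤ ∑ s, C s := sum_nonneg fun s _ => (hC0 s).le
    linarith, ?_⟩
  intro P Hs _ _ D hf
  obtain ⟨κ, hκ⟩ := exists_flags D (by
    intro k s s' h1 h2
    refine huniq k.1 s s' ?_ ?_
    · by_contra h
      exact h1 (by rw [(hf s).d k, if_neg h])
    · by_contra h
      exact h2 (by rw [(hf s').d k, if_neg h]))
  refine ⟨κ, fun s q hq u => ?_⟩
  obtain ⟨F⟩ := hκ s
  have h := hC s (Hs s) P (D s) (hf s) κ F q hq u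
  have hle : C s ≤ 1 + ∑ s, C s := by
    have := single_le_sum (f := C) (fun s _ => (hC0 s).le) (mem_univ s)
    linarith
  have h2 : C s * Real.exp (K * ∑ i ∈ range q, S.T i) * ‖(D s).Jm 0 κ u‖ ≤
      (1 + ∑ s, C s) * Real.exp (K * ∑ i ∈ range q, S.T i) * ‖(D s).Jm 0 κ u‖ := by
    gcongr
  exact ⟨h.1.trans h2, h.2.trans h2⟩

/-- Existence of a schedule of slots: sector `s` gets `m s` consecutive slots. -/
theorem exists_slots {n : ℕ} (m : Fin n → ℕ) :
    ∃ (M : ℕ) (off : Fin n → ℕ), 1 ≤ M ∧ (∀ s, m s ≤ M) ∧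
      ∀ k s s', (k + off s) % M < m s → (k + off s') % M < m s' → s = s' := by
  set st : ℕ → ℕ := fun i => ∑ j : Fin n, if j.1 < i then m j else 0 with hst
  have hmono : ∀ i j, i ≤ j → st i ≤ st j := by
    intro i j hij
    refine sum_le_sum fun a _ => ?_
    split_ifs with h1 h2
    · exact le_rfl
    · omega
    · exact Nat.zero_le _
    · exact le_rfl
  have hsucc : ∀ s : Fin n, st (s.1 + 1) = st s.1 + m s := by
    intro s
    have h1 : st (s.1 + 1) = ∑ j : Fin n, ((if j.1 < s.1 then m j else 0) +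
        if j = s then m j else 0) := by
      refine sum_congr rfl fun j _ => ?_
      by_cases hj : j = s
      · subst hj; simp
      · have : j.1 ≠ s.1 := fun h => hj (Fin.ext h)
        by_cases h1 : j.1 < s.1
        · simp [h1, hj, show j.1 < s.1 + 1 by omega]
        · simp [h1, hj, show ¬ j.1 < s.1 + 1 by omega]
    rw [h1, sum_add_distrib]
    congr 1
    simp
  have hle : ∀ s : Fin n, st s.1 + m s ≤ st n := by
    intro s
    rw [← hsucc]
    exact hmono _ _ s.2
  refine ⟨st n + 1, fun s => st n + 1 - st s.1, by omega, fun s => ?_, ?_⟩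
  · have := hle s
    omega
  · -- the residue lies in the slot interval
    have key : ∀ k (s : Fin n), (k + (st n + 1 - st s.1)) % (st n + 1) < m s →
        st s.1 ≤ k % (st n + 1) ∧ k % (st n + 1) < st s.1 + m s := by
      intro k s h
      have h1 := hle s
      have h2 : k % (st n + 1) < st n + 1 := Nat.mod_lt _ (by omega)
      have h3 : (k + (st n + 1 - st s.1)) % (st n + 1) =
          (k % (st n + 1) + (st n + 1 - st s.1)) % (st n + 1) := by
        rw [Nat.add_mod, Nat.add_mod (k % (st n + 1))]; simp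
      rw [h3] at h
      by_cases hc : st s.1 ≤ k % (st n + 1)
      · have h4 : k % (st n + 1) + (st n + 1 - st s.1) =
            (k % (st n + 1) - st s.1) + (st n + 1) := by omega
        rw [h4, Nat.add_mod_right, Nat.mod_eq_of_lt (by omega)] at h
        omega
      · rw [Nat.mod_eq_of_lt (by omega)] at h
        omega
    intro k s s' h h'
    have h1 := key k s h
    have h2 := key k s' h'
    by_contra hne
    have hne' : s.1 ≠ s'.1 := fun h => hne (Fin.ext h)
    rcases Nat.lt_or_gt_of_ne hne' with hlt | hlt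
    · have := hmono (s.1 + 1) s'.1 hlt
      rw [hsucc] at this
      omega
    · have := hmono (s'.1 + 1) s.1 hlt
      rw [hsucc] at this
      omega



end Crest.Agent.R202.Mix
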