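import Crest.Agent.R202.Moser3

-- ▼ part R202/Moser4
section

/-!
# Row 202: Moser's sup bound, part 4 (iteration)
-/

set_option autoImplicit false
open MeasureTheory Metric Set Filter Topology InnerProductSpace
open scoped NNReal ENNReal RealInnerProductSpace Gradient ContDiff

namespace Crest.Agent.R202.Moser

noncomputable section

variable {n : ℕ}

local notation "E" n => EuclideanSpace ℝ (Fin n)

/-- product bound for the iteration: exponents `χ^{-k}` -/
lemma iter_bound {χ b : ℝ} (hχ : 1 < χ) (hb : 1 ≤ b) :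
    ∃ B : ℝ, 0 < B ∧ ∀ M : ℕ → ℝ, (∀ k, 0 ≤ M k) →
      (∀ k, M (k + 1) ≤ (b * 4 ^ k) ^ ((χ⁻¹) ^ k) * M k) → ∀ k, M k ≤ B * M 0 := by
  set r := χ⁻¹ with hr
  have hr0 : 0 < r := by positivity
  have hr1 : r < 1 := inv_lt_one_of_one_lt₀ hχ
  have hs1 : Summable (fun j : ℕ => r ^ j) := summable_geometric_of_lt_one hr0.le hr1
  have hs2 : Summable (fun j : ℕ => (j : ℝ) * r ^ j) := by
    have := summable_pow_mul_geometric_of_norm_lt_one (R := ℝ) 1 (r := r)
      (by rw [Real.norm_eq_abs, abs_of_pos hr0]; exact hr1)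
    simpa using this
  set S : ℕ → ℝ := fun k => ∑ j ∈ Finset.range k, (r ^ j * Real.log b + (j * r ^ j) * Real.log 4)
    with hS
  have hlb : 0 ≤ Real.log b := Real.log_nonneg hb
  have hl4 : 0 ≤ Real.log 4 := Real.log_nonneg (by norm_num)
  have hsum : Summable (fun j : ℕ => r ^ j * Real.log b + (j * r ^ j) * Real.log 4) :=
    (hs1.mul_right _).add (hs2.mul_right _)
  set T := ∑' j : ℕ, (r ^ j * Real.log b + (j * r ^ j) * Real.log 4) with hT
  have hST : ∀ k, S k ≤ T := fun k => hsum.sum_le_tsum _ fun j _ => by positivity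
  refine ⟨Real.exp T, Real.exp_pos _, fun M hM0 hM k => ?_⟩
  have key : ∀ k, M k ≤ Real.exp (S k) * M 0 := by
    intro k
    induction k with
    | zero => simp [hS]
    | succ k ih =>
      have h1 : (b * 4 ^ k) ^ (r ^ k) = Real.exp (r ^ k * Real.log b + (k * r ^ k) * Real.log 4) := by
        rw [Real.rpow_def_of_pos (by positivity), Real.log_mul (by positivity) (by positivity),
          Real.log_pow]
        congr 1; ring
      have h2 : S (k + 1) = S k + (r ^ k * Real.log b + (k * r ^ k) * Real.log 4) := by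
        simp only [hS, Finset.sum_range_succ]
      calc M (k + 1) ≤ (b * 4 ^ k) ^ (r ^ k) * M k := hM k
        _ ≤ (b * 4 ^ k) ^ (r ^ k) * (Real.exp (S k) * M 0) := by gcongr
        _ = Real.exp (S (k + 1)) * M 0 := by rw [h1, h2, Real.exp_add (S k)]; ring
  calc M k ≤ Real.exp (S k) * M 0 := key k
    _ ≤ Real.exp T * M 0 := by
      have := hM0 0
      have := hST k
      gcongr

/-- the sup bound on the unit scale -/
theorem unit_scale (hn : 3 ≤ n) {lam : ℝ} (Lam : ℝ) (hlam : 0 < lam) :
    ∃ C : ℝ, 0 < C ∧ ∀ (A : (E n) → (E n) →L[ℝ] (E n)) (v : (E n) → ℝ),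
      Continuous A → ContDiff ℝ 1 v → Ell lam Lam A 0 2 → WeakSol A v 0 2 →
      ∀ x ∈ ball (0 : E n) 1, v x ^ 2 ≤ C * ∫ y in ball (0 : E n) 2, v y ^ 2 := by
  obtain ⟨K, hK, hstep⟩ := step hn Lam hlam
  have hχ := one_lt_chi hn
  have hχ0 : 0 < chi n := by linarith
  obtain ⟨B, hB, hiter⟩ := iter_bound (χ := chi n) (b := 16 * K + 1) hχ (by linarith)
  refine ⟨B, hB, ?_⟩
  intro A v hA hv hell hw x hx
  have hvc := hv.continuous
  have cvq : ∀ b : ℝ, 0 ≤ b → Continuous (fun x => |v x| ^ b) := fun b hb =>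
    (continuous_abs_rpow hb).comp hvc
  set s : ℕ → ℝ := fun k => 1 + (1 / 2) ^ (k + 1) with hs
  set W : ℕ → ℝ := fun k => ∫ y in closedBall (0 : E n) (s k), |v y| ^ (2 * chi n ^ k) with hW
  set M : ℕ → ℝ := fun k => W k ^ ((chi n)⁻¹ ^ k) with hM
  have hW0 : ∀ k, 0 ≤ W k := fun k => by
    simp only [hW]; positivity
  have hM0 : ∀ k, 0 ≤ M k := fun k => Real.rpow_nonneg (hW0 k) _
  have hrec : ∀ k, M (k + 1) ≤ ((16 * K + 1) * 4 ^ k) ^ ((chi n)⁻¹ ^ k) * M k := by
    intro k
    have hsk : s (k + 1) < s k := by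
      simp only [hs]
      have : (1 / 2 : ℝ) ^ (k + 1 + 1) < (1 / 2) ^ (k + 1) := by
        apply pow_lt_pow_right_of_lt_one₀ (by norm_num) (by norm_num) (by omega)
      linarith
    have hs2 : s k < 2 := by
      simp only [hs]
      have : (1 / 2 : ℝ) ^ (k + 1) < 1 := pow_lt_one₀ (by norm_num) (by norm_num) (by omega)
      linarith
    have hs0 : 0 < s (k + 1) := by simp only [hs]; positivity
    have h1 := hstep A v hA hv hell hw (s (k + 1)) (s k) hs0 hsk hs2 (chi n ^ k)
      (one_le_pow₀ hχ.le)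
    have h2 : chi n * chi n ^ k = chi n ^ (k + 1) := by ring
    rw [h2] at h1
    have h3 : K / (s k - s (k + 1)) ^ 2 ≤ (16 * K + 1) * 4 ^ k := by
      have h4 : s k - s (k + 1) = (1 / 2) ^ (k + 2) := by
        simp only [hs]; ring
      rw [h4, div_le_iff₀ (by positivity)]
      have h5 : ((1 / 2 : ℝ) ^ (k + 2)) ^ 2 = (1 / 16) * (1 / 4) ^ k := by
        rw [← pow_mul, mul_comm, pow_mul, pow_add]; norm_num; ring
      rw [h5]
      have h6 : (16 * K + 1) * (4 : ℝ) ^ k * ((1 / 16) * (1 / 4) ^ k) = (16 * K + 1) / 16 := by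
        have : (4 : ℝ) ^ k * (1 / 4) ^ k = 1 := by rw [← mul_pow]; norm_num
        calc (16 * K + 1) * (4 : ℝ) ^ k * ((1 / 16) * (1 / 4) ^ k)
            = (16 * K + 1) / 16 * ((4 : ℝ) ^ k * (1 / 4) ^ k) := by ring
          _ = _ := by rw [this, mul_one]
      rw [h6]
      linarith
    have h7 : W (k + 1) ^ (1 / chi n) ≤ (16 * K + 1) * 4 ^ k * W k := by
      calc W (k + 1) ^ (1 / chi n) ≤ K / (s k - s (k + 1)) ^ 2 * W k := h1
        _ ≤ _ := mul_le_mul_of_nonneg_right h3 (hW0 k)
    calc M (k + 1) = (W (k + 1) ^ (1 / chi n)) ^ ((chi n)⁻¹ ^ k) := by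
          simp only [hM]
          rw [← Real.rpow_mul (hW0 _)]
          congr 1
          rw [one_div]; ring
      _ ≤ ((16 * K + 1) * 4 ^ k * W k) ^ ((chi n)⁻¹ ^ k) := by
          apply Real.rpow_le_rpow (Real.rpow_nonneg (hW0 _) _) h7 (by positivity)
      _ = _ := by
          rw [Real.mul_rpow (by positivity) (hW0 k)]
  have hall := hiter M hM0 hrec
  have hM00 : M 0 ≤ ∫ y in ball (0 : E n) 2, v y ^ 2 := by
    simp only [hM, hW, pow_zero, Real.rpow_one, mul_one]
    have h1 : ∀ y, |v y| ^ (2 : ℝ) = v y ^ 2 := fun y => by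
      rw [Real.rpow_two, sq_abs]
    simp only [h1]
    apply setIntegral_mono_set
    · exact (hvc.pow 2).continuousOn.integrableOn_compact (isCompact_closedBall (0 : E n) 2)
        |>.mono_set ball_subset_closedBall
    · filter_upwards with y; positivity
    · apply LE.le.eventuallyLE
      apply closedBall_subset_ball
      simp only [hs]; norm_num
  -- lower bound for `M k`
  by_contra hcon
  rw [not_le] at hcon
  set t0 := B * ∫ y in ball (0 : E n) 2, v y ^ 2 with ht0
  obtain ⟨t, ht1, ht2⟩ := exists_between hcon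
  have ht00 : 0 ≤ t0 := by
    have : 0 ≤ ∫ y in ball (0 : E n) 2, v y ^ 2 := by positivity
    positivity
  have ht : 0 < t := lt_of_le_of_lt ht00 ht1
  -- a neighbourhood on which v^2 > t
  set U : Set (E n) := ball 0 1 ∩ {y | t < v y ^ 2} with hU
  have hUo : IsOpen U := isOpen_ball.inter (isOpen_lt continuous_const (hvc.pow 2))
  have hUx : x ∈ U := ⟨hx, ht2⟩
  have hUm : 0 < (volume U).toReal := by
    rw [ENNReal.toReal_pos_iff]
    exact ⟨hUo.measure_pos volume ⟨x, hUx⟩,
      lt_of_le_of_lt (measure_mono inter_subset_left) measure_ball_lt_top⟩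
  set m := (volume U).toReal with hm
  have hlow : ∀ k, m ^ ((chi n)⁻¹ ^ k) * t ≤ M k := by
    intro k
    have h1 : m * t ^ (chi n ^ k) ≤ W k := by
      have hsub : U ⊆ closedBall (0 : E n) (s k) := by
        refine inter_subset_left.trans ((ball_subset_ball ?_).trans ball_subset_closedBall)
        simp only [hs]
        have : (0 : ℝ) < (1 / 2) ^ (k + 1) := by positivity
        linarith
      have hcq := cvq (2 * chi n ^ k) (by positivity)
      have hint : IntegrableOn (fun y => |v y| ^ (2 * chi n ^ k)) (closedBall (0 : E n) (s k)) :=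
        hcq.continuousOn.integrableOn_compact (isCompact_closedBall _ _)
      calc m * t ^ (chi n ^ k) = ∫ _y in U, t ^ (chi n ^ k) := by
            rw [setIntegral_const, smul_eq_mul, measureReal_def]
        _ ≤ ∫ y in U, |v y| ^ (2 * chi n ^ k) := by
            apply setIntegral_mono_on
            · exact integrableOn_const (ne_of_lt (lt_of_le_of_lt (measure_mono inter_subset_left)
                measure_ball_lt_top))
            · exact hint.mono_set hsub
            · exact hUo.measurableSet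
            · intro y hy
              have h2 : |v y| ^ (2 * chi n ^ k) = (v y ^ 2) ^ (chi n ^ k) := by
                rw [Real.rpow_mul (abs_nonneg _), Real.rpow_two, sq_abs]
              rw [h2]
              exact Real.rpow_le_rpow ht.le (le_of_lt hy.2) (by positivity)
        _ ≤ W k := by
            apply setIntegral_mono_set hint
            · filter_upwards with y; positivity
            · exact LE.le.eventuallyLE hsub
    calc m ^ ((chi n)⁻¹ ^ k) * t = (m * t ^ (chi n ^ k)) ^ ((chi n)⁻¹ ^ k) := by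
          rw [Real.mul_rpow hUm.le (by positivity), ← Real.rpow_mul ht.le]
          have : chi n ^ k * (chi n)⁻¹ ^ k = 1 := by
            rw [← mul_pow, mul_inv_cancel₀ hχ0.ne', one_pow]
          rw [this, Real.rpow_one]
      _ ≤ M k := by
          simp only [hM]
          apply Real.rpow_le_rpow (by positivity) h1 (by positivity)
  have hlim : Tendsto (fun k : ℕ => m ^ ((chi n)⁻¹ ^ k) * t) atTop (𝓝 (1 * t)) := by
    apply Tendsto.mul_const
    have h1 : Tendsto (fun k : ℕ => (chi n)⁻¹ ^ k) atTop (𝓝 0) :=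
      tendsto_pow_atTop_nhds_zero_of_lt_one (by positivity) (inv_lt_one_of_one_lt₀ hχ)
    have h2 := (Real.continuousAt_const_rpow hUm.ne' (b := 0)).tendsto.comp h1
    simpa [Function.comp_def] using h2
  have hle : 1 * t ≤ t0 := by
    refine le_of_tendsto hlim (Eventually.of_forall fun k => ?_)
    calc m ^ ((chi n)⁻¹ ^ k) * t ≤ M k := hlow k
      _ ≤ B * M 0 := hall k
      _ ≤ t0 := by rw [ht0]; gcongr
  linarith

end

end Crest.Agent.R202.Moser
end

-- ▼ part R202/Moser

/-!
# Row 202: Moser's sup bound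

Main exports (all constants only depend on `n ≥ 3`, `lam`, `Lam`):
* `sup_bound` : `A`, `v` global, `Ell` and `WeakSol` on `ball x0 (2r)`;
* `sup_bound_on` : the same for data on an open set containing `closedBall x0 (2r)`;
* `weakSol_of_div` : a pointwise solution is a weak solution.
-/

set_option autoImplicit false
open MeasureTheory Metric Set Filter Topology InnerProductSpace
open scoped NNReal ENNReal RealInnerProductSpace Gradient ContDiff

namespace Crest.Agent.R202.Moser

noncomputable section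

variable {n : ℕ}

local notation "E" n => EuclideanSpace ℝ (Fin n)

lemma integral_affine (f : (E n) → ℝ) (x0 : E n) {r : ℝ} (hr : 0 < r) :
    ∫ y, f (x0 + r • y) = (r ^ n)⁻¹ * ∫ x, f x := by
  have h1 := Measure.integral_comp_smul (volume : Measure (E n)) (fun z => f (x0 + z)) r
  have h2 : ∫ z, f (x0 + z) = ∫ x, f x := integral_add_left_eq_self f x0
  rw [h2] at h1
  have hfr : Module.finrank ℝ (E n) = n := by simp
  rw [h1, hfr, smul_eq_mul, abs_of_pos (by positivity)]

lemma setIntegral_affine (f : (E n) → ℝ) (x0 : E n) {r : ℝ} (hr : 0 < r) (ρ : ℝ) :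
    ∫ y in ball (0 : E n) ρ, f (x0 + r • y) = (r ^ n)⁻¹ * ∫ x in ball x0 (ρ * r), f x := by
  have h1 : ∀ y : E n, (ball (0 : E n) ρ).indicator (fun y => f (x0 + r • y)) y
      = (ball x0 (ρ * r)).indicator f (x0 + r • y) := by
    intro y
    have hiff : x0 + r • y ∈ ball x0 (ρ * r) ↔ y ∈ ball (0 : E n) ρ := by
      rw [mem_ball_iff_norm, add_sub_cancel_left, norm_smul, Real.norm_eq_abs, abs_of_pos hr,
        mem_ball_zero_iff, mul_comm]
      exact mul_lt_mul_iff_left₀ hr
    by_cases hy : y ∈ ball (0 : E n) ρ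
    · rw [indicator_of_mem hy, indicator_of_mem (hiff.mpr hy)]
    · rw [indicator_of_notMem hy, indicator_of_notMem (fun h => hy (hiff.mp h))]
  rw [← integral_indicator measurableSet_ball, ← integral_indicator measurableSet_ball]
  simp_rw [h1]
  exact integral_affine _ x0 hr

lemma gradient_affine {v : (E n) → ℝ} {x0 y : E n} {r : ℝ}
    (hv : DifferentiableAt ℝ v (x0 + r • y)) :
    ∇ (fun z => v (x0 + r • z)) y = r • ∇ v (x0 + r • y) := by
  have h1 : HasFDerivAt (fun z : E n => x0 + r • z) (r • ContinuousLinearMap.id ℝ (E n)) y := by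
    have := ((hasFDerivAt_id (𝕜 := ℝ) y).const_smul r).const_add x0
    simpa using this
  have h2 : HasFDerivAt (fun z => v (x0 + r • z))
      ((fderiv ℝ v (x0 + r • y)).comp (r • ContinuousLinearMap.id ℝ (E n))) y :=
    hv.hasFDerivAt.comp y h1
  unfold gradient
  rw [h2.fderiv]
  simp

/-- **Moser's sup bound**, scale invariant form. -/
theorem sup_bound (hn : 3 ≤ n) {lam : ℝ} (Lam : ℝ) (hlam : 0 < lam) :
    ∃ C : ℝ, 0 < C ∧ ∀ (A : (E n) → (E n) →L[ℝ] (E n)) (v : (E n) → ℝ) (x0 : E n) (r : ℝ), 0 < r →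
      Continuous A → ContDiff ℝ 1 v → Ell lam Lam A x0 (2 * r) → WeakSol A v x0 (2 * r) →
      ∀ x ∈ ball x0 r, v x ^ 2 ≤ C * ((r ^ n)⁻¹ * ∫ y in ball x0 (2 * r), v y ^ 2) := by
  obtain ⟨C, hC, hunit⟩ := unit_scale hn Lam hlam
  refine ⟨C, hC, ?_⟩
  intro A v x0 r hr hA hv hell hw x hx
  have hvd := hv.differentiable (by norm_num)
  set A' : (E n) → (E n) →L[ℝ] (E n) := fun y => A (x0 + r • y) with hA'
  set v' : (E n) → ℝ := fun y => v (x0 + r • y) with hv'
  have caff : Continuous (fun y : E n => x0 + r • y) := by fun_prop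
  have daff : ContDiff ℝ 1 (fun y : E n => x0 + r • y) := by fun_prop
  have mem : ∀ y ∈ ball (0 : E n) 2, x0 + r • y ∈ ball x0 (2 * r) := by
    intro y hy
    rw [mem_ball_zero_iff] at hy
    rw [mem_ball_iff_norm, add_sub_cancel_left, norm_smul, Real.norm_eq_abs, abs_of_pos hr]
    nlinarith
  have hell' : Ell lam Lam A' 0 2 :=
    ⟨fun y hy ξ => hell.low _ (mem y hy) ξ, fun y hy ξ => hell.up _ (mem y hy) ξ⟩
  have hw' : WeakSol A' v' 0 2 := by
    intro φ hφ hφc hφs
    set Φ : (E n) → ℝ := fun x => φ (r⁻¹ • (x - x0)) with hΦ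
    have hΦ1 : ContDiff ℝ 1 Φ := hφ.comp (by fun_prop)
    have hsub : ∀ x, x ∉ (fun y : E n => x0 + r • y) '' tsupport φ → Φ x = 0 := by
      intro x hx
      simp only [hΦ]
      apply image_eq_zero_of_notMem_tsupport
      intro h
      exact hx ⟨_, h, by simp [smul_smul, mul_inv_cancel₀ hr.ne']⟩
    have hcomp : IsCompact ((fun y : E n => x0 + r • y) '' tsupport φ) := hφc.isCompact.image caff
    have hΦc : HasCompactSupport Φ := HasCompactSupport.intro hcomp hsub
    have hΦs : tsupport Φ ⊆ ball x0 (2 * r) := by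
      have h1 : tsupport Φ ⊆ (fun y : E n => x0 + r • y) '' tsupport φ := by
        apply closure_minimal _ hcomp.isClosed
        intro x hx
        by_contra h
        exact hx (hsub x h)
      intro x hx
      obtain ⟨y, hy, rfl⟩ := h1 hx
      exact mem y (hφs hy)
    have h0 := hw Φ hΦ1 hΦc hΦs
    have hg : ∀ y, ∇ φ y = r • ∇ Φ (x0 + r • y) := by
      intro y
      have e1 : (fun z => Φ (x0 + r • z)) = φ := by
        funext z
        simp only [hΦ]
        congr 1
        rw [add_sub_cancel_left, smul_smul, inv_mul_cancel₀ hr.ne', one_smul]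
      rw [← gradient_affine (hΦ1.differentiable (by norm_num) _), e1]
    have e2 : ∀ y, ⟪A' y (∇ v' y), ∇ φ y⟫
        = (fun x => r ^ 2 * ⟪A x (∇ v x), ∇ Φ x⟫) (x0 + r • y) := by
      intro y
      simp only [hv', hA']
      rw [gradient_affine (hvd _), hg y, map_smul, inner_smul_left, inner_smul_right]
      simp
      ring
    have e3 := integral_affine (fun x => r ^ 2 * ⟪A x (∇ v x), ∇ Φ x⟫) x0 hr
    have e4 : ∫ x, r ^ 2 * ⟪A x (∇ v x), ∇ Φ x⟫ = 0 := by
      rw [integral_const_mul, h0, mul_zero]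
    rw [e4, mul_zero] at e3
    rw [← e3]
    exact integral_congr_ae (Eventually.of_forall e2)
  have hx' : r⁻¹ • (x - x0) ∈ ball (0 : E n) 1 := by
    rw [mem_ball_iff_norm] at hx
    rw [mem_ball_zero_iff, norm_smul, norm_inv, Real.norm_eq_abs, abs_of_pos hr,
      inv_mul_lt_iff₀ hr, mul_one]
    exact hx
  have h1 := hunit A' v' (hA.comp caff) (hv.comp daff) hell' hw' _ hx'
  have h2 : v' (r⁻¹ • (x - x0)) = v x := by
    simp only [hv']
    rw [smul_smul, mul_inv_cancel₀ hr.ne', one_smul, add_sub_cancel]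
  rw [h2] at h1
  have h3 := setIntegral_affine (fun x => v x ^ 2) x0 hr 2
  simp only [hv'] at h1
  rw [h3] at h1
  exact h1



lemma contDiff_mul_of_tsupport {F : Type*} [NormedAddCommGroup F] [NormedSpace ℝ F]
    {χ : (E n) → ℝ} {f : (E n) → F} {U : Set (E n)} {m : ℕ∞} (hU : IsOpen U) (hχ : ContDiff ℝ m χ)
    (hχs : tsupport χ ⊆ U) (hf : ContDiffOn ℝ m f U) : ContDiff ℝ m (fun x => χ x • f x) := by
  rw [contDiff_iff_contDiffAt]
  intro x
  by_cases hx : x ∈ U
  · exact hχ.contDiffAt.smul (hf.contDiffAt (hU.mem_nhds hx))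
  · have h1 : x ∉ tsupport χ := fun h => hx (hχs h)
    have h2 : (fun x => χ x • f x) =ᶠ[𝓝 x] fun _ => 0 := by
      filter_upwards [(isClosed_tsupport χ).isOpen_compl.mem_nhds h1] with y hy
      rw [image_eq_zero_of_notMem_tsupport hy, zero_smul]
    exact contDiffAt_const.congr_of_eventuallyEq h2


/-- the integral of a partial derivative of a compactly supported `C^1` function vanishes -/
lemma integral_pderiv_eq_zero {f : (E n) → ℝ} (hf : ContDiff ℝ 1 f) (hfc : HasCompactSupport f)
    (w : E n) : ∫ x, fderiv ℝ f x w = 0 := by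
  have h1 : Integrable (fun x => fderiv ℝ f x w) := by
    apply Continuous.integrable_of_hasCompactSupport
    · exact (hf.continuous_fderiv (by norm_num)).clm_apply continuous_const
    · exact (hfc.fderiv ℝ).comp_left (g := fun L : (E n) →L[ℝ] ℝ => L w) (by simp)
  have h2 : Integrable f := hf.continuous.integrable_of_hasCompactSupport hfc
  have h3 := integral_mul_fderiv_eq_neg_fderiv_mul_of_integrable (μ := (volume : Measure (E n)))
    (f := fun _ : E n => (1 : ℝ)) (g := f) (v := w) (𝕜 := ℝ)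
    (by simp) (by simpa using h1) (by simpa using h2) (by fun_prop)
    (fun x _ => hf.differentiable (by norm_num) x)
  simpa using h3

/-- a vector field `X` (coordinates `X i`) with vanishing divergence on the ball is orthogonal to
gradients of test functions; `A ∇ v = X` on the ball. -/
theorem weakSol_of_div {A : (E n) → (E n) →L[ℝ] (E n)} {v : (E n) → ℝ} {x0 : E n} {R : ℝ}
    {X : Fin n → (E n) → ℝ} (hX : ∀ i, ContDiffOn ℝ 1 (X i) (ball x0 R))
    (hXA : ∀ x ∈ ball x0 R, ∀ i, A x (∇ v x) i = X i x)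
    (hdiv : ∀ x ∈ ball x0 R, ∑ i, fderiv ℝ (X i) x (EuclideanSpace.single i 1) = 0) :
    WeakSol A v x0 R := by
  intro φ hφ hφc hφs
  have hgφ : ∀ x i, (∇ φ x) i = fderiv ℝ φ x (EuclideanSpace.single i 1) := by
    intro x i
    have h1 : ⟪∇ φ x, EuclideanSpace.single i (1 : ℝ)⟫ = fderiv ℝ φ x (EuclideanSpace.single i 1) := by
      unfold gradient
      exact InnerProductSpace.toDual_symm_apply
    rw [← h1, EuclideanSpace.inner_single_right]
    simp
  have hf1 : ∀ i, ContDiff ℝ 1 (fun x => φ x • X i x) := fun i =>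
    contDiff_mul_of_tsupport (m := 1) isOpen_ball hφ hφs (hX i)
  have hfc : ∀ i, HasCompactSupport (fun x => φ x • X i x) := fun i =>
    HasCompactSupport.intro hφc.isCompact fun x hx => by
      rw [image_eq_zero_of_notMem_tsupport hx, zero_smul]
  have h0 : ∀ i, ∫ x, fderiv ℝ (fun x => φ x • X i x) x (EuclideanSpace.single i 1) = 0 := fun i =>
    integral_pderiv_eq_zero (hf1 i) (hfc i) _
  have hint : ∀ i, Integrable
      (fun x => fderiv ℝ (fun x => φ x • X i x) x (EuclideanSpace.single i 1)) := fun i => by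
    apply Continuous.integrable_of_hasCompactSupport
    · exact ((hf1 i).continuous_fderiv (by norm_num)).clm_apply continuous_const
    · exact ((hfc i).fderiv ℝ).comp_left (g := fun L : (E n) →L[ℝ] ℝ => L _) (by simp)
  have hsum : ∫ x, ∑ i, fderiv ℝ (fun x => φ x • X i x) x (EuclideanSpace.single i 1) = 0 := by
    rw [integral_finsetSum _ fun i _ => hint i]
    exact Finset.sum_eq_zero fun i _ => h0 i
  rw [← hsum]
  apply integral_congr_ae
  refine Eventually.of_forall fun x => ?_
  simp only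
  by_cases hx : x ∈ tsupport φ
  · have hxb := hφs hx
    have hd : ∀ i, fderiv ℝ (fun x => φ x • X i x) x (EuclideanSpace.single i 1)
        = φ x * fderiv ℝ (X i) x (EuclideanSpace.single i 1)
          + X i x * fderiv ℝ φ x (EuclideanSpace.single i 1) := by
      intro i
      have e1 : HasFDerivAt (X i) (fderiv ℝ (X i) x) x :=
        (((hX i).contDiffAt (isOpen_ball.mem_nhds hxb)).differentiableAt (by norm_num)).hasFDerivAt
      have e2 : HasFDerivAt φ (fderiv ℝ φ x) x := (hφ.differentiable (by norm_num) x).hasFDerivAt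
      have e3 := e2.mul e1
      have e4 : fderiv ℝ (fun x => φ x • X i x) x = φ x • fderiv ℝ (X i) x + X i x • fderiv ℝ φ x :=
        e3.fderiv
      rw [e4]
      simp
    simp_rw [hd]
    rw [Finset.sum_add_distrib, ← Finset.mul_sum, hdiv x hxb, mul_zero, zero_add]
    rw [PiLp.inner_apply]
    apply Finset.sum_congr rfl
    intro i _
    rw [hXA x hxb i, hgφ x i]
    simp [mul_comm]
  · have hnear : ∀ᶠ y in 𝓝 x, y ∉ tsupport φ := (isClosed_tsupport φ).isOpen_compl.mem_nhds hx
    have h0 : ∇ φ x = 0 := by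
      have : fderiv ℝ φ x = 0 := by
        by_contra h
        exact hx (support_fderiv_subset ℝ h)
      simp [gradient, this]
    rw [h0, inner_zero_right]
    symm
    apply Finset.sum_eq_zero
    intro i _
    have : (fun x => φ x • X i x) =ᶠ[𝓝 x] fun _ => 0 := by
      filter_upwards [hnear] with y hy
      rw [image_eq_zero_of_notMem_tsupport hy, zero_smul]
    rw [this.fderiv_eq]
    simp

end

end Crest.Agent.R202.Moser
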