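import Crest.Agent.R202.SchPath
import Crest.Agent.R202.GeoHyp

-- ▼ part R202/SchRate
section

/-! # Row 202, module SCH, part 3: rates and jet bounds (helper821)

For jointly smooth `th (τ, κ)`, `P (τ, κ, X, u)` the derivatives entering `Geo.RateAt` are bounded
uniformly for `τ ∈ [0,1]`, `κ ∈ [-1,1]`, `X ∈ [0,1]`, `|u| = 1`; running through the data with slope
`σ ≤ 1` multiplies the time derivatives by `σ`.
-/

set_option autoImplicit false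

open MeasureTheory Set Filter
open scoped Topology ContDiff

namespace Crest.Agent.R202.Sch

noncomputable section

/-! ### Partial derivatives of functions on `ℝ × ℝ × ℝ × ℂ` -/

/-- the parameter space `(τ, κ, X, u)` -/
abbrev E4 := ℝ × ℝ × ℝ × ℂ

/-- `∂/∂τ` -/
def pT (F : E4 → ℝ) (p : E4) : ℝ := fderiv ℝ F p (1, 0, 0, 0)

/-- `∂/∂X` -/
def pX (F : E4 → ℝ) (p : E4) : ℝ := fderiv ℝ F p (0, 0, 1, 0)

/-- `∂/∂φ` for `u = e^{iφ}` -/
def pF (F : E4 → ℝ) (p : E4) : ℝ := fderiv ℝ F p (0, 0, 0, Complex.I * p.2.2.2)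

theorem pT_smooth {F : E4 → ℝ} (h : ContDiff ℝ ∞ F) : ContDiff ℝ ∞ (pT F) :=
  (h.fderiv_right (m := ∞) (by norm_num)).clm_apply contDiff_const

theorem pX_smooth {F : E4 → ℝ} (h : ContDiff ℝ ∞ F) : ContDiff ℝ ∞ (pX F) :=
  (h.fderiv_right (m := ∞) (by norm_num)).clm_apply contDiff_const

theorem pF_smooth {F : E4 → ℝ} (h : ContDiff ℝ ∞ F) : ContDiff ℝ ∞ (pF F) := by
  refine (h.fderiv_right (m := ∞) (by norm_num)).clm_apply ?_
  refine contDiff_const.prodMk (contDiff_const.prodMk (contDiff_const.prodMk ?_))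
  exact contDiff_const.mul (contDiff_snd.comp (contDiff_snd.comp contDiff_snd))

theorem hasDerivAt_line {F : E4 → ℝ} (h : ContDiff ℝ ∞ F) {g : ℝ → E4} {g' : E4} {t : ℝ}
    (hg : HasDerivAt g g' t) : HasDerivAt (fun s => F (g s)) (fderiv ℝ F (g t) g') t :=
  ((h.differentiable (by norm_num)) (g t)).hasFDerivAt.comp_hasDerivAt t hg

/-- `e^{iφ}` -/
def ee (φ : ℝ) : ℂ := Complex.exp ((φ : ℂ) * Complex.I)

theorem hasDerivAt_ee (φ : ℝ) : HasDerivAt ee (Complex.I * ee φ) φ := by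
  have h1 : HasDerivAt (fun φ : ℝ => (φ : ℂ) * Complex.I) (1 * Complex.I) φ :=
    (Complex.ofRealCLM.hasDerivAt (x := φ)).mul_const Complex.I
  have h2 := h1.cexp
  unfold ee
  convert h2 using 1
  ring

theorem norm_ee (φ : ℝ) : ‖ee φ‖ = 1 := Complex.norm_exp_ofReal_mul_I φ

theorem deriv_tau {F : E4 → ℝ} (h : ContDiff ℝ ∞ F) (c σ t κ X : ℝ) (u : ℂ) (t' : ℝ) :
    deriv (fun s : ℝ => F (c + σ * (s - t), κ, X, u)) t' = σ * pT F (c + σ * (t' - t), κ, X, u) := by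
  have hg : HasDerivAt (fun s : ℝ => ((c + σ * (s - t), κ, X, u) : E4)) (σ • (1, 0, 0, 0)) t' := by
    have h1 : HasDerivAt (fun s : ℝ => c + σ * (s - t)) σ t' := by
      have := ((((hasDerivAt_id t').sub_const t).const_mul σ).const_add c)
      simpa using this
    have h2 := h1.prodMk (hasDerivAt_const t' ((κ, X, u) : ℝ × ℝ × ℂ))
    convert h2 using 1
    simp [Prod.smul_mk]
  have := (hasDerivAt_line h hg).deriv
  rw [this, map_smul, smul_eq_mul]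
  rfl

theorem deriv_XX {F : E4 → ℝ} (h : ContDiff ℝ ∞ F) (τ κ X : ℝ) (u : ℂ) :
    deriv (fun Y : ℝ => F (τ, κ, Y, u)) X = pX F (τ, κ, X, u) := by
  have hg : HasDerivAt (fun s : ℝ => ((τ, κ, s, u) : E4)) (0, 0, 1, 0) X :=
    (hasDerivAt_const X τ).prodMk ((hasDerivAt_const X κ).prodMk
      ((hasDerivAt_id X).prodMk (hasDerivAt_const X u)))
  exact (hasDerivAt_line h hg).deriv

theorem deriv_phi {F : E4 → ℝ} (h : ContDiff ℝ ∞ F) (τ κ X φ : ℝ) :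
    deriv (fun ψ : ℝ => F (τ, κ, X, ee ψ)) φ = pF F (τ, κ, X, ee φ) := by
  have hg : HasDerivAt (fun s : ℝ => ((τ, κ, X, ee s) : E4)) (0, 0, 0, Complex.I * ee φ) φ :=
    (hasDerivAt_const φ τ).prodMk ((hasDerivAt_const φ κ).prodMk
      ((hasDerivAt_const φ X).prodMk (hasDerivAt_ee φ)))
  exact (hasDerivAt_line h hg).deriv

/-! ### Uniform bounds -/

/-- the compact set of parameters -/
def S4 : Set E4 := Icc (0 : ℝ) 1 ×ˢ Icc (-1 : ℝ) 1 ×ˢ Icc (0 : ℝ) 1 ×ˢ Metric.sphere (0 : ℂ) 1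

theorem isCompact_S4 : IsCompact S4 :=
  isCompact_Icc.prod (isCompact_Icc.prod (isCompact_Icc.prod (isCompact_sphere _ _)))

theorem mem_S4 {c κ X φ : ℝ} (hc : c ∈ Icc (0 : ℝ) 1) (hκ : κ ∈ Icc (-1 : ℝ) 1)
    (h0 : 0 < X) (h1 : X < 1) : ((c, κ, X, ee φ) : E4) ∈ S4 :=
  ⟨hc, hκ, ⟨h0.le, h1.le⟩, by simp [norm_ee]⟩

/-- bounds `C` for the `τ`-derivatives, `K` for the data themselves -/
structure Bd (th : ℝ × ℝ → ℝ) (F : E4 → ℝ) (K C : ℝ) : Prop where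
  C_nonneg : 0 ≤ C
  th_low : ∀ c ∈ Icc (0 : ℝ) 1, ∀ κ ∈ Icc (-1 : ℝ) 1, K⁻¹ ≤ th (c, κ)
  low : ∀ p ∈ S4, K⁻¹ ≤ F p
  up : ∀ p ∈ S4, F p ≤ K
  bX : ∀ p ∈ S4, |pX F p| ≤ K
  bF : ∀ p ∈ S4, |pF F p| ≤ K
  th1 : ∀ c ∈ Icc (0 : ℝ) 1, ∀ κ ∈ Icc (-1 : ℝ) 1, |deriv (fun s => th (s, κ)) c| ≤ C
  th2 : ∀ c ∈ Icc (0 : ℝ) 1, ∀ κ ∈ Icc (-1 : ℝ) 1,
    |deriv (deriv (fun s => th (s, κ))) c| ≤ C
  bT : ∀ p ∈ S4, |pT F p| ≤ C
  bTT : ∀ p ∈ S4, |pT (pT F) p| ≤ C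
  bXT : ∀ p ∈ S4, |pX (pT F) p| ≤ C
  bFT : ∀ p ∈ S4, |pF (pT F) p| ≤ C

theorem Bd.mono {th : ℝ × ℝ → ℝ} {F : E4 → ℝ} {K C K' C' : ℝ} (h : Bd th F K C) (hK : 0 < K)
    (hK' : K ≤ K') (hC' : C ≤ C') : Bd th F K' C' where
  C_nonneg := h.C_nonneg.trans hC'
  th_low c hc κ hκ := (inv_anti₀ hK hK').trans (h.th_low c hc κ hκ)
  low p hp := (inv_anti₀ hK hK').trans (h.low p hp)
  up p hp := (h.up p hp).trans hK'
  bX p hp := (h.bX p hp).trans hK'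
  bF p hp := (h.bF p hp).trans hK'
  th1 c hc κ hκ := (h.th1 c hc κ hκ).trans hC'
  th2 c hc κ hκ := (h.th2 c hc κ hκ).trans hC'
  bT p hp := (h.bT p hp).trans hC'
  bTT p hp := (h.bTT p hp).trans hC'
  bXT p hp := (h.bXT p hp).trans hC'
  bFT p hp := (h.bFT p hp).trans hC'

/-- first `τ`-derivative of `th` as a smooth function -/
theorem th_deriv {th : ℝ × ℝ → ℝ} (h : ContDiff ℝ ∞ th) (κ c : ℝ) :
    deriv (fun s => th (s, κ)) c = fderiv ℝ th (c, κ) (1, 0) := by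
  have hg : HasDerivAt (fun s : ℝ => ((s, κ) : ℝ × ℝ)) (1, 0) c :=
    (hasDerivAt_id c).prodMk (hasDerivAt_const c κ)
  exact (((h.differentiable (by norm_num)) (c, κ)).hasFDerivAt.comp_hasDerivAt c hg).deriv

theorem th_deriv_smooth {th : ℝ × ℝ → ℝ} (h : ContDiff ℝ ∞ th) :
    ContDiff ℝ ∞ (fun p : ℝ × ℝ => fderiv ℝ th p (1, 0)) :=
  (h.fderiv_right (m := ∞) (by norm_num)).clm_apply contDiff_const

theorem bound_S4 {f : E4 → ℝ} (h : Continuous f) : ∃ C, ∀ p ∈ S4, |f p| ≤ C :=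
  isCompact_S4.exists_bound_of_continuousOn h.continuousOn

theorem bound_S2 {f : ℝ × ℝ → ℝ} (h : Continuous f) :
    ∃ C, ∀ c ∈ Icc (0 : ℝ) 1, ∀ κ ∈ Icc (-1 : ℝ) 1, |f (c, κ)| ≤ C := by
  obtain ⟨C, hC⟩ := (isCompact_Icc.prod isCompact_Icc :
    IsCompact (Icc (0 : ℝ) 1 ×ˢ Icc (-1 : ℝ) 1)).exists_bound_of_continuousOn h.continuousOn
  exact ⟨C, fun c hc κ hκ => hC (c, κ) ⟨hc, hκ⟩⟩

theorem exists_Bd {th : ℝ × ℝ → ℝ} {F : E4 → ℝ} (hth : ContDiff ℝ ∞ th) (hF : ContDiff ℝ ∞ F)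
    (hth0 : ∀ c ∈ Icc (0 : ℝ) 1, ∀ κ ∈ Icc (-1 : ℝ) 1, 0 < th (c, κ))
    (hF0 : ∀ p ∈ S4, 0 < F p) : ∃ K C, 0 < K ∧ Bd th F K C := by
  obtain ⟨k1, h1⟩ : ∃ C, ∀ c ∈ Icc (0 : ℝ) 1, ∀ κ ∈ Icc (-1 : ℝ) 1, (th (c, κ))⁻¹ ≤ C := by
    have hc : ContinuousOn (fun p : ℝ × ℝ => (th p)⁻¹) (Icc (0 : ℝ) 1 ×ˢ Icc (-1 : ℝ) 1) :=
      hth.continuous.continuousOn.inv₀ fun p hp => (hth0 p.1 hp.1 p.2 hp.2).ne'
    obtain ⟨C, hC⟩ := (isCompact_Icc.prod isCompact_Icc :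
      IsCompact (Icc (0 : ℝ) 1 ×ˢ Icc (-1 : ℝ) 1)).exists_bound_of_continuousOn hc
    exact ⟨C, fun c hc κ hκ => (le_abs_self _).trans (hC (c, κ) ⟨hc, hκ⟩)⟩
  obtain ⟨k2, h2⟩ : ∃ C, ∀ p ∈ S4, (F p)⁻¹ ≤ C := by
    have hc : ContinuousOn (fun p : E4 => (F p)⁻¹) S4 :=
      hF.continuous.continuousOn.inv₀ fun p hp => (hF0 p hp).ne'
    obtain ⟨C, hC⟩ := isCompact_S4.exists_bound_of_continuousOn hc
    exact ⟨C, fun p hp => (le_abs_self _).trans (hC p hp)⟩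
  obtain ⟨k3, h3⟩ := bound_S4 hF.continuous
  obtain ⟨k4, h4⟩ := bound_S4 (pX_smooth hF).continuous
  obtain ⟨k5, h5⟩ := bound_S4 (pF_smooth hF).continuous
  obtain ⟨c1, g1⟩ := bound_S2 (th_deriv_smooth hth).continuous
  obtain ⟨c2, g2⟩ := bound_S2 (th_deriv_smooth (th_deriv_smooth hth)).continuous
  obtain ⟨c3, g3⟩ := bound_S4 (pT_smooth hF).continuous
  obtain ⟨c4, g4⟩ := bound_S4 (pT_smooth (pT_smooth hF)).continuous
  obtain ⟨c5, g5⟩ := bound_S4 (pX_smooth (pT_smooth hF)).continuous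
  obtain ⟨c6, g6⟩ := bound_S4 (pF_smooth (pT_smooth hF)).continuous
  have H : ∀ x : ℝ, x ≤ |x| := le_abs_self
  have H0 : ∀ x : ℝ, 0 ≤ |x| := abs_nonneg
  refine ⟨1 + |k1| + |k2| + |k3| + |k4| + |k5|, |c1| + |c2| + |c3| + |c4| + |c5| + |c6|,
    by positivity, by positivity, ?_, ?_, ?_, ?_, ?_, ?_, ?_, ?_, ?_, ?_, ?_⟩
  · intro c hc κ hκ
    have h := hth0 c hc κ hκ
    rw [inv_le_comm₀ (by positivity) h]
    refine (h1 c hc κ hκ).trans ?_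
    linarith [H k1, H0 k2, H0 k3, H0 k4, H0 k5]
  · intro p hp
    rw [inv_le_comm₀ (by positivity) (hF0 p hp)]
    refine (h2 p hp).trans ?_
    linarith [H0 k1, H k2, H0 k3, H0 k4, H0 k5]
  · intro p hp
    refine (H _).trans ((h3 p hp).trans ?_)
    linarith [H0 k1, H0 k2, H k3, H0 k4, H0 k5]
  · intro p hp
    refine (h4 p hp).trans ?_
    linarith [H0 k1, H0 k2, H0 k3, H k4, H0 k5]
  · intro p hp
    refine (h5 p hp).trans ?_
    linarith [H0 k1, H0 k2, H0 k3, H0 k4, H k5]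
  · intro c hc κ hκ
    rw [th_deriv hth]
    refine (g1 c hc κ hκ).trans ?_
    linarith [H c1, H0 c2, H0 c3, H0 c4, H0 c5, H0 c6]
  · intro c hc κ hκ
    have e : deriv (fun s => th (s, κ)) = fun s => fderiv ℝ th (s, κ) (1, 0) := by
      funext s; exact th_deriv hth κ s
    rw [e, th_deriv (th_deriv_smooth hth)]
    refine (g2 c hc κ hκ).trans ?_
    linarith [H0 c1, H c2, H0 c3, H0 c4, H0 c5, H0 c6]
  · intro p hp
    refine (g3 p hp).trans ?_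
    linarith [H0 c1, H0 c2, H c3, H0 c4, H0 c5, H0 c6]
  · intro p hp
    refine (g4 p hp).trans ?_
    linarith [H0 c1, H0 c2, H0 c3, H c4, H0 c5, H0 c6]
  · intro p hp
    refine (g5 p hp).trans ?_
    linarith [H0 c1, H0 c2, H0 c3, H0 c4, H c5, H0 c6]
  · intro p hp
    refine (g6 p hp).trans ?_
    linarith [H0 c1, H0 c2, H0 c3, H0 c4, H0 c5, H c6]

/-! ### From a local representation to `Geo.RateAt` -/

/-- near `t` the data `θ, P` are `th, F` run with slope `σ` from the point `c`. -/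
def Rep (θ : ℝ → ℝ) (P : ℝ → ℝ → ℂ → ℝ) (t : ℝ) (th : ℝ × ℝ → ℝ) (F : E4 → ℝ) (κ c σ : ℝ) :
    Prop :=
  ∀ᶠ t' in 𝓝 t, θ t' = th (c + σ * (t' - t), κ) ∧
    ∀ X u, P t' X u = F (c + σ * (t' - t), κ, X, u)

variable {θ : ℝ → ℝ} {P : ℝ → ℝ → ℂ → ℝ} {t : ℝ} {th : ℝ × ℝ → ℝ} {F : E4 → ℝ} {κ c σ : ℝ}

theorem Rep.theta (h : Rep θ P t th F κ c σ) : θ t = th (c, κ) := by
  have := h.self_of_nhds.1
  simpa using this

theorem Rep.P_eq (h : Rep θ P t th F κ c σ) (X : ℝ) (u : ℂ) : P t X u = F (c, κ, X, u) := by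
  have := h.self_of_nhds.2 X u
  simpa using this

theorem Rep.dT_ev (h : Rep θ P t th F κ c σ) (hF : ContDiff ℝ ∞ F) :
    ∀ᶠ t' in 𝓝 t, ∀ X φ, Geo.dT (Geo.PP P) t' X φ =
      σ * pT F (c + σ * (t' - t), κ, X, ee φ) := by
  filter_upwards [h.eventually_nhds] with t' ht' X φ
  have e : (fun τ => Geo.PP P τ X φ) =ᶠ[𝓝 t'] fun s => F (c + σ * (s - t), κ, X, ee φ) := by
    filter_upwards [ht'] with s hs
    exact hs.2 X _
  unfold Geo.dT
  rw [e.deriv_eq, deriv_tau hF]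

theorem Rep.dT_eq (h : Rep θ P t th F κ c σ) (hF : ContDiff ℝ ∞ F) (X φ : ℝ) :
    Geo.dT (Geo.PP P) t X φ = σ * pT F (c, κ, X, ee φ) := by
  have := (h.dT_ev hF).self_of_nhds X φ
  simpa using this

theorem Rep.dTT_eq (h : Rep θ P t th F κ c σ) (hF : ContDiff ℝ ∞ F) (X φ : ℝ) :
    Geo.dT (Geo.dT (Geo.PP P)) t X φ = σ ^ 2 * pT (pT F) (c, κ, X, ee φ) := by
  have e : (fun τ => Geo.dT (Geo.PP P) τ X φ) =ᶠ[𝓝 t]
      fun s => σ * pT F (c + σ * (s - t), κ, X, ee φ) := by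
    filter_upwards [h.dT_ev hF] with s hs
    exact hs X φ
  have e2 : Geo.dT (Geo.dT (Geo.PP P)) t X φ = deriv (fun τ => Geo.dT (Geo.PP P) τ X φ) t := rfl
  rw [e2, e.deriv_eq, deriv_const_mul_field, deriv_tau (pT_smooth hF)]
  simp
  ring

theorem Rep.dXT_eq (h : Rep θ P t th F κ c σ) (hF : ContDiff ℝ ∞ F) (X φ : ℝ) :
    Geo.dX (Geo.dT (Geo.PP P)) t X φ = σ * pX (pT F) (c, κ, X, ee φ) := by
  have e : (fun Y => Geo.dT (Geo.PP P) t Y φ) = fun Y => σ * pT F (c, κ, Y, ee φ) := by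
    funext Y; exact h.dT_eq hF Y φ
  have e2 : Geo.dX (Geo.dT (Geo.PP P)) t X φ = deriv (fun Y => Geo.dT (Geo.PP P) t Y φ) X := rfl
  rw [e2, e, deriv_const_mul_field, deriv_XX (pT_smooth hF)]

theorem Rep.dFT_eq (h : Rep θ P t th F κ c σ) (hF : ContDiff ℝ ∞ F) (X φ : ℝ) :
    Geo.dF (Geo.dT (Geo.PP P)) t X φ = σ * pF (pT F) (c, κ, X, ee φ) := by
  have e : (fun ψ => Geo.dT (Geo.PP P) t X ψ) = fun ψ => σ * pT F (c, κ, X, ee ψ) := by
    funext ψ; exact h.dT_eq hF X ψ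
  have e2 : Geo.dF (Geo.dT (Geo.PP P)) t X φ = deriv (fun ψ => Geo.dT (Geo.PP P) t X ψ) φ := rfl
  rw [e2, e, deriv_const_mul_field, deriv_phi (pT_smooth hF)]

theorem Rep.dX_eq (h : Rep θ P t th F κ c σ) (hF : ContDiff ℝ ∞ F) (X φ : ℝ) :
    Geo.dX (Geo.PP P) t X φ = pX F (c, κ, X, ee φ) := by
  have e : (fun Y => Geo.PP P t Y φ) = fun Y => F (c, κ, Y, ee φ) := by
    funext Y; exact h.P_eq Y _
  have e2 : Geo.dX (Geo.PP P) t X φ = deriv (fun Y => Geo.PP P t Y φ) X := rfl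
  rw [e2, e, deriv_XX hF]

theorem Rep.dF_eq (h : Rep θ P t th F κ c σ) (hF : ContDiff ℝ ∞ F) (X φ : ℝ) :
    Geo.dF (Geo.PP P) t X φ = pF F (c, κ, X, ee φ) := by
  have e : (fun ψ => Geo.PP P t X ψ) = fun ψ => F (c, κ, X, ee ψ) := by
    funext ψ; exact h.P_eq X _
  have e2 : Geo.dF (Geo.PP P) t X φ = deriv (fun ψ => Geo.PP P t X ψ) φ := rfl
  rw [e2, e, deriv_phi hF]

theorem deriv_affine {f : ℝ → ℝ} (hf : Differentiable ℝ f) (c σ t t' : ℝ) :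
    deriv (fun s => f (c + σ * (s - t))) t' = σ * deriv f (c + σ * (t' - t)) := by
  have h1 : HasDerivAt (fun s : ℝ => c + σ * (s - t)) σ t' := by
    have := ((((hasDerivAt_id t').sub_const t).const_mul σ).const_add c)
    simpa using this
  have := ((hf (c + σ * (t' - t))).hasDerivAt.comp t' h1).deriv
  rw [mul_comm]
  exact this

theorem Rep.th1_eq (h : Rep θ P t th F κ c σ) (hth : ContDiff ℝ ∞ th) :
    deriv θ t = σ * deriv (fun s => th (s, κ)) c := by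
  have hs : ContDiff ℝ ∞ (fun s : ℝ => th (s, κ)) := hth.comp (contDiff_id.prodMk contDiff_const)
  have e : θ =ᶠ[𝓝 t] fun s => (fun s => th (s, κ)) (c + σ * (s - t)) := by
    filter_upwards [h] with s hs
    exact hs.1
  rw [e.deriv_eq, deriv_affine (hs.differentiable (by norm_num))]
  simp

theorem Rep.th2_eq (h : Rep θ P t th F κ c σ) (hth : ContDiff ℝ ∞ th) :
    deriv (deriv θ) t = σ ^ 2 * deriv (deriv (fun s => th (s, κ))) c := by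
  have hs : ContDiff ℝ ∞ (fun s : ℝ => th (s, κ)) := hth.comp (contDiff_id.prodMk contDiff_const)
  have hs' : ContDiff ℝ ∞ (deriv (fun s : ℝ => th (s, κ))) :=
    (contDiff_succ_iff_deriv (n := ∞).1 (by simpa using hs)).2.2
  have e : deriv θ =ᶠ[𝓝 t] fun s => σ * (deriv (fun s => th (s, κ))) (c + σ * (s - t)) := by
    filter_upwards [h.eventually_nhds] with s hs1
    have e : θ =ᶠ[𝓝 s] fun s => (fun s => th (s, κ)) (c + σ * (s - t)) := by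
      filter_upwards [hs1] with s hs
      exact hs.1
    rw [e.deriv_eq, deriv_affine (hs.differentiable (by norm_num))]
  rw [e.deriv_eq, deriv_const_mul_field, deriv_affine (hs'.differentiable (by norm_num))]
  simp
  ring

/-- THE RATES -/
theorem Rep.rateAt {s : ℝ → ℝ} {K C : ℝ} (h : Rep θ P t th F κ c σ) (hth : ContDiff ℝ ∞ th)
    (hF : ContDiff ℝ ∞ F) (hB : Bd th F K C) (hs : |s t| ≤ K)
    (hc : c ∈ Icc (0 : ℝ) 1) (hκ : κ ∈ Icc (-1 : ℝ) 1) (hσ : σ ∈ Icc (0 : ℝ) 1) :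
    Geo.RateAt s θ P K (C * σ) t := by
  have hC := hB.C_nonneg
  have hσ2 : σ ^ 2 ≤ σ := by nlinarith [hσ.1, hσ.2]
  have b1 : ∀ x, |x| ≤ C → |σ * x| ≤ C * σ := by
    intro x hx
    rw [abs_mul, abs_of_nonneg hσ.1, mul_comm]
    exact mul_le_mul_of_nonneg_right hx hσ.1
  have b2 : ∀ x, |x| ≤ C → |σ ^ 2 * x| ≤ C * σ := by
    intro x hx
    rw [abs_mul, abs_of_nonneg (sq_nonneg σ), mul_comm]
    exact (mul_le_mul_of_nonneg_right hx (sq_nonneg σ)).trans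
      (mul_le_mul_of_nonneg_left hσ2 hC)
  constructor
  · rw [h.theta]; exact hB.th_low c hc κ hκ
  · exact hs
  · intro X φ h0 h1
    unfold Geo.PP
    rw [h.P_eq]; exact hB.low _ (mem_S4 hc hκ h0 h1)
  · intro X φ h0 h1
    unfold Geo.PP
    rw [h.P_eq]; exact hB.up _ (mem_S4 hc hκ h0 h1)
  · intro X φ h0 h1
    rw [h.dX_eq hF]; exact hB.bX _ (mem_S4 hc hκ h0 h1)
  · intro X φ h0 h1
    rw [h.dF_eq hF]; exact hB.bF _ (mem_S4 hc hκ h0 h1)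
  · rw [h.th1_eq hth]; exact b1 _ (hB.th1 c hc κ hκ)
  · rw [h.th2_eq hth]; exact b2 _ (hB.th2 c hc κ hκ)
  · intro X φ h0 h1
    rw [h.dT_eq hF]; exact b1 _ (hB.bT _ (mem_S4 hc hκ h0 h1))
  · intro X φ h0 h1
    rw [h.dTT_eq hF]; exact b2 _ (hB.bTT _ (mem_S4 hc hκ h0 h1))
  · intro X φ h0 h1
    rw [h.dXT_eq hF]; exact b1 _ (hB.bXT _ (mem_S4 hc hκ h0 h1))
  · intro X φ h0 h1
    rw [h.dFT_eq hF]; exact b1 _ (hB.bFT _ (mem_S4 hc hκ h0 h1))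

end

end Crest.Agent.R202.Sch
end

-- ▼ part R202/SchMain
section

/-! # Row 202, module SCH, part 4: the assembled family satisfies 580's hypotheses (helper821)

`exists_main`: for an installation path and finitely many loops of admissible data satisfying the
static cone condition, the assembled family is a `Geo.Fam`, and at every time it is in
`DefPhase` or `RoundPhase`, for `A` large; rates `≤ C / A`.
-/

set_option autoImplicit false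

open MeasureTheory Set Filter
open scoped Topology ContDiff

namespace Crest.Agent.R202.Sch

noncomputable section

/-! ### The static cone condition -/

/-- The cone condition with right hand side `cc` for a single (frozen) datum `θ, P(X,u)`. -/
structure ConeS (m : ℕ) (cc θ : ℝ) (P : ℝ → ℂ → ℝ) : Prop where
  base : ∀ X φ : ℝ, 0 < X → X < 1 →
    cc ≤ Geo.q11 m θ X (P X (ee φ)) (deriv (fun Y => P Y (ee φ)) X)
          (deriv (fun Z => deriv (fun Y => P Y (ee φ)) Z) X)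
          (deriv (fun ψ => P X (ee ψ)) φ)
          (deriv (fun χ => deriv (fun ψ => P X (ee ψ)) χ) φ)
        - |Geo.q12 m θ X (P X (ee φ)) (deriv (fun ψ => P X (ee ψ)) φ)|
  fiber : 1 ≤ m → ∀ X φ : ℝ, 0 < X → X < 1 →
    cc ≤ Geo.qw m X (P X (ee φ)) (deriv (fun Y => P Y (ee φ)) X)

theorem ConeS.mono {m : ℕ} {cc cc' θ : ℝ} {P : ℝ → ℂ → ℝ} (h : ConeS m cc θ P) (hc : cc' ≤ cc) :
    ConeS m cc' θ P :=
  ⟨fun X φ h0 h1 => hc.trans (h.base X φ h0 h1), fun hm X φ h0 h1 => hc.trans (h.fiber hm X φ h0 h1)⟩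

/-- `ConeAt` at time `t` only sees the frozen datum. -/
theorem coneAt_of_coneS {m : ℕ} {s θ : ℝ → ℝ} {P : ℝ → ℝ → ℂ → ℝ} {μ t cc : ℝ}
    (h : ConeS m cc (θ t) (P t)) (hc : (m + 1) * (1 + μ) * Geo.lamSq m s θ t ≤ cc) :
    Geo.ConeAt m s θ P μ t :=
  ⟨fun X φ h0 h1 => hc.trans (h.base X φ h0 h1), fun hm X φ h0 h1 => hc.trans (h.fiber hm X φ h0 h1)⟩


/-- the right hand side of the cone condition when `s = σ` -/
def cst (m : ℕ) (μ σ θ : ℝ) : ℝ :=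
  (m + 1) * (1 + μ) * (Real.exp (-2 * σ) * θ ^ (-(2 : ℝ) / ((m : ℝ) + 2)))

/-! ### Local representation at all times -/

variable {θ₀ : ℝ} {P₀ : ℝ → ℂ → ℝ}

/-- `th` of an installation path as a function of `(τ, κ)` -/
def Inst.T (I : Inst θ₀ P₀) (p : ℝ × ℝ) : ℝ := I.th p.1
/-- `P` of an installation path as a function on `E4` -/
def Inst.F (I : Inst θ₀ P₀) (p : E4) : ℝ := I.P p.1 p.2.2.1 p.2.2.2
/-- `th` of a loop -/
def Loop.T (L : Loop θ₀ P₀) (p : ℝ × ℝ) : ℝ := L.th p.1 p.2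
/-- `P` of a loop -/
def Loop.F (L : Loop θ₀ P₀) (p : E4) : ℝ := L.P p.1 p.2.1 p.2.2.1 p.2.2.2

theorem Inst.T_smooth (I : Inst θ₀ P₀) : ContDiff ℝ ∞ I.T := I.smooth_th.comp contDiff_fst
theorem Inst.F_smooth (I : Inst θ₀ P₀) : ContDiff ℝ ∞ I.F :=
  I.smooth_P.comp (contDiff_fst.prodMk (contDiff_snd.comp contDiff_snd))
theorem Loop.T_smooth (L : Loop θ₀ P₀) : ContDiff ℝ ∞ L.T := L.smooth_th
theorem Loop.F_smooth (L : Loop θ₀ P₀) : ContDiff ℝ ∞ L.F := L.smooth_P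

variable (I : Inst θ₀ P₀) (G : ℕ → Loop θ₀ P₀) (κ : ℕ → ℝ) {A : ℝ}

theorem one_div_Tg_le (hA : 0 < A) (q : ℕ) : 1 / Tg A q ≤ 1 / A := by
  apply one_div_le_one_div_of_le hA
  unfold Tg
  have : (1 : ℝ) ≤ ((q : ℝ) + 1) ^ 3 := one_le_pow₀ (by linarith [Nat.cast_nonneg (α := ℝ) q])
  nlinarith

/-- near every time the data are a member of the installation path or of a loop, with an explicit
slope -/
theorem rep_all (hA : 0 < A) (t : ℝ) :
    ∃ c ∈ Icc (0 : ℝ) 1, ∃ σ : ℝ, 0 ≤ σ ∧ σ ≤ 1 / A ∧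
      (σ = 0 ∨ (A ≤ t ∧ t ≤ 2 * A ∧ σ = 1 / A) ∨ ∃ q, A ≤ t ∧ t ≤ hs A (q + 1) ∧ σ = 1 / Tg A q) ∧
      (Rep (thS A I G κ) (PS A I G κ) t I.T I.F 0 c σ ∨
        ∃ q, Rep (thS A I G κ) (PS A I G κ) t (G q).T (G q).F (κ q) c σ) := by
  have hA' : 0 ≤ 1 / A := (one_div_pos.2 hA).le
  rcases lt_or_ge t A with h | h
  · refine ⟨0, ⟨le_rfl, zero_le_one⟩, 0, le_rfl, hA', Or.inl rfl, Or.inl ?_⟩
    filter_upwards [gt_mem_nhds h] with t' ht'
    rw [thS_round I G κ hA ht'.le]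
    refine ⟨by simp [Inst.T, I.th_left 0 le_rfl], fun X u => ?_⟩
    rw [PS_round I G κ hA ht'.le]
    simp [Inst.F, I.P_left 0 _ _ le_rfl]
  rcases le_or_gt t (2 * A) with h2 | h2
  · refine ⟨(t - A) / A, ⟨div_nonneg (by linarith) hA.le, (div_le_one hA).2 (by linarith)⟩,
      1 / A, hA', le_rfl, Or.inr (Or.inl ⟨h, h2, rfl⟩), Or.inl ?_⟩
    have : ∀ᶠ t' in 𝓝 t, t' < he A 0 :=
      gt_mem_nhds (by rw [he_eq, hs_zero]; linarith [Th_pos hA 0])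
    filter_upwards [this] with t' ht'
    have e : (t - A) / A + 1 / A * (t' - t) = (t' - A) / A := by field_simp; ring
    rw [e]
    exact ⟨thS_inst I G κ hA ht'.le, fun X u => PS_inst I G κ hA ht'.le X u⟩
  · obtain ⟨q, h1, h2⟩ : ∃ q, hs A q < t ∧ t ≤ hs A (q + 1) := by
      obtain ⟨q, h3, h4⟩ := exists_slot hA h2.le
      rcases h3.lt_or_eq with h5 | h5
      · exact ⟨q, h5, h4.le⟩
      · cases q with
        | zero => rw [hs_zero] at h5; linarith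
        | succ k => exact ⟨k, by rw [← h5]; exact hs_strictMono hA (Nat.lt_succ_self k), h5.ge⟩
    rcases lt_or_ge t (he A q) with h3 | h3
    · refine ⟨0, ⟨le_rfl, zero_le_one⟩, 0, le_rfl, hA', Or.inl rfl, Or.inr ⟨q, ?_⟩⟩
      filter_upwards [lt_mem_nhds h1, gt_mem_nhds h3] with t' h4 h5
      rw [zero_mul, add_zero]
      refine ⟨?_, fun X u => ?_⟩
      · rw [thS_home I G κ hA h4.le h5.le]
        exact ((G q).th_left _ _ le_rfl).symm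
      · rw [PS_home I G κ hA h4.le h5.le X u]
        exact ((G q).P_left _ _ _ _ le_rfl).symm
    · refine ⟨(t - he A q) / Tg A q, ⟨div_nonneg (by linarith) (Tg_pos hA q).le,
        (div_le_one (Tg_pos hA q)).2 (by rw [hs_succ] at h2; linarith)⟩,
        1 / Tg A q, (one_div_pos.2 (Tg_pos hA q)).le, one_div_Tg_le hA q,
        Or.inr (Or.inr ⟨q, h, h2, rfl⟩), Or.inr ⟨q, ?_⟩⟩
      filter_upwards [lt_mem_nhds h1, gt_mem_nhds (h2.trans_lt (hs_lt_he hA (q + 1)))]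
        with t' h4 h5
      have hT := (Tg_pos hA q).ne'
      have e : (t - he A q) / Tg A q + 1 / Tg A q * (t' - t) = (t' - he A q) / Tg A q := by
        field_simp; ring
      rw [e]
      exact ⟨thS_gate I G κ hA h4.le h5.le, fun X u => PS_gate I G κ hA h4.le h5.le X u⟩

/-! ### The main theorem -/

/-- uniform bounds for an installation path and finitely many loops -/
theorem exists_unif {X0 X1 : ℝ} {ι : Type*} [Finite ι] (L : ι → Loop θ₀ P₀)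
    (hI : ∀ τ ∈ Icc (0 : ℝ) 1, Datum X0 X1 (I.th τ) (I.P τ))
    (hL : ∀ i, ∀ τ ∈ Icc (0 : ℝ) 1, ∀ k ∈ Icc (-1 : ℝ) 1,
      Datum X0 X1 ((L i).th τ k) ((L i).P τ k)) (K0 : ℝ) :
    ∃ K C : ℝ, 0 < K ∧ K0 ≤ K ∧ 0 ≤ C ∧ Bd I.T I.F K C ∧ ∀ i, Bd (L i).T (L i).F K C := by
  classical
  have := Fintype.ofFinite ι
  obtain ⟨K1, C1, hK1, hB1⟩ := exists_Bd I.T_smooth I.F_smooth
    (fun c hc κ _ => (hI c hc).θ_pos) (fun p hp => (hI p.1 hp.1).P_pos _ _)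
  have h2 : ∀ i, ∃ K C, 0 < K ∧ Bd (L i).T (L i).F K C := fun i =>
    exists_Bd (L i).T_smooth (L i).F_smooth
      (fun c hc κ hκ => (hL i c hc κ hκ).θ_pos) (fun p hp => (hL i p.1 hp.1 p.2.1 hp.2.1).P_pos _ _)
  choose K2 C2 hK2 hB2 using h2
  have hC1 := hB1.C_nonneg
  have hC2 : ∀ i, 0 ≤ C2 i := fun i => (hB2 i).C_nonneg
  have s1 : 0 ≤ ∑ i, K2 i := Finset.sum_nonneg fun i _ => (hK2 i).le
  have s2 : 0 ≤ ∑ i, C2 i := Finset.sum_nonneg fun i _ => hC2 i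
  refine ⟨K1 + ∑ i, K2 i + |K0|, C1 + ∑ i, C2 i, by positivity, ?_, by positivity, ?_, fun i => ?_⟩
  · linarith [le_abs_self K0]
  · exact hB1.mono hK1 (by linarith [abs_nonneg K0]) (by linarith)
  · have e1 : K2 i ≤ ∑ i, K2 i :=
      Finset.single_le_sum (f := K2) (fun i _ => (hK2 i).le) (Finset.mem_univ i)
    have e2 : C2 i ≤ ∑ i, C2 i :=
      Finset.single_le_sum (f := C2) (fun i _ => hC2 i) (Finset.mem_univ i)
    exact (hB2 i).mono (hK2 i) (by linarith [abs_nonneg K0]) (by linarith)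

/-- **Main theorem of the module.**  `K`, `C` depend only on the paths; `A0` also on `c`. -/
theorem exists_main {m : ℕ} {μ sI δ X0 X1 : ℝ} (hμ : 0 ≤ μ) (hsI : 0 < sI) (hδ : 0 < δ)
    (h0 : 0 < X0) (h01 : X0 < X1) (h1 : X1 < 1)
    {ι : Type*} [Finite ι] (L : ι → Loop θ₀ P₀)
    (hI : ∀ τ ∈ Icc (0 : ℝ) 1, Datum X0 X1 (I.th τ) (I.P τ))
    (hL : ∀ i, ∀ τ ∈ Icc (0 : ℝ) 1, ∀ k ∈ Icc (-1 : ℝ) 1,
      Datum X0 X1 ((L i).th τ k) ((L i).P τ k))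
    (cI : ∀ τ ∈ Icc (0 : ℝ) 1, ConeS m (cst m μ (sI - δ) (I.th τ)) (I.th τ) (I.P τ))
    (cL : ∀ i, ∀ τ ∈ Icc (0 : ℝ) 1, ∀ k ∈ Icc (-1 : ℝ) 1,
      ConeS m (cst m μ (sI - δ) ((L i).th τ k)) ((L i).th τ k) ((L i).P τ k)) :
    ∃ K C : ℝ, 1 ≤ K ∧ 0 ≤ C ∧ ∀ c : ℝ, 0 < c → ∃ A0 : ℝ, 1 ≤ A0 ∧ ∀ A : ℝ, A0 ≤ A →
      ∀ (j : ℕ → ι) (κ : ℕ → ℝ), (∀ q, κ q ∈ Icc (-1 : ℝ) 1) →
        Geo.Fam (sf sI) (thS A I (fun q => L (j q)) κ) (PS A I (fun q => L (j q)) κ) 0 X0 X1 ∧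
        (∀ t, Geo.RateAt (sf sI) (thS A I (fun q => L (j q)) κ)
          (PS A I (fun q => L (j q)) κ) K (C / A) t) ∧
        (∀ t, A ≤ t → Geo.DefPhase m (sf sI) (thS A I (fun q => L (j q)) κ)
          (PS A I (fun q => L (j q)) κ) K μ c t) ∧
        (∀ t, t < A → Geo.RoundPhase (sf sI) (thS A I (fun q => L (j q)) κ)
          (PS A I (fun q => L (j q)) κ) t) := by
  obtain ⟨K, C, hK, hK0, hC, bI, bL⟩ := exists_unif I L hI hL (max sI 1)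
  refine ⟨K, C, (le_max_right _ _).trans hK0, hC, fun c hc => ?_⟩
  obtain ⟨A0, hA0, hmain⟩ := exists_A hsI hc C hδ
  refine ⟨A0, hA0, fun A hA j κ hκ => ?_⟩
  obtain ⟨hs1, hs2, hs3⟩ := hmain A hA
  have hA1 : 1 ≤ A := hA0.trans hA
  have hAp : 0 < A := by linarith
  have hsabs : ∀ t, |sf sI t| ≤ K := fun t => by
    rw [abs_of_nonneg (sf_nonneg hsI t)]
    exact (sf_lt hsI t).le.trans ((le_max_left _ _).trans hK0)
  have hfam := fam I (fun q => L (j q)) κ (sI := sI) h0 h01 h1 hAp hκ hI (fun q => hL (j q))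
  -- rates with an explicit slope
  have hrate : ∀ t, ∃ σ, 0 ≤ σ ∧ σ ≤ 1 / A ∧ (σ = 0 ∨ (A ≤ t ∧ t ≤ 2 * A ∧ σ = 1 / A) ∨
      ∃ q, A ≤ t ∧ t ≤ hs A (q + 1) ∧ σ = 1 / Tg A q) ∧
      Geo.RateAt (sf sI) (thS A I (fun q => L (j q)) κ)
        (PS A I (fun q => L (j q)) κ) K (C * σ) t := by
    intro t
    obtain ⟨c', hc', σ, hσ0, hσ1, hσ2, hr⟩ := rep_all I (fun q => L (j q)) κ hAp t
    have hσ : σ ∈ Icc (0 : ℝ) 1 := ⟨hσ0, hσ1.trans ((div_le_one hAp).2 hA1)⟩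
    refine ⟨σ, hσ0, hσ1, hσ2, ?_⟩
    rcases hr with hr | ⟨q, hr⟩
    · exact hr.rateAt I.T_smooth I.F_smooth bI (hsabs t) hc' ⟨by norm_num, by norm_num⟩ hσ
    · exact hr.rateAt (L (j q)).T_smooth (L (j q)).F_smooth (bL (j q)) (hsabs t) hc' (hκ q) hσ
  refine ⟨hfam, fun t => ?_, fun t ht => ?_, fun t ht => ?_⟩
  · obtain ⟨σ, hσ0, hσ1, _, hR⟩ := hrate t
    have hle : C * σ ≤ C / A := by
      rw [div_eq_mul_one_div]; exact mul_le_mul_of_nonneg_left hσ1 hC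
    exact
      { hR with
        θ_t := hR.θ_t.trans hle
        θ_tt := hR.θ_tt.trans hle
        P_t := fun X φ h0 h1 => (hR.P_t X φ h0 h1).trans hle
        P_tt := fun X φ h0 h1 => (hR.P_tt X φ h0 h1).trans hle
        P_tX := fun X φ h0 h1 => (hR.P_tX X φ h0 h1).trans hle
        P_tφ := fun X φ h0 h1 => (hR.P_tφ X φ h0 h1).trans hle }
  · obtain ⟨σ, hσ0, hσ1, hσ2, hR⟩ := hrate t
    have hcone := forall_datum I (fun q => L (j q)) κ hAp hκ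
      (D := fun θ P => 0 < θ ∧ ConeS m (cst m μ (sI - δ) θ) θ P)
      (fun τ hτ => ⟨(hI τ hτ).θ_pos, cI τ hτ⟩)
      (fun q τ hτ k hk => ⟨(hL (j q) τ hτ k hk).θ_pos, cL (j q) τ hτ k hk⟩) t
    refine
      { cone := coneAt_of_coneS hcone.2 ?_
        rate := ⟨C * σ, mul_nonneg hC hσ0, ?_, hR⟩
        s1_nonneg := deriv_sf_nonneg hsI t
        s1_le := (hs1 t ht).2.1
        s2 := (hs1 t ht).2.2 }
    · unfold Geo.lamSq cst
      have hm : (0 : ℝ) ≤ (m + 1) * (1 + μ) := by positivity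
      refine mul_le_mul_of_nonneg_left ?_ hm
      refine mul_le_mul_of_nonneg_right ?_ (Real.rpow_nonneg hcone.1.le _)
      exact Real.exp_le_exp.2 (by linarith [(hs1 t ht).1])
    · rcases hσ2 with h | ⟨_, h5, h6⟩ | ⟨q, _, h5, h6⟩
      · rw [h]
        simp only [mul_zero, ne_eq, OfNat.ofNat_ne_zero, not_false_eq_true, zero_pow]
        exact mul_nonneg hc.le (deriv_sf_nonneg hsI t)
      · rw [h6, mul_one_div]; exact hs2 t ht h5
      · rw [h6, mul_one_div]; exact hs3 q t ht h5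
  · refine ⟨⟨A, ht, fun τ hτ => thS_round I _ κ hAp hτ, fun τ hτ X u => PS_round I _ κ hAp hτ X u⟩,
      sf_nonneg hsI t, deriv_sf_nonneg hsI t, deriv_sf_le hsI t, ?_⟩
    rcases le_or_gt t 0 with h | h
    · have h1 : deriv (sf sI) t = 0 := by
        rw [deriv_sf]
        simp only [fw_zero h, mul_zero]
      have h2 : 0 ≤ deriv (deriv (sf sI)) t := by
        rw [deriv2_sf]
        have h3 := deriv_st_nonneg t
        have h4 : Real.smoothTransition t = 0 := Real.smoothTransition.zero_of_nonpos h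
        rw [h4]
        have := gw_pos (aw sI) t
        have := lw_pos hsI
        simp only [zero_mul, add_zero]
        positivity
      rw [h1]; simpa using h2
    · have h2 := deriv2_sf_ge hsI h
      have h3 := deriv_sf_nonneg hsI t
      linarith

end

end Crest.Agent.R202.Sch
end

-- ▼ part R202/SchY

/-! # Row 202, module SCH, part 5: the captain's loop format (helper821)

Data in terms of `y = 1/θ`: `θ = y⁻¹`, `P = 1 + (y - 1) h(X) + Gh(τ, κ, X, ret u)`, where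
`ret : ℂ → closed unit disc` is smooth and the identity on the unit circle (so that `P > 0` for all
`u`; only `|u| = 1` matters for the metric).
-/

set_option autoImplicit false

open MeasureTheory Set Filter
open scoped Topology ContDiff

namespace Crest.Agent.R202.Sch

noncomputable section

/-- smooth map of `ℂ` into the closed unit disc, identity on the unit circle -/
def ret (u : ℂ) : ℂ := (2 * (1 + ‖u‖ ^ 2)⁻¹) • u

theorem ret_smooth : ContDiff ℝ ∞ ret := by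
  unfold ret
  have h1 : ContDiff ℝ ∞ (fun u : ℂ => ‖u‖ ^ 2) := contDiff_norm_sq ℝ
  have h2 : ContDiff ℝ ∞ (fun u : ℂ => (1 + ‖u‖ ^ 2)⁻¹) :=
    (contDiff_const.add h1).inv fun u => by positivity
  exact (contDiff_const.mul h2).smul contDiff_id

theorem ret_of_norm_one {u : ℂ} (h : ‖u‖ = 1) : ret u = u := by
  unfold ret
  rw [h]
  norm_num

theorem ret_ee (φ : ℝ) : ret (ee φ) = ee φ := ret_of_norm_one (norm_ee φ)

theorem norm_ret_le (u : ℂ) : ‖ret u‖ ≤ 1 := by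
  unfold ret
  rw [norm_smul, Real.norm_eq_abs, abs_of_nonneg (by positivity)]
  have h : 0 < 1 + ‖u‖ ^ 2 := by positivity
  rw [show 2 * (1 + ‖u‖ ^ 2)⁻¹ * ‖u‖ = (2 * ‖u‖) / (1 + ‖u‖ ^ 2) by field_simp, div_le_one h]
  nlinarith [sq_nonneg (‖u‖ - 1)]

/-- `ConeS` only sees the values on the unit circle -/
theorem ConeS.congr {m : ℕ} {cc θ : ℝ} {P P' : ℝ → ℂ → ℝ} (h : ConeS m cc θ P)
    (he : ∀ X φ, P X (ee φ) = P' X (ee φ)) : ConeS m cc θ P' := by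
  constructor
  · intro X φ h0 h1
    have := h.base X φ h0 h1
    simp only [he] at this
    exact this
  · intro hm X φ h0 h1
    have := h.fiber hm X φ h0 h1
    simp only [he] at this
    exact this

/-- the axisymmetric datum with parameter `y` -/
def Ptip (h : ℝ → ℝ) (y X : ℝ) (_ : ℂ) : ℝ := 1 + (y - 1) * h X

/-- Loop in the captain's format. -/
structure YLoop (y0 y1 Xa Xb : ℝ) where
  y : ℝ → ℝ
  Gh : ℝ → ℝ → ℝ → ℂ → ℝ
  y_smooth : ContDiff ℝ ∞ y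
  y_left : ∀ τ, τ ≤ 0 → y τ = y0
  y_right : ∀ τ, 1 ≤ τ → y τ = y0
  y_mem : ∀ τ, y τ ∈ Icc y0 y1
  Gh_smooth : ContDiff ℝ ∞ (fun q : ℝ × ℝ × ℝ × ℂ => Gh q.1 q.2.1 q.2.2.1 q.2.2.2)
  Gh_left : ∀ τ κ X u, τ ≤ 0 → Gh τ κ X u = 0
  Gh_right : ∀ τ κ X u, 1 ≤ τ → Gh τ κ X u = 0
  Gh_supp : ∀ τ κ X u, X ∉ Icc Xa Xb → Gh τ κ X u = 0
  Gh_small : ∀ τ, ∀ κ ∈ Icc (-1 : ℝ) 1, ∀ X u, ‖u‖ ≤ 1 → |Gh τ κ X u| ≤ 1 / 2

/-- the profile function of the tip -/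
structure Prof (X0 X1 : ℝ) (h : ℝ → ℝ) : Prop where
  smooth : ContDiff ℝ ∞ h
  low : ∀ X, X ≤ X0 → h X = 0
  high : ∀ X, X1 ≤ X → h X = 1
  nonneg : ∀ X, 0 ≤ h X
  le_one : ∀ X, h X ≤ 1

variable {y0 y1 Xa Xb X0 X1 : ℝ} {h : ℝ → ℝ}

theorem Ptip_smooth (hp : Prof X0 X1 h) {y : ℝ → ℝ} (hy : ContDiff ℝ ∞ y) :
    ContDiff ℝ ∞ (fun q : ℝ × ℝ × ℂ => Ptip h (y q.1) q.2.1 q.2.2) := by
  unfold Ptip
  have h1 : ContDiff ℝ ∞ (fun q : ℝ × ℝ × ℂ => y q.1) := hy.comp contDiff_fst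
  have h2 : ContDiff ℝ ∞ (fun q : ℝ × ℝ × ℂ => h q.2.1) :=
    hp.smooth.comp (contDiff_fst.comp contDiff_snd)
  exact contDiff_const.add ((h1.sub contDiff_const).mul h2)

theorem datum_tip (hp : Prof X0 X1 h) {y : ℝ} (hy : 1 ≤ y) : Datum X0 X1 y⁻¹ (Ptip h y) where
  θ_pos := inv_pos.2 (by linarith)
  θ_le := inv_le_one_of_one_le₀ hy
  P_pos X u := by
    unfold Ptip
    have := mul_nonneg (by linarith : 0 ≤ y - 1) (hp.nonneg X)
    linarith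
  P_low X u hX := by unfold Ptip; rw [hp.low X hX]; ring
  P_high X u hX := by unfold Ptip; rw [hp.high X hX, inv_inv]; ring

theorem datum_loop (hp : Prof X0 X1 h) (h0a : X0 < Xa) (hb1 : Xb < X1) {y : ℝ} (hy : 1 ≤ y)
    {G : ℝ → ℂ → ℝ} (hG : ∀ X u, ‖u‖ ≤ 1 → |G X u| ≤ 1 / 2)
    (hs : ∀ X u, X ∉ Icc Xa Xb → G X u = 0) :
    Datum X0 X1 y⁻¹ (fun X u => Ptip h y X u + G X (ret u)) where
  θ_pos := inv_pos.2 (by linarith)
  θ_le := inv_le_one_of_one_le₀ hy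
  P_pos X u := by
    unfold Ptip
    have := mul_nonneg (by linarith : 0 ≤ y - 1) (hp.nonneg X)
    have h2 := abs_le.1 (hG X (ret u) (norm_ret_le u))
    linarith [h2.1]
  P_low X u hX := by
    unfold Ptip
    rw [hp.low X hX, hs X _ (fun h => by linarith [h.1])]
    ring
  P_high X u hX := by
    unfold Ptip
    rw [hp.high X hX, inv_inv, hs X _ (fun h => by linarith [h.2])]
    ring

/-- the abstract loop of a `YLoop` -/
def YLoop.toLoop (L : YLoop y0 y1 Xa Xb) (hp : Prof X0 X1 h) (hy0 : 1 ≤ y0) :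
    Loop y0⁻¹ (Ptip h y0) where
  th τ _ := (L.y τ)⁻¹
  P τ κ X u := Ptip h (L.y τ) X u + L.Gh τ κ X (ret u)
  smooth_th := by
    have h1 : ContDiff ℝ ∞ (fun q : ℝ × ℝ => L.y q.1) := L.y_smooth.comp contDiff_fst
    exact h1.inv fun q => by linarith [(L.y_mem q.1).1]
  smooth_P := by
    have h1 : ContDiff ℝ ∞ (fun q : ℝ × ℝ × ℝ × ℂ => Ptip h (L.y q.1) q.2.2.1 q.2.2.2) :=
      (Ptip_smooth hp L.y_smooth).comp (contDiff_fst.prodMk (contDiff_snd.comp contDiff_snd))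
    have h3 : ContDiff ℝ ∞ (fun q : ℝ × ℝ × ℝ × ℂ => ret q.2.2.2) :=
      ret_smooth.comp (contDiff_snd.comp (contDiff_snd.comp contDiff_snd))
    have h4 : ContDiff ℝ ∞ (fun q : ℝ × ℝ × ℝ × ℂ => ((q.1, q.2.1, q.2.2.1, ret q.2.2.2) : E4)) :=
      contDiff_fst.prodMk ((contDiff_fst.comp contDiff_snd).prodMk
        ((contDiff_fst.comp (contDiff_snd.comp contDiff_snd)).prodMk h3))
    exact h1.add (L.Gh_smooth.comp h4)
  th_left τ _ hτ := by rw [L.y_left τ hτ]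
  th_right τ _ hτ := by rw [L.y_right τ hτ]
  P_left τ κ X u hτ := by rw [L.y_left τ hτ, L.Gh_left _ _ _ _ hτ, add_zero]
  P_right τ κ X u hτ := by rw [L.y_right τ hτ, L.Gh_right _ _ _ _ hτ, add_zero]

/-- `y` along the installation path -/
def yI (y0 τ : ℝ) : ℝ := 1 + (y0 - 1) * Real.smoothTransition τ

theorem yI_mem (hy0 : 1 ≤ y0) (τ : ℝ) : yI y0 τ ∈ Icc 1 y0 := by
  unfold yI
  have h1 := Real.smoothTransition.nonneg τ
  have h2 := Real.smoothTransition.le_one τ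
  constructor <;> nlinarith

theorem yI_smooth (y0 : ℝ) : ContDiff ℝ ∞ (yI y0) :=
  contDiff_const.add (contDiff_const.mul Real.smoothTransition.contDiff)

/-- the installation path -/
def yInst (hp : Prof X0 X1 h) (hy0 : 1 ≤ y0) : Inst y0⁻¹ (Ptip h y0) where
  th τ := (yI y0 τ)⁻¹
  P τ X u := Ptip h (yI y0 τ) X u
  smooth_th := (yI_smooth y0).inv fun τ => by linarith [(yI_mem hy0 τ).1]
  smooth_P := Ptip_smooth hp (yI_smooth y0)
  th_left τ hτ := by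
    unfold yI
    rw [Real.smoothTransition.zero_of_nonpos hτ]; simp
  th_right τ hτ := by
    unfold yI
    rw [Real.smoothTransition.one_of_one_le hτ]; simp
  P_left τ X u hτ := by
    unfold yI Ptip
    rw [Real.smoothTransition.zero_of_nonpos hτ]; simp
  P_right τ X u hτ := by
    unfold yI Ptip
    rw [Real.smoothTransition.one_of_one_le hτ]; simp

/-- the number condition for the cone condition -/
theorem cst_le {m : ℕ} {μ σ y y1 e : ℝ} (hμ : 0 ≤ μ) (hy : 1 ≤ y) (hy1 : y ≤ y1)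
    (hnum : (1 + μ) * Real.exp (-2 * σ) * y1 ^ ((2 : ℝ) / ((m : ℝ) + 2)) ≤ 1 - e) :
    cst m μ σ y⁻¹ ≤ (m + 1) * (1 - e) := by
  unfold cst
  have hy0 : 0 < y := by linarith
  have h1 : (y⁻¹) ^ (-(2 : ℝ) / ((m : ℝ) + 2)) = y ^ ((2 : ℝ) / ((m : ℝ) + 2)) := by
    rw [Real.inv_rpow hy0.le, ← Real.rpow_neg hy0.le]
    congr 1
    ring
  rw [h1, mul_assoc]
  refine mul_le_mul_of_nonneg_left ?_ (by positivity)
  refine le_trans ?_ hnum
  rw [← mul_assoc]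
  refine mul_le_mul_of_nonneg_left ?_ (by positivity)
  exact Real.rpow_le_rpow hy0.le hy1 (by positivity)

/-- **Main theorem in the captain's format.** -/
theorem exists_mainY {m : ℕ} {μ sI δ e : ℝ} (hμ : 0 ≤ μ) (hsI : 0 < sI) (hδ : 0 < δ)
    (h0 : 0 < X0) (h0a : X0 < Xa) (hab : Xa ≤ Xb) (hb1 : Xb < X1) (h1 : X1 < 1)
    (hp : Prof X0 X1 h) (hy0 : 1 ≤ y0)
    (hnum : (1 + μ) * Real.exp (-2 * (sI - δ)) * y1 ^ ((2 : ℝ) / ((m : ℝ) + 2)) ≤ 1 - e)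
    {ι : Type*} [Finite ι] (L : ι → YLoop y0 y1 Xa Xb)
    (cT : ∀ y ∈ Icc 1 y0, ConeS m ((m + 1) * (1 - e)) y⁻¹ (Ptip h y)) (hy01 : y0 ≤ y1)
    (cL : ∀ i, ∀ τ ∈ Icc (0 : ℝ) 1, ∀ k ∈ Icc (-1 : ℝ) 1,
      ConeS m ((m + 1) * (1 - e)) ((L i).y τ)⁻¹
        (fun X u => 1 + ((L i).y τ - 1) * h X + (L i).Gh τ k X u)) :
    ∃ K C : ℝ, 1 ≤ K ∧ 0 ≤ C ∧ ∀ c : ℝ, 0 < c → ∃ A0 : ℝ, 1 ≤ A0 ∧ ∀ A : ℝ, A0 ≤ A →
      ∀ (j : ℕ → ι) (κ : ℕ → ℝ), (∀ q, κ q ∈ Icc (-1 : ℝ) 1) →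
        Geo.Fam (sf sI) (thS A (yInst hp hy0) (fun q => (L (j q)).toLoop hp hy0) κ)
          (PS A (yInst hp hy0) (fun q => (L (j q)).toLoop hp hy0) κ) 0 X0 X1 ∧
        (∀ t, Geo.RateAt (sf sI) (thS A (yInst hp hy0) (fun q => (L (j q)).toLoop hp hy0) κ)
          (PS A (yInst hp hy0) (fun q => (L (j q)).toLoop hp hy0) κ) K (C / A) t) ∧
        (∀ t, A ≤ t → Geo.DefPhase m (sf sI)
          (thS A (yInst hp hy0) (fun q => (L (j q)).toLoop hp hy0) κ)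
          (PS A (yInst hp hy0) (fun q => (L (j q)).toLoop hp hy0) κ) K μ c t) ∧
        (∀ t, t < A → Geo.RoundPhase (sf sI)
          (thS A (yInst hp hy0) (fun q => (L (j q)).toLoop hp hy0) κ)
          (PS A (yInst hp hy0) (fun q => (L (j q)).toLoop hp hy0) κ) t) := by
  refine exists_main (yInst hp hy0) hμ hsI hδ h0 (h0a.trans (hab.trans_lt hb1)) h1
    (fun i => (L i).toLoop hp hy0) (fun τ _ => datum_tip hp (yI_mem hy0 τ).1) ?_ ?_ ?_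
  · intro i τ _ k hk
    exact datum_loop hp h0a hb1 (hy0.trans ((L i).y_mem τ).1)
      (fun X u hu => (L i).Gh_small τ k hk X u hu) (fun X u hX => (L i).Gh_supp τ k X u hX)
  · intro τ _
    exact (cT _ (yI_mem hy0 τ)).mono
      (cst_le hμ (yI_mem hy0 τ).1 ((yI_mem hy0 τ).2.trans hy01) hnum)
  · intro i τ hτ k hk
    have h2 := (cL i τ hτ k hk).mono
      (cst_le hμ (hy0.trans ((L i).y_mem τ).1) ((L i).y_mem τ).2 hnum)
    refine h2.congr fun X φ => ?_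
    show _ = Ptip h ((L i).y τ) X (ee φ) + (L i).Gh τ k X (ret (ee φ))
    rw [ret_ee]
    rfl

end

end Crest.Agent.R202.Sch
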