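import Crest.Agent.R202.GeoPull
import Crest.Agent.R202.GeoCongr
import Mathlib
import Crest.Agent.R202.GeoFinal
import Crest.Agent.R202.SchConv
import Crest.Agent.R202.SchY

-- ▼ part R202/GeoNeg
section

/-!
Row 202, Part D: planes containing the radial direction with negative curvature.
-/

set_option autoImplicit false

open scoped ContDiff Topology
open Filter Set
open Crest.GeometryTopology.CoordMetric Crest.GeometryTopology.ChartCurvature

namespace Crest.Agent.R202.Geo

noncomputable section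

variable {n m : ℕ}

/-- Curvature component `R^p_{i p i}` of a diagonal metric with `a_p = x_p`. -/
theorem riemann_diag {a : Fin n → EuclideanSpace ℝ (Fin n) → ℝ} {x : EuclideanSpace ℝ (Fin n)}
    (ha : ∀ i, ContDiffAt ℝ 2 (a i) x) {p i : Fin n} (hpi : p ≠ i)
    (hap : a p = fun y => y p) :
    riemann (diagMetric a) x p i p i =
      -(Real.exp (2 * (a i x - a p x)) *
        (pderiv p (pderiv p (a i)) x + pderiv p (a i) x ^ 2 - pderiv p (a i) x)) := by
  have hda : ∀ i, DifferentiableAt ℝ (a i) x := fun i => (ha i).differentiableAt (by norm_num)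
  have hp1 : ∀ j y, pderiv j (a p) y = if j = p then 1 else 0 := by
    intro j y
    rw [hap]
    unfold pderiv
    have : HasFDerivAt (fun y : EuclideanSpace ℝ (Fin n) => y p)
        (EuclideanSpace.proj p : EuclideanSpace ℝ (Fin n) →L[ℝ] ℝ) y :=
      (EuclideanSpace.proj p : EuclideanSpace ℝ (Fin n) →L[ℝ] ℝ).hasFDerivAt
    rw [this.fderiv, Tens.prj_apply]
    by_cases h : j = p
    · subst h; simp
    · have h' : ¬ p = j := fun h' => h h'.symm
      simp [h, h']
  have hip : i ≠ p := hpi.symm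
  have hpp : ∀ k j, pderiv k (pderiv j (a p)) x = 0 := by
    intro k j
    have : pderiv j (a p) = fun _ => if j = p then 1 else 0 := by
      funext y; exact hp1 j y
    rw [this]
    simp
  unfold riemann
  rw [pderiv_christoffel_diagMetric ha, pderiv_christoffel_diagMetric ha]
  have hsum : ∑ b, (christoffel (diagMetric a) x p p b * christoffel (diagMetric a) x b i i
      - christoffel (diagMetric a) x p i b * christoffel (diagMetric a) x b p i)
      = -(Real.exp (2 * (a i x - a p x)) * pderiv p (a i) x)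
        + Real.exp (2 * (a i x - a p x)) * pderiv p (a i) x ^ 2 := by
    rw [Finset.sum_sub_distrib]
    have e1 : ∑ b, christoffel (diagMetric a) x p p b * christoffel (diagMetric a) x b i i
        = -(Real.exp (2 * (a i x - a p x)) * pderiv p (a i) x) := by
      rw [Finset.sum_eq_single p]
      · rw [christoffel_diagMetric hda, christoffel_diagMetric hda]
        simp [hp1, hip]
      · intro b _ hb
        have hb' : ¬ p = b := fun h => hb h.symm
        rw [christoffel_diagMetric hda]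
        simp [hp1, hb, hb']
      · simp
    have e2 : ∑ b, christoffel (diagMetric a) x p i b * christoffel (diagMetric a) x b p i
        = -(Real.exp (2 * (a i x - a p x)) * pderiv p (a i) x ^ 2) := by
      rw [Finset.sum_eq_single i]
      · rw [christoffel_diagMetric hda, christoffel_diagMetric hda]
        simp [hp1, hip, hpi]
        ring
      · intro b _ hb
        have hb' : ¬ i = b := fun h => hb h.symm
        rw [christoffel_diagMetric hda]
        simp [hp1, hip, hb']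
      · simp
    rw [e1, e2]; ring
  rw [hsum]
  simp [hp1, hip, hpi, hpp]
  ring

/-- the sectional curvature numerator of the plane spanned by `∂_p` and `∂_i`. -/
theorem secNumer_diag {a : Fin n → EuclideanSpace ℝ (Fin n) → ℝ} {x : EuclideanSpace ℝ (Fin n)}
    (ha : ∀ i, ContDiffAt ℝ 2 (a i) x) {p i : Fin n} (hpi : p ≠ i)
    (hap : a p = fun y => y p) :
    secNumer (diagMetric a) x (EuclideanSpace.single p 1) (EuclideanSpace.single i 1) =
      -(Real.exp (2 * a i x) *
        (pderiv p (pderiv p (a i)) x + pderiv p (a i) x ^ 2 - pderiv p (a i) x)) := by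
  unfold secNumer
  rw [Finset.sum_eq_single p]
  · rw [Finset.sum_eq_single p]
    · rw [Finset.sum_eq_single i]
      · rw [Finset.sum_eq_single p]
        · rw [Finset.sum_eq_single i]
          · rw [riemann_diag ha hpi hap, diagMetric_apply]
            have e2 : Real.exp (2 * (a i x - a p x)) =
                Real.exp (-(2 * a p x)) * Real.exp (2 * a i x) := by
              rw [← Real.exp_add]; congr 1; ring
            have e1 : Real.exp (2 * a p x) * Real.exp (-(2 * a p x)) = 1 := by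
              rw [← Real.exp_add]; simp
            rw [e2]
            simp only [if_true, PiLp.single_apply, mul_one]
            linear_combination -(Real.exp (2 * a i x) *
              (pderiv p (pderiv p (a i)) x + pderiv p (a i) x ^ 2 - pderiv p (a i) x)) * e1
          · intro b _ hb; simp [hb]
          · simp
        · intro b _ hb; simp [hb]
        · simp
      · intro b _ hb; simp [hb]
      · simp
    · intro b _ hb; simp [hb]
    · simp
  · intro b _ hb
    apply Finset.sum_eq_zero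
    intro c _
    by_cases h : c = p
    · subst h
      rw [diagMetric_apply, if_neg hb]; ring
    · simp [h]
  · simp

theorem gramDet_diag {a : Fin n → EuclideanSpace ℝ (Fin n) → ℝ} (x : EuclideanSpace ℝ (Fin n))
    {p i : Fin n} (hpi : p ≠ i) :
    0 < gramDet (diagMetric a) x (EuclideanSpace.single p 1) (EuclideanSpace.single i 1) := by
  have h : ∀ j k : Fin n, Tens.bil (diagMetric a x) (EuclideanSpace.single j 1)
      (EuclideanSpace.single k 1) = if j = k then Real.exp (2 * a j x) else 0 := by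
    intro j k
    rw [Tens.bil_apply, Finset.sum_eq_single j, Finset.sum_eq_single k]
    · rw [diagMetric_apply]; simp
    · intro b _ hb; simp [hb]
    · simp
    · intro b _ hb
      apply Finset.sum_eq_zero
      intro c _
      simp [hb]
    · simp
  rw [Tens.gramDet_eq, h, h, h, if_pos rfl, if_pos rfl, if_neg hpi]
  have h1 := Real.exp_pos (2 * a p x)
  have h2 := Real.exp_pos (2 * a i x)
  have := mul_pos h1 h2
  linarith

/-! ### Negative radial planes for `gfam` -/

/-- exponent of the cross-section scaling near `X = 0`. -/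
def bneg (m : ℕ) (s θ : ℝ → ℝ) (t : ℝ) : ℝ := -(s t) - Real.log (θ t) / ((m : ℝ) + 2)

theorem contDiff_bneg {s θ : ℝ → ℝ} (hs : ContDiff ℝ ∞ s) (hθ : ContDiff ℝ ∞ θ)
    (hpos : ∀ t, 0 < θ t) : ContDiff ℝ ∞ (bneg m s θ) := by
  unfold bneg
  exact hs.neg.sub ((hθ.log fun t => (hpos t).ne').div_const _)

theorem hasFDerivAt_comp_zero {f : ℝ → ℝ} {q : EuclideanSpace ℝ (Fin (m + 3))}
    (hf : DifferentiableAt ℝ f (q 0)) :
    HasFDerivAt (fun q : EuclideanSpace ℝ (Fin (m + 3)) => f (q 0)) (deriv f (q 0) • pr 0) q :=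
  hf.hasDerivAt.comp_hasFDerivAt q (hasFDerivAt_pr 0 q)

theorem pderiv_comp_zero {f : ℝ → ℝ} {q : EuclideanSpace ℝ (Fin (m + 3))}
    (hf : DifferentiableAt ℝ f (q 0)) :
    pderiv 0 (fun q : EuclideanSpace ℝ (Fin (m + 3)) => f (q 0)) q = deriv f (q 0) := by
  unfold pderiv
  rw [(hasFDerivAt_comp_zero hf).fderiv]
  simp

/-- Negative curvature of the plane spanned by the position vector and `∂_X`. -/
theorem secNumer_gfam {s θ : ℝ → ℝ} {P : ℝ → ℝ → ℂ → ℝ} {t0 X0 X1 : ℝ}
    (hF : Fam s θ P t0 X0 X1) (hR : IsRiemannianOn (gfam (m := m) s θ P) univ)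
    {q : EuclideanSpace ℝ (Fin (m + 3))} (hq : q ∈ VV m) (hX : q 1 < X0)
    (hb : 0 < deriv (deriv (bneg m s θ)) (q 0) + deriv (bneg m s θ) (q 0)) :
    0 < gramDet (gfam s θ P) (Psi 1 q) (Psi 1 q) (fderiv ℝ (Psi 1) q (EuclideanSpace.single 1 1)) ∧
    secNumer (gfam s θ P) (Psi 1 q) (Psi 1 q)
      (fderiv ℝ (Psi 1) q (EuclideanSpace.single 1 1)) < 0 := by
  have h1 : (1:ℝ) ^ 2 = 1 := by norm_num
  have hpull := pull_gfam h1 hR
  have hbs : ContDiff ℝ ∞ (bneg m s θ) := contDiff_bneg hF.smooth_s hF.smooth_θ hF.θ_pos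
  -- positivity of `pp`
  have hpp : ∀ q : EuclideanSpace ℝ (Fin (m + 3)), 0 < pp P q := fun q => hF.P_pos _ _ _
  -- the pulled back metric is diagonal near `q`
  have hev : gpull 1 s θ P =ᶠ[𝓝 q] diagMetric (aa s θ P) := by
    filter_upwards [isOpen_VV.mem_nhds hq] with z hz
    exact gpull_eq h1 hz (hpp z) (hF.θ_pos _)
  -- smoothness of the exponents
  have hcoord : ∀ i : Fin (m + 3), ContDiffAt ℝ ∞
      (fun q : EuclideanSpace ℝ (Fin (m + 3)) => q i) q := fun i => (contDiff_coordP i).contDiffAt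
  have hsq : ContDiffAt ℝ ∞ (fun q : EuclideanSpace ℝ (Fin (m + 3)) => s (q 0)) q :=
    (hF.smooth_s.contDiffAt).comp q (hcoord 0)
  have hθq : ContDiffAt ℝ ∞ (fun q : EuclideanSpace ℝ (Fin (m + 3)) => Real.log (θ (q 0))) q :=
    ((hF.smooth_θ.contDiffAt).comp q (hcoord 0)).log (hF.θ_pos _).ne'
  have hppq : ContDiffAt ℝ ∞ (fun q : EuclideanSpace ℝ (Fin (m + 3)) => Real.log (pp P q)) q := by
    refine ContDiffAt.log ?_ (hpp q).ne'
    have hexp : ContDiff ℝ ∞ (fun q : EuclideanSpace ℝ (Fin (m + 3)) =>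
        Complex.exp ((q 2 : ℂ) * Complex.I)) := by
      have : ContDiff ℝ ∞ (fun q : EuclideanSpace ℝ (Fin (m + 3)) => ((q 2 : ℝ) : ℂ)) :=
        Complex.ofRealCLM.contDiff.comp (contDiff_coordP 2)
      exact (this.mul contDiff_const).cexp
    exact (hF.smooth_P.comp ((contDiff_coordP 0).prodMk
      ((contDiff_coordP 1).prodMk hexp))).contDiffAt
  have hX1q : ContDiffAt ℝ ∞ (fun q : EuclideanSpace ℝ (Fin (m + 3)) =>
      Real.log (1 - q 1 ^ 2)) q :=
    (contDiffAt_const.sub ((hcoord 1).pow 2)).log (one_sub_sq_pos hq).ne'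
  have ha : ∀ i, ContDiffAt ℝ 2 ((aa (m := m) s θ P) i) q := by
    have h2 : (2 : WithTop ℕ∞) ≤ ∞ := WithTop.coe_le_coe.2 le_top
    apply forall_fin3
    · rw [aa_zero]; exact (hcoord 0).of_le h2
    · rw [aa_one]; unfold aX
      exact (((((hcoord 0).sub hsq).sub (hθq.div_const _)).sub
        (contDiffAt_const.mul hppq)).sub (contDiffAt_const.mul hX1q)).of_le h2
    · rw [aa_two]; unfold aphi
      exact (((((hcoord 0).sub hsq).add (contDiffAt_const.mul hθq)).add
        (contDiffAt_const.mul hppq)).add (contDiffAt_const.mul hX1q)).of_le h2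
    · intro k
      rw [aa_succ]; unfold aeta
      refine (((((hcoord 0).sub hsq).sub (hθq.div_const _)).add
        ((hcoord 1).log hq.1.ne')).add ?_).of_le h2
      exact contDiffAt_const.sub
        ((contDiffAt_const.add contDiff_NN_pull.contDiffAt).log (NN_pos' q).ne')
  -- exponent `aX` near `q`
  have haX : ∀ᶠ z in 𝓝 q, aX s θ P z = z 0 + bneg m s θ (z 0) - 1 / 2 * Real.log (1 - z 1 ^ 2) := by
    have hc : Continuous fun q : EuclideanSpace ℝ (Fin (m + 3)) => q 1 := by fun_prop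
    filter_upwards [(isOpen_lt hc continuous_const).mem_nhds hX] with z hz
    unfold aX bneg pp
    rw [hF.P_low _ _ _ (le_of_lt hz), Real.log_one]
    ring
  -- first derivative near `q`
  have hd1 : ∀ᶠ z in 𝓝 q, pderiv 0 (aX s θ P) z = 1 + deriv (bneg m s θ) (z 0) := by
    filter_upwards [haX.eventually_nhds, isOpen_VV.mem_nhds hq] with z hz hzV
    have e : aX s θ P =ᶠ[𝓝 z] fun z => z 0 + bneg m s θ (z 0) - 1 / 2 * Real.log (1 - z 1 ^ 2) := hz
    rw [pderiv_congr e]
    have d0 : DifferentiableAt ℝ (fun z : EuclideanSpace ℝ (Fin (m + 3)) => z 0) z :=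
      (contDiff_coordP 0).contDiffAt.differentiableAt (by norm_num)
    have db : DifferentiableAt ℝ (bneg m s θ) (z 0) :=
      hbs.contDiffAt.differentiableAt (by norm_num)
    have d1 : DifferentiableAt ℝ (fun z : EuclideanSpace ℝ (Fin (m + 3)) => bneg m s θ (z 0)) z :=
      (hasFDerivAt_comp_zero db).differentiableAt
    have d2 : DifferentiableAt ℝ (fun z : EuclideanSpace ℝ (Fin (m + 3)) =>
        Real.log (1 - z 1 ^ 2)) z :=
      ((contDiffAt_const.sub ((contDiff_coordP 1).contDiffAt.pow 2)).log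
        (one_sub_sq_pos hzV).ne').differentiableAt (by norm_num : (∞ : WithTop ℕ∞) ≠ 0)
    rw [pderiv_sub (d0.fun_add d1) (d2.const_mul _), pderiv_add d0 d1, pderiv_const_mul _ d2]
    have e0 : pderiv 0 (fun z : EuclideanSpace ℝ (Fin (m + 3)) => z 0) z = 1 := by
      unfold pderiv; rw [(hasFDerivAt_pr 0 z).fderiv]; simp
    have e1 : pderiv 0 (fun z : EuclideanSpace ℝ (Fin (m + 3)) => bneg m s θ (z 0)) z
        = deriv (bneg m s θ) (z 0) := pderiv_comp_zero db
    have e2 : pderiv 0 (fun z : EuclideanSpace ℝ (Fin (m + 3)) =>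
        Real.log (1 - z 1 ^ 2)) z = 0 := by
      unfold pderiv
      have h := (((hasFDerivAt_pr (m := m) 1 z).pow 2).const_sub 1).log (one_sub_sq_pos hzV).ne'
      rw [h.fderiv]
      have : (EuclideanSpace.single (0 : Fin (m + 3)) (1:ℝ)) 1 = 0 := by
        rw [PiLp.single_apply, if_neg one_ne_zero3]
      simp [this]
    rw [e0, e1, e2]; ring
  have hd1q := hd1.self_of_nhds
  have hd2q : pderiv 0 (pderiv 0 (aX s θ P)) q = deriv (deriv (bneg m s θ)) (q 0) := by
    rw [pderiv_congr hd1]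
    have hdd : DifferentiableAt ℝ (deriv (bneg m s θ)) (q 0) := by
      have : ContDiff ℝ ∞ (deriv (bneg m s θ)) := (contDiff_infty_iff_deriv.1 hbs).2
      exact this.contDiffAt.differentiableAt (by norm_num)
    rw [pderiv_add (differentiableAt_const _) (hasFDerivAt_comp_zero hdd).differentiableAt,
      pderiv_comp_zero hdd]
    simp
  have hne : (0 : Fin (m + 3)) ≠ 1 := fun h => one_ne_zero3 h.symm
  have hx0 : fderiv ℝ (Psi 1) q (EuclideanSpace.single 0 1) = Psi 1 q := fderiv_Psi_bv_zero 1 hq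
  have hgq : gpull 1 s θ P q = diagMetric (aa s θ P) q := hev.self_of_nhds
  -- transfer of the two quantities to the diagonal metric
  have hgram := hpull.gramDet_pull hq (EuclideanSpace.single 0 1) (EuclideanSpace.single 1 1)
  have hsec := hpull.secNumer_pull hq (EuclideanSpace.single 0 1) (EuclideanSpace.single 1 1)
  rw [hx0] at hgram hsec
  rw [← hgram, ← hsec]
  constructor
  · have : gramDet (gpull 1 s θ P) q (EuclideanSpace.single 0 1) (EuclideanSpace.single 1 1)
        = gramDet (diagMetric (aa s θ P)) q (EuclideanSpace.single 0 1)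
          (EuclideanSpace.single 1 1) := by
      rw [Tens.gramDet_eq, Tens.gramDet_eq, hgq]
    rw [this]
    exact gramDet_diag q hne
  · have hsecD : secNumer (gpull 1 s θ P) q (EuclideanSpace.single 0 1) (EuclideanSpace.single 1 1)
        = secNumer (diagMetric (aa s θ P)) q (EuclideanSpace.single 0 1)
          (EuclideanSpace.single 1 1) := Tens.secNumer_congr hev _ _
    rw [hsecD, secNumer_diag ha hne (aa_zero s θ P), aa_one, hd2q, hd1q]
    have hpos := Real.exp_pos (2 * aX s θ P q)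
    have : 0 < deriv (deriv (bneg m s θ)) (q 0) + (1 + deriv (bneg m s θ) (q 0)) ^ 2
        - (1 + deriv (bneg m s θ) (q 0)) := by
      nlinarith [sq_nonneg (deriv (bneg m s θ) (q 0))]
    have := mul_pos hpos this
    linarith

/-- Existence of radial planes of negative curvature at some radius between two times at which
`b + b'` increases. -/
theorem neg_radial {s θ : ℝ → ℝ} {P : ℝ → ℝ → ℂ → ℝ} {t0 X0 X1 : ℝ}
    (hF : Fam s θ P t0 X0 X1) (hR : IsRiemannianOn (gfam (m := m) s θ P) univ)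
    {t1 t2 : ℝ} (h12 : t1 < t2)
    (hb : bneg m s θ t1 + deriv (bneg m s θ) t1 < bneg m s θ t2 + deriv (bneg m s θ) t2) :
    ∃ x : EuclideanSpace ℝ (Fin (m + 3)), Real.exp t1 ≤ ‖x‖ ∧ ∃ w,
      0 < gramDet (gfam s θ P) x x w ∧ secNumer (gfam s θ P) x x w < 0 := by
  have hbs : ContDiff ℝ ∞ (bneg m s θ) := contDiff_bneg hF.smooth_s hF.smooth_θ hF.θ_pos
  have hbd : Differentiable ℝ (bneg m s θ) := hbs.differentiable (by norm_num)
  have hbs' : ContDiff ℝ ∞ (deriv (bneg m s θ)) := (contDiff_infty_iff_deriv.1 hbs).2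
  have hbdd : Differentiable ℝ (deriv (bneg m s θ)) := hbs'.differentiable (by norm_num)
  obtain ⟨t, ht, hts⟩ := exists_hasDerivAt_eq_slope
    (fun t => bneg m s θ t + deriv (bneg m s θ) t)
    (fun t => deriv (bneg m s θ) t + deriv (deriv (bneg m s θ)) t) h12
    ((hbd.add hbdd).continuous.continuousOn)
    (fun t _ => (hbd t).hasDerivAt.add (hbdd t).hasDerivAt)
  have hpos : 0 < deriv (deriv (bneg m s θ)) t + deriv (bneg m s θ) t := by
    rw [add_comm, hts]
    exact div_pos (by linarith) (by linarith [h12])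
  -- the point
  let q : EuclideanSpace ℝ (Fin (m + 3)) :=
    WithLp.toLp 2 (Fin.cons t (Fin.cons (X0 / 2) fun _ => 0))
  have q0 : q 0 = t := rfl
  have q1 : q 1 = X0 / 2 := rfl
  have hq : q ∈ VV m := by
    refine ⟨?_, ?_⟩
    · rw [q1]; linarith [hF.hX0]
    · rw [q1]; linarith [hF.hX0, hF.hX01, hF.hX1]
  have h := secNumer_gfam (m := m) hF hR hq (by rw [q1]; linarith [hF.hX0]) (by rw [q0]; exact hpos)
  refine ⟨Psi 1 q, ?_, _, h.1, h.2⟩
  rw [norm_Psi (by norm_num) hq, q0]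
  exact Real.exp_le_exp.2 ht.1.le

/-- The clause of S0309 about negatively curved planes containing the radial direction. -/
theorem neg_radial_seq {s θ : ℝ → ℝ} {P : ℝ → ℝ → ℂ → ℝ} {t0 X0 X1 : ℝ}
    (hF : Fam s θ P t0 X0 X1) (hR : IsRiemannianOn (gfam (m := m) s θ P) univ)
    (h : ∀ T : ℝ, ∃ t1 t2, T ≤ t1 ∧ t1 < t2 ∧
      bneg m s θ t1 + deriv (bneg m s θ) t1 < bneg m s θ t2 + deriv (bneg m s θ) t2) :
    ∃ p : ℕ → EuclideanSpace ℝ (Fin (m + 3)),
      Tendsto (fun j => ‖p j‖) atTop atTop ∧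
      ∀ j, ∃ w : EuclideanSpace ℝ (Fin (m + 3)),
        0 < gramDet (gfam s θ P) (p j) (p j) w ∧ secNumer (gfam s θ P) (p j) (p j) w < 0 := by
  have : ∀ j : ℕ, ∃ x : EuclideanSpace ℝ (Fin (m + 3)), (j : ℝ) ≤ ‖x‖ ∧ ∃ w,
      0 < gramDet (gfam s θ P) x x w ∧ secNumer (gfam s θ P) x x w < 0 := by
    intro j
    obtain ⟨t1, t2, hT, h12, hb⟩ := h j
    obtain ⟨x, hx, w, hw⟩ := neg_radial hF hR h12 hb
    refine ⟨x, ?_, w, hw⟩
    have h1 : (j : ℝ) ≤ Real.exp t1 := by
      have := Real.add_one_le_exp t1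
      linarith
    exact h1.trans hx
  choose p hp hw using this
  refine ⟨p, ?_, hw⟩
  exact tendsto_atTop_mono hp tendsto_natCast_atTop_atTop

end

end Crest.Agent.R202.Geo
end

-- ▼ part R202/GeoNegThm
section

/-!
Row 202, part D (helper248): the statement `NegThm` of `GeoFinal`.
-/

set_option autoImplicit false

open Set Filter Topology
open Crest.GeometryTopology.CoordMetric Crest.GeometryTopology.ChartCurvature

namespace Crest.Agent.R202.Geo

theorem negThm (m : ℕ) : NegThm m := by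
  intro s θ P t0 X0 X1 hF h
  exact neg_radial_seq hF hF.radialMetric.riem h

end Crest.Agent.R202.Geo
end

-- ▼ part R202/SchGeo

/-!
Row 202 (helper523): the scheduled metrics satisfy all geometric clauses (`sched_geoOut`).
-/

set_option autoImplicit false

open scoped ContDiff
open Set Filter Topology
open Crest.GeometryTopology.CoordMetric

namespace Crest.Agent.R202.Sch

open Geo

/-- the hypothesis of `NegThm` from: `s → sI`, all rates `→ 0`, and `log θ` drops by `η`
arbitrarily late -/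
theorem neg_hyp {m : ℕ} {s θ : ℝ → ℝ} {K sI η : ℝ} (hη : 0 < η) (hK : 0 < K)
    (hθd : Differentiable ℝ θ) (hsd : Differentiable ℝ s)
    (hθ : ∀ t, K⁻¹ ≤ θ t) (hs : Tendsto s atTop (𝓝 sI)) (hs' : Tendsto (deriv s) atTop (𝓝 0))
    (hθ' : Tendsto (deriv θ) atTop (𝓝 0))
    (hm : ∀ T : ℝ, ∃ t1 t2, T ≤ t1 ∧ t1 < t2 ∧ Real.log (θ t2) + η ≤ Real.log (θ t1)) (T : ℝ) :
    ∃ t1 t2, T ≤ t1 ∧ t1 < t2 ∧
        (-(s t1) - Real.log (θ t1) / ((m : ℝ) + 2))
          + deriv (fun t => -(s t) - Real.log (θ t) / ((m : ℝ) + 2)) t1 <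
        (-(s t2) - Real.log (θ t2) / ((m : ℝ) + 2))
          + deriv (fun t => -(s t) - Real.log (θ t) / ((m : ℝ) + 2)) t2 := by
  have hKi : 0 < K⁻¹ := inv_pos.2 hK
  have hpos : ∀ t, 0 < θ t := fun t => hKi.trans_le (hθ t)
  have hM : (0 : ℝ) < (m : ℝ) + 2 := by positivity
  have hder : ∀ t, deriv (fun t => -(s t) - Real.log (θ t) / ((m : ℝ) + 2)) t
      = -(deriv s t) - (deriv θ t / θ t) / ((m : ℝ) + 2) := by
    intro t
    exact (((hsd t).hasDerivAt.neg).sub (((hθd t).hasDerivAt.log (hpos t).ne').div_const _)).deriv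
  set ε : ℝ := η / ((m : ℝ) + 2) / 8 with hε
  have hε0 : 0 < ε := by positivity
  have e1 : ∀ᶠ t in atTop, |s t - sI| < ε := by
    have := Metric.tendsto_nhds.1 hs ε hε0
    simpa [Real.dist_eq] using this
  have e2 : ∀ᶠ t in atTop, |deriv s t| < ε := by
    have := Metric.tendsto_nhds.1 hs' ε hε0
    simpa [Real.dist_eq] using this
  have e3 : ∀ᶠ t in atTop, |deriv θ t| < ε / K := by
    have := Metric.tendsto_nhds.1 hθ' (ε / K) (by positivity)
    simpa [Real.dist_eq] using this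
  obtain ⟨T0, hT0⟩ := eventually_atTop.1 (e1.and (e2.and e3))
  obtain ⟨t1, t2, h1, h2, h3⟩ := hm (max T T0)
  refine ⟨t1, t2, (le_max_left _ _).trans h1, h2, ?_⟩
  have b : ∀ t, T0 ≤ t → |s t - sI| < ε ∧ |deriv s t| < ε ∧ |deriv θ t / θ t| < ε := by
    intro t ht
    obtain ⟨a1, a2, a3⟩ := hT0 t ht
    refine ⟨a1, a2, ?_⟩
    rw [abs_div, abs_of_pos (hpos t), div_lt_iff₀ (hpos t)]
    calc |deriv θ t| < ε / K := a3
      _ = ε * K⁻¹ := div_eq_mul_inv _ _
      _ ≤ ε * θ t := mul_le_mul_of_nonneg_left (hθ t) hε0.le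
  obtain ⟨a1, a2, a3⟩ := b t1 ((le_max_right _ _).trans h1)
  obtain ⟨c1, c2, c3⟩ := b t2 (((le_max_right _ _).trans h1).trans h2.le)
  rw [hder, hder]
  have hdiv : ∀ r : ℝ, |r| < ε → |r / ((m : ℝ) + 2)| < ε := by
    intro r hr
    rw [abs_div, abs_of_pos hM, div_lt_iff₀ hM]
    have hm0 : (0 : ℝ) ≤ m := Nat.cast_nonneg m
    nlinarith
  have a4 := abs_lt.1 (hdiv _ a3)
  have c4 := abs_lt.1 (hdiv _ c3)
  have a1' := abs_lt.1 a1
  have a2' := abs_lt.1 a2
  have c1' := abs_lt.1 c1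
  have c2' := abs_lt.1 c2
  have h5 : (Real.log (θ t2) + η) / ((m : ℝ) + 2) ≤ Real.log (θ t1) / ((m : ℝ) + 2) :=
    div_le_div_of_nonneg_right h3 hM.le
  rw [add_div] at h5
  have h6 : η / ((m : ℝ) + 2) = 8 * ε := by rw [hε]; ring
  rw [h6] at h5
  linarith [a4.1, a4.2, c4.1, c4.2, a1'.1, a1'.2, a2'.1, a2'.2, c1'.1, c1'.2, c2'.1, c2'.2]

section

variable {y0 y1 Xa Xb X0 X1 : ℝ} {h : ℝ → ℝ}

/-- the scheduled `θ` -/
noncomputable abbrev thY {ι : Type*} (A : ℝ) (hp : Prof X0 X1 h) (hy0 : 1 ≤ y0)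
    (L : ι → YLoop y0 y1 Xa Xb) (j : ℕ → ι) (κ : ℕ → ℝ) : ℝ → ℝ :=
  thS A (yInst hp hy0) (fun q => (L (j q)).toLoop hp hy0) κ

/-- the scheduled `P` -/
noncomputable abbrev PY {ι : Type*} (A : ℝ) (hp : Prof X0 X1 h) (hy0 : 1 ≤ y0)
    (L : ι → YLoop y0 y1 Xa Xb) (j : ℕ → ι) (κ : ℕ → ℝ) : ℝ → ℝ → ℂ → ℝ :=
  PS A (yInst hp hy0) (fun q => (L (j q)).toLoop hp hy0) κ

/-- **All geometric clauses for the scheduled metrics.** -/
theorem sched_geoOut {m : ℕ} (hR : RicThm m) {μ v δ e : ℝ} (hμ : 0 < μ) (hv : 0 < v) (hv1 : v < 1)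
    (hδ : 0 < δ) (h0 : 0 < X0) (h0a : X0 < Xa) (hab : Xa ≤ Xb) (hb1 : Xb < X1) (h1 : X1 < 1)
    (hp : Prof X0 X1 h) (hy0 : 1 ≤ y0)
    (hnum : (1 + μ) * Real.exp (-2 * (-Real.log v / ((m : ℝ) + 2) - δ))
      * y1 ^ ((2 : ℝ) / ((m : ℝ) + 2)) ≤ 1 - e)
    {ι : Type*} [Finite ι] (L : ι → YLoop y0 y1 Xa Xb)
    (cT : ∀ y ∈ Icc 1 y0, ConeS m ((m + 1) * (1 - e)) y⁻¹ (Ptip h y)) (hy01 : y0 ≤ y1)
    (cL : ∀ i, ∀ τ ∈ Icc (0 : ℝ) 1, ∀ k ∈ Icc (-1 : ℝ) 1,
      ConeS m ((m + 1) * (1 - e)) ((L i).y τ)⁻¹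
        (fun X u => 1 + ((L i).y τ - 1) * h X + (L i).Gh τ k X u)) :
    ∃ K C : ℝ, 1 ≤ K ∧ 0 ≤ C ∧ ∃ A0 : ℝ, 1 ≤ A0 ∧ ∀ A : ℝ, A0 ≤ A →
      ∀ (j : ℕ → ι) (κ : ℕ → ℝ), (∀ q, κ q ∈ Icc (-1 : ℝ) 1) →
        (∀ N : ℕ, ∃ q, N ≤ q ∧ ∃ τ ∈ Icc (0 : ℝ) 1, y0 < (L (j q)).y τ) →
        Fam (sf (-Real.log v / ((m : ℝ) + 2))) (thY A hp hy0 L j κ) (PY A hp hy0 L j κ) 0 X0 X1 ∧
        (∀ t, RateAt (sf (-Real.log v / ((m : ℝ) + 2))) (thY A hp hy0 L j κ)
          (PY A hp hy0 L j κ) K (C / A) t) ∧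
        Main.GeoOut m v (gfam (sf (-Real.log v / ((m : ℝ) + 2))) (thY A hp hy0 L j κ)
          (PY A hp hy0 L j κ)) := by
  set sI : ℝ := -Real.log v / ((m : ℝ) + 2) with hsIdef
  have hM : (0 : ℝ) < (m : ℝ) + 2 := by positivity
  have hsI : 0 < sI := by
    rw [hsIdef]
    exact div_pos (neg_pos.2 (Real.log_neg hv hv1)) hM
  obtain ⟨K, C, hK, hC, H⟩ := exists_mainY (m := m) hμ.le hsI hδ h0 h0a hab hb1 h1 hp hy0 hnum L cT
    hy01 cL
  obtain ⟨c, hc, hc1, G⟩ := geoOut_of_phases hR (negThm m) hK hμ h0 h1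
  obtain ⟨A0, hA0, HA⟩ := H c hc
  refine ⟨K, C, hK, hC, A0, hA0, fun A hA j κ hκ hmove => ?_⟩
  have hApos : 0 < A := by linarith
  obtain ⟨hF, hrate, hdef, hround⟩ := HA A hA j κ hκ
  refine ⟨hF, hrate, ?_⟩
  refine G (sf sI) _ _ 0 0 v hF hv (fun t => ?_) (fun t ht => deriv_sf_pos hsI ht)
    (tendsto_sf hsI) ?_
  · rcases le_or_gt A t with ht | ht
    · exact Or.inl (hdef t ht)
    · exact Or.inr (hround t ht)
  -- the negative clause
  have hθ' : Tendsto (deriv (thY A hp hy0 L j κ)) atTop (𝓝 0) := by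
    have h2 : Tendsto (fun t => Real.sqrt (c * deriv (sf sI) t)) atTop (𝓝 0) := by
      have := ((tendsto_deriv_sf hsI).const_mul c).sqrt
      simpa using this
    rw [tendsto_zero_iff_abs_tendsto_zero]
    refine squeeze_zero' (Eventually.of_forall fun t => abs_nonneg _) ?_ h2
    filter_upwards [eventually_ge_atTop A] with t ht
    obtain ⟨ρ, hρ0, hρ, hr⟩ := (hdef t ht).rate
    exact hr.θ_t.trans (Real.le_sqrt_of_sq_le hρ)
  -- the drop of `log θ`
  classical
  have hfin : ∃ η : ℝ, 0 < η ∧ ∀ i : ι, (∃ τ ∈ Icc (0 : ℝ) 1, y0 < (L i).y τ) →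
      ∃ τ ∈ Icc (0 : ℝ) 1, Real.log y0 + η ≤ Real.log ((L i).y τ) := by
    have : ∀ i : ι, ∃ η : ℝ, 0 < η ∧ ((∃ τ ∈ Icc (0 : ℝ) 1, y0 < (L i).y τ) →
        ∃ τ ∈ Icc (0 : ℝ) 1, Real.log y0 + η ≤ Real.log ((L i).y τ)) := by
      intro i
      by_cases hi : ∃ τ ∈ Icc (0 : ℝ) 1, y0 < (L i).y τ
      · obtain ⟨τ, hτ, hy⟩ := hi
        refine ⟨Real.log ((L i).y τ) - Real.log y0,
          sub_pos.2 (Real.log_lt_log (by linarith) hy), fun _ => ⟨τ, hτ, by linarith⟩⟩
      · exact ⟨1, one_pos, fun hh => absurd hh hi⟩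
    choose η hη0 hη using this
    cases nonempty_fintype ι
    have hne : (insert (1 : ℝ) (Finset.univ.image η)).Nonempty := Finset.insert_nonempty _ _
    refine ⟨(insert (1 : ℝ) (Finset.univ.image η)).min' hne, ?_, fun i hi => ?_⟩
    · rw [Finset.lt_min'_iff]
      intro y hy
      rcases Finset.mem_insert.1 hy with rfl | hy
      · exact one_pos
      · obtain ⟨i, -, rfl⟩ := Finset.mem_image.1 hy
        exact hη0 i
    · obtain ⟨τ, hτ, hy⟩ := hη i hi
      refine ⟨τ, hτ, le_trans ?_ hy⟩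
      have := Finset.min'_le (insert (1 : ℝ) (Finset.univ.image η)) (η i)
        (Finset.mem_insert_of_mem (Finset.mem_image_of_mem _ (Finset.mem_univ i)))
      linarith
  obtain ⟨η, hη0, hη⟩ := hfin
  refine neg_hyp (K := K) hη0 (by linarith) (hF.smooth_θ.differentiable (by simp))
    (hF.smooth_s.differentiable (by simp)) (fun t => (hrate t).θ_low) (tendsto_sf hsI)
    (tendsto_deriv_sf hsI) hθ' ?_
  intro T
  obtain ⟨N, hN⟩ := ((tendsto_hs hApos).eventually_ge_atTop T).exists_forall_of_atTop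
  obtain ⟨q, hq, hmv⟩ := hmove N
  obtain ⟨τ, hτ, hlog⟩ := hη (j q) hmv
  have hTg := Tg_pos hApos q
  have hy0p : 0 < y0 := by linarith
  have hτ0 : 0 < τ := by
    rcases hτ.1.lt_or_eq with h3 | h3
    · exact h3
    · exfalso
      rw [← h3, (L (j q)).y_left 0 le_rfl] at hlog
      linarith
  have hle : τ * Tg A q ≤ Tg A q := by
    have := mul_le_mul_of_nonneg_right hτ.2 hTg.le
    linarith
  refine ⟨he A q, he A q + τ * Tg A q, ?_, ?_, ?_⟩
  · exact (hN q hq).trans (hs_lt_he hApos q).le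
  · have := mul_pos hτ0 hTg
    linarith
  · have g1 : thY A hp hy0 L j κ (he A q) = y0⁻¹ :=
      thS_home _ _ _ hApos (hs_lt_he hApos q).le le_rfl
    have hup : he A q + τ * Tg A q ≤ he A (q + 1) := by
      have h4 := hs_lt_he hApos (q + 1)
      rw [hs_succ] at h4
      linarith
    have hlo : hs A q ≤ he A q + τ * Tg A q := by
      have := mul_pos hτ0 hTg
      linarith [hs_lt_he hApos q]
    have g2 : thY A hp hy0 L j κ (he A q + τ * Tg A q) = ((L (j q)).y τ)⁻¹ := by
      rw [thY, thS_gate _ _ _ hApos hlo hup]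
      have : (he A q + τ * Tg A q - he A q) / Tg A q = τ := by
        field_simp
        ring
      rw [this]
      rfl
    rw [g1, g2, Real.log_inv, Real.log_inv]
    linarith

end

end Crest.Agent.R202.Sch
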