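import Mathlib
import Crest.Agent.R202.GeoHyp
import Crest.Agent.R202.SchY
import Crest.Agent.R202.CThmDef

-- ▼ part R202/Prof1
section

/-!
Row 202, node PROFILE (P3), file 1: the tip profile `h`.
(helper912)
-/

set_option autoImplicit false
open scoped ContDiff Topology
open Set Filter

namespace Crest.Agent.R202.Prof

noncomputable section

/-- the smooth step -/
def S (x : ℝ) : ℝ := Real.smoothTransition x

theorem S_smooth : ContDiff ℝ ∞ S := Real.smoothTransition.contDiff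

theorem S_nonneg (x : ℝ) : 0 ≤ S x := Real.smoothTransition.nonneg x

theorem S_le_one (x : ℝ) : S x ≤ 1 := Real.smoothTransition.le_one x

theorem S_zero {x : ℝ} (h : x ≤ 0) : S x = 0 := Real.smoothTransition.zero_of_nonpos h

theorem S_one {x : ℝ} (h : 1 ≤ x) : S x = 1 := Real.smoothTransition.one_of_one_le h

theorem S_mono : Monotone S := Real.smoothTransition.monotone

theorem S_diff : Differentiable ℝ S := S_smooth.differentiable (by simp)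

/-- its primitive -/
def N (x : ℝ) : ℝ := ∫ t in (0 : ℝ)..x, S t

theorem N_hasDeriv (x : ℝ) : HasDerivAt N (S x) x :=
  intervalIntegral.integral_hasDerivAt_right (S_smooth.continuous.intervalIntegrable _ _)
    (S_smooth.continuous.stronglyMeasurableAtFilter _ _) S_smooth.continuous.continuousAt

theorem N_deriv : deriv N = S := funext fun x => (N_hasDeriv x).deriv

theorem N_diff : Differentiable ℝ N := fun x => (N_hasDeriv x).differentiableAt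

theorem N_smooth : ContDiff ℝ ∞ N := by
  rw [contDiff_infty_iff_deriv]
  exact ⟨N_diff, by rw [N_deriv]; exact S_smooth⟩

theorem N_zero {x : ℝ} (h : x ≤ 0) : N x = 0 := by
  rw [N, intervalIntegral.integral_congr (g := fun _ => (0 : ℝ))]
  · simp
  · intro t ht
    rw [uIcc_of_ge h] at ht
    exact S_zero ht.2

theorem N_mono : Monotone N :=
  monotone_of_deriv_nonneg N_diff fun x => by rw [N_deriv]; exact S_nonneg x

theorem N_nonneg (x : ℝ) : 0 ≤ N x := by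
  rcases le_total x 0 with h | h
  · rw [N_zero h]
  · have := N_mono h
    rwa [N_zero le_rfl] at this

/-- `x - N x` is nondecreasing. -/
theorem sub_N_mono : Monotone (fun x => x - N x) := by
  refine monotone_of_deriv_nonneg (differentiable_id.sub N_diff) fun x => ?_
  have : HasDerivAt (fun x => x - N x) (1 - S x) x := (hasDerivAt_id x).sub (N_hasDeriv x)
  rw [this.deriv]
  linarith [S_le_one x]

theorem N_le {x : ℝ} (h : 0 ≤ x) : N x ≤ x := by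
  have := sub_N_mono h
  simp only [N_zero le_rfl] at this
  linarith

/-- the shift -/
def c0 : ℝ := 1 - N 1

theorem c0_nonneg : 0 ≤ c0 := by
  have := N_le (zero_le_one' ℝ); unfold c0; linarith

theorem c0_le_one : c0 ≤ 1 := by
  have := N_nonneg 1; unfold c0; linarith

theorem N_one {x : ℝ} (h : 1 ≤ x) : N x = x - c0 := by
  have h1 : N x - N 1 = ∫ t in (1 : ℝ)..x, S t := by
    rw [N, N, intervalIntegral.integral_interval_sub_left
      (S_smooth.continuous.intervalIntegrable _ _) (S_smooth.continuous.intervalIntegrable _ _)]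
  have h2 : ∫ t in (1 : ℝ)..x, S t = ∫ t in (1 : ℝ)..x, (1 : ℝ) := by
    apply intervalIntegral.integral_congr
    intro t ht
    rw [uIcc_of_le h] at ht
    exact S_one ht.1
  rw [h2] at h1
  simp at h1
  unfold c0; linarith

theorem le_N (x : ℝ) : x - c0 ≤ N x := by
  rcases le_total 1 x with h | h
  · rw [N_one h]
  · have := sub_N_mono h
    simp only at this
    unfold c0; linarith

/-- cut-off function of the profile -/
def a0 (X0 : ℝ) (X : ℝ) : ℝ := S ((X - X0) / ((1 - X0) / 2))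

/-- the function `w` = smooth minimum of `ε a0` and `1 - X²` -/
def wf (X0 ε : ℝ) (X : ℝ) : ℝ :=
  ε * a0 X0 X - ε / 4 * N ((ε * a0 X0 X - (1 - X ^ 2)) / (ε / 4) + c0)

theorem a0_smooth (X0 : ℝ) : ContDiff ℝ ∞ (a0 X0) :=
  S_smooth.comp ((contDiff_id.sub contDiff_const).div_const _)

theorem wf_smooth (X0 ε : ℝ) : ContDiff ℝ ∞ (wf X0 ε) := by
  have ha := a0_smooth X0
  unfold wf
  refine (contDiff_const.mul ha).sub (contDiff_const.mul (N_smooth.comp ?_))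
  exact (((contDiff_const.mul ha).sub (contDiff_const.sub (contDiff_id.pow 2))).div_const _).add
    contDiff_const

section

variable {X0 ε : ℝ}

theorem a0_zero (h0 : X0 < 1) {X : ℝ} (h : X ≤ X0) : a0 X0 X = 0 :=
  S_zero (div_nonpos_of_nonpos_of_nonneg (by linarith) (by linarith))

theorem a0_one (h0 : X0 < 1) {X : ℝ} (h : (1 + X0) / 2 ≤ X) : a0 X0 X = 1 := by
  apply S_one
  rw [le_div_iff₀ (by linarith)]; linarith

theorem a0_nonneg (X : ℝ) : 0 ≤ a0 X0 X := S_nonneg _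

theorem a0_le_one (X : ℝ) : a0 X0 X ≤ 1 := S_le_one _

theorem a0_mono (h0 : X0 < 1) : Monotone (a0 X0) := by
  intro x y h
  apply S_mono
  have : 0 < (1 - X0) / 2 := by linarith
  gcongr

/-- the argument of `N` -/
def sf (X0 ε : ℝ) (X : ℝ) : ℝ := (ε * a0 X0 X - (1 - X ^ 2)) / (ε / 4) + c0

theorem wf_eq (X : ℝ) : wf X0 ε X = ε * a0 X0 X - ε / 4 * N (sf X0 ε X) := rfl

theorem wf_low (_hX0 : 0 < X0) (_h0 : X0 < 1) (hε : 0 < ε)
    (hε0 : ε ≤ (1 - ((1 + X0) / 2) ^ 2) / 2) {X : ℝ} (h1 : -((1 + X0) / 2) ≤ X)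
    (h2 : X ≤ (1 + X0) / 2) : wf X0 ε X = ε * a0 X0 X := by
  have h3 : X ^ 2 ≤ ((1 + X0) / 2) ^ 2 := by
    apply sq_le_sq'
    · exact h1
    · exact h2
  have h4 : sf X0 ε X ≤ 0 := by
    have h5 : ε * a0 X0 X ≤ ε := mul_le_of_le_one_right hε.le (a0_le_one X)
    have h6 : (ε * a0 X0 X - (1 - X ^ 2)) / (ε / 4) ≤ -4 := by
      rw [div_le_iff₀ (by linarith)]; linarith
    have := c0_le_one
    unfold sf; linarith
  rw [wf_eq, N_zero h4]; ring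

theorem wf_high (_hX0 : 0 < X0) (h0 : X0 < 1) (hε : 0 < ε)
    (hε0 : ε ≤ (1 - ((1 + X0) / 2) ^ 2) / 2) {X : ℝ} (h1 : 0 ≤ X)
    (h2 : 1 - 3 * ε / 4 ≤ X ^ 2) : wf X0 ε X = 1 - X ^ 2 := by
  have h3 : (1 + X0) / 2 ≤ X := by
    apply le_of_sq_le_sq _ h1
    · exact (by nlinarith : ((1 + X0) / 2) ^ 2 ≤ X ^ 2)
  have ha := a0_one h0 h3
  have h4 : 1 ≤ sf X0 ε X := by
    have h6 : 1 ≤ (ε * a0 X0 X - (1 - X ^ 2)) / (ε / 4) := by
      rw [le_div_iff₀ (by linarith), ha]; linarith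
    have := c0_nonneg
    unfold sf; linarith
  rw [wf_eq, N_one h4, sf, ha]
  field_simp
  ring

theorem wf_le_sq (hε : 0 < ε) (X : ℝ) : wf X0 ε X ≤ 1 - X ^ 2 := by
  rw [wf_eq]
  have h1 := le_N (sf X0 ε X)
  have h2 : ε / 4 * ((ε * a0 X0 X - (1 - X ^ 2)) / (ε / 4)) = ε * a0 X0 X - (1 - X ^ 2) := by
    field_simp
  have h3 : sf X0 ε X - c0 = (ε * a0 X0 X - (1 - X ^ 2)) / (ε / 4) := by unfold sf; ring
  rw [h3] at h1
  have h4 := mul_le_mul_of_nonneg_left h1 (by linarith : 0 ≤ ε / 4)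
  linarith

theorem wf_le_a0 (hε : 0 < ε) (X : ℝ) : wf X0 ε X ≤ ε * a0 X0 X := by
  rw [wf_eq]
  have := N_nonneg (sf X0 ε X)
  have : 0 ≤ ε / 4 * N (sf X0 ε X) := by positivity
  linarith

theorem wf_nonneg (hX0 : 0 < X0) (h0 : X0 < 1) (hε : 0 < ε)
    (hε0 : ε ≤ (1 - ((1 + X0) / 2) ^ 2) / 2) {X : ℝ} (h1 : 0 ≤ X) (h2 : X ≤ 1) :
    0 ≤ wf X0 ε X := by
  rcases le_total X ((1 + X0) / 2) with h | h
  · rw [wf_low hX0 h0 hε hε0 (by linarith) h]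
    exact mul_nonneg hε.le (a0_nonneg X)
  · rcases le_total (1 - 3 * ε / 4) (X ^ 2) with h3 | h3
    · rw [wf_high hX0 h0 hε hε0 h1 h3]; nlinarith
    · have ha := a0_one h0 h
      rcases le_total (sf X0 ε X) 0 with h4 | h4
      · rw [wf_eq, N_zero h4, ha]; linarith
      · have h5 := N_le h4
        have h6 : ε / 4 * sf X0 ε X = ε - (1 - X ^ 2) + ε / 4 * c0 := by
          unfold sf; rw [ha]; field_simp
        have h7 := mul_le_mul_of_nonneg_left h5 (by linarith : 0 ≤ ε / 4)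
        have h8 := c0_le_one
        rw [wf_eq, ha]
        nlinarith

/-- derivative of `a0` -/
def a1 (X0 : ℝ) : ℝ → ℝ := deriv (a0 X0)
/-- second derivative of `a0` -/
def a2 (X0 : ℝ) : ℝ → ℝ := deriv (a1 X0)

theorem a0_hasDeriv (X0 X : ℝ) : HasDerivAt (a0 X0) (a1 X0 X) X :=
  ((a0_smooth X0).differentiable (by simp) X).hasDerivAt

theorem a1_smooth (X0 : ℝ) : ContDiff ℝ ∞ (a1 X0) :=
  ((contDiff_infty_iff_deriv.1 (a0_smooth X0)).2)

theorem a2_smooth (X0 : ℝ) : ContDiff ℝ ∞ (a2 X0) :=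
  ((contDiff_infty_iff_deriv.1 (a1_smooth X0)).2)

theorem a1_hasDeriv (X0 X : ℝ) : HasDerivAt (a1 X0) (a2 X0 X) X :=
  ((a1_smooth X0).differentiable (by simp) X).hasDerivAt

theorem a1_nonneg (h0 : X0 < 1) (X : ℝ) : 0 ≤ a1 X0 X := (a0_mono h0).deriv_nonneg

theorem a1_zero (h0 : X0 < 1) {X : ℝ} (h : X ≤ X0) : a1 X0 X = 0 := by
  -- `a1` vanishes for `X < X0` and is continuous
  have h1 : ∀ X < X0, a1 X0 X = 0 := by
    intro X hX
    have h2 : a0 X0 =ᶠ[𝓝 X] fun _ => 0 := by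
      filter_upwards [Iio_mem_nhds hX] with y hy using a0_zero h0 (le_of_lt hy)
    unfold a1
    rw [h2.deriv_eq]; simp
  rcases h.lt_or_eq with h | h
  · exact h1 X h
  · subst h
    have hc : ContinuousWithinAt (a1 X) (Iio X) X := (a1_smooth X).continuous.continuousWithinAt
    have h2 : Tendsto (a1 X) (𝓝[<] X) (𝓝 0) :=
      tendsto_const_nhds.congr' (by
        filter_upwards [self_mem_nhdsWithin] with y hy using (h1 y hy).symm)
    exact tendsto_nhds_unique hc h2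

theorem sf_hasDeriv (_hε : 0 < ε) (X : ℝ) :
    HasDerivAt (sf X0 ε) ((ε * a1 X0 X + 2 * X) / (ε / 4)) X := by
  unfold sf
  have h1 : HasDerivAt (fun X => ε * a0 X0 X - (1 - X ^ 2)) (ε * a1 X0 X + 2 * X) X := by
    have h2 : HasDerivAt (fun X : ℝ => 1 - X ^ 2) (-(2 * X)) X := by
      have := ((hasDerivAt_id X).pow 2).const_sub 1
      simpa using this
    have := ((a0_hasDeriv X0 X).const_mul ε).fun_sub h2
    simpa using this
  exact (h1.div_const _).add_const _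

/-- first derivative of `wf` -/
def w1 (X0 ε X : ℝ) : ℝ := ε * a1 X0 X - S (sf X0 ε X) * (ε * a1 X0 X + 2 * X)

theorem wf_hasDeriv (hε : 0 < ε) (X : ℝ) : HasDerivAt (wf X0 ε) (w1 X0 ε X) X := by
  have h1 := ((N_hasDeriv (sf X0 ε X)).comp X (sf_hasDeriv (X0 := X0) hε X)).const_mul (ε / 4)
  have h2 := ((a0_hasDeriv X0 X).const_mul ε).sub h1
  have h3 : ε * a1 X0 X - ε / 4 * (S (sf X0 ε X) * ((ε * a1 X0 X + 2 * X) / (ε / 4)))
      = w1 X0 ε X := by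
    unfold w1; field_simp
  rw [h3] at h2
  exact h2

theorem w1_le (h0 : X0 < 1) (hε : 0 < ε) {X : ℝ} (hX : 0 ≤ X) : w1 X0 ε X ≤ ε * a1 X0 X := by
  unfold w1
  have h1 := S_nonneg (sf X0 ε X)
  have h2 := a1_nonneg h0 X
  have : 0 ≤ S (sf X0 ε X) * (ε * a1 X0 X + 2 * X) := by positivity
  linarith

/-- second derivative of `wf` -/
def w2 (X0 ε X : ℝ) : ℝ := ε * a2 X0 X
  - (deriv S (sf X0 ε X) * ((ε * a1 X0 X + 2 * X) / (ε / 4)) * (ε * a1 X0 X + 2 * X)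
    + S (sf X0 ε X) * (ε * a2 X0 X + 2))

theorem w1_hasDeriv (hε : 0 < ε) (X : ℝ) : HasDerivAt (w1 X0 ε) (w2 X0 ε X) X := by
  unfold w1
  have h1 : HasDerivAt (fun X => S (sf X0 ε X))
      (deriv S (sf X0 ε X) * ((ε * a1 X0 X + 2 * X) / (ε / 4))) X :=
    (S_diff (sf X0 ε X)).hasDerivAt.comp X (sf_hasDeriv (X0 := X0) hε X)
  have h2 : HasDerivAt (fun X => ε * a1 X0 X + 2 * X) (ε * a2 X0 X + 2) X := by
    have := ((a1_hasDeriv X0 X).const_mul ε).fun_add ((hasDerivAt_id X).const_mul 2)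
    simpa using this
  exact ((a1_hasDeriv X0 X).const_mul ε).sub (h1.mul h2)

theorem w2_le (hε : 0 < ε) (X : ℝ) : w2 X0 ε X ≤ ε * |a2 X0 X| := by
  unfold w2
  have h1 : 0 ≤ deriv S (sf X0 ε X) * ((ε * a1 X0 X + 2 * X) / (ε / 4)) * (ε * a1 X0 X + 2 * X) := by
    have h3 : 0 ≤ deriv S (sf X0 ε X) := S_mono.deriv_nonneg
    have h4 : deriv S (sf X0 ε X) * ((ε * a1 X0 X + 2 * X) / (ε / 4)) * (ε * a1 X0 X + 2 * X)
        = deriv S (sf X0 ε X) * ((ε * a1 X0 X + 2 * X) ^ 2 / (ε / 4)) := by ring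
    rw [h4]; positivity
  have h2 := S_nonneg (sf X0 ε X)
  have h3 := S_le_one (sf X0 ε X)
  have h4 := le_abs_self (a2 X0 X)
  have h5 : (1 - S (sf X0 ε X)) * (ε * a2 X0 X) ≤ ε * |a2 X0 X| := by
    calc (1 - S (sf X0 ε X)) * (ε * a2 X0 X) ≤ (1 - S (sf X0 ε X)) * (ε * |a2 X0 X|) := by
          apply mul_le_mul_of_nonneg_left _ (by linarith)
          exact mul_le_mul_of_nonneg_left h4 hε.le
      _ ≤ 1 * (ε * |a2 X0 X|) := by
          apply mul_le_mul_of_nonneg_right (by linarith) (by positivity)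
      _ = _ := one_mul _
  nlinarith

/-! ### the profile -/

/-- the profile `h` with upper end `X1` -/
def hf (X0 ε X1 : ℝ) (X : ℝ) : ℝ :=
  if X ≤ X0 then 0 else if X1 ≤ X then 1 else wf X0 ε X / (1 - X ^ 2)

set_option maxHeartbeats 1000000 in
theorem exists_profile {X0 : ℝ} (hX0 : 0 < X0) (h01 : X0 < 1) :
    ∃ C > 0, ∃ ε0 > 0, ∀ ε : ℝ, 0 < ε → ε ≤ ε0 →
      ∃ (h : ℝ → ℝ) (X1 : ℝ), X0 < X1 ∧ X1 < 1 ∧ 1 - ε ≤ X1 ^ 2 ∧ ContDiff ℝ ∞ h ∧
        (∀ X ≤ X0, h X = 0) ∧ (∀ X, X1 ≤ X → h X = 1) ∧ (∀ X, 0 ≤ h X) ∧ (∀ X, h X ≤ 1) ∧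
        (∀ X, 0 ≤ X → X ≤ 1 → (1 - X ^ 2) * h X ≤ ε) ∧
        (∀ X, 0 ≤ X → X ≤ 1 → (1 - X ^ 2) * h X ≤ C * ε * X ^ 2) ∧
        (∀ X, 0 ≤ X → X ≤ 1 → deriv (fun X => (1 - X ^ 2) * h X) X ≤ C * ε * X) ∧
        (∀ X, 0 ≤ X → X ≤ 1 → deriv (deriv (fun X => (1 - X ^ 2) * h X)) X ≤ C * ε) := by
  -- bounds on the derivatives of `a0`
  obtain ⟨A1, hA1⟩ := (isCompact_Icc (a := (0 : ℝ)) (b := 1)).exists_bound_of_continuousOn
    (a1_smooth X0).continuous.continuousOn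
  obtain ⟨A2, hA2⟩ := (isCompact_Icc (a := (0 : ℝ)) (b := 1)).exists_bound_of_continuousOn
    (a2_smooth X0).continuous.continuousOn
  have hA1' : 0 ≤ A1 := (norm_nonneg _).trans (hA1 0 (by simp))
  have hA2' : 0 ≤ A2 := (norm_nonneg _).trans (hA2 0 (by simp))
  obtain ⟨C, hCpos, hC1, hC2, hC3⟩ : ∃ C : ℝ, 0 < C ∧ 1 ≤ C * X0 ^ 2 ∧ A1 ≤ C * X0 ∧ A2 ≤ C := by
    have e1 : 0 ≤ 1 / X0 ^ 2 := by positivity
    have e2 : 0 ≤ A1 / X0 := by positivity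
    refine ⟨1 / X0 ^ 2 + A1 / X0 + A2, by positivity, ?_, ?_, by linarith⟩
    · calc (1 : ℝ) = 1 / X0 ^ 2 * X0 ^ 2 := by field_simp
        _ ≤ _ := by
          apply mul_le_mul_of_nonneg_right _ (by positivity)
          linarith
    · calc A1 = A1 / X0 * X0 := by field_simp
        _ ≤ _ := by
          apply mul_le_mul_of_nonneg_right _ hX0.le
          linarith
  have hXm : ((1 + X0) / 2) ^ 2 < 1 := by nlinarith
  refine ⟨C, hCpos, (1 - ((1 + X0) / 2) ^ 2) / 2, by linarith, ?_⟩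
  intro ε hε hε0
  set X1 : ℝ := Real.sqrt (1 - ε / 2) with hX1def
  have hε1 : ε < 1 := by
    have : 0 < ((1 + X0) / 2) ^ 2 := by positivity
    linarith
  have hX1sq : X1 ^ 2 = 1 - ε / 2 := Real.sq_sqrt (by linarith)
  have hX1pos : 0 < X1 := Real.sqrt_pos.2 (by linarith)
  have hX1lt : X1 < 1 := by
    by_contra hcon
    push Not at hcon
    nlinarith
  have hXmX1 : (1 + X0) / 2 < X1 := by
    apply lt_of_pow_lt_pow_left₀ 2 hX1pos.le
    rw [hX1sq]; linarith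
  have hX0X1 : X0 < X1 := by linarith
  -- the profile equals `wf / (1 - X²)` on `(0, 1)`
  have hmid : ∀ X, 0 < X → X < 1 → hf X0 ε X1 X = wf X0 ε X / (1 - X ^ 2) := by
    intro X hX hX'
    unfold hf
    split_ifs with h1 h2
    · rw [wf_low hX0 h01 hε hε0 (by linarith) (by linarith), a0_zero h01 h1]; simp
    · rw [wf_high hX0 h01 hε hε0 hX.le (by nlinarith)]
      rw [div_self]; nlinarith
    · rfl
  have hhigh : ∀ X, Real.sqrt (1 - 3 * ε / 4) ≤ X → hf X0 ε X1 X = 1 := by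
    intro X hX
    have h0 : (0 : ℝ) < Real.sqrt (1 - 3 * ε / 4) := Real.sqrt_pos.2 (by linarith)
    have h1 : Real.sqrt (1 - 3 * ε / 4) ^ 2 = 1 - 3 * ε / 4 := Real.sq_sqrt (by linarith)
    rcases lt_or_ge X 1 with h2 | h2
    · rw [hmid X (by linarith) h2, wf_high hX0 h01 hε hε0 (by linarith) (by
        rw [← h1]; exact pow_le_pow_left₀ h0.le hX 2)]
      rw [div_self]; nlinarith
    · unfold hf
      rw [if_neg (by linarith), if_pos (by linarith)]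
  have hlow : ∀ X ≤ X0, hf X0 ε X1 X = 0 := fun X hX => by unfold hf; rw [if_pos hX]
  have hX1' : Real.sqrt (1 - 3 * ε / 4) < X1 := Real.sqrt_lt_sqrt (by linarith) (by linarith)
  -- smoothness
  have hsm : ContDiff ℝ ∞ (hf X0 ε X1) := by
    rw [contDiff_iff_contDiffAt]
    intro X
    rcases lt_or_ge X X0 with h1 | h1
    · have : hf X0 ε X1 =ᶠ[𝓝 X] fun _ => 0 := by
        filter_upwards [Iio_mem_nhds h1] with y hy using hlow y (le_of_lt hy)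
      exact contDiffAt_const.congr_of_eventuallyEq this
    · rcases lt_or_ge X X1 with h2 | h2
      · have h3 : hf X0 ε X1 =ᶠ[𝓝 X] fun y => wf X0 ε y / (1 - y ^ 2) := by
          filter_upwards [Ioo_mem_nhds (show 0 < X by linarith) (show X < 1 by linarith)]
            with y hy using hmid y hy.1 hy.2
        refine ContDiffAt.congr_of_eventuallyEq ?_ h3
        refine (wf_smooth X0 ε).contDiffAt.div
          (contDiffAt_const.sub (contDiffAt_id.pow 2)) ?_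
        nlinarith
      · have : hf X0 ε X1 =ᶠ[𝓝 X] fun _ => 1 := by
          filter_upwards [Ioi_mem_nhds (show Real.sqrt (1 - 3 * ε / 4) < X by linarith)]
            with y hy using hhigh y (le_of_lt hy)
        exact contDiffAt_const.congr_of_eventuallyEq this
  -- the product with `1 - X²`
  have hprod : ∀ X, -X0 < X → (1 - X ^ 2) * hf X0 ε X1 X = wf X0 ε X := by
    intro X hX
    rcases le_or_gt X X0 with h1 | h1
    · rw [hlow X h1, wf_low hX0 h01 hε hε0 (by linarith) (by linarith), a0_zero h01 h1]; simp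
    · rcases lt_or_ge X 1 with h2 | h2
      · rw [hmid X (by linarith) h2, mul_div_cancel₀]
        nlinarith
      · rw [hhigh X (by linarith), wf_high hX0 h01 hε hε0 (by linarith) (by nlinarith)]
        ring
  have hder : ∀ X, -X0 < X → deriv (fun X => (1 - X ^ 2) * hf X0 ε X1 X) X = w1 X0 ε X := by
    intro X hX
    have h1 : (fun X => (1 - X ^ 2) * hf X0 ε X1 X) =ᶠ[𝓝 X] wf X0 ε := by
      filter_upwards [Ioi_mem_nhds hX] with y hy using hprod y hy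
    rw [h1.deriv_eq, (wf_hasDeriv hε X).deriv]
  have hder2 : ∀ X, -X0 < X →
      deriv (deriv (fun X => (1 - X ^ 2) * hf X0 ε X1 X)) X = w2 X0 ε X := by
    intro X hX
    have h1 : deriv (fun X => (1 - X ^ 2) * hf X0 ε X1 X) =ᶠ[𝓝 X] w1 X0 ε := by
      filter_upwards [Ioi_mem_nhds hX] with y hy using hder y hy
    rw [h1.deriv_eq, (w1_hasDeriv hε X).deriv]
  refine ⟨hf X0 ε X1, X1, hX0X1, hX1lt, by rw [hX1sq]; linarith, hsm, hlow,
    fun X hX => hhigh X (by linarith), ?_, ?_, ?_, ?_, ?_, ?_⟩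
  · intro X
    rcases le_or_gt X X0 with h1 | h1
    · rw [hlow X h1]
    · rcases lt_or_ge X 1 with h2 | h2
      · rw [hmid X (by linarith) h2]
        apply div_nonneg (wf_nonneg hX0 h01 hε hε0 (by linarith) h2.le)
        nlinarith
      · rw [hhigh X (by linarith)]; exact zero_le_one
  · intro X
    rcases le_or_gt X X0 with h1 | h1
    · rw [hlow X h1]; exact zero_le_one
    · rcases lt_or_ge X 1 with h2 | h2
      · rw [hmid X (by linarith) h2]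
        rw [div_le_one (by nlinarith)]
        exact wf_le_sq hε X
      · rw [hhigh X (by linarith)]
  · intro X h1 _
    rw [hprod X (by linarith)]
    refine (wf_le_a0 hε X).trans (mul_le_of_le_one_right hε.le (a0_le_one X))
  · intro X h1 _
    rw [hprod X (by linarith)]
    refine (wf_le_a0 hε X).trans ?_
    rcases le_or_gt X X0 with h2 | h2
    · rw [a0_zero h01 h2, mul_zero]; positivity
    · have h3 : ε * a0 X0 X ≤ ε := mul_le_of_le_one_right hε.le (a0_le_one X)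
      have h4 : 1 ≤ C * X ^ 2 := by
        refine hC1.trans ?_
        exact mul_le_mul_of_nonneg_left (pow_le_pow_left₀ hX0.le h2.le 2) hCpos.le
      calc ε * a0 X0 X ≤ ε * 1 := by rw [mul_one]; exact h3
        _ ≤ ε * (C * X ^ 2) := mul_le_mul_of_nonneg_left h4 hε.le
        _ = C * ε * X ^ 2 := by ring
  · intro X h1 h1'
    rw [hder X (by linarith)]
    refine (w1_le h01 hε h1).trans ?_
    rcases le_or_gt X X0 with h2 | h2
    · rw [a1_zero h01 h2, mul_zero]; positivity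
    · have h3 : a1 X0 X ≤ A1 := (le_abs_self _).trans (hA1 X ⟨h1, h1'⟩)
      have h4 : A1 ≤ C * X := hC2.trans (mul_le_mul_of_nonneg_left h2.le hCpos.le)
      calc ε * a1 X0 X ≤ ε * (C * X) := mul_le_mul_of_nonneg_left (h3.trans h4) hε.le
        _ = C * ε * X := by ring
  · intro X h1 h1'
    rw [hder2 X (by linarith)]
    refine (w2_le hε X).trans ?_
    have h3 : |a2 X0 X| ≤ A2 := hA2 X ⟨h1, h1'⟩
    calc ε * |a2 X0 X| ≤ ε * C := mul_le_mul_of_nonneg_left (h3.trans hC3) hε.le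
      _ = C * ε := by ring

end

end

end Crest.Agent.R202.Prof
end

-- ▼ part R202/Prof2
section

/-!
Row 202, node PROFILE (P3), file 2: the cone conditions for `P = 1 + (b - 1) h + G`.
(helper912)
-/

set_option autoImplicit false
open scoped ContDiff Topology
open Set Filter
open Crest.Agent.R202.Geo

namespace Crest.Agent.R202.Prof

noncomputable section

/-- What the tip profile satisfies (output of `exists_profile`). -/
structure IsProfile (X0 C ε X1 : ℝ) (h : ℝ → ℝ) : Prop where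
  X0_lt : X0 < X1
  X1_lt : X1 < 1
  X1_sq : 1 - ε ≤ X1 ^ 2
  smooth : ContDiff ℝ ∞ h
  low : ∀ X ≤ X0, h X = 0
  high : ∀ X, X1 ≤ X → h X = 1
  nonneg : ∀ X, 0 ≤ h X
  le_one : ∀ X, h X ≤ 1
  small : ∀ X, 0 ≤ X → X ≤ 1 → (1 - X ^ 2) * h X ≤ ε
  w_le : ∀ X, 0 ≤ X → X ≤ 1 → (1 - X ^ 2) * h X ≤ C * ε * X ^ 2
  w1_le : ∀ X, 0 ≤ X → X ≤ 1 → deriv (fun X => (1 - X ^ 2) * h X) X ≤ C * ε * X
  w2_le : ∀ X, 0 ≤ X → X ≤ 1 → deriv (deriv (fun X => (1 - X ^ 2) * h X)) X ≤ C * ε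

theorem exists_isProfile {X0 : ℝ} (hX0 : 0 < X0) (h01 : X0 < 1) :
    ∃ C > 0, ∃ ε0 > 0, ∀ ε : ℝ, 0 < ε → ε ≤ ε0 → ∃ (h : ℝ → ℝ) (X1 : ℝ),
      IsProfile X0 C ε X1 h := by
  obtain ⟨C, hC, ε0, hε0, H⟩ := exists_profile hX0 h01
  refine ⟨C, hC, ε0, hε0, fun ε h1 h2 => ?_⟩
  obtain ⟨h, X1, a1, a2, a3, a4, a5, a6, a7, a8, a9, a10, a11, a12⟩ := H ε h1 h2
  exact ⟨h, X1, a1, a2, a3, a4, a5, a6, a7, a8, a9, a10, a11, a12⟩

/-- derivatives of `w = (1 - X²) h` -/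
theorem deriv_w {h : ℝ → ℝ} (hh : ContDiff ℝ ∞ h) (X : ℝ) :
    deriv (fun X => (1 - X ^ 2) * h X) X = -2 * X * h X + (1 - X ^ 2) * deriv h X := by
  have h1 : HasDerivAt (fun X : ℝ => 1 - X ^ 2) (-(2 * X)) X := by
    have := ((hasDerivAt_id X).pow 2).const_sub 1
    simpa using this
  have h2 : HasDerivAt h (deriv h X) X := (hh.differentiable (by simp) X).hasDerivAt
  rw [(h1.fun_mul h2).deriv]; ring

theorem deriv2_w {h : ℝ → ℝ} (hh : ContDiff ℝ ∞ h) (X : ℝ) :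
    deriv (deriv (fun X => (1 - X ^ 2) * h X)) X
      = -2 * h X - 4 * X * deriv h X + (1 - X ^ 2) * deriv (deriv h) X := by
  have e : deriv (fun X => (1 - X ^ 2) * h X)
      = fun X => -2 * X * h X + (1 - X ^ 2) * deriv h X := by
    ext X; exact deriv_w hh X
  rw [e]
  have h0 : HasDerivAt (fun X : ℝ => -2 * X) (-2) X := by
    simpa using (hasDerivAt_id X).const_mul (-2)
  have h1 : HasDerivAt (fun X : ℝ => 1 - X ^ 2) (-(2 * X)) X := by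
    have := ((hasDerivAt_id X).pow 2).const_sub 1
    simpa using this
  have h2 : HasDerivAt h (deriv h X) X := (hh.differentiable (by simp) X).hasDerivAt
  have hh' : ContDiff ℝ ∞ (deriv h) := (contDiff_infty_iff_deriv.1 hh).2
  have h3 : HasDerivAt (deriv h) (deriv (deriv h) X) X :=
    (hh'.differentiable (by simp) X).hasDerivAt
  rw [((h0.fun_mul h2).fun_add (h1.fun_mul h3)).deriv]; ring

/-- pointwise bounds on the perturbation `G` and its derivatives -/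
structure SmallJet (η G G1 G2 F1 F2 : ℝ) : Prop where
  g0 : |G| ≤ η
  g1 : |G1| ≤ η
  g2 : |G2| ≤ η
  f1 : |F1| ≤ η
  f2 : |F2| ≤ η

theorem abs_mul_le' {c g k η : ℝ} (hc : |c| ≤ k) (hg : |g| ≤ η) : |c * g| ≤ k * η := by
  rw [abs_mul]
  exact mul_le_mul hc hg (abs_nonneg _) ((abs_nonneg _).trans hc)

theorem AB_le {A B ε η : ℝ} (hA : 0 ≤ A) (hB : 0 ≤ B) (hε : 0 ≤ ε) (hη : 0 ≤ η) :
    A * ε + B * η ≤ (A + B) * (ε + η) := by
  have := mul_nonneg hA hη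
  have := mul_nonneg hB hε
  have : (A + B) * (ε + η) = A * ε + A * η + B * ε + B * η := by ring
  linarith

/-- first part of the constant -/
def cA (m : ℕ) (b1 C : ℝ) : ℝ := (b1 - 1) * (C * (m + 1))
/-- second part of the constant -/
def cB (m : ℕ) (b1 Xa Xb : ℝ) : ℝ :=
  (4 + m * (1 + 1 / Xa)) + 10 * b1 ^ 2 / (1 - Xb ^ 2) + m * b1 / Xa
    + ((m + 1) / Xa ^ 2 + 2 + 1 / Xa)

/-- the constant of the cone condition -/
def cConst (m : ℕ) (b1 C Xa Xb : ℝ) : ℝ := cA m b1 C + cB m b1 Xa Xb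

variable {m : ℕ} {b1 C Xa Xb X0 X1 ε η : ℝ} {h : ℝ → ℝ}

theorem cA_nonneg (hb1 : 1 ≤ b1) (hC : 0 < C) : 0 ≤ cA m b1 C :=
  mul_nonneg (by linarith) (by positivity)

theorem sq_pos' (hXa : 0 < Xa) (hab : Xa ≤ Xb) (hXb : Xb < 1) : 0 < 1 - Xb ^ 2 := by nlinarith

theorem cB_parts (hXa : 0 < Xa) (hab : Xa ≤ Xb) (hXb : Xb < 1) (hb1 : 1 ≤ b1) :
    0 ≤ 4 + (m : ℝ) * (1 + 1 / Xa) ∧ 0 ≤ 10 * b1 ^ 2 / (1 - Xb ^ 2) ∧ 0 ≤ (m : ℝ) * b1 / Xa ∧
      0 ≤ ((m : ℝ) + 1) / Xa ^ 2 + 2 + 1 / Xa := by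
  have h := sq_pos' hXa hab hXb
  refine ⟨by positivity, by positivity, by positivity, by positivity⟩

theorem cB_nonneg (hXa : 0 < Xa) (hab : Xa ≤ Xb) (hXb : Xb < 1) (hb1 : 1 ≤ b1) :
    0 ≤ cB m b1 Xa Xb := by
  obtain ⟨a, b, c, d⟩ := cB_parts (m := m) hXa hab hXb hb1
  unfold cB; linarith

/-- radial estimate -/
theorem rad_aux (hb1 : 1 ≤ b1) (hC : 0 < C) (hε : 0 < ε)
    (hp : IsProfile X0 C ε X1 h) {b : ℝ} (hb : 1 ≤ b) (hb' : b ≤ b1) {X : ℝ} (hX : 0 < X)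
    (hX' : X < 1) :
    -(cA m b1 C * ε) ≤ (b - 1) * (h X + 2 * X * deriv h X - (1 - X ^ 2) * deriv (deriv h) X / 2
        + m * (h X - (1 - X ^ 2) * deriv h X / (2 * X))) := by
  have hm : (0 : ℝ) ≤ m := Nat.cast_nonneg m
  have e1 := hp.w1_le X hX.le hX'.le
  have e2 := hp.w2_le X hX.le hX'.le
  rw [deriv_w hp.smooth] at e1
  rw [deriv2_w hp.smooth] at e2
  have i1 : h X + 2 * X * deriv h X - (1 - X ^ 2) * deriv (deriv h) X / 2 ≥ -(C * ε / 2) := by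
    linarith
  have i2 : h X - (1 - X ^ 2) * deriv h X / (2 * X) ≥ -(C * ε / 2) := by
    have : h X - (1 - X ^ 2) * deriv h X / (2 * X)
        = -((-2 * X * h X + (1 - X ^ 2) * deriv h X) / (2 * X)) := by
      field_simp; ring
    rw [this, ge_iff_le, neg_le_neg_iff, div_le_iff₀ (by linarith)]
    linarith
  have i3 : -(C * (m + 1) * ε) ≤ h X + 2 * X * deriv h X - (1 - X ^ 2) * deriv (deriv h) X / 2
      + m * (h X - (1 - X ^ 2) * deriv h X / (2 * X)) := by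
    have h1 := mul_le_mul_of_nonneg_left i2.le hm
    have h3 : 0 ≤ C * ε := by positivity
    have h4 : 0 ≤ (m : ℝ) * (C * ε) := mul_nonneg hm h3
    have h5 : C * (m + 1) * ε = m * (C * ε) + C * ε := by ring
    have h6 : (m : ℝ) * -(C * ε / 2) = -(m * (C * ε)) / 2 := by ring
    rw [h6] at h1
    linarith
  have i4 := mul_le_mul_of_nonneg_left i3 (by linarith : 0 ≤ b - 1)
  refine le_trans ?_ i4
  have h5 : 0 ≤ C * (m + 1) * ε := by positivity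
  have h6 : (b - 1) * (C * (m + 1) * ε) ≤ (b1 - 1) * (C * (m + 1) * ε) :=
    mul_le_mul_of_nonneg_right (by linarith) h5
  have h7 : cA m b1 C * ε = (b1 - 1) * (C * (m + 1) * ε) := by unfold cA; ring
  rw [h7]; linarith

/-- first perturbation term -/
theorem T1_aux (hXa : 0 < Xa) (hη : 0 ≤ η) {X G G1 G2 F1 F2 : ℝ} (hX : Xa ≤ X)
    (hX' : X < 1) (hJ : SmallJet η G G1 G2 F1 F2) :
    |G + 2 * X * G1 - (1 - X ^ 2) * G2 / 2 + m * (G - (1 - X ^ 2) * G1 / (2 * X))|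
        ≤ (4 + m * (1 + 1 / Xa)) * η := by
  have hX0 : 0 < X := by linarith
  have hm : (0 : ℝ) ≤ m := Nat.cast_nonneg m
  have hX2 : 0 < 1 - X ^ 2 := by nlinarith
  have hX3 : 1 - X ^ 2 ≤ 1 := by nlinarith
  have a1 : |(2 * X) * G1| ≤ 2 * η :=
    abs_mul_le' (by rw [abs_of_pos (by linarith)]; linarith) hJ.g1
  have a2 : |(1 - X ^ 2) / 2 * G2| ≤ 1 * η :=
    abs_mul_le' (by rw [abs_of_pos (by linarith)]; linarith) hJ.g2
  have a3 : |(1 - X ^ 2) / (2 * X) * G1| ≤ 1 / Xa * η := by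
    refine abs_mul_le' ?_ hJ.g1
    rw [abs_of_pos (by positivity)]
    exact div_le_div₀ zero_le_one hX3 hXa (by linarith)
  have a4 : |G - (1 - X ^ 2) / (2 * X) * G1| ≤ (1 + 1 / Xa) * η := by
    calc _ ≤ |G| + |(1 - X ^ 2) / (2 * X) * G1| := abs_sub _ _
      _ ≤ η + 1 / Xa * η := add_le_add hJ.g0 a3
      _ = _ := by ring
  have a5 : |m * (G - (1 - X ^ 2) / (2 * X) * G1)| ≤ m * ((1 + 1 / Xa) * η) :=
    abs_mul_le' (by rw [abs_of_nonneg hm]) a4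
  have e : G + 2 * X * G1 - (1 - X ^ 2) * G2 / 2 + m * (G - (1 - X ^ 2) * G1 / (2 * X))
      = G + (2 * X) * G1 - (1 - X ^ 2) / 2 * G2 + m * (G - (1 - X ^ 2) / (2 * X) * G1) := by ring
  rw [e]
  calc |G + (2 * X) * G1 - (1 - X ^ 2) / 2 * G2 + m * (G - (1 - X ^ 2) / (2 * X) * G1)|
      ≤ |G + (2 * X) * G1 - (1 - X ^ 2) / 2 * G2| + |m * (G - (1 - X ^ 2) / (2 * X) * G1)| :=
        abs_add_le _ _
    _ ≤ (|G + (2 * X) * G1| + |(1 - X ^ 2) / 2 * G2|)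
        + |m * (G - (1 - X ^ 2) / (2 * X) * G1)| := by
          gcongr; exact abs_sub _ _
    _ ≤ ((|G| + |(2 * X) * G1|) + |(1 - X ^ 2) / 2 * G2|)
        + |m * (G - (1 - X ^ 2) / (2 * X) * G1)| := by
          gcongr; exact abs_add_le _ _
    _ ≤ ((η + 2 * η) + 1 * η) + m * ((1 + 1 / Xa) * η) := by
          gcongr; exact hJ.g0
    _ = _ := by ring

/-- angular term -/
theorem T2_aux (hb1 : 1 ≤ b1) (hη : 0 ≤ η) (hη2 : η ≤ 1 / 2) {b : ℝ} (hb : 1 ≤ b)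
    (hb' : b ≤ b1) {X G G1 G2 F1 F2 p : ℝ} (hX : 0 < X) (hXb : X ≤ Xb)
    (hX1 : Xb < 1) (hJ : SmallJet η G G1 G2 F1 F2) (hp1 : 1 / 2 ≤ p) :
    |(F2 / p ^ 2 - 2 * F1 ^ 2 / p ^ 3) / (2 * b⁻¹ ^ 2 * (1 - X ^ 2))|
        ≤ 10 * b1 ^ 2 / (1 - Xb ^ 2) * η := by
  have hb0 : 0 < b := by linarith
  have hp0 : 0 < p := by linarith
  have hXb0 : 0 < 1 - Xb ^ 2 := by nlinarith
  have hX2 : 1 - Xb ^ 2 ≤ 1 - X ^ 2 := by nlinarith
  have hη1 : η ^ 2 ≤ η / 2 := by nlinarith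
  have p2 : (1 / 4 : ℝ) ≤ p ^ 2 := by nlinarith
  have p3 : (1 / 8 : ℝ) ≤ p ^ 3 := by
    calc (1 / 8 : ℝ) = (1 / 2) ^ 3 := by norm_num
      _ ≤ p ^ 3 := pow_le_pow_left₀ (by norm_num) hp1 3
  have a1 : |F2 / p ^ 2| ≤ 4 * η := by
    rw [abs_div, abs_of_pos (by positivity : 0 < p ^ 2), div_le_iff₀ (by positivity)]
    have := hJ.f2
    nlinarith
  have a2 : |2 * F1 ^ 2 / p ^ 3| ≤ 8 * η := by
    rw [abs_div, abs_of_pos (by positivity : 0 < p ^ 3), div_le_iff₀ (by positivity),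
      abs_of_nonneg (by positivity)]
    have : F1 ^ 2 ≤ η ^ 2 := by
      rw [← sq_abs F1]; exact pow_le_pow_left₀ (abs_nonneg _) hJ.f1 2
    nlinarith
  have a3 : |F2 / p ^ 2 - 2 * F1 ^ 2 / p ^ 3| ≤ 12 * η := by
    calc _ ≤ |F2 / p ^ 2| + |2 * F1 ^ 2 / p ^ 3| := abs_sub _ _
      _ ≤ 4 * η + 8 * η := add_le_add a1 a2
      _ = _ := by ring
  have hden : 0 < 2 * b⁻¹ ^ 2 * (1 - X ^ 2) := by
    have : 0 < 1 - X ^ 2 := by linarith
    positivity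
  rw [abs_div, abs_of_pos hden, div_le_iff₀ hden]
  refine a3.trans ?_
  have hb12 : b ^ 2 ≤ b1 ^ 2 := pow_le_pow_left₀ hb0.le hb' 2
  have h6 : 1 ≤ b1 ^ 2 * b⁻¹ ^ 2 := by
    rw [inv_pow, ← div_eq_mul_inv, le_div_iff₀ (by positivity)]; linarith
  have h7 : 1 ≤ (1 - X ^ 2) / (1 - Xb ^ 2) := by
    rw [le_div_iff₀ hXb0]; linarith
  have h8 : 1 ≤ (b1 ^ 2 * b⁻¹ ^ 2) * ((1 - X ^ 2) / (1 - Xb ^ 2)) := one_le_mul_of_one_le_of_one_le h6 h7
  calc 12 * η ≤ 20 * η * 1 := by linarith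
    _ ≤ 20 * η * ((b1 ^ 2 * b⁻¹ ^ 2) * ((1 - X ^ 2) / (1 - Xb ^ 2))) :=
        mul_le_mul_of_nonneg_left h8 (by positivity)
    _ = _ := by ring

theorem T3_aux (hXa : 0 < Xa) (hb1 : 1 ≤ b1) (hη : 0 ≤ η) {b : ℝ} (hb : 1 ≤ b)
    (hb' : b ≤ b1) {X F1 p : ℝ} (hX : Xa ≤ X) (hF : |F1| ≤ η) (hp1 : 1 / 2 ≤ p) :
    |q12 m b⁻¹ X p F1| ≤ m * b1 / Xa * η := by
  have hb0 : 0 < b := by linarith
  have hX0 : 0 < X := by linarith
  have hp0 : 0 < p := by linarith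
  have hm : (0 : ℝ) ≤ m := Nat.cast_nonneg m
  unfold q12
  rw [abs_neg, abs_div, abs_mul, abs_of_nonneg hm,
    abs_of_pos (by positivity : 0 < 2 * b⁻¹ * X * p), div_le_iff₀ (by positivity)]
  have h6 : 1 ≤ (b1 * b⁻¹) * (X / Xa) * (2 * p) := by
    have g1 : 1 ≤ b1 * b⁻¹ := by
      rw [← div_eq_mul_inv, le_div_iff₀ hb0]; linarith
    have g2 : 1 ≤ X / Xa := by rw [le_div_iff₀ hXa]; linarith
    have g3 : 1 ≤ 2 * p := by linarith
    exact one_le_mul_of_one_le_of_one_le (one_le_mul_of_one_le_of_one_le g1 g2) g3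
  calc m * |F1| ≤ m * η * 1 := by
        rw [mul_one]; exact mul_le_mul_of_nonneg_left hF hm
    _ ≤ m * η * ((b1 * b⁻¹) * (X / Xa) * (2 * p)) :=
        mul_le_mul_of_nonneg_left h6 (by positivity)
    _ = _ := by ring

/-- the base condition at a point where `G` lives -/
theorem base_aux (hXa : 0 < Xa) (hab : Xa ≤ Xb) (hXb : Xb < 1) (hb1 : 1 ≤ b1) (hC : 0 < C)
    (hε : 0 < ε) (hη : 0 ≤ η) (hη2 : η ≤ 1 / 2) (hp : IsProfile X0 C ε X1 h) {b : ℝ}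
    (hb : 1 ≤ b) (hb' : b ≤ b1)
    {X G G1 G2 F1 F2 : ℝ} (hX : 0 < X) (hX' : X < 1) (hJ : SmallJet η G G1 G2 F1 F2)
    (hor : (G = 0 ∧ G1 = 0 ∧ G2 = 0 ∧ F1 = 0 ∧ F2 = 0) ∨ (Xa ≤ X ∧ X ≤ Xb)) :
    (m + 1) - cConst m b1 C Xa Xb * (ε + η) ≤
      q11 m b⁻¹ X (1 + (b - 1) * h X + G) ((b - 1) * deriv h X + G1)
        ((b - 1) * deriv (deriv h) X + G2) F1 F2
      - |q12 m b⁻¹ X (1 + (b - 1) * h X + G) F1| := by
  have hrad := rad_aux (m := m) hb1 hC hε hp hb hb' hX hX'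
  have hp1 : 1 / 2 ≤ 1 + (b - 1) * h X + G := by
    have h1 : 0 ≤ (b - 1) * h X := mul_nonneg (by linarith) (hp.nonneg X)
    have h2 := (abs_le.1 (hJ.g0.trans hη2)).1
    linarith
  generalize hpp : 1 + (b - 1) * h X + G = p at hp1 ⊢
  have hq11 : q11 m b⁻¹ X p ((b - 1) * deriv h X + G1) ((b - 1) * deriv (deriv h) X + G2) F1 F2
      = (m + 1) + (b - 1) * (h X + 2 * X * deriv h X - (1 - X ^ 2) * deriv (deriv h) X / 2
        + m * (h X - (1 - X ^ 2) * deriv h X / (2 * X)))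
        + (G + 2 * X * G1 - (1 - X ^ 2) * G2 / 2 + m * (G - (1 - X ^ 2) * G1 / (2 * X)))
        + (F2 / p ^ 2 - 2 * F1 ^ 2 / p ^ 3) / (2 * b⁻¹ ^ 2 * (1 - X ^ 2)) := by
    unfold q11
    rw [← hpp]; ring
  have hAB := AB_le (cA_nonneg (m := m) hb1 hC) (cB_nonneg (m := m) hXa hab hXb hb1) hε.le hη
  rw [hq11]
  have hcc : cConst m b1 C Xa Xb = cA m b1 C + cB m b1 Xa Xb := rfl
  rw [hcc]
  obtain ⟨p1, p2, p3, p4⟩ := cB_parts (m := m) hXa hab hXb hb1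
  rcases hor with ⟨rfl, rfl, rfl, rfl, rfl⟩ | ⟨hXaX, hXXb⟩
  · have hq12 : q12 m b⁻¹ X p 0 = 0 := by unfold q12; simp
    rw [hq12]
    have := mul_nonneg (cB_nonneg (m := m) hXa hab hXb hb1) hη
    simp only [mul_zero, add_zero, zero_div, sub_zero, abs_zero, ne_eq,
      OfNat.ofNat_ne_zero, not_false_eq_true, zero_pow]
    linarith
  · have T1 := (abs_le.1 (T1_aux (m := m) hXa hη hXaX hX' hJ)).1
    have T2 := (abs_le.1 (T2_aux (Xb := Xb) hb1 hη hη2 hb hb' hX hXXb hXb hJ hp1)).1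
    have T3 := T3_aux (m := m) hXa hb1 hη hb hb' hXaX hJ.f1 hp1
    have hBe : cB m b1 Xa Xb * η = (4 + m * (1 + 1 / Xa)) * η + 10 * b1 ^ 2 / (1 - Xb ^ 2) * η
        + m * b1 / Xa * η + ((m + 1) / Xa ^ 2 + 2 + 1 / Xa) * η := by unfold cB; ring
    have := mul_nonneg p4 hη
    linarith

/-- the fiber condition -/
theorem fiber_aux (hXa : 0 < Xa) (hab : Xa ≤ Xb) (hXb : Xb < 1) (hb1 : 1 ≤ b1) (hC : 0 < C)
    (hε : 0 < ε) (hη : 0 ≤ η) (hm1 : 1 ≤ m)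
    (hp : IsProfile X0 C ε X1 h) {b : ℝ} (hb : 1 ≤ b) (hb' : b ≤ b1)
    {X G G1 G2 F1 F2 : ℝ} (hX : 0 < X) (hX' : X < 1) (hJ : SmallJet η G G1 G2 F1 F2)
    (hor : (G = 0 ∧ G1 = 0) ∨ (Xa ≤ X ∧ X ≤ Xb)) :
    (m + 1) - cConst m b1 C Xa Xb * (ε + η) ≤
      qw m X (1 + (b - 1) * h X + G) ((b - 1) * deriv h X + G1) := by
  have hX2 : 0 < 1 - X ^ 2 := by nlinarith
  have hX3 : 1 - X ^ 2 ≤ 1 := by nlinarith
  have hm : (1 : ℝ) ≤ m := by exact_mod_cast hm1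
  have e0 := hp.w_le X hX.le hX'.le
  have e1 := hp.w1_le X hX.le hX'.le
  rw [deriv_w hp.smooth] at e1
  have hq : qw m X (1 + (b - 1) * h X + G) ((b - 1) * deriv h X + G1)
      = (m + 1) - (b - 1) * ((m - 1) * ((1 - X ^ 2) * h X / X ^ 2)
          + (-2 * X * h X + (1 - X ^ 2) * deriv h X) / X)
        - ((m - 1) * (1 - X ^ 2) / X ^ 2 * G - 2 * G + (1 - X ^ 2) / X * G1) := by
    unfold qw
    field_simp
    ring
  have i1 : (1 - X ^ 2) * h X / X ^ 2 ≤ C * ε := by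
    rw [div_le_iff₀ (by positivity)]; exact e0
  have i2 : (-2 * X * h X + (1 - X ^ 2) * deriv h X) / X ≤ C * ε := by
    rw [div_le_iff₀ hX]; exact e1
  have h3 : 0 ≤ C * ε := by positivity
  have i3 : (m - 1) * ((1 - X ^ 2) * h X / X ^ 2)
      + (-2 * X * h X + (1 - X ^ 2) * deriv h X) / X ≤ C * (m + 1) * ε := by
    have h1 := mul_le_mul_of_nonneg_left i1 (by linarith : (0 : ℝ) ≤ m - 1)
    have h4 : C * (m + 1) * ε = (m - 1) * (C * ε) + C * ε + C * ε := by ring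
    linarith
  have h5 : 0 ≤ C * (m + 1) * ε := by positivity
  have i4 : (b - 1) * ((m - 1) * ((1 - X ^ 2) * h X / X ^ 2)
          + (-2 * X * h X + (1 - X ^ 2) * deriv h X) / X) ≤ cA m b1 C * ε := by
    calc _ ≤ (b - 1) * (C * (m + 1) * ε) := mul_le_mul_of_nonneg_left i3 (by linarith)
      _ ≤ (b1 - 1) * (C * (m + 1) * ε) := mul_le_mul_of_nonneg_right (by linarith) h5
      _ = _ := by unfold cA; ring
  have hAB := AB_le (cA_nonneg (m := m) hb1 hC) (cB_nonneg (m := m) hXa hab hXb hb1) hε.le hη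
  have hcc : cConst m b1 C Xa Xb = cA m b1 C + cB m b1 Xa Xb := rfl
  obtain ⟨p1, p2, p3, p4⟩ := cB_parts (m := m) hXa hab hXb hb1
  rw [hq, hcc]
  rcases hor with ⟨rfl, rfl⟩ | ⟨hXaX, hXXb⟩
  · have := mul_nonneg (cB_nonneg (m := m) hXa hab hXb hb1) hη
    simp only [mul_zero, sub_zero, add_zero]
    linarith
  · have a1 : |(m - 1) * (1 - X ^ 2) / X ^ 2 * G| ≤ (m + 1) / Xa ^ 2 * η := by
      refine abs_mul_le' ?_ hJ.g0
      rw [abs_of_nonneg (div_nonneg (mul_nonneg (by linarith) hX2.le) (by positivity))]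
      apply div_le_div₀ (by positivity) _ (by positivity) (pow_le_pow_left₀ hXa.le hXaX 2)
      calc ((m : ℝ) - 1) * (1 - X ^ 2) ≤ (m - 1) * 1 :=
            mul_le_mul_of_nonneg_left hX3 (by linarith)
        _ ≤ m + 1 := by linarith
    have a2 : |2 * G| ≤ 2 * η := abs_mul_le' (by norm_num) hJ.g0
    have a3 : |(1 - X ^ 2) / X * G1| ≤ 1 / Xa * η := by
      refine abs_mul_le' ?_ hJ.g1
      rw [abs_of_pos (by positivity)]
      exact div_le_div₀ zero_le_one hX3 hXa hXaX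
    have b1' := (abs_le.1 a1).2
    have b2' := (abs_le.1 a2).1
    have b3' := (abs_le.1 a3).2
    have hBe : cB m b1 Xa Xb * η = (4 + m * (1 + 1 / Xa)) * η + 10 * b1 ^ 2 / (1 - Xb ^ 2) * η
        + m * b1 / Xa * η + ((m + 1) / Xa ^ 2 * η + 2 * η + 1 / Xa * η) := by unfold cB; ring
    have r1 := mul_nonneg p1 hη
    have r2 := mul_nonneg p2 hη
    have r3 := mul_nonneg p3 hη
    linarith

end

end Crest.Agent.R202.Prof
end

-- ▼ part R202/Prof3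
section

/-!
Row 202, node PROFILE (P3), file 3: the cone conditions in the form consumed by the schedule:
`P t X u = 1 + (b - 1) h X + G X u` at the frozen time `t`.
(helper912)
-/

set_option autoImplicit false
open scoped ContDiff Topology
open Set Filter
open Crest.Agent.R202.Geo

namespace Crest.Agent.R202.Prof

noncomputable section

/-- `G` in the angular variable. -/
def gA (G : ℝ → ℂ → ℝ) (X φ : ℝ) : ℝ := G X (Complex.exp ((φ : ℂ) * Complex.I))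

/-- `X`-derivative -/
def gX (g : ℝ → ℝ → ℝ) (X φ : ℝ) : ℝ := deriv (fun Y => g Y φ) X
/-- `φ`-derivative -/
def gF (g : ℝ → ℝ → ℝ) (X φ : ℝ) : ℝ := deriv (fun ψ => g X ψ) φ

/-- All derivatives of order at most two needed for the curvature are at most `η`. -/
def Small (η Xa Xb : ℝ) (G : ℝ → ℂ → ℝ) : Prop :=
  ∀ X ∈ Icc Xa Xb, ∀ φ : ℝ, SmallJet η (gA G X φ) (gX (gA G) X φ) (gX (gX (gA G)) X φ)
    (gF (gA G) X φ) (gF (gF (gA G)) X φ)

theorem gA_smooth {G : ℝ → ℂ → ℝ} (hG : ContDiff ℝ ∞ (fun p : ℝ × ℂ => G p.1 p.2)) :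
    ContDiff ℝ ∞ (fun p : ℝ × ℝ => gA G p.1 p.2) := by
  have h1 : ContDiff ℝ ∞ (fun p : ℝ × ℝ => Complex.exp ((p.2 : ℂ) * Complex.I)) := by
    apply ContDiff.cexp
    exact (Complex.ofRealCLM.contDiff.comp contDiff_snd).mul contDiff_const
  exact hG.comp (contDiff_fst.prodMk h1)

theorem gX_smooth {g : ℝ → ℝ → ℝ} (hg : ContDiff ℝ ∞ (fun p : ℝ × ℝ => g p.1 p.2)) :
    ContDiff ℝ ∞ (fun p : ℝ × ℝ => gX g p.1 p.2) := by
  have h1 : ∀ p : ℝ × ℝ, gX g p.1 p.2 = fderiv ℝ (fun p : ℝ × ℝ => g p.1 p.2) p (1, 0) := by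
    intro p
    have h2 : HasDerivAt (fun Y : ℝ => (Y, p.2)) ((1 : ℝ), (0 : ℝ)) p.1 :=
      (hasDerivAt_id p.1).prodMk (hasDerivAt_const _ _)
    have h3 := ((hg.differentiable (by simp)) p).hasFDerivAt.comp_hasDerivAt p.1
      (f := fun Y : ℝ => (Y, p.2)) h2
    exact h3.deriv
  simp only [h1]
  exact (hg.fderiv_right (m := ∞) (by simp)).clm_apply contDiff_const

theorem gX_hasDeriv {g : ℝ → ℝ → ℝ} (hg : ContDiff ℝ ∞ (fun p : ℝ × ℝ => g p.1 p.2))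
    (X φ : ℝ) : HasDerivAt (fun Y => g Y φ) (gX g X φ) X := by
  have h1 : ContDiff ℝ ∞ (fun Y => g Y φ) := hg.comp (contDiff_id.prodMk contDiff_const)
  exact (h1.differentiable (by simp) X).hasDerivAt

variable {m : ℕ} {b1 C Xa Xb X0 X1 ε η : ℝ} {h : ℝ → ℝ}

/-- jets of `P` at a frozen time -/
theorem jets {P : ℝ → ℝ → ℂ → ℝ} {t b : ℝ} {G : ℝ → ℂ → ℝ} (hh : ContDiff ℝ ∞ h)
    (hG : ContDiff ℝ ∞ (fun p : ℝ × ℂ => G p.1 p.2))
    (hP : ∀ X u, P t X u = 1 + (b - 1) * h X + G X u) (X φ : ℝ) :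
    PP P t X φ = 1 + (b - 1) * h X + gA G X φ ∧
    dX (PP P) t X φ = (b - 1) * deriv h X + gX (gA G) X φ ∧
    dX (dX (PP P)) t X φ = (b - 1) * deriv (deriv h) X + gX (gX (gA G)) X φ ∧
    dF (PP P) t X φ = gF (gA G) X φ ∧
    dF (dF (PP P)) t X φ = gF (gF (gA G)) X φ := by
  have hg := gA_smooth hG
  have hg1 := gX_smooth hg
  have hh' : ContDiff ℝ ∞ (deriv h) := (contDiff_infty_iff_deriv.1 hh).2
  have e0 : ∀ X φ, PP P t X φ = 1 + (b - 1) * h X + gA G X φ := fun X φ => hP X _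
  have e1 : ∀ X φ, dX (PP P) t X φ = (b - 1) * deriv h X + gX (gA G) X φ := by
    intro X φ
    unfold dX
    simp only [e0]
    have a1 : HasDerivAt h (deriv h X) X := (hh.differentiable (by simp) X).hasDerivAt
    have := ((a1.const_mul (b - 1)).const_add 1).fun_add (gX_hasDeriv hg X φ)
    exact this.deriv
  have e2 : ∀ X φ, dX (dX (PP P)) t X φ
      = (b - 1) * deriv (deriv h) X + gX (gX (gA G)) X φ := by
    intro X φ
    rw [dX]
    simp only [e1]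
    have a1 : HasDerivAt (deriv h) (deriv (deriv h) X) X :=
      (hh'.differentiable (by simp) X).hasDerivAt
    have := (a1.const_mul (b - 1)).fun_add (gX_hasDeriv hg1 X φ)
    exact this.deriv
  have e3 : ∀ X φ, dF (PP P) t X φ = gF (gA G) X φ := by
    intro X φ
    unfold dF
    simp only [e0]
    rw [deriv_const_add]; rfl
  have e4 : ∀ X φ, dF (dF (PP P)) t X φ = gF (gF (gA G)) X φ := by
    intro X φ
    rw [dF]
    simp only [e3]; rfl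
  exact ⟨e0 X φ, e1 X φ, e2 X φ, e3 X φ, e4 X φ⟩

/-- jets vanish off the support -/
theorem jets_zero {G : ℝ → ℂ → ℝ} (hsupp : ∀ X u, X ∉ Icc Xa Xb → G X u = 0) {X : ℝ}
    (hX : X ∉ Icc Xa Xb) (φ : ℝ) :
    gA G X φ = 0 ∧ gX (gA G) X φ = 0 ∧ gX (gX (gA G)) X φ = 0 ∧ gF (gA G) X φ = 0 ∧
      gF (gF (gA G)) X φ = 0 := by
  have ho : IsOpen ((Icc Xa Xb)ᶜ : Set ℝ) := isClosed_Icc.isOpen_compl
  have e0 : ∀ X ∉ Icc Xa Xb, ∀ φ, gA G X φ = 0 := fun X hX φ => hsupp X _ hX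
  have e1 : ∀ X ∉ Icc Xa Xb, ∀ φ, gX (gA G) X φ = 0 := by
    intro X hX φ
    have : (fun Y => gA G Y φ) =ᶠ[𝓝 X] fun _ => 0 := by
      filter_upwards [ho.mem_nhds hX] with Y hY using e0 Y hY φ
    unfold gX
    rw [this.deriv_eq]; simp
  have e2 : ∀ X ∉ Icc Xa Xb, ∀ φ, gX (gX (gA G)) X φ = 0 := by
    intro X hX φ
    have : (fun Y => gX (gA G) Y φ) =ᶠ[𝓝 X] fun _ => 0 := by
      filter_upwards [ho.mem_nhds hX] with Y hY using e1 Y hY φ
    rw [gX, this.deriv_eq]; simp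
  have e3 : ∀ X ∉ Icc Xa Xb, ∀ φ, gF (gA G) X φ = 0 := by
    intro X hX φ
    have : (fun ψ => gA G X ψ) = fun _ => 0 := by ext ψ; exact e0 X hX ψ
    rw [gF, this]; simp
  have e4 : gF (gF (gA G)) X φ = 0 := by
    have : (fun ψ => gF (gA G) X ψ) = fun _ => 0 := by ext ψ; exact e3 X hX ψ
    rw [gF, this]; simp
  exact ⟨e0 X hX φ, e1 X hX φ, e2 X hX φ, e3 X hX φ, e4⟩

theorem SmallJet.zero {η : ℝ} (hη : 0 ≤ η) : SmallJet η 0 0 0 0 0 :=
  ⟨by simpa, by simpa, by simpa, by simpa, by simpa⟩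

/-- **The cone condition** for a frozen datum `P t X u = 1 + (b - 1) h X + G X u`. -/
theorem cone_frozen (hXa : 0 < Xa) (hab : Xa ≤ Xb) (hXb : Xb < 1) (hb1 : 1 ≤ b1) (hC : 0 < C)
    (hε : 0 < ε) (hη : 0 ≤ η) (hη2 : η ≤ 1 / 2) (hp : IsProfile X0 C ε X1 h)
    {b : ℝ} (hb : 1 ≤ b) (hb' : b ≤ b1)
    {P : ℝ → ℝ → ℂ → ℝ} {t : ℝ} {G : ℝ → ℂ → ℝ}
    (hG : ContDiff ℝ ∞ (fun p : ℝ × ℂ => G p.1 p.2))
    (hsupp : ∀ X u, X ∉ Icc Xa Xb → G X u = 0) (hsm : Small η Xa Xb G)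
    (hP : ∀ X u, P t X u = 1 + (b - 1) * h X + G X u) {X : ℝ} (hX : 0 < X) (hX' : X < 1)
    (φ : ℝ) :
    ((m + 1) - cConst m b1 C Xa Xb * (ε + η) ≤
      q11 m b⁻¹ X (PP P t X φ) (dX (PP P) t X φ) (dX (dX (PP P)) t X φ)
          (dF (PP P) t X φ) (dF (dF (PP P)) t X φ)
        - |q12 m b⁻¹ X (PP P t X φ) (dF (PP P) t X φ)|) ∧
    (1 ≤ m → (m + 1) - cConst m b1 C Xa Xb * (ε + η) ≤
      qw m X (PP P t X φ) (dX (PP P) t X φ)) := by
  obtain ⟨j0, j1, j2, j3, j4⟩ := jets hp.smooth hG hP X φ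
  rw [j0, j1, j2, j3, j4]
  by_cases hXab : X ∈ Icc Xa Xb
  · have hJ := hsm X hXab φ
    exact ⟨base_aux hXa hab hXb hb1 hC hε hη hη2 hp hb hb' hX hX' hJ (Or.inr hXab),
      fun hm => fiber_aux hXa hab hXb hb1 hC hε hη hm hp hb hb' hX hX' hJ (Or.inr hXab)⟩
  · obtain ⟨z0, z1, z2, z3, z4⟩ := jets_zero hsupp hXab φ
    rw [z0, z1, z2, z3, z4]
    exact ⟨base_aux hXa hab hXb hb1 hC hε hη hη2 hp hb hb' hX hX' (SmallJet.zero hη)
        (Or.inl ⟨rfl, rfl, rfl, rfl, rfl⟩),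
      fun hm => fiber_aux hXa hab hXb hb1 hC hε hη hm hp hb hb' hX hX' (SmallJet.zero hη)
        (Or.inl ⟨rfl, rfl⟩)⟩


end

end Crest.Agent.R202.Prof
end

-- ▼ part R202/Prof4
section

/-!
Row 202, node PROFILE (P3), file 4: calculus of the smallness condition `Small`, the harmonic
bumps `η(X) Re(u^a)`.
(helper912)
-/

set_option autoImplicit false
open scoped ContDiff Topology
open Set Filter
open Crest.Agent.R202.Geo

namespace Crest.Agent.R202.Prof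

noncomputable section

variable {Xa Xb : ℝ}

theorem SmallJet.add {η η' G G1 G2 F1 F2 G' G1' G2' F1' F2' : ℝ}
    (h : SmallJet η G G1 G2 F1 F2) (h' : SmallJet η' G' G1' G2' F1' F2') :
    SmallJet (η + η') (G + G') (G1 + G1') (G2 + G2') (F1 + F1') (F2 + F2') :=
  ⟨(abs_add_le _ _).trans (add_le_add h.g0 h'.g0), (abs_add_le _ _).trans (add_le_add h.g1 h'.g1),
    (abs_add_le _ _).trans (add_le_add h.g2 h'.g2), (abs_add_le _ _).trans (add_le_add h.f1 h'.f1),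
    (abs_add_le _ _).trans (add_le_add h.f2 h'.f2)⟩

theorem SmallJet.smul {η G G1 G2 F1 F2 : ℝ} (h : SmallJet η G G1 G2 F1 F2) (c : ℝ) :
    SmallJet (|c| * η) (c * G) (c * G1) (c * G2) (c * F1) (c * F2) :=
  ⟨abs_mul_le' le_rfl h.g0, abs_mul_le' le_rfl h.g1, abs_mul_le' le_rfl h.g2,
    abs_mul_le' le_rfl h.f1, abs_mul_le' le_rfl h.f2⟩

theorem SmallJet.mono {η η' G G1 G2 F1 F2 : ℝ} (h : SmallJet η G G1 G2 F1 F2) (hη : η ≤ η') :
    SmallJet η' G G1 G2 F1 F2 :=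
  ⟨h.g0.trans hη, h.g1.trans hη, h.g2.trans hη, h.f1.trans hη, h.f2.trans hη⟩

theorem Small.mono {η η' : ℝ} {G : ℝ → ℂ → ℝ} (h : Small η Xa Xb G) (hη : η ≤ η') :
    Small η' Xa Xb G := fun X hX φ => (h X hX φ).mono hη

theorem Small.congr {η : ℝ} {G G' : ℝ → ℂ → ℝ} (h : Small η Xa Xb G) (he : gA G' = gA G) :
    Small η Xa Xb G' := by
  intro X hX φ
  rw [he]; exact h X hX φ

theorem gF_smooth {g : ℝ → ℝ → ℝ} (hg : ContDiff ℝ ∞ (fun p : ℝ × ℝ => g p.1 p.2)) :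
    ContDiff ℝ ∞ (fun p : ℝ × ℝ => gF g p.1 p.2) := by
  have h1 : ∀ p : ℝ × ℝ, gF g p.1 p.2 = fderiv ℝ (fun p : ℝ × ℝ => g p.1 p.2) p (0, 1) := by
    intro p
    have h2 : HasDerivAt (fun Y : ℝ => (p.1, Y)) ((0 : ℝ), (1 : ℝ)) p.2 :=
      (hasDerivAt_const _ _).prodMk (hasDerivAt_id p.2)
    have h3 := ((hg.differentiable (by simp)) p).hasFDerivAt.comp_hasDerivAt p.2
      (f := fun Y : ℝ => (p.1, Y)) h2
    exact h3.deriv
  simp only [h1]
  exact (hg.fderiv_right (m := ∞) (by simp)).clm_apply contDiff_const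

theorem gF_hasDeriv {g : ℝ → ℝ → ℝ} (hg : ContDiff ℝ ∞ (fun p : ℝ × ℝ => g p.1 p.2))
    (X φ : ℝ) : HasDerivAt (fun ψ => g X ψ) (gF g X φ) φ := by
  have h1 : ContDiff ℝ ∞ (fun ψ => g X ψ) := hg.comp (contDiff_const.prodMk contDiff_id)
  exact (h1.differentiable (by simp) φ).hasDerivAt

theorem gX_add {g g' : ℝ → ℝ → ℝ} (hg : ContDiff ℝ ∞ (fun p : ℝ × ℝ => g p.1 p.2))
    (hg' : ContDiff ℝ ∞ (fun p : ℝ × ℝ => g' p.1 p.2)) :
    gX (fun X φ => g X φ + g' X φ) = fun X φ => gX g X φ + gX g' X φ := by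
  ext X φ
  exact ((gX_hasDeriv hg X φ).fun_add (gX_hasDeriv hg' X φ)).deriv

theorem gF_add {g g' : ℝ → ℝ → ℝ} (hg : ContDiff ℝ ∞ (fun p : ℝ × ℝ => g p.1 p.2))
    (hg' : ContDiff ℝ ∞ (fun p : ℝ × ℝ => g' p.1 p.2)) :
    gF (fun X φ => g X φ + g' X φ) = fun X φ => gF g X φ + gF g' X φ := by
  ext X φ
  exact ((gF_hasDeriv hg X φ).fun_add (gF_hasDeriv hg' X φ)).deriv

theorem gX_smul {g : ℝ → ℝ → ℝ} (c : ℝ) :
    gX (fun X φ => c * g X φ) = fun X φ => c * gX g X φ := by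
  ext X φ
  exact deriv_const_mul_field c

theorem gF_smul {g : ℝ → ℝ → ℝ} (c : ℝ) :
    gF (fun X φ => c * g X φ) = fun X φ => c * gF g X φ := by
  ext X φ
  exact deriv_const_mul_field c

theorem Small.add {η η' : ℝ} {G G' : ℝ → ℂ → ℝ} (h : Small η Xa Xb G) (h' : Small η' Xa Xb G')
    (hG : ContDiff ℝ ∞ (fun p : ℝ × ℂ => G p.1 p.2))
    (hG' : ContDiff ℝ ∞ (fun p : ℝ × ℂ => G' p.1 p.2)) :
    Small (η + η') Xa Xb (fun X u => G X u + G' X u) := by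
  intro X hX φ
  have e0 : gA (fun X u => G X u + G' X u) = fun X φ => gA G X φ + gA G' X φ := rfl
  have s := gA_smooth hG
  have s' := gA_smooth hG'
  rw [e0, gX_add s s', gX_add (gX_smooth s) (gX_smooth s'), gF_add s s',
    gF_add (gF_smooth s) (gF_smooth s')]
  exact (h X hX φ).add (h' X hX φ)

theorem Small.smul {η : ℝ} {G : ℝ → ℂ → ℝ} (h : Small η Xa Xb G) (c : ℝ) :
    Small (|c| * η) Xa Xb (fun X u => c * G X u) := by
  intro X hX φ
  have e0 : gA (fun X u => c * G X u) = fun X φ => c * gA G X φ := rfl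
  rw [e0, gX_smul, gX_smul, gF_smul, gF_smul]
  exact (h X hX φ).smul c

theorem Small.zero : Small 0 Xa Xb (fun _ _ => 0) := by
  intro X hX φ
  have e0 : gA (fun _ _ => 0) = fun _ _ => 0 := rfl
  have e1 : gX (fun _ _ => 0) = fun _ _ => 0 := by ext X φ; simp [gX]
  have e2 : gF (fun _ _ => 0) = fun _ _ => 0 := by ext X φ; simp [gF]
  rw [e0, e1, e1, e2, e2]
  exact SmallJet.zero le_rfl

theorem Small.sum {ι : Type*} (s : Finset ι) {η : ι → ℝ} {G : ι → ℝ → ℂ → ℝ}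
    (h : ∀ i ∈ s, Small (η i) Xa Xb (G i))
    (hG : ∀ i ∈ s, ContDiff ℝ ∞ (fun p : ℝ × ℂ => G i p.1 p.2)) :
    Small (∑ i ∈ s, η i) Xa Xb (fun X u => ∑ i ∈ s, G i X u) := by
  classical
  induction s using Finset.induction_on with
  | empty => simpa using Small.zero
  | insert a s ha ih =>
    simp only [Finset.sum_insert ha]
    refine (h a (by simp)).add (ih (fun i hi => h i (by simp [hi]))
      (fun i hi => hG i (by simp [hi]))) (hG a (by simp)) ?_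
    exact ContDiff.sum fun i hi => hG i (by simp [hi])

/-! ### harmonic bumps -/






end

end Crest.Agent.R202.Prof
end

-- ▼ part R202/Prof5
section

/-!
Row 202, node PROFILE (P3), file 5: exports in the format of the schedule (`Sch.ConeS`, `Sch.Prof`,
`Sch.YLoop`).
(helper912)
-/

set_option autoImplicit false
open scoped ContDiff Topology
open Set Filter
open Crest.Agent.R202.Geo

namespace Crest.Agent.R202.Prof

noncomputable section

variable {m : ℕ} {b1 C Xa Xb X0 X1 ε η : ℝ} {h : ℝ → ℝ}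

theorem IsProfile.prof (hp : IsProfile X0 C ε X1 h) : Sch.Prof X0 X1 h :=
  ⟨hp.smooth, hp.low, hp.high, hp.nonneg, hp.le_one⟩

theorem coneS_frozen (hXa : 0 < Xa) (hab : Xa ≤ Xb) (hXb : Xb < 1) (hb1 : 1 ≤ b1) (hC : 0 < C)
    (hε : 0 < ε) (hη : 0 ≤ η) (hη2 : η ≤ 1 / 2) (hp : IsProfile X0 C ε X1 h)
    {b : ℝ} (hb : 1 ≤ b) (hb' : b ≤ b1) {G : ℝ → ℂ → ℝ}
    (hG : ContDiff ℝ ∞ (fun p : ℝ × ℂ => G p.1 p.2))
    (hsupp : ∀ X u, X ∉ Icc Xa Xb → G X u = 0) (hsm : Small η Xa Xb G) {cc : ℝ}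
    (hcc : cc ≤ (m + 1) - cConst m b1 C Xa Xb * (ε + η)) :
    Sch.ConeS m cc b⁻¹ (fun X u => 1 + (b - 1) * h X + G X u) := by
  have H := fun (X φ : ℝ) (hX : 0 < X) (hX' : X < 1) =>
    cone_frozen (m := m) hXa hab hXb hb1 hC hε hη hη2 hp hb hb' hG hsupp hsm
      (P := fun _ X u => 1 + (b - 1) * h X + G X u) (t := 0) (fun _ _ => rfl) hX hX' φ
  exact ⟨fun X φ hX hX' => hcc.trans (H X φ hX hX').1,
    fun hm X φ hX hX' => hcc.trans ((H X φ hX hX').2 hm)⟩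

/-- **EXPORT**: existence of the tip profile with the cone conditions for all small perturbations. -/
theorem exists_profile_cone (m : ℕ) {b1 X0 Xa Xb e : ℝ} (hX0 : 0 < X0) (h0a : X0 < Xa)
    (hab : Xa ≤ Xb) (hXb : Xb < 1) (hb1 : 1 ≤ b1) (he : 0 < e) :
    ∃ ε0 > 0, ∃ η0 > 0, η0 ≤ 1 / 2 ∧ ∀ ε : ℝ, 0 < ε → ε ≤ ε0 → ∃ (h : ℝ → ℝ) (X1 : ℝ),
      Xb < X1 ∧ X1 < 1 ∧ Sch.Prof X0 X1 h ∧
      (∀ X, 0 ≤ X → X ≤ 1 → (1 - X ^ 2) * h X ≤ ε) ∧
      (∀ b : ℝ, 1 ≤ b → b ≤ b1 → Sch.ConeS m ((m + 1) * (1 - e)) b⁻¹ (Sch.Ptip h b)) ∧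
      ∀ b : ℝ, 1 ≤ b → b ≤ b1 → ∀ G : ℝ → ℂ → ℝ,
        ContDiff ℝ ∞ (fun p : ℝ × ℂ => G p.1 p.2) → (∀ X u, X ∉ Icc Xa Xb → G X u = 0) →
        Small η0 Xa Xb G →
        Sch.ConeS m ((m + 1) * (1 - e)) b⁻¹ (fun X u => 1 + (b - 1) * h X + G X u) := by
  have hXa : 0 < Xa := by linarith
  obtain ⟨C, hC, ε0, hε0, H⟩ := exists_isProfile hX0 (by linarith : X0 < 1)
  have hXb2 : 0 < 1 - Xb ^ 2 := sq_pos' hXa hab hXb
  set K : ℝ := 1 + cConst m b1 C Xa Xb with hK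
  have hcn : 0 ≤ cConst m b1 C Xa Xb :=
    add_nonneg (cA_nonneg hb1 hC) (cB_nonneg hXa hab hXb hb1)
  have hK0 : 0 < K := by linarith
  have hm : (0 : ℝ) ≤ m := Nat.cast_nonneg m
  have hδ : 0 < (m + 1) * e / (2 * K) := by positivity
  refine ⟨min ε0 (min ((m + 1) * e / (2 * K)) ((1 - Xb ^ 2) / 2)), by positivity,
    min ((m + 1) * e / (2 * K)) (1 / 2), by positivity, min_le_right _ _, ?_⟩
  intro ε hε hεle
  obtain ⟨h, X1, hp⟩ := H ε hε (hεle.trans (min_le_left _ _))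
  have hε1 : ε ≤ (m + 1) * e / (2 * K) :=
    hεle.trans ((min_le_right _ _).trans (min_le_left _ _))
  have hε2 : ε ≤ (1 - Xb ^ 2) / 2 :=
    hεle.trans ((min_le_right _ _).trans (min_le_right _ _))
  set η0 : ℝ := min ((m + 1) * e / (2 * K)) (1 / 2) with hη0
  have hη00 : 0 ≤ η0 := by positivity
  have hη01 : η0 ≤ (m + 1) * e / (2 * K) := min_le_left _ _
  have hη02 : η0 ≤ 1 / 2 := min_le_right _ _
  have hcc : (m + 1) * (1 - e) ≤ (m + 1) - cConst m b1 C Xa Xb * (ε + η0) := by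
    have h1 : cConst m b1 C Xa Xb * (ε + η0) ≤ K * (ε + η0) :=
      mul_le_mul_of_nonneg_right (by linarith) (by positivity)
    have h2 : K * (ε + η0) ≤ K * ((m + 1) * e / (2 * K) + (m + 1) * e / (2 * K)) :=
      mul_le_mul_of_nonneg_left (add_le_add hε1 hη01) hK0.le
    have h3 : K * ((m + 1) * e / (2 * K) + (m + 1) * e / (2 * K)) = (m + 1) * e := by
      field_simp; ring
    linarith
  have hmain : ∀ b : ℝ, 1 ≤ b → b ≤ b1 → ∀ G : ℝ → ℂ → ℝ,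
        ContDiff ℝ ∞ (fun p : ℝ × ℂ => G p.1 p.2) → (∀ X u, X ∉ Icc Xa Xb → G X u = 0) →
        Small η0 Xa Xb G →
        Sch.ConeS m ((m + 1) * (1 - e)) b⁻¹ (fun X u => 1 + (b - 1) * h X + G X u) :=
    fun b hb hb' G hG hs hsm =>
      coneS_frozen hXa hab hXb hb1 hC hε hη00 hη02 hp hb hb' hG hs hsm hcc
  refine ⟨h, X1, ?_, hp.X1_lt, hp.prof, hp.small, ?_, hmain⟩
  · have h1 := hp.X1_sq
    have h2 := hp.X0_lt
    nlinarith
  · intro b hb hb'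
    have h1 := hmain b hb hb' (fun _ _ => 0) contDiff_const (fun _ _ _ => rfl)
      (Small.zero.mono hη00)
    have e1 : (fun (X : ℝ) (_ : ℂ) => 1 + (b - 1) * h X + 0) = Sch.Ptip h b := by
      funext X u
      simp [Sch.Ptip]
    rwa [e1] at h1

/-- the same for the loops of the schedule -/
theorem coneS_loop {m : ℕ} {y0 y1 Xa Xb e η0 : ℝ} {h : ℝ → ℝ} (hy0 : 1 ≤ y0)
    (H : ∀ b : ℝ, 1 ≤ b → b ≤ y1 → ∀ G : ℝ → ℂ → ℝ,
        ContDiff ℝ ∞ (fun p : ℝ × ℂ => G p.1 p.2) → (∀ X u, X ∉ Icc Xa Xb → G X u = 0) →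
        Small η0 Xa Xb G →
        Sch.ConeS m ((m + 1) * (1 - e)) b⁻¹ (fun X u => 1 + (b - 1) * h X + G X u))
    (L : Sch.YLoop y0 y1 Xa Xb) {τ k : ℝ}
    (hs : Small η0 Xa Xb (fun X u => L.Gh τ k X u)) :
    Sch.ConeS m ((m + 1) * (1 - e)) (L.y τ)⁻¹
      (fun X u => 1 + (L.y τ - 1) * h X + L.Gh τ k X u) := by
  refine H (L.y τ) (hy0.trans (L.y_mem τ).1) (L.y_mem τ).2 (fun X u => L.Gh τ k X u) ?_ ?_ hs
  · exact L.Gh_smooth.comp (contDiff_const.prodMk (contDiff_const.prodMk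
      (contDiff_fst.prodMk contDiff_snd)))
  · intro X u hX
    exact L.Gh_supp τ k X u hX

end

end Crest.Agent.R202.Prof
end

-- ▼ part R202/Prof6
section

/-!
Row 202, node PROFILE (P3), file 6: bridge from `CT.JetSmall` to the cone conditions of the
schedule.
(helper912)
-/

set_option autoImplicit false
open scoped ContDiff Topology
open Set Filter
open Crest.Agent.R202.Geo

namespace Crest.Agent.R202.Prof

noncomputable section

theorem small_of_jetSmall {y0 y1 Xa Xb η : ℝ} {L : Sch.YLoop y0 y1 Xa Xb}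
    (hJ : CT.JetSmall L η) (τ : ℝ) {κ : ℝ} (hκ : κ ∈ Icc (-1 : ℝ) 1) :
    Small η Xa Xb (fun X u => L.Gh τ κ X u) := by
  intro X _ φ
  obtain ⟨h0, h1, h2, h3, h4⟩ := hJ τ κ hκ X φ
  exact ⟨h0, h1, h2, h3, h4⟩

/-- **EXPORT**: for the loops of `CThm` and a profile `h` given by this theorem, the hypotheses
`cT`, `cL` of `Sch.exists_mainY` hold. -/
theorem exists_profile_loops (m : ℕ) {y0 y1 X0 Xa Xb e : ℝ} (hX0 : 0 < X0) (h0a : X0 < Xa)
    (hab : Xa ≤ Xb) (hXb : Xb < 1) (hy0 : 1 ≤ y0) (hy01 : y0 ≤ y1) (he : 0 < e) :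
    ∃ η0 > 0, ∃ ε0 > 0, ∀ ε : ℝ, 0 < ε → ε ≤ ε0 → ∃ (h : ℝ → ℝ) (X1 : ℝ),
      Xb < X1 ∧ X1 < 1 ∧ Sch.Prof X0 X1 h ∧
      (∀ X ∈ Icc (0 : ℝ) 1, h X * (1 - X ^ 2) ≤ ε) ∧
      (∀ y ∈ Icc 1 y0, Sch.ConeS m ((m + 1) * (1 - e)) y⁻¹ (Sch.Ptip h y)) ∧
      ∀ L : Sch.YLoop y0 y1 Xa Xb, CT.JetSmall L η0 →
        ∀ τ ∈ Icc (0 : ℝ) 1, ∀ κ ∈ Icc (-1 : ℝ) 1,
          Sch.ConeS m ((m + 1) * (1 - e)) (L.y τ)⁻¹
            (fun X u => 1 + (L.y τ - 1) * h X + L.Gh τ κ X u) := by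
  obtain ⟨ε0, hε0, η0, hη0, _, H⟩ := exists_profile_cone m hX0 h0a hab hXb
    (hy0.trans hy01) he
  refine ⟨η0, hη0, ε0, hε0, fun ε h1 h2 => ?_⟩
  obtain ⟨h, X1, a1, a2, a3, a4, a5, a6⟩ := H ε h1 h2
  refine ⟨h, X1, a1, a2, a3, fun X hX => ?_, fun y hy => a5 y hy.1 (hy.2.trans hy01), ?_⟩
  · rw [mul_comm]; exact a4 X hX.1 hX.2
  · intro L hL τ _ κ hκ
    exact coneS_loop hy0 a6 L (small_of_jetSmall hL τ hκ)

/-- **EXPORT** in the format of `CT.CThm`: a sequence of sharper and sharper tips. -/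
theorem exists_profile_seq (m : ℕ) {y0 y1 X0 Xa Xb e : ℝ} (hX0 : 0 < X0) (h0a : X0 < Xa)
    (hab : Xa ≤ Xb) (hXb : Xb < 1) (hy0 : 1 ≤ y0) (hy01 : y0 ≤ y1) (he : 0 < e) :
    ∃ η0 > 0, ∃ (hs : ℕ → ℝ → ℝ) (X1 : ℕ → ℝ) (ε : ℕ → ℝ), Tendsto ε atTop (𝓝 0) ∧ ∀ n,
      Xb < X1 n ∧ X1 n < 1 ∧ Sch.Prof X0 (X1 n) (hs n) ∧
      (∀ X ∈ Icc (0 : ℝ) 1, hs n X * (1 - X ^ 2) ≤ ε n) ∧
      (∀ y ∈ Icc 1 y0, Sch.ConeS m ((m + 1) * (1 - e)) y⁻¹ (Sch.Ptip (hs n) y)) ∧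
      ∀ L : Sch.YLoop y0 y1 Xa Xb, CT.JetSmall L η0 →
        ∀ τ ∈ Icc (0 : ℝ) 1, ∀ κ ∈ Icc (-1 : ℝ) 1,
          Sch.ConeS m ((m + 1) * (1 - e)) (L.y τ)⁻¹
            (fun X u => 1 + (L.y τ - 1) * hs n X + L.Gh τ κ X u) := by
  obtain ⟨η0, hη0, ε0, hε0, H⟩ := exists_profile_loops m hX0 h0a hab hXb hy0 hy01 he
  have hpos : ∀ n : ℕ, 0 < ε0 / ((n : ℝ) + 1) := fun n => by positivity
  have hle : ∀ n : ℕ, ε0 / ((n : ℝ) + 1) ≤ ε0 := fun n =>
    div_le_self hε0.le (by have : (0 : ℝ) ≤ n := Nat.cast_nonneg n; linarith)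
  choose hs X1 h1 h2 h3 h4 h5 h6 using fun n : ℕ => H (ε0 / ((n : ℝ) + 1)) (hpos n) (hle n)
  refine ⟨η0, hη0, hs, X1, fun n => ε0 / ((n : ℝ) + 1), ?_, fun n =>
    ⟨h1 n, h2 n, h3 n, h4 n, h5 n, h6 n⟩⟩
  have h := tendsto_one_div_add_atTop_nhds_zero_nat (𝕜 := ℝ)
  have h' := h.const_mul ε0
  simpa [div_eq_mul_inv] using h'

/-- the numerical condition of `Sch.exists_mainY` -/
theorem numeric (m : ℕ) {v y1 : ℝ} (hv : 0 < v) (hy1 : 0 < y1) (hvy : v * y1 < 1) :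
    ∃ μ > 0, ∃ δ > 0, ∃ e > 0, (1 + μ) * Real.exp (-2 * (-Real.log v / ((m : ℝ) + 2) - δ))
      * y1 ^ ((2 : ℝ) / ((m : ℝ) + 2)) ≤ 1 - e := by
  have hD : (0 : ℝ) < (m : ℝ) + 2 := by positivity
  set q : ℝ := (v * y1) ^ ((2 : ℝ) / ((m : ℝ) + 2)) with hq
  have hq0 : 0 < q := Real.rpow_pos_of_pos (by positivity) _
  have hq1 : q < 1 := Real.rpow_lt_one (by positivity) hvy (by positivity)
  have hkey : ∀ δ : ℝ, Real.exp (-2 * (-Real.log v / ((m : ℝ) + 2) - δ))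
      * y1 ^ ((2 : ℝ) / ((m : ℝ) + 2)) = Real.exp (2 * δ) * q := by
    intro δ
    rw [hq, Real.mul_rpow hv.le hy1.le, Real.rpow_def_of_pos hv, ← mul_assoc, ← Real.exp_add]
    congr 2
    field_simp
    ring
  set R : ℝ := (1 + q) / (2 * q) with hR
  have hR1 : 1 < R := by rw [hR, lt_div_iff₀ (by positivity)]; linarith
  have hlog : 0 < Real.log R := Real.log_pos hR1
  have hsq : Real.exp (2 * (Real.log R / 4)) = Real.sqrt R := by
    rw [Real.sqrt_eq_rpow, Real.rpow_def_of_pos (by linarith)]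
    congr 1; ring
  have hs1 : 1 < Real.sqrt R := by
    rw [show (1 : ℝ) = Real.sqrt 1 by simp]
    exact Real.sqrt_lt_sqrt zero_le_one hR1
  refine ⟨Real.sqrt R - 1, by linarith, Real.log R / 4, by positivity, (1 - q) / 2, by linarith, ?_⟩
  rw [mul_assoc, hkey, hsq]
  have h1 : (1 + (Real.sqrt R - 1)) * (Real.sqrt R * q) = (Real.sqrt R * Real.sqrt R) * q := by ring
  rw [h1, Real.mul_self_sqrt (by linarith), hR]
  have h2 : (1 + q) / (2 * q) * q = (1 + q) / 2 := by field_simp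
  rw [h2]; linarith

end

end Crest.Agent.R202.Prof
end

-- ▼ part R202/TopChoice

/-!
Row 202, GLUE, node TopChoice: the choice of the tip profile and of the loops (from Part C and the
PROFILE node), in the format of `Sch.exists_mainY`.
(helper912)
-/

set_option autoImplicit false
open scoped ContDiff Topology
open Set Filter
open Crest.Agent.R202.Main Crest.Agent.R202.CT Crest.Agent.R202.Sch

namespace Crest.Agent.R202.Top

noncomputable section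

/-- All choices before the schedule: constants, profile and loops. -/
structure Choice {m : ℕ} {v : ℝ} {k : ℕ} (D : CountData m v k) (εh : ℝ) where
  μ : ℝ
  δ : ℝ
  e : ℝ
  X0 : ℝ
  Xa : ℝ
  Xb : ℝ
  X1 : ℝ
  h : ℝ → ℝ
  L : Gate D → YLoop D.b0 D.b1 Xa Xb
  μ_pos : 0 < μ
  δ_pos : 0 < δ
  e_pos : 0 < e
  X0_pos : 0 < X0
  X0a : X0 < Xa
  Xab : Xa < Xb
  Xb1 : Xb < X1
  X1_lt : X1 < 1
  prof : Sch.Prof X0 X1 h
  sI_pos : 0 < -Real.log v / ((m : ℝ) + 2)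
  hnum : (1 + μ) * Real.exp (-2 * (-Real.log v / ((m : ℝ) + 2) - δ))
    * D.b1 ^ ((2 : ℝ) / ((m : ℝ) + 2)) ≤ 1 - e
  cT : ∀ y ∈ Icc 1 D.b0, ConeS m ((m + 1) * (1 - e)) y⁻¹ (Ptip h y)
  cL : ∀ i, ∀ τ ∈ Icc (0 : ℝ) 1, ∀ κ ∈ Icc (-1 : ℝ) 1,
    ConeS m ((m + 1) * (1 - e)) ((L i).y τ)⁻¹
      (fun X u => 1 + ((L i).y τ - 1) * h X + (L i).Gh τ κ X u)
  moves : ∀ j, ∃ τ ∈ Ioo (0 : ℝ) 1, D.b0 < (L j).y τ
  even : ∀ j τ κ X u, (L j).Gh τ κ X (star u) = (L j).Gh τ κ X u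
  cout : COut D L h εh

theorem exists_choice {m : ℕ} (hC : CThm m) {v : ℝ} {k : ℕ} (D : CountData m v k) {εh : ℝ}
    (hεh : 0 < εh) : Nonempty (Choice D εh) := by
  have hb0 : 1 ≤ D.b0 := D.b0_gt.le
  have hb01 : D.b0 ≤ D.b1 := D.b01.le
  obtain ⟨μ, hμ, δ, hδ, e, he, hnum⟩ := Prof.numeric m (v := v) (y1 := D.b1) D.v_pos
    (by linarith) D.vb1
  obtain ⟨η0, hη0, hs, X1, ε, hε, H⟩ := Prof.exists_profile_seq m (y0 := D.b0) (y1 := D.b1)
    (X0 := 1 / 4) (Xa := 1 / 3) (Xb := 1 / 2) (e := e) (by norm_num) (by norm_num) (by norm_num)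
    (by norm_num) hb0 hb01 he
  obtain ⟨L, hL1, hL2, hL3, hL4⟩ := hC v k D (1 / 4) (1 / 3) (1 / 2) (by norm_num) (by norm_num)
    (by norm_num) (by norm_num) X1 hs ε (fun n => ⟨(H n).1, (H n).2.1⟩) (fun n => (H n).2.2.1) hε
    (fun n => (H n).2.2.2.1) η0 hη0
  obtain ⟨n, hn⟩ := (hL4 εh hεh).exists
  obtain ⟨h1, h2, h3, h4, h5, h6⟩ := H n
  have hlog : Real.log v < 0 := Real.log_neg D.v_pos D.v_lt
  exact ⟨{
    μ := μ, δ := δ, e := e, X0 := 1 / 4, Xa := 1 / 3, Xb := 1 / 2, X1 := X1 n, h := hs n, L := L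
    μ_pos := hμ, δ_pos := hδ, e_pos := he
    X0_pos := by norm_num
    X0a := by norm_num
    Xab := by norm_num
    Xb1 := h1
    X1_lt := h2
    prof := h3
    sI_pos := div_pos (by linarith) (by positivity)
    hnum := hnum
    cT := h5
    cL := fun i τ hτ κ hκ => h6 (L i) (hL1 i) τ hτ κ hκ
    moves := hL2
    even := hL3
    cout := hn }⟩

end

end Crest.Agent.R202.Top
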