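import Crest.Agent.R202.Lim2
import Crest.Agent.R202.GeoFinal
import Crest.Agent.R202.GeoFam
import Crest.Agent.R202.Moser
import Crest.Agent.R202.EllFinal
import Mathlib
import Crest.Agent.R202.TopChoice
import Crest.Agent.R202.SchGeo
import Crest.Agent.R202.SchConv
import Crest.Agent.R202.Mixing

-- ▼ part R202/Lim3
section

/-!
# Row 202, part F: weak equations pass to the limit (3)
-/

set_option autoImplicit false
open MeasureTheory Metric Set Filter Topology
open scoped ContDiff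
open Crest.GeometryTopology.CoordMetric
open Crest.Agent.R202.Ell (divA)

namespace Crest.Agent.R202.Lim

noncomputable section

variable {n : ℕ}

lemma pderiv_add' {i : Fin n} {f g : EuclideanSpace ℝ (Fin n) → ℝ} {x : EuclideanSpace ℝ (Fin n)}
    (hf : DifferentiableAt ℝ f x) (hg : DifferentiableAt ℝ g x) :
    pderiv i (fun y => f y + g y) x = pderiv i f x + pderiv i g x := by
  unfold pderiv
  rw [fderiv_fun_add hf hg]; rfl

lemma Q_add {A : EuclideanSpace ℝ (Fin n) → Matrix (Fin n) (Fin n) ℝ}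
    {u φ ψ : EuclideanSpace ℝ (Fin n) → ℝ} (hφ : ContDiff ℝ 1 φ) (hψ : ContDiff ℝ 1 ψ)
    (x : EuclideanSpace ℝ (Fin n)) :
    Q A u (fun y => φ y + ψ y) x = Q A u φ x + Q A u ψ x := by
  unfold Q
  rw [← Finset.sum_add_distrib]
  refine Finset.sum_congr rfl fun i _ => ?_
  rw [← Finset.sum_add_distrib]
  refine Finset.sum_congr rfl fun l _ => ?_
  rw [pderiv_add' (hφ.differentiable (by norm_num) x) (hψ.differentiable (by norm_num) x)]
  ring

/-- **The weak equations pass to the limit.** -/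
theorem tendsto_integral_Q {κ : Type*} {F : Filter κ}
    (A : κ → EuclideanSpace ℝ (Fin n) → Matrix (Fin n) (Fin n) ℝ)
    (u : κ → EuclideanSpace ℝ (Fin n) → ℝ)
    (hA : ∀ᶠ k in F, ∀ i l, Continuous fun x => A k x i l)
    (hAb : ∀ R, ∃ M, ∀ᶠ k in F, ∀ x ∈ closedBall (0 : EuclideanSpace ℝ (Fin n)) R,
      ∀ i l, |A k x i l| ≤ M)
    (hu : ∀ᶠ k in F, ContDiff ℝ 1 (u k))
    (hen : ∀ R, ∃ C, ∀ᶠ k in F,
      ∫ x in closedBall (0 : EuclideanSpace ℝ (Fin n)) R, ‖fderiv ℝ (u k) x‖ ^ 2 ≤ C)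
    {r0 : ℝ} (hr0 : 0 < r0)
    (hw0 : ∀ φ : EuclideanSpace ℝ (Fin n) → ℝ, ContDiff ℝ ∞ φ → HasCompactSupport φ →
      tsupport φ ⊆ ball 0 r0 → ∀ᶠ k in F, ∫ x, Q (A k) (u k) φ x = 0)
    (hw1 : ∀ χ : ℝ → ℝ, ContDiff ℝ ∞ χ → HasCompactSupport χ → tsupport χ ⊆ Ioi 0 →
      ∀ p : MvPolynomial (Fin n) ℝ, ∀ᶠ k in F,
        ∫ x, Q (A k) (u k) (fun x => χ ‖x‖ * pe p x) x = 0)
    {φ : EuclideanSpace ℝ (Fin n) → ℝ} (hφ : ContDiff ℝ ∞ φ) (hφc : HasCompactSupport φ) :
    Tendsto (fun k => ∫ x, Q (A k) (u k) φ x) F (𝓝 0) := by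
  -- a big ball
  obtain ⟨R1, hR1⟩ := hφc.isCompact.isBounded.subset_closedBall 0
  set R : ℝ := max R1 r0 with hR
  have hRr : r0 ≤ R := le_max_right _ _
  have hsφ : tsupport φ ⊆ closedBall 0 R := hR1.trans (closedBall_subset_closedBall (le_max_left _ _))
  set R' : ℝ := R + r0 with hR'
  obtain ⟨M0, hM0⟩ := hAb R'
  obtain ⟨C0, hC0⟩ := hen R'
  set M : ℝ := max M0 0
  set C : ℝ := max C0 0
  -- the splitting
  let θ : ContDiffBump (0 : EuclideanSpace ℝ (Fin n)) :=
    { rIn := r0 / 3, rOut := r0 / 2, rIn_pos := by positivity, rIn_lt_rOut := by linarith }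
  have hθs : tsupport θ = closedBall 0 (r0 / 2) := θ.tsupport_eq
  have hθc : ContDiff ℝ ∞ θ := θ.contDiff
  set φ1 : EuclideanSpace ℝ (Fin n) → ℝ := fun x => θ x * φ x with hφ1
  set φ2 : EuclideanSpace ℝ (Fin n) → ℝ := fun x => (1 - θ x) * φ x with hφ2
  have hφ1c : ContDiff ℝ ∞ φ1 := hθc.mul hφ
  have hφ2c : ContDiff ℝ ∞ φ2 := (contDiff_const.sub hθc).mul hφ
  have hφ1s : HasCompactSupport φ1 := hφc.mul_left
  have hφ2s : HasCompactSupport φ2 := hφc.mul_left
  have hφ1t : tsupport φ1 ⊆ ball 0 r0 := by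
    refine (tsupport_mul_subset_left (f := fun x => θ x) (g := φ)).trans ?_
    rw [show tsupport (fun x => θ x) = closedBall 0 (r0 / 2) from hθs]
    exact closedBall_subset_ball (by linarith)
  -- radial cutoff
  obtain ⟨χ, hχ, hχc, hχs, hχ1, hχ01, hχ0⟩ := exists_cutoff (a := r0 / 3) (b := R)
    (by positivity) (by linarith)
  set X : EuclideanSpace ℝ (Fin n) → ℝ := fun x => χ ‖x‖ with hX
  have hXc : ContDiff ℝ ∞ X := contDiff_radial hχ hχs
  have hXs : HasCompactSupport X := hasCompactSupport_radial hχc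
  obtain ⟨L0, hL0⟩ : ∃ L, ∀ x, ‖fderiv ℝ X x‖ ≤ L := by
    have hc : Continuous (fderiv ℝ X) := hXc.continuous_fderiv (by norm_num)
    exact (hXs.fderiv (𝕜 := ℝ)).exists_bound_of_continuous hc
  set L : ℝ := max L0 0
  have hL : ∀ x, ‖fderiv ℝ X x‖ ≤ L := fun x => (hL0 x).trans (le_max_left _ _)
  have hLn : 0 ≤ L := le_max_right _ _
  have hXφ : ∀ x, X x * φ2 x = φ2 x := by
    intro x
    by_cases h1 : ‖x‖ < r0 / 3
    · have : θ x = 1 := θ.one_of_mem_closedBall (by
        rw [mem_closedBall, dist_zero_right]; exact h1.le)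
      simp [hφ2, this]
    by_cases h2 : R < ‖x‖
    · have : φ x = 0 := by
        apply image_eq_zero_of_notMem_tsupport
        intro h
        have := hsφ h
        rw [mem_closedBall, dist_zero_right] at this
        linarith
      simp [hφ2, this]
    · have : X x = 1 := hχ1 _ ⟨not_lt.mp h1, not_lt.mp h2⟩
      rw [this, one_mul]
  rw [Metric.tendsto_nhds]
  intro ε hε
  -- choose the accuracy
  set V : ℝ := (volume (closedBall (0 : EuclideanSpace ℝ (Fin n)) R')).toReal with hV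
  have hVn : 0 ≤ V := ENNReal.toReal_nonneg
  set K : ℝ := (n : ℝ) ^ 2 * M * (1 + L) * ((C + V) / 2) with hK
  have hMn : 0 ≤ M := le_max_right _ _
  have hCn : 0 ≤ C := le_max_right _ _
  have hKn : 0 ≤ K := by positivity
  set δ : ℝ := ε / (K + 1) with hδ
  have hδ0 : 0 < δ := by positivity
  obtain ⟨P, hP⟩ := exists_poly_C1 (hφ2c.of_le (by norm_cast)) hφ2s R' hδ0
  have hPc : ContDiff ℝ ∞ (pe P) := contDiff_pe P
  set Θ : EuclideanSpace ℝ (Fin n) → ℝ := fun x => χ ‖x‖ * pe P x with hΘ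
  set ψ : EuclideanSpace ℝ (Fin n) → ℝ := fun x => X x * (φ2 x - pe P x) with hψ
  have hΘc : ContDiff ℝ ∞ Θ := hXc.mul hPc
  have hψc : ContDiff ℝ ∞ ψ := hXc.mul (hφ2c.sub hPc)
  have hψs : HasCompactSupport ψ := hXs.mul_right
  have hsum : φ = fun x => φ1 x + (Θ x + ψ x) := by
    funext x
    have h1 : Θ x + ψ x = φ2 x := by
      rw [← hXφ x]; simp only [hΘ, hψ, hX]; ring
    rw [h1]; simp only [hφ1, hφ2]; ring
  have hψt : tsupport ψ ⊆ closedBall 0 R' := by
    refine closure_minimal ?_ isClosed_closedBall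
    intro x hx
    by_contra h
    apply hx
    have : χ ‖x‖ = 0 := hχ0 _ (by
      rw [mem_closedBall, dist_zero_right, not_le] at h
      rw [hR'] at h; linarith)
    simp [hψ, hX, this]
  have hψd : ∀ x ∈ closedBall (0 : EuclideanSpace ℝ (Fin n)) R', ‖fderiv ℝ ψ x‖ ≤ (1 + L) * δ := by
    intro x hx
    have hd1 : DifferentiableAt ℝ X x := hXc.differentiable (by norm_num) x
    have hd2 : DifferentiableAt ℝ (fun y => φ2 y - pe P y) x :=
      (hφ2c.sub hPc).differentiable (by norm_num) x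
    have hd3 : fderiv ℝ (fun y => φ2 y - pe P y) x = fderiv ℝ φ2 x - fderiv ℝ (pe P) x :=
      fderiv_fun_sub (hφ2c.differentiable (by norm_num) x) (hPc.differentiable (by norm_num) x)
    have e : fderiv ℝ ψ x = X x • (fderiv ℝ φ2 x - fderiv ℝ (pe P) x)
        + (φ2 x - pe P x) • fderiv ℝ X x := by
      rw [hψ, fderiv_fun_mul hd1 hd2, hd3]
    have h1 := hP x hx
    have hX1 : |X x| ≤ 1 := by
      rw [abs_of_nonneg (hχ01 _).1]; exact (hχ01 _).2
    calc ‖fderiv ℝ ψ x‖ ≤ |X x| * ‖fderiv ℝ φ2 x - fderiv ℝ (pe P) x‖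
          + |φ2 x - pe P x| * ‖fderiv ℝ X x‖ := by
          rw [e]
          refine (norm_add_le _ _).trans ?_
          rw [norm_smul, norm_smul, Real.norm_eq_abs, Real.norm_eq_abs]
      _ ≤ 1 * δ + δ * L := by
          refine add_le_add ?_ ?_
          · refine mul_le_mul hX1 ?_ (norm_nonneg _) zero_le_one
            rw [norm_sub_rev]; exact h1.2
          · refine mul_le_mul ?_ (hL x) (norm_nonneg _) hδ0.le
            rw [abs_sub_comm]; exact h1.1
      _ = (1 + L) * δ := by ring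
  filter_upwards [hA, hM0, hu, hC0, hw0 φ1 hφ1c hφ1s hφ1t, hw1 χ hχ hχc hχs P] with
    k hAk hMk huk hCk h0 h1
  have hφ1d : ContDiff ℝ 1 φ1 := hφ1c.of_le (by norm_cast)
  have hΘd : ContDiff ℝ 1 Θ := hΘc.of_le (by norm_cast)
  have hψ1 : ContDiff ℝ 1 ψ := hψc.of_le (by norm_cast)
  have hΘs : HasCompactSupport Θ := hXs.mul_right
  have e2 : ∫ x, Q (A k) (u k) φ x = ∫ x, Q (A k) (u k) ψ x := by
    have e3 : ∀ x, Q (A k) (u k) φ x
        = Q (A k) (u k) φ1 x + (Q (A k) (u k) Θ x + Q (A k) (u k) ψ x) := by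
      intro x
      rw [← Q_add hΘd hψ1, ← Q_add hφ1d (hΘd.add hψ1), ← hsum]
    simp_rw [e3]
    have i1 : Integrable (fun x => Q (A k) (u k) φ1 x) := integrable_Q hAk huk hφ1d hφ1s
    have i2 : Integrable (fun x => Q (A k) (u k) Θ x) := integrable_Q hAk huk hΘd hΘs
    have i3 : Integrable (fun x => Q (A k) (u k) ψ x) := integrable_Q hAk huk hψ1 hψs
    have i4 : Integrable (fun x => Q (A k) (u k) Θ x + Q (A k) (u k) ψ x) := i2.add i3
    rw [integral_add i1 i4, integral_add i2 i3, h0, h1]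
    simp
  rw [Real.dist_eq, sub_zero, e2]
  have hb := abs_integral_Q_le (A := A k) (u := u k) (φ := ψ) huk R' hψt (M := M)
    (S := (1 + L) * δ) (C := C) hMn (by positivity)
    (fun x hx i l => (hMk x hx i l).trans (le_max_left _ _)) hψd (hCk.trans (le_max_left _ _))
  calc |∫ x, Q (A k) (u k) ψ x| ≤ (n : ℝ) ^ 2 * M * ((1 + L) * δ) * ((C + V) / 2) := hb
    _ = K * δ := by rw [hK]; ring
    _ < ε := by
        rw [hδ, mul_div_assoc', div_lt_iff₀ (by positivity)]
        nlinarith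

end

end Crest.Agent.R202.Lim
end

-- ▼ part R202/Lim4
section

/-!
# Row 202, part F: weak equations pass to the limit (4), the coefficients converge
-/

set_option autoImplicit false
open MeasureTheory Metric Set Filter Topology
open scoped ContDiff
open Crest.GeometryTopology.CoordMetric
open Crest.Agent.R202.Ell (divA)

namespace Crest.Agent.R202.Lim

noncomputable section

variable {n : ℕ}

lemma exists_bound_entries {A : EuclideanSpace ℝ (Fin n) → Matrix (Fin n) (Fin n) ℝ}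
    (hA : ∀ i l, Continuous fun x => A x i l) (R : ℝ) :
    ∃ M, 0 ≤ M ∧ ∀ x ∈ closedBall (0 : EuclideanSpace ℝ (Fin n)) R, ∀ i l, |A x i l| ≤ M := by
  have hc : Continuous fun x => ∑ i, ∑ l, |A x i l| :=
    continuous_finsetSum _ fun i _ => continuous_finsetSum _ fun l _ => (hA i l).abs
  obtain ⟨M, hM⟩ := (isCompact_closedBall (0 : EuclideanSpace ℝ (Fin n)) R).exists_bound_of_continuousOn
    hc.continuousOn
  refine ⟨max M 0, le_max_right _ _, fun x hx i l => ?_⟩
  have h1 : |A x i l| ≤ ∑ i, ∑ l, |A x i l| :=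
    (Finset.single_le_sum (f := fun l => |A x i l|) (fun _ _ => abs_nonneg _)
      (Finset.mem_univ l)).trans
      (Finset.single_le_sum (f := fun i => ∑ l, |A x i l|)
        (fun _ _ => Finset.sum_nonneg fun _ _ => abs_nonneg _) (Finset.mem_univ i))
  have h2 := (le_abs_self _).trans (hM x hx)
  exact (h1.trans h2).trans (le_max_left _ _)

lemma Q_sub_left {A B : EuclideanSpace ℝ (Fin n) → Matrix (Fin n) (Fin n) ℝ}
    {u φ : EuclideanSpace ℝ (Fin n) → ℝ} (x : EuclideanSpace ℝ (Fin n)) :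
    Q (fun y => A y - B y) u φ x = Q A u φ x - Q B u φ x := by
  unfold Q
  rw [← Finset.sum_sub_distrib]
  refine Finset.sum_congr rfl fun i _ => ?_
  rw [← Finset.sum_sub_distrib]
  refine Finset.sum_congr rfl fun l _ => ?_
  have h : (A x - B x) i l = A x i l - B x i l := Matrix.sub_apply _ _ _ _
  change (A x - B x) i l * pderiv l u x * pderiv i φ x = _
  rw [h]
  ring

theorem tendsto_integral_mul_divA {κ : Type*} {F : Filter κ}
    (A : κ → EuclideanSpace ℝ (Fin n) → Matrix (Fin n) (Fin n) ℝ)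
    (Ai : EuclideanSpace ℝ (Fin n) → Matrix (Fin n) (Fin n) ℝ)
    (u : κ → EuclideanSpace ℝ (Fin n) → ℝ)
    (hA : ∀ᶠ k in F, ∀ i l, Continuous fun x => A k x i l)
    (hAi : ∀ i l, ContDiff ℝ ∞ fun x => Ai x i l) (hsym : ∀ x i l, Ai x i l = Ai x l i)
    (hconv : ∀ R, ∀ ε > 0, ∀ᶠ k in F, ∀ x ∈ closedBall (0 : EuclideanSpace ℝ (Fin n)) R,
      ∀ i l, |A k x i l - Ai x i l| ≤ ε)
    (hu : ∀ᶠ k in F, ContDiff ℝ 1 (u k))
    (hen : ∀ R, ∃ C, ∀ᶠ k in F,
      ∫ x in closedBall (0 : EuclideanSpace ℝ (Fin n)) R, ‖fderiv ℝ (u k) x‖ ^ 2 ≤ C)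
    {r0 : ℝ} (hr0 : 0 < r0)
    (hw0 : ∀ φ : EuclideanSpace ℝ (Fin n) → ℝ, ContDiff ℝ ∞ φ → HasCompactSupport φ →
      tsupport φ ⊆ ball 0 r0 → ∀ᶠ k in F, ∫ x, Q (A k) (u k) φ x = 0)
    (hw1 : ∀ χ : ℝ → ℝ, ContDiff ℝ ∞ χ → HasCompactSupport χ → tsupport χ ⊆ Ioi 0 →
      ∀ p : MvPolynomial (Fin n) ℝ, ∀ᶠ k in F,
        ∫ x, Q (A k) (u k) (fun x => χ ‖x‖ * pe p x) x = 0)
    {φ : EuclideanSpace ℝ (Fin n) → ℝ} (hφ : ContDiff ℝ ∞ φ) (hφc : HasCompactSupport φ) :
    Tendsto (fun k => ∫ x, u k x * divA Ai φ x) F (𝓝 0) := by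
  have hAic : ∀ i l, Continuous fun x => Ai x i l := fun i l => (hAi i l).continuous
  have hAb : ∀ R, ∃ M, ∀ᶠ k in F, ∀ x ∈ closedBall (0 : EuclideanSpace ℝ (Fin n)) R,
      ∀ i l, |A k x i l| ≤ M := by
    intro R
    obtain ⟨M, hM0, hM⟩ := exists_bound_entries hAic R
    refine ⟨M + 1, ?_⟩
    filter_upwards [hconv R 1 zero_lt_one] with k hk x hx i l
    have h1 := hk x hx i l
    have h2 := hM x hx i l
    rw [abs_le] at h1 h2 ⊢
    constructor <;> linarith [h1.1, h1.2, h2.1, h2.2]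
  have hφ1 : ContDiff ℝ 1 φ := hφ.of_le (by norm_cast)
  have T1 := tendsto_integral_Q A u hA hAb hu hen hr0 hw0 hw1 hφ hφc
  -- the difference of the coefficients
  have T2 : Tendsto (fun k => ∫ x, Q (fun y => Ai y - A k y) (u k) φ x) F (𝓝 0) := by
    obtain ⟨R, hR⟩ := hφc.isCompact.isBounded.subset_closedBall 0
    obtain ⟨C0, hC0⟩ := hen R
    set C : ℝ := max C0 0
    have hCn : 0 ≤ C := le_max_right _ _
    obtain ⟨S0, hS0⟩ := (hφc.fderiv (𝕜 := ℝ)).exists_bound_of_continuous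
      (hφ.continuous_fderiv (by norm_num))
    set S : ℝ := max S0 0
    have hSn : 0 ≤ S := le_max_right _ _
    set V : ℝ := (volume (closedBall (0 : EuclideanSpace ℝ (Fin n)) R)).toReal with hV
    have hVn : 0 ≤ V := ENNReal.toReal_nonneg
    set K : ℝ := (n : ℝ) ^ 2 * S * ((C + V) / 2) with hK
    have hKn : 0 ≤ K := by positivity
    rw [Metric.tendsto_nhds]
    intro ε hε
    set δ : ℝ := ε / (K + 1) with hδ
    have hδ0 : 0 < δ := by positivity
    filter_upwards [hC0, hu, hconv R δ hδ0] with k hCk huk hk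
    rw [Real.dist_eq, sub_zero]
    have hb := abs_integral_Q_le (A := fun y => Ai y - A k y) (u := u k) (φ := φ) huk R hR
      (M := δ) (S := S) (C := C) hδ0.le hSn
      (fun x hx i l => by rw [Matrix.sub_apply, abs_sub_comm]; exact hk x hx i l)
      (fun x _ => (hS0 x).trans (le_max_left _ _)) (hCk.trans (le_max_left _ _))
    calc |∫ x, Q (fun y => Ai y - A k y) (u k) φ x| ≤ (n : ℝ) ^ 2 * δ * S * ((C + V) / 2) := hb
      _ = K * δ := by rw [hK]; ring
      _ < ε := by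
          rw [hδ, mul_div_assoc', div_lt_iff₀ (by positivity)]
          nlinarith
  have T3 := (T1.add T2).neg
  simp only [add_zero, neg_zero] at T3
  refine T3.congr' ?_
  filter_upwards [hA, hu] with k hAk huk
  rw [integral_mul_divA (fun i l => (hAi i l).of_le (by norm_cast)) hsym huk hφ hφc]
  have e : ∀ x, Q (fun y => Ai y - A k y) (u k) φ x = Q Ai (u k) φ x - Q (A k) (u k) φ x :=
    fun x => Q_sub_left x
  simp_rw [e]
  rw [integral_sub (integrable_Q hAic huk hφ1 hφc) (integrable_Q hAk huk hφ1 hφc)]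
  ring

end

end Crest.Agent.R202.Lim
end

-- ▼ part R202/Lim5
section

/-!
# Row 202, part F: weak limits along an ultrafilter
-/

set_option autoImplicit false
open MeasureTheory Metric Set Filter Topology
open scoped ContDiff RealInnerProductSpace ENNReal

namespace Crest.Agent.R202.Lim

noncomputable section

variable {n : ℕ}

/-- weak compactness of balls in a Hilbert space, along an ultrafilter -/
lemma exists_weak_limit {H : Type*} [NormedAddCommGroup H] [InnerProductSpace ℝ H]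
    [CompleteSpace H] {κ : Type*} (𝒰 : Ultrafilter κ) (v : κ → H) {B : ℝ} (hv : ∀ k, ‖v k‖ ≤ B) :
    ∃ V : H, ∀ g : H, Tendsto (fun k => ⟪v k, g⟫) 𝒰 (𝓝 ⟪V, g⟫) := by
  have hb : ∀ g k, |⟪v k, g⟫| ≤ B * ‖g‖ := fun g k =>
    (abs_real_inner_le_norm _ _).trans (mul_le_mul_of_nonneg_right (hv k) (norm_nonneg _))
  have hex : ∀ g : H, ∃ a : ℝ, Tendsto (fun k => ⟪v k, g⟫) 𝒰 (𝓝 a) := by
    intro g
    have hc : IsCompact (Icc (-(B * ‖g‖)) (B * ‖g‖)) := isCompact_Icc
    obtain ⟨a, _, ha⟩ := hc.ultrafilter_le_nhds (𝒰.map fun k => ⟪v k, g⟫) (by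
      rw [Filter.le_principal_iff, Ultrafilter.mem_coe, Ultrafilter.mem_map]
      exact Filter.mem_of_superset Filter.univ_mem fun k _ => by
        simp only [mem_preimage, mem_Icc]
        exact abs_le.mp (hb g k))
    exact ⟨a, ha⟩
  choose ℓ hℓ using hex
  have hadd : ∀ g h, ℓ (g + h) = ℓ g + ℓ h := by
    intro g h
    refine tendsto_nhds_unique (hℓ (g + h)) ?_
    have := (hℓ g).add (hℓ h)
    refine this.congr fun k => ?_
    rw [inner_add_right]
  have hsmul : ∀ (c : ℝ) g, ℓ (c • g) = c * ℓ g := by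
    intro c g
    refine tendsto_nhds_unique (hℓ (c • g)) ?_
    have := (hℓ g).const_mul c
    refine this.congr fun k => ?_
    rw [real_inner_smul_right]
  have hbd : ∀ g, |ℓ g| ≤ B * ‖g‖ := by
    intro g
    have h1 := (hℓ g).abs
    exact le_of_tendsto h1 (Eventually.of_forall (hb g))
  let L : H →ₗ[ℝ] ℝ :=
    { toFun := ℓ, map_add' := hadd, map_smul' := fun c g => by simp [hsmul] }
  let L' : H →L[ℝ] ℝ := L.mkContinuous B (fun g => by
    rw [Real.norm_eq_abs]; exact hbd g)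
  refine ⟨(InnerProductSpace.toDual ℝ H).symm L', fun g => ?_⟩
  have : ⟪(InnerProductSpace.toDual ℝ H).symm L', g⟫ = ℓ g := by
    rw [InnerProductSpace.toDual_symm_apply]; rfl
  rw [this]
  exact hℓ g

/-- index of the shell containing `x` -/
def sh (x : EuclideanSpace ℝ (Fin n)) : ℕ := ⌊‖x‖⌋₊

lemma measurable_sh : Measurable (sh (n := n)) := Nat.measurable_floor.comp measurable_norm

lemma mem_ball_sh (x : EuclideanSpace ℝ (Fin n)) : x ∈ ball (0 : EuclideanSpace ℝ (Fin n)) ((sh x : ℝ) + 1) := by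
  rw [mem_ball_zero_iff]; exact Nat.lt_floor_add_one _

lemma sh_le {x : EuclideanSpace ℝ (Fin n)} {R : ℝ} (hx : x ∈ ball (0 : EuclideanSpace ℝ (Fin n)) R) :
    sh x ≤ ⌊R⌋₊ := by
  rw [mem_ball_zero_iff] at hx
  exact Nat.floor_le_floor hx.le

/-- shell decomposition of a weighted integral -/
lemma lintegral_shell (c : ℕ → ℝ≥0∞) {f : EuclideanSpace ℝ (Fin n) → ℝ≥0∞} (hf : Measurable f) :
    ∫⁻ x, c (sh x) * f x ≤ ∑' m, c m * ∫⁻ x in ball (0 : EuclideanSpace ℝ (Fin n)) ((m : ℝ) + 1), f x := by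
  have hm : ∀ m : ℕ, MeasurableSet {x : EuclideanSpace ℝ (Fin n) | sh x = m} := fun m =>
    measurable_sh (measurableSet_singleton m)
  have hpt : ∀ x : EuclideanSpace ℝ (Fin n), c (sh x) * f x
      ≤ ∑' m, c m * (ball (0 : EuclideanSpace ℝ (Fin n)) ((m : ℝ) + 1)).indicator f x := by
    intro x
    calc c (sh x) * f x = c (sh x) *
          (ball (0 : EuclideanSpace ℝ (Fin n)) (((sh x : ℕ) : ℝ) + 1)).indicator f x := by
          rw [indicator_of_mem (mem_ball_sh x)]
      _ ≤ _ := ENNReal.le_tsum (f := fun m : ℕ =>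
          c m * (ball (0 : EuclideanSpace ℝ (Fin n)) ((m : ℝ) + 1)).indicator f x) (sh x)
  calc ∫⁻ x, c (sh x) * f x
      ≤ ∫⁻ x, ∑' m, c m * (ball (0 : EuclideanSpace ℝ (Fin n)) ((m : ℝ) + 1)).indicator f x :=
        lintegral_mono hpt
    _ = ∑' m, ∫⁻ x, c m * (ball (0 : EuclideanSpace ℝ (Fin n)) ((m : ℝ) + 1)).indicator f x := by
        rw [lintegral_tsum]
        intro m
        exact ((hf.indicator measurableSet_ball).const_mul _).aemeasurable
    _ = ∑' m, c m * ∫⁻ x in ball (0 : EuclideanSpace ℝ (Fin n)) ((m : ℝ) + 1), f x := by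
        refine tsum_congr fun m => ?_
        rw [lintegral_const_mul _ (hf.indicator measurableSet_ball),
          lintegral_indicator measurableSet_ball]

/-- **Weak limit in `L²_loc`.** -/
theorem exists_weak_limit_loc {κ : Type*} (𝒰 : Ultrafilter κ)
    (u : κ → EuclideanSpace ℝ (Fin n) → ℝ) (hu : ∀ᶠ k in 𝒰, Continuous (u k))
    (hb : ∀ m : ℕ, ∃ C, ∀ᶠ k in 𝒰,
      ∫ x in ball (0 : EuclideanSpace ℝ (Fin n)) ((m : ℝ) + 1), u k x ^ 2 ≤ C) :
    ∃ U : EuclideanSpace ℝ (Fin n) → ℝ, Measurable U ∧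
      (∀ R, MemLp ((ball (0 : EuclideanSpace ℝ (Fin n)) R).indicator U) 2) ∧
      ∀ (R : ℝ) (g : EuclideanSpace ℝ (Fin n) → ℝ), MemLp g 2 →
        (∀ x ∉ ball (0 : EuclideanSpace ℝ (Fin n)) R, g x = 0) →
        Tendsto (fun k => ∫ x, u k x * g x) 𝒰 (𝓝 (∫ x, U x * g x)) := by
  classical
  choose C0 hC0 using hb
  set C : ℕ → ℝ := fun m => max (C0 m) 0 with hC
  have hCn : ∀ m, 0 ≤ C m := fun m => le_max_right _ _
  -- weights
  set b : ℕ → ℝ := fun m => (1 / 2) ^ m / (1 + C m) with hbdef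
  have hbpos : ∀ m, 0 < b m := fun m => by
    have := hCn m; simp only [hbdef]; positivity
  have hb1 : ∀ m, b m ^ 2 * C m ≤ (1 / 2) ^ m := by
    intro m
    have h0 := hCn m
    have e1 : b m ^ 2 * C m = ((1 / 2) ^ m) * (((1 / 2) ^ m) * (C m / (1 + C m) ^ 2)) := by
      simp only [hbdef]; field_simp
    rw [e1]
    have h2 : ((1 : ℝ) / 2) ^ m ≤ 1 := pow_le_one₀ (by norm_num) (by norm_num)
    have h3 : C m / (1 + C m) ^ 2 ≤ 1 := by
      rw [div_le_one (by positivity)]; nlinarith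
    have h4 : ((1 : ℝ) / 2) ^ m * (C m / (1 + C m) ^ 2) ≤ 1 := by
      have h5 : 0 ≤ C m / (1 + C m) ^ 2 := by positivity
      have h6 : 0 ≤ ((1 : ℝ) / 2) ^ m := by positivity
      nlinarith
    have h6 : 0 ≤ ((1 : ℝ) / 2) ^ m := by positivity
    nlinarith
  let good : κ → ℕ → Prop := fun k m => Continuous (u k) ∧
    ∫ x in ball (0 : EuclideanSpace ℝ (Fin n)) ((m : ℝ) + 1), u k x ^ 2 ≤ C m
  have hgood : ∀ m, ∀ᶠ k in (𝒰 : Filter κ), good k m := by
    intro m
    filter_upwards [hC0 m, hu] with k hk huk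
    exact ⟨huk, hk.trans (le_max_left _ _)⟩
  let c : κ → ℕ → ℝ := fun k m => if good k m then b m else 0
  have hcn : ∀ k m, 0 ≤ c k m := fun k m => by
    simp only [c]; split_ifs
    · exact (hbpos m).le
    · exact le_rfl
  let v : κ → EuclideanSpace ℝ (Fin n) → ℝ := fun k x => if Continuous (u k) then c k (sh x) * u k x else 0
  have hvm : ∀ k, Measurable (v k) := by
    intro k
    by_cases hk : Continuous (u k)
    · simp only [v, hk, if_true]
      exact ((measurable_from_nat (f := c k)).comp measurable_sh).mul hk.measurable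
    · simp only [v, hk, if_false]; exact measurable_const
  have hl : ∀ k, ∫⁻ x, ENNReal.ofReal (v k x ^ 2) ≤ 2 := by
    intro k
    by_cases hk : Continuous (u k)
    swap
    · simp [v, hk]
    have e1 : ∀ x, ENNReal.ofReal (v k x ^ 2)
        = ENNReal.ofReal (c k (sh x) ^ 2) * ENNReal.ofReal (u k x ^ 2) := by
      intro x
      rw [← ENNReal.ofReal_mul (sq_nonneg _)]
      simp only [v, hk, if_true]
      rw [mul_pow]
    simp_rw [e1]
    refine (lintegral_shell (fun m => ENNReal.ofReal (c k m ^ 2))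
      (f := fun x => ENNReal.ofReal (u k x ^ 2))
      (ENNReal.measurable_ofReal.comp (hk.measurable.pow_const 2))).trans ?_
    have hterm : ∀ m : ℕ, ENNReal.ofReal (c k m ^ 2) *
        ∫⁻ x in ball (0 : EuclideanSpace ℝ (Fin n)) ((m : ℝ) + 1), ENNReal.ofReal (u k x ^ 2)
        ≤ ENNReal.ofReal ((1 / 2) ^ m) := by
      intro m
      by_cases hg : good k m
      · have hint : IntegrableOn (fun x => u k x ^ 2)
            (ball (0 : EuclideanSpace ℝ (Fin n)) ((m : ℝ) + 1)) :=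
          ((hk.pow 2).continuousOn.integrableOn_compact (isCompact_closedBall _ _)).mono_set
            ball_subset_closedBall
        have e2 : ∫⁻ x in ball (0 : EuclideanSpace ℝ (Fin n)) ((m : ℝ) + 1), ENNReal.ofReal (u k x ^ 2)
            = ENNReal.ofReal (∫ x in ball (0 : EuclideanSpace ℝ (Fin n)) ((m : ℝ) + 1), u k x ^ 2) := by
          rw [ofReal_integral_eq_lintegral_ofReal hint]
          exact Eventually.of_forall fun x => sq_nonneg _
        rw [e2, ← ENNReal.ofReal_mul (sq_nonneg _)]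
        apply ENNReal.ofReal_le_ofReal
        have : c k m = b m := by simp only [c, hg, if_true]
        rw [this]
        exact (mul_le_mul_of_nonneg_left hg.2 (sq_nonneg _)).trans (hb1 m)
      · have : c k m = 0 := by simp only [c, hg, if_false]
        rw [this]; simp
    refine (ENNReal.tsum_le_tsum hterm).trans ?_
    have e3 : ∑' m : ℕ, ENNReal.ofReal ((1 / 2) ^ m) = 2 := by
      rw [← ENNReal.ofReal_tsum_of_nonneg (fun m => by positivity) summable_geometric_two,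
        tsum_geometric_two]
      simp
    exact e3.le
  have hvi : ∀ k, Integrable (fun x => v k x ^ 2) := by
    intro k
    refine ⟨((hvm k).pow_const 2).aestronglyMeasurable, ?_⟩
    rw [hasFiniteIntegral_iff_ofReal (Eventually.of_forall fun x => sq_nonneg _)]
    exact (hl k).trans_lt (by norm_num)
  have hvL : ∀ k, MemLp (v k) 2 := fun k =>
    (memLp_two_iff_integrable_sq (hvm k).aestronglyMeasurable).mpr (hvi k)
  have hnorm : ∀ k, ‖(hvL k).toLp (v k)‖ ≤ 2 := by
    intro k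
    have h1 : ‖(hvL k).toLp (v k)‖ ^ 2 = ∫ x, v k x ^ 2 := by
      rw [← real_inner_self_eq_norm_sq, L2.inner_def]
      apply integral_congr_ae
      filter_upwards [(hvL k).coeFn_toLp] with x hx
      rw [hx]; simp [sq]
    have h2 : ∫ x, v k x ^ 2 ≤ 2 := by
      rw [integral_eq_lintegral_of_nonneg_ae (Eventually.of_forall fun x => sq_nonneg _)
        ((hvm k).pow_const 2).aestronglyMeasurable]
      exact ENNReal.toReal_le_of_le_ofReal (by norm_num) (by simpa using hl k)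
    nlinarith [norm_nonneg ((hvL k).toLp (v k))]
  obtain ⟨V, hV⟩ := exists_weak_limit 𝒰 (fun k => (hvL k).toLp (v k)) hnorm
  -- the limit function
  obtain ⟨V', hV'm, hV'e⟩ := (Lp.memLp V).1
  set U : EuclideanSpace ℝ (Fin n) → ℝ := fun x => V' x / b (sh x) with hU
  have hV'me : Measurable V' := hV'm.measurable
  have hUm : Measurable U := hV'me.div ((measurable_from_nat (f := b)).comp measurable_sh)
  have hV'L : MemLp V' 2 := (memLp_congr_ae hV'e).mp (Lp.memLp V)
  -- lower bound for the weights on balls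
  have hbl : ∀ R : ℝ, ∃ β : ℝ, 0 < β ∧ ∀ x ∈ ball (0 : EuclideanSpace ℝ (Fin n)) R, β ≤ b (sh x) := by
    intro R
    obtain ⟨m0, hm0, hmin⟩ := Finset.exists_min_image (Finset.range (⌊R⌋₊ + 1)) b
      ⟨0, by simp⟩
    refine ⟨b m0, hbpos m0, fun x hx => hmin _ ?_⟩
    rw [Finset.mem_range]
    exact Nat.lt_succ_of_le (sh_le hx)
  refine ⟨U, hUm, ?_, ?_⟩
  · intro R
    obtain ⟨β, hβ, hβ'⟩ := hbl R
    refine (hV'L.const_mul β⁻¹).of_le (hUm.indicator measurableSet_ball).aestronglyMeasurable ?_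
    refine Eventually.of_forall fun x => ?_
    by_cases hx : x ∈ ball (0 : EuclideanSpace ℝ (Fin n)) R
    · rw [indicator_of_mem hx, Real.norm_eq_abs, Real.norm_eq_abs, hU]
      simp only
      rw [abs_div, abs_mul, abs_of_pos (hbpos _), abs_of_pos (inv_pos.mpr hβ), div_eq_inv_mul]
      exact mul_le_mul_of_nonneg_right (inv_anti₀ hβ (hβ' x hx)) (abs_nonneg _)
    · rw [indicator_of_notMem hx]; simp; positivity
  · intro R g hg hgs
    obtain ⟨β, hβ, hβ'⟩ := hbl R
    set G : EuclideanSpace ℝ (Fin n) → ℝ := fun x => (b (sh x))⁻¹ * g x with hG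
    have hbm : Measurable fun x : EuclideanSpace ℝ (Fin n) => (b (sh x))⁻¹ :=
      ((measurable_from_nat (f := b)).comp measurable_sh).inv
    have hGL : MemLp G 2 := by
      refine (hg.const_mul β⁻¹).of_le (hbm.aestronglyMeasurable.mul hg.1) ?_
      refine Eventually.of_forall fun x => ?_
      by_cases hx : x ∈ ball (0 : EuclideanSpace ℝ (Fin n)) R
      · rw [Real.norm_eq_abs, Real.norm_eq_abs, hG]
        simp only
        rw [abs_mul, abs_mul, abs_of_pos (inv_pos.mpr (hbpos _)), abs_of_pos (inv_pos.mpr hβ)]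
        exact mul_le_mul_of_nonneg_right (inv_anti₀ hβ (hβ' x hx)) (abs_nonneg _)
      · simp [hG, hgs x hx]
    have h1 := hV (hGL.toLp G)
    have e1 : ⟪V, hGL.toLp G⟫ = ∫ x, U x * g x := by
      rw [L2.inner_def]
      apply integral_congr_ae
      filter_upwards [hGL.coeFn_toLp, hV'e] with x hx hx'
      rw [hx, hx']
      simp only [hG, hU, RCLike.inner_apply, conj_trivial]
      have := (hbpos (sh x)).ne'
      field_simp
    rw [e1] at h1
    refine h1.congr' ?_
    have hev : ∀ᶠ k in (𝒰 : Filter κ), ∀ m ∈ Finset.range (⌊R⌋₊ + 1), good k m := by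
      rw [Filter.eventually_all_finset]
      exact fun m _ => hgood m
    filter_upwards [hev, hu] with k hk huk
    rw [L2.inner_def]
    apply integral_congr_ae
    filter_upwards [hGL.coeFn_toLp, (hvL k).coeFn_toLp] with x hx hx'
    rw [hx, hx']
    simp only [hG, RCLike.inner_apply, conj_trivial]
    by_cases hxR : x ∈ ball (0 : EuclideanSpace ℝ (Fin n)) R
    · have hgx : good k (sh x) := hk _ (Finset.mem_range.mpr (Nat.lt_succ_of_le (sh_le hxR)))
      have : v k x = b (sh x) * u k x := by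
        simp only [v, huk, if_true, c, hgx]
      rw [this]
      have := (hbpos (sh x)).ne'
      field_simp
    · simp [hgs x hxR]

end

end Crest.Agent.R202.Lim
end

-- ▼ part R202/Lim6
section

/-!
# Row 202, part F: the limit function
-/

set_option autoImplicit false
open MeasureTheory Metric Set Filter Topology
open scoped ContDiff RealInnerProductSpace ENNReal
open Crest.GeometryTopology.CoordMetric
open Crest.Agent.R202.Ell (divA EllRegularity)

namespace Crest.Agent.R202.Lim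

noncomputable section

variable {n : ℕ}

lemma continuous_divA {A : EuclideanSpace ℝ (Fin n) → Matrix (Fin n) (Fin n) ℝ}
    (hA : ∀ i l, ContDiff ℝ ∞ fun x => A x i l)
    {φ : EuclideanSpace ℝ (Fin n) → ℝ} (hφ : ContDiff ℝ ∞ φ) :
    Continuous (divA A φ) := by
  have hpφ : ∀ j, ContDiff ℝ ∞ (pderiv j φ) := by
    intro j
    have : ContDiff ℝ ∞ (fderiv ℝ φ) := hφ.fderiv_right (m := ∞) (by norm_cast)
    exact this.clm_apply contDiff_const
  unfold divA
  refine continuous_finsetSum _ fun i _ => ?_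
  apply continuous_pderiv
  have : ContDiff ℝ ∞ (fun y => ∑ j, A y i j * pderiv j φ y) :=
    ContDiff.sum fun j _ => (hA i j).mul (hpφ j)
  exact this.of_le (by norm_cast)

lemma divA_eq_zero_of_notMem {A : EuclideanSpace ℝ (Fin n) → Matrix (Fin n) (Fin n) ℝ}
    {φ : EuclideanSpace ℝ (Fin n) → ℝ} {x : EuclideanSpace ℝ (Fin n)}
    (hx : x ∉ tsupport φ) : divA A φ x = 0 := by
  unfold divA
  refine Finset.sum_eq_zero fun i _ => ?_
  apply pderiv_eq_zero_of_notMem
  intro h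
  apply hx
  refine closure_minimal ?_ (isClosed_tsupport φ) h
  intro y hy
  by_contra hn
  apply hy
  simp [pderiv_eq_zero_of_notMem hn]

lemma ind_sq {α : Type*} (B : Set α) (U : α → ℝ) (x : α) :
    B.indicator U x ^ 2 = B.indicator (fun x => U x ^ 2) x := by
  by_cases hx : x ∈ B
  · simp [indicator_of_mem hx]
  · simp [indicator_of_notMem hx]

lemma mul_ind {α : Type*} (B : Set α) (U : α → ℝ) (x : α) :
    U x * B.indicator U x = B.indicator (fun x => U x ^ 2) x := by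
  by_cases hx : x ∈ B
  · simp [indicator_of_mem hx, sq]
  · simp [indicator_of_notMem hx]

lemma mul_ind_le {α : Type*} (B : Set α) (u U : α → ℝ) (x : α) :
    |u x * B.indicator U x| ≤ (B.indicator (fun x => u x ^ 2) x
      + B.indicator (fun x => U x ^ 2) x) / 2 := by
  by_cases hx : x ∈ B
  · simp only [indicator_of_mem hx]
    rw [abs_mul, ← sq_abs (u x), ← sq_abs (U x)]
    nlinarith [sq_nonneg (|u x| - |U x|)]
  · simp [indicator_of_notMem hx]

lemma weak_growth {κ : Type*} {F : Filter κ} [F.NeBot]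
    {u : κ → EuclideanSpace ℝ (Fin n) → ℝ} {U : EuclideanSpace ℝ (Fin n) → ℝ}
    {B : Set (EuclideanSpace ℝ (Fin n))} (hB : MeasurableSet B) (hUL : MemLp (B.indicator U) 2)
    (hi : ∀ᶠ k in F, IntegrableOn (fun x => u k x ^ 2) B) {C : ℝ}
    (hg : ∀ᶠ k in F, ∫ x in B, u k x ^ 2 ≤ C)
    (ht : Tendsto (fun k => ∫ x, u k x * B.indicator U x) F (𝓝 (∫ x, U x * B.indicator U x))) :
    ∫ x in B, U x ^ 2 ≤ C := by
  have hI : Integrable (B.indicator (fun x => U x ^ 2)) := by
    have := (memLp_two_iff_integrable_sq hUL.1).mp hUL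
    simp_rw [ind_sq] at this
    exact this
  have e1 : ∫ x, U x * B.indicator U x = ∫ x in B, U x ^ 2 := by
    simp_rw [mul_ind]
    rw [integral_indicator hB]
  rw [e1] at ht
  have hle : ∀ᶠ k in F, ∫ x, u k x * B.indicator U x ≤ (C + ∫ x in B, U x ^ 2) / 2 := by
    filter_upwards [hi, hg] with k hik hk
    have i1 : Integrable (B.indicator (fun x => u k x ^ 2)) := hik.integrable_indicator hB
    calc ∫ x, u k x * B.indicator U x
        ≤ |∫ x, u k x * B.indicator U x| := le_abs_self _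
      _ ≤ ∫ x, (B.indicator (fun x => u k x ^ 2) x + B.indicator (fun x => U x ^ 2) x) / 2 := by
          rw [← Real.norm_eq_abs]
          refine norm_integral_le_of_norm_le ((i1.add hI).div_const 2) ?_
          exact Eventually.of_forall fun x => by
            rw [Real.norm_eq_abs]; exact mul_ind_le B (u k) U x
      _ = ((∫ x in B, u k x ^ 2) + ∫ x in B, U x ^ 2) / 2 := by
          rw [integral_div, integral_add i1 hI, integral_indicator hB, integral_indicator hB]
      _ ≤ (C + ∫ x in B, U x ^ 2) / 2 := by linarith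
  have := le_of_tendsto ht hle
  linarith

/-- **Limit theorem.** -/
theorem exists_limit (hreg : EllRegularity n) {κ : Type*} (𝒰 : Ultrafilter κ)
    (A : κ → EuclideanSpace ℝ (Fin n) → Matrix (Fin n) (Fin n) ℝ)
    (Ai : EuclideanSpace ℝ (Fin n) → Matrix (Fin n) (Fin n) ℝ)
    (u : κ → EuclideanSpace ℝ (Fin n) → ℝ)
    (hA : ∀ᶠ k in 𝒰, ∀ i l, Continuous fun x => A k x i l)
    (hAi : ∀ i l, ContDiff ℝ ∞ fun x => Ai x i l) (hpos : ∀ x, (Ai x).PosDef)
    (hconv : ∀ R, ∀ ε > 0, ∀ᶠ k in 𝒰, ∀ x ∈ closedBall (0 : EuclideanSpace ℝ (Fin n)) R,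
      ∀ i l, |A k x i l - Ai x i l| ≤ ε)
    (hu : ∀ᶠ k in 𝒰, ContDiff ℝ 1 (u k))
    (hen : ∀ R, ∃ C, ∀ᶠ k in 𝒰,
      ∫ x in closedBall (0 : EuclideanSpace ℝ (Fin n)) R, ‖fderiv ℝ (u k) x‖ ^ 2 ≤ C)
    (Cg : ℝ → ℝ) (hg : ∀ R, ∀ᶠ k in 𝒰,
      ∫ x in ball (0 : EuclideanSpace ℝ (Fin n)) R, u k x ^ 2 ≤ Cg R)
    {r0 : ℝ} (hr0 : 0 < r0)
    (hw0 : ∀ φ : EuclideanSpace ℝ (Fin n) → ℝ, ContDiff ℝ ∞ φ → HasCompactSupport φ →
      tsupport φ ⊆ ball 0 r0 → ∀ᶠ k in 𝒰, ∫ x, Q (A k) (u k) φ x = 0)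
    (hw1 : ∀ χ : ℝ → ℝ, ContDiff ℝ ∞ χ → HasCompactSupport χ → tsupport χ ⊆ Ioi 0 →
      ∀ p : MvPolynomial (Fin n) ℝ, ∀ᶠ k in 𝒰,
        ∫ x, Q (A k) (u k) (fun x => χ ‖x‖ * pe p x) x = 0) :
    ∃ f : EuclideanSpace ℝ (Fin n) → ℝ, ContDiff ℝ ∞ f ∧ (∀ x, divA Ai f x = 0) ∧
      (∀ R, ∫ x in ball (0 : EuclideanSpace ℝ (Fin n)) R, f x ^ 2 ≤ Cg R) ∧
      ∀ (R : ℝ) (g : EuclideanSpace ℝ (Fin n) → ℝ), MemLp g 2 →
        (∀ x ∉ ball (0 : EuclideanSpace ℝ (Fin n)) R, g x = 0) →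
        Tendsto (fun k => ∫ x, u k x * g x) 𝒰 (𝓝 (∫ x, f x * g x)) := by
  have huc : ∀ᶠ k in (𝒰 : Filter κ), Continuous (u k) := hu.mono fun k hk => hk.continuous
  obtain ⟨U, hUm, hUL, hUt⟩ := exists_weak_limit_loc 𝒰 u huc
    (fun m => ⟨Cg ((m : ℝ) + 1), hg _⟩)
  -- growth
  have hU2 : ∀ R, ∫ x in ball (0 : EuclideanSpace ℝ (Fin n)) R, U x ^ 2 ≤ Cg R := by
    intro R
    refine weak_growth measurableSet_ball (hUL R) ?_ (hg R)
      (hUt R _ (hUL R) (fun x hx => indicator_of_notMem hx _))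
    filter_upwards [huc] with k huk
    exact ((huk.pow 2).continuousOn.integrableOn_compact (isCompact_closedBall _ _)).mono_set
      ball_subset_closedBall
  -- local integrability
  have hUloc : LocallyIntegrable U := by
    rw [locallyIntegrable_iff]
    intro K hK
    obtain ⟨R, hR⟩ := hK.isBounded.subset_ball 0
    have h1 : MemLp U 2 (volume.restrict (ball (0 : EuclideanSpace ℝ (Fin n)) R)) :=
      (memLp_indicator_iff_restrict measurableSet_ball).mp (hUL R)
    have hfin : IsFiniteMeasure (volume.restrict (ball (0 : EuclideanSpace ℝ (Fin n)) R)) :=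
      ⟨by rw [Measure.restrict_apply_univ]; exact measure_ball_lt_top⟩
    have h2 : IntegrableOn U (ball (0 : EuclideanSpace ℝ (Fin n)) R) :=
      h1.integrable (by norm_num)
    exact h2.mono_set hR
  -- the equation
  have hsym : ∀ x i l, Ai x i l = Ai x l i := by
    intro x i l
    have := (hpos x).isHermitian.apply l i
    simpa using this
  have hweak : ∀ φ : EuclideanSpace ℝ (Fin n) → ℝ, ContDiff ℝ ∞ φ → HasCompactSupport φ →
      tsupport φ ⊆ univ → ∫ x, U x * divA Ai φ x = ∫ x, (0 : EuclideanSpace ℝ (Fin n) → ℝ) x * φ x := by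
    intro φ hφ hφc _
    have hT1 := tendsto_integral_mul_divA A Ai u hA hAi hsym hconv hu hen hr0 hw0 hw1 hφ hφc
    have hcont := continuous_divA hAi hφ
    have hcs : HasCompactSupport (divA Ai φ) :=
      HasCompactSupport.intro hφc.isCompact fun x hx => divA_eq_zero_of_notMem hx
    obtain ⟨R, hR⟩ := hφc.isCompact.isBounded.subset_ball 0
    have hT2 := hUt R (divA Ai φ) (hcont.memLp_of_hasCompactSupport hcs)
      (fun x hx => divA_eq_zero_of_notMem fun h => hx (hR h))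
    rw [tendsto_nhds_unique hT2 hT1]
    simp
  obtain ⟨f, hf1, hf2, hf3⟩ := hreg univ isOpen_univ Ai (fun i j => (hAi i j).contDiffOn)
    (fun x _ => hpos x) 0 contDiffOn_const U (hUloc.locallyIntegrableOn univ) hweak
  have hfU : f =ᵐ[volume] U := by
    filter_upwards [hf2] with x hx using hx (mem_univ x)
  refine ⟨f, contDiffOn_univ.mp hf1, fun x => hf3 x (mem_univ x), fun R => ?_, fun R g hgL hgs => ?_⟩
  · have : ∫ x in ball (0 : EuclideanSpace ℝ (Fin n)) R, f x ^ 2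
        = ∫ x in ball (0 : EuclideanSpace ℝ (Fin n)) R, U x ^ 2 := by
      apply integral_congr_ae
      filter_upwards [ae_restrict_of_ae hfU] with x hx
      rw [hx]
    rw [this]; exact hU2 R
  · have : ∫ x, f x * g x = ∫ x, U x * g x := by
      apply integral_congr_ae
      filter_upwards [hfU] with x hx
      rw [hx]
    rw [this]; exact hUt R g hgL hgs

end

end Crest.Agent.R202.Lim
end

-- ▼ part R202/TopLim
section

/-!
Row 202, GLUE (helper632): from the Galerkin functions `F k j` on `ℝ^{m+3}` to the harmonic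
functions of `MainThm` (limit, regularity, linear independence, pointwise growth).
-/

set_option autoImplicit false

open scoped ContDiff RealInnerProductSpace Gradient
open Set Filter Topology MeasureTheory Metric
open Crest.GeometryTopology.CoordMetric Crest.GeometryTopology.ChartCurvature
open Crest.Agent.R202.Geo Crest.Agent.R202.Main

namespace Crest.Agent.R202.Top

variable {m : ℕ} {s θ : ℝ → ℝ} {P : ℝ → ℝ → ℂ → ℝ} {t0 X0 X1 : ℝ}

lemma gradient_apply {n : ℕ} (v : EuclideanSpace ℝ (Fin n) → ℝ) (x : EuclideanSpace ℝ (Fin n))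
    (i : Fin n) : (∇ v x) i = pderiv i v x := by
  have h1 : ⟪∇ v x, EuclideanSpace.single i (1 : ℝ)⟫
      = fderiv ℝ v x (EuclideanSpace.single i 1) := by
    unfold gradient
    exact InnerProductSpace.toDual_symm_apply
  unfold pderiv
  rw [← h1, EuclideanSpace.inner_single_right]
  simp

/-- A smooth solution is a weak solution in the sense of Moser. -/
theorem weakSol (h : Fam s θ P t0 X0 X1) {f : EuclideanSpace ℝ (Fin (m + 3)) → ℝ}
    (hf : ContDiff ℝ ∞ f) (hdiv : ∀ x, Ell.divA (coefF s θ P) f x = 0)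
    (x0 : EuclideanSpace ℝ (Fin (m + 3))) (R : ℝ) :
    Moser.WeakSol (Fam.coefL s θ P) f x0 R := by
  refine Moser.weakSol_of_div
    (X := fun i x => ∑ j, coefF s θ P x i j * pderiv j f x) (fun i => ?_) (fun x _ i => ?_)
    (fun x _ => ?_)
  · refine ContDiff.contDiffOn ?_
    refine ContDiff.sum fun j _ => ContDiff.mul ((h.contDiff_coefF i j).of_le (by norm_cast)) ?_
    unfold pderiv
    exact (hf.fderiv_right (m := 1) (by norm_cast)).clm_apply contDiff_const
  · rw [Fam.coefL_apply]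
    exact Finset.sum_congr rfl fun j _ => by rw [gradient_apply]
  · exact hdiv x

/-- Pointwise growth from the growth of the `L²` norms on balls. -/
theorem growth_of_L2 {K : ℝ} (h : Fam s θ P t0 X0 X1) (hb : Fam.Bd s θ P K)
    {f : EuclideanSpace ℝ (Fin (m + 3)) → ℝ} (hf : ContDiff ℝ ∞ f)
    (hdiv : ∀ x, Ell.divA (coefF s θ P) f x = 0) {C0 : ℝ} {k : ℕ}
    (hg : ∀ R, 0 ≤ R → ∫ x in ball (0 : EuclideanSpace ℝ (Fin (m + 3))) R, f x ^ 2 ≤
      C0 * (1 + R) ^ (m + 3 + 2 * k)) :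
    ∃ C : ℝ, ∀ x, |f x| ≤ C * (1 + riemDist (gfam s θ P) univ 0 x) ^ k := by
  obtain ⟨lam, Lam, hlam, hLam, hell⟩ := Fam.coefL_ell m K hb.one_le
  obtain ⟨C, hC, H⟩ := Moser.sup_bound (n := m + 3) (by omega) Lam hlam
  have hC0 : 0 ≤ C0 := by
    have h1 := hg 0 le_rfl
    simp at h1
    exact h1
  set N : ℕ := m + 3 + 2 * k with hN
  refine ⟨Real.sqrt (C * C0 * 3 ^ N), fun x => ?_⟩
  rw [(h.radialMetric (m := m)).riemDist_zero x]
  set r : ℝ := 1 + ‖x‖ with hr
  have hr1 : 1 ≤ r := by rw [hr]; linarith [norm_nonneg x]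
  have hr0 : 0 < r := by linarith
  have h1 := H (Fam.coefL s θ P) f 0 r hr0 h.continuous_coefL (hf.of_le (by norm_cast))
    (hell s θ P t0 X0 X1 h hb 0 (2 * r)) (weakSol h hf hdiv 0 (2 * r)) x
    (by rw [mem_ball_zero_iff, hr]; linarith)
  have h2 := hg (2 * r) (by linarith)
  have h3 : (1 + 2 * r) ^ N ≤ (3 * r) ^ N := pow_le_pow_left₀ (by linarith) (by linarith) N
  have h4 : f x ^ 2 ≤ (C * C0 * 3 ^ N) * (r ^ k) ^ 2 := by
    calc f x ^ 2 ≤ C * ((r ^ (m + 3))⁻¹ * ∫ y in ball (0 : EuclideanSpace ℝ (Fin (m + 3))) (2 * r),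
          f y ^ 2) := h1
      _ ≤ C * ((r ^ (m + 3))⁻¹ * (C0 * (3 * r) ^ N)) := by
          refine mul_le_mul_of_nonneg_left (mul_le_mul_of_nonneg_left ?_ (by positivity)) hC.le
          exact h2.trans (mul_le_mul_of_nonneg_left h3 hC0)
      _ = (C * C0 * 3 ^ N) * (r ^ k) ^ 2 := by
          rw [mul_pow, hN, pow_add r]
          have : r ^ (m + 3) ≠ 0 := by positivity
          field_simp
          ring
  have h5 := Real.abs_le_sqrt h4
  rwa [Real.sqrt_mul (by positivity), Real.sqrt_sq (by positivity)] at h5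

/-- Linear independence from an almost orthonormal pairing. -/
theorem indep_of_pairing {n : ℕ} {J : Type*} [Fintype J] [DecidableEq J]
    (f φ : J → EuclideanSpace ℝ (Fin n) → ℝ)
    (hint : ∀ i j, Integrable fun x => f j x * φ i x) {ε : ℝ} (hε : ε * Fintype.card J < 1)
    (hp : ∀ i j, |(∫ x, f j x * φ i x) - if i = j then 1 else 0| ≤ ε) :
    LinearIndependent ℝ f := by
  classical
  rw [Fintype.linearIndependent_iff]
  intro c hc
  have h1 : ∀ i, ∑ j, c j * (∫ x, f j x * φ i x) = 0 := by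
    intro i
    have e1 : ∑ j, c j * (∫ x, f j x * φ i x) = ∫ x, ∑ j, c j * (f j x * φ i x) := by
      rw [integral_finsetSum _ fun j _ => (hint i j).const_mul _]
      exact Finset.sum_congr rfl fun j _ => (integral_const_mul _ _).symm
    have e2 : ∀ x, ∑ j, c j * (f j x * φ i x) = 0 := by
      intro x
      have := congrFun hc x
      rw [Finset.sum_apply] at this
      have e3 : ∑ j, c j * (f j x * φ i x) = (∑ j, (c j • f j) x) * φ i x := by
        rw [Finset.sum_mul]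
        exact Finset.sum_congr rfl fun j _ => by simp only [Pi.smul_apply, smul_eq_mul]; ring
      rw [e3, this]; simp
    rw [e1]
    simp [e2]
  have h2 : ∀ i, |c i| ≤ ε * ∑ j, |c j| := by
    intro i
    have e1 : c i = -∑ j, c j * ((∫ x, f j x * φ i x) - if i = j then 1 else 0) := by
      simp only [mul_sub, Finset.sum_sub_distrib, h1 i]
      simp
    rw [e1, abs_neg, Finset.mul_sum]
    refine (Finset.abs_sum_le_sum_abs _ _).trans (Finset.sum_le_sum fun j _ => ?_)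
    rw [abs_mul, mul_comm]
    exact mul_le_mul_of_nonneg_right (hp i j) (abs_nonneg _)
  have h3 : ∑ i, |c i| ≤ ε * Fintype.card J * ∑ j, |c j| := by
    calc ∑ i, |c i| ≤ ∑ _i : J, ε * ∑ j, |c j| := Finset.sum_le_sum fun i _ => h2 i
      _ = ε * Fintype.card J * ∑ j, |c j| := by
          rw [Finset.sum_const, Finset.card_univ, nsmul_eq_mul]; ring
  have h4 : ∑ i, |c i| = 0 := by
    have h5 : 0 ≤ ∑ i, |c i| := Finset.sum_nonneg fun i _ => abs_nonneg _
    rcases h5.eq_or_lt with h6 | h6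
    · exact h6.symm
    · exfalso
      have := mul_lt_mul_of_pos_right hε h6
      linarith
  intro i
  have := (Finset.sum_eq_zero_iff_of_nonneg fun i _ => abs_nonneg (c i)).1 h4 i (Finset.mem_univ i)
  exact abs_eq_zero.1 this

/-- The Galerkin functions on `ℝ^{m+3}`, everything that the limit needs. -/
structure LimFam (m : ℕ) (J : Type*) [Fintype J] [DecidableEq J] (k : ℕ)
    (A : ℕ → EuclideanSpace ℝ (Fin (m + 3)) → Matrix (Fin (m + 3)) (Fin (m + 3)) ℝ) where
  F : ℕ → J → EuclideanSpace ℝ (Fin (m + 3)) → ℝ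
  r0 : ℝ
  r0_pos : 0 < r0
  reg : ∀ n j, ContDiff ℝ 1 (F n j)
  w0 : ∀ j, ∀ φ : EuclideanSpace ℝ (Fin (m + 3)) → ℝ, ContDiff ℝ ∞ φ → HasCompactSupport φ →
      tsupport φ ⊆ ball 0 r0 → ∀ᶠ n in atTop, ∫ x, Lim.Q (A n) (F n j) φ x = 0
  w1 : ∀ j, ∀ χ : ℝ → ℝ, ContDiff ℝ ∞ χ → HasCompactSupport χ → tsupport χ ⊆ Ioi 0 →
      ∀ p : MvPolynomial (Fin (m + 3)) ℝ, ∀ᶠ n in atTop,
        ∫ x, Lim.Q (A n) (F n j) (fun x => χ ‖x‖ * Lim.pe p x) x = 0
  energy : ∀ R, ∃ C, ∀ᶠ n in atTop, ∀ j,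
      ∫ x in closedBall (0 : EuclideanSpace ℝ (Fin (m + 3))) R, ‖fderiv ℝ (F n j) x‖ ^ 2 ≤ C
  C0 : ℝ
  growth : ∀ R, 0 ≤ R → ∀ᶠ n in atTop, ∀ j,
      ∫ x in ball (0 : EuclideanSpace ℝ (Fin (m + 3))) R, F n j x ^ 2 ≤
        C0 * (1 + R) ^ (m + 3 + 2 * k)
  φ : J → EuclideanSpace ℝ (Fin (m + 3)) → ℝ
  φ_L2 : ∀ i, MemLp (φ i) 2
  φ_supp : ∃ R, ∀ i, ∀ x ∉ ball (0 : EuclideanSpace ℝ (Fin (m + 3))) R, φ i x = 0
  ε : ℝ
  ε_lt : ε * Fintype.card J < 1
  pair : ∀ᶠ n in atTop, ∀ i j, |(∫ x, F n j x * φ i x) - if i = j then 1 else 0| ≤ ε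

/-- **From the Galerkin functions to harmonic functions.** -/
theorem harmonic_of_limFam {K : ℝ} (h : Fam s θ P t0 X0 X1)
    (hb : Fam.Bd s θ P K) {J : Type*} [Fintype J] [DecidableEq J] {k : ℕ}
    {A : ℕ → EuclideanSpace ℝ (Fin (m + 3)) → Matrix (Fin (m + 3)) (Fin (m + 3)) ℝ}
    (L : LimFam m J k A) (𝒰 : Ultrafilter ℕ) (h𝒰 : (𝒰 : Filter ℕ) ≤ atTop)
    (hA : ∀ᶠ n in 𝒰, ∀ i l, Continuous fun x => A n x i l)
    (hconv : ∀ R, ∀ ε > 0, ∀ᶠ n in 𝒰, ∀ x ∈ closedBall (0 : EuclideanSpace ℝ (Fin (m + 3))) R,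
      ∀ i l, |A n x i l - coefF s θ P x i l| ≤ ε) :
    ∃ f : J → EuclideanSpace ℝ (Fin (m + 3)) → ℝ, LinearIndependent ℝ f ∧
      ∀ j, IsHarmonicOn (gfam s θ P) univ (f j) ∧
        ∃ C : ℝ, ∀ x, |f j x| ≤ C * (1 + riemDist (gfam s θ P) univ 0 x) ^ k := by
  classical
  have H : ∀ j, ∃ f : EuclideanSpace ℝ (Fin (m + 3)) → ℝ, ContDiff ℝ ∞ f ∧
      (∀ x, Ell.divA (coefF s θ P) f x = 0) ∧
      (∀ R, ∫ x in ball (0 : EuclideanSpace ℝ (Fin (m + 3))) R, f x ^ 2 ≤
        L.C0 * (1 + |R|) ^ (m + 3 + 2 * k)) ∧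
      ∀ (R : ℝ) (φ : EuclideanSpace ℝ (Fin (m + 3)) → ℝ), MemLp φ 2 →
        (∀ x ∉ ball (0 : EuclideanSpace ℝ (Fin (m + 3))) R, φ x = 0) →
        Tendsto (fun n => ∫ x, L.F n j x * φ x) 𝒰 (𝓝 (∫ x, f x * φ x)) := by
    intro j
    refine Lim.exists_limit (Ell.ell_regularity (m + 3)) 𝒰 A (coefF s θ P) (fun n => L.F n j)
      hA h.contDiff_coefF h.coefF_posDef hconv (Eventually.of_forall fun n => L.reg n j) ?_
      (fun R => L.C0 * (1 + |R|) ^ (m + 3 + 2 * k)) ?_ L.r0_pos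
      (fun φ h1 h2 h3 => h𝒰 (L.w0 j φ h1 h2 h3))
      (fun χ h1 h2 h3 p => h𝒰 (L.w1 j χ h1 h2 h3 p))
    · intro R
      obtain ⟨C, hC⟩ := L.energy R
      exact ⟨C, h𝒰 (hC.mono fun n hn => hn j)⟩
    · intro R
      rcases le_or_gt 0 R with hR | hR
      · have h1 := (L.growth R hR).mono fun n hn => hn j
        rw [abs_of_nonneg hR]
        exact h𝒰 h1
      · have h1 := L.growth 0 le_rfl
        refine h𝒰 (h1.mono fun n hn => ?_)
        have h2 := hn j
        rw [ball_eq_empty.2 hR.le]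
        simp only [Measure.restrict_empty, integral_zero_measure]
        simp only [ball_zero, Measure.restrict_empty, integral_zero_measure, add_zero, one_pow,
          mul_one] at h2
        positivity
  choose f hf1 hf2 hf3 hf4 using H
  obtain ⟨R, hR⟩ := L.φ_supp
  refine ⟨f, ?_, fun j => ⟨(h.isHarmonicOn_iff _).2 ⟨hf1 j, hf2 j⟩,
    growth_of_L2 h hb (hf1 j) (hf2 j)
      (fun R hR => by have := hf3 j R; rwa [abs_of_nonneg hR] at this)⟩⟩
  refine indep_of_pairing f L.φ (fun i j => ?_) L.ε_lt fun i j => ?_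
  · -- integrability
    have h1 : (fun x => f j x * L.φ i x) =
        fun x => (ball (0 : EuclideanSpace ℝ (Fin (m + 3))) R).indicator (f j) x * L.φ i x := by
      funext x
      by_cases hx : x ∈ ball (0 : EuclideanSpace ℝ (Fin (m + 3))) R
      · rw [indicator_of_mem hx]
      · rw [hR i x hx]; simp
    rw [h1]
    have h2 : MemLp ((ball (0 : EuclideanSpace ℝ (Fin (m + 3))) R).indicator (f j)) 2 := by
      rw [memLp_indicator_iff_restrict measurableSet_ball]
      have hc : Continuous (f j) := (hf1 j).continuous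
      have : IsFiniteMeasure (volume.restrict (ball (0 : EuclideanSpace ℝ (Fin (m + 3))) R)) :=
        ⟨by rw [Measure.restrict_apply_univ]; exact measure_ball_lt_top⟩
      obtain ⟨M, hM⟩ := (isCompact_closedBall (0 : EuclideanSpace ℝ (Fin (m + 3))) R).exists_bound_of_continuousOn
        hc.continuousOn
      exact MemLp.of_bound hc.aestronglyMeasurable M
        ((ae_restrict_iff' measurableSet_ball).2 (Eventually.of_forall fun x hx =>
          hM x (ball_subset_closedBall hx)))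
    exact h2.integrable_mul (L.φ_L2 i)
  · have h1 := hf4 j R (L.φ i) (L.φ_L2 i) (hR i)
    have h2 : Tendsto (fun n => |(∫ x, L.F n j x * L.φ i x) - if i = j then 1 else 0|) 𝒰
        (𝓝 |(∫ x, f j x * L.φ i x) - if i = j then 1 else 0|) := (h1.sub_const _).abs
    exact le_of_tendsto h2 (h𝒰 (L.pair.mono fun n hn => hn i j))

end Crest.Agent.R202.Top
end

-- ▼ part R202/SchedIdx
section

/-!
Row 202, GLUE (helper632): cyclic schedule of the designated (sector, cut) pairs.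
`M = ∑ w i` slots; the slots of the sector `i` are consecutive.
-/

set_option autoImplicit false

namespace Crest.Agent.R202.Main

theorem exists_schedule_fin {r : ℕ} (w : Fin r → ℕ) (hM : 0 < ∑ i, w i) :
    ∃ (jt : ℕ → (i : Fin r) × Fin (w i)) (off : Fin r → ℕ), ∀ k i,
      ((k + off i) % (∑ i, w i) < w i ↔ (jt k).1 = i) ∧
      ((jt k).1 = i → ((jt k).2 : ℕ) = (k + off i) % (∑ i, w i)) := by
  classical
  set M := ∑ i, w i with hMdef
  let pre : Fin r → ℕ := fun i => ∑ j : Fin i.1, w (Fin.castLE i.2.le j)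
  have hpre : ∀ i : Fin r, pre i + w i ≤ M := by
    intro i
    have h1 : w i ≤ M - pre i ∧ pre i ≤ M := by
      have h2 := (finSigmaFinEquiv (n := w))
      by_cases hw : w i = 0
      · refine ⟨by omega, ?_⟩
        have h3 : pre i = ∑ j ∈ Finset.univ.filter (fun j : Fin r => j < i), w j := by
          symm
          refine Finset.sum_bij' (fun (j : Fin r) (hj : j ∈ _) =>
              (⟨j.1, by simpa using hj⟩ : Fin i.1)) (fun j _ => Fin.castLE i.2.le j) ?_ ?_ ?_ ?_ ?_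
          · intro a ha; exact Finset.mem_univ _
          · intro a ha
            rw [Finset.mem_filter]
            refine ⟨Finset.mem_univ _, ?_⟩
            exact a.2
          · intro a ha; rfl
          · intro a ha; rfl
          · intro a ha; rfl
        rw [h3]
        exact Finset.sum_le_sum_of_subset (Finset.filter_subset _ _)
      · have h4 : ((finSigmaFinEquiv ⟨i, ⟨w i - 1, by omega⟩⟩ : Fin (∑ i, w i)) : ℕ) < M :=
          (finSigmaFinEquiv ⟨i, ⟨w i - 1, by omega⟩⟩).2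
        rw [finSigmaFinEquiv_apply] at h4
        simp only at h4
        change pre i + (w i - 1) < M at h4
        omega
    omega
  let jt : ℕ → (i : Fin r) × Fin (w i) := fun k =>
    finSigmaFinEquiv.symm ⟨k % M, Nat.mod_lt _ hM⟩
  have hjt : ∀ k, pre (jt k).1 + ((jt k).2 : ℕ) = k % M := by
    intro k
    have h1 : finSigmaFinEquiv (jt k) = ⟨k % M, Nat.mod_lt _ hM⟩ := by simp [jt]
    have h2 := congrArg Fin.val h1
    rw [finSigmaFinEquiv_apply] at h2
    exact h2
  refine ⟨jt, fun i => M - pre i, ?_⟩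
  intro k i
  have hs : k % M < M := Nat.mod_lt _ hM
  have hp := hpre i
  -- value of the slot
  have hval : (k + (M - pre i)) % M = if pre i ≤ k % M then k % M - pre i
      else k % M + (M - pre i) := by
    rw [Nat.add_mod]
    split_ifs with h
    · by_cases h0 : pre i = 0
      · rw [h0, Nat.sub_zero, Nat.mod_self, Nat.add_zero, Nat.mod_mod, Nat.sub_zero]
      · rw [Nat.mod_eq_of_lt (show M - pre i < M by omega)]
        rw [show k % M + (M - pre i) = (k % M - pre i) + M by omega, Nat.add_mod_right,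
          Nat.mod_eq_of_lt (by omega)]
    · rw [Nat.mod_eq_of_lt (show M - pre i < M by omega), Nat.mod_eq_of_lt (by omega)]
  have hiff : (k + (M - pre i)) % M < w i ↔ pre i ≤ k % M ∧ k % M < pre i + w i := by
    rw [hval]
    split_ifs with h
    · omega
    · constructor
      · intro h1; omega
      · intro h1; omega
  -- uniqueness of the block
  have huniq : ∀ i' : Fin r, pre i' ≤ k % M → k % M < pre i' + w i' → (jt k).1 = i' := by
    intro i' h1 h2
    have h3 : finSigmaFinEquiv ⟨i', (⟨k % M - pre i', by omega⟩ : Fin (w i'))⟩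
        = (⟨k % M, hs⟩ : Fin (∑ i, w i)) := by
      apply Fin.ext
      rw [finSigmaFinEquiv_apply]
      change pre i' + (k % M - pre i') = k % M
      omega
    have h4 : jt k = ⟨i', (⟨k % M - pre i', by omega⟩ : Fin (w i'))⟩ := by
      simp only [jt]
      rw [← h3, Equiv.symm_apply_apply]
    rw [h4]
  have hblock := hjt k
  have hlt : ((jt k).2 : ℕ) < w (jt k).1 := (jt k).2.2
  constructor
  · rw [hiff]
    constructor
    · rintro ⟨h1, h2⟩
      exact huniq i h1 h2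
    · rintro rfl
      omega
  · rintro rfl
    show ((jt k).2 : ℕ) = (k + (M - pre (jt k).1)) % M
    rw [hval, if_pos (by omega)]
    omega

/-- cyclic schedule: `jt k` = designated pair of gate `k` -/
theorem exists_schedule {ι : Type} [Fintype ι] (w : ι → ℕ) (hM : 0 < ∑ i, w i) :
    ∃ (jt : ℕ → (i : ι) × Fin (w i)) (off : ι → ℕ), ∀ k i,
      ((k + off i) % (∑ i, w i) < w i ↔ (jt k).1 = i) ∧
      ((jt k).1 = i → ((jt k).2 : ℕ) = (k + off i) % (∑ i, w i)) := by
  classical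
  let E := Fintype.equivFin ι
  have hsum : ∑ i : Fin (Fintype.card ι), w (E.symm i) = ∑ i, w i :=
    Equiv.sum_comp E.symm w
  obtain ⟨jt, off, h⟩ := exists_schedule_fin (fun i => w (E.symm i)) (by rw [hsum]; exact hM)
  rw [hsum] at h
  refine ⟨fun k => ⟨E.symm (jt k).1, (jt k).2⟩, fun i => off (E i), ?_⟩
  intro k i
  have h1 := h k (E i)
  rw [Equiv.symm_apply_apply] at h1
  have h2 : E.symm (jt k).1 = i ↔ (jt k).1 = E i := by
    constructor
    · intro h; rw [← h, Equiv.apply_symm_apply]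
    · intro h; rw [h, Equiv.symm_apply_apply]
  refine ⟨?_, ?_⟩
  · show _ ↔ E.symm (jt k).1 = i
    rw [h2]; exact h1.1
  · intro h3
    exact h1.2 (h2.1 h3)

end Crest.Agent.R202.Main
end

-- ▼ part R202/TopDefs

/-!
Row 202, GLUE (helper632): the frozen statement `BExport m` (everything that the Galerkin side has
to deliver, given the choices of Part C and the scheduled family of metrics).
-/

set_option autoImplicit false

open scoped ContDiff
open Set Filter Topology MeasureTheory Metric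
open Crest.GeometryTopology.CoordMetric
open Crest.Agent.R202.Geo Crest.Agent.R202.Main Crest.Agent.R202.CT Crest.Agent.R202.Sch
open Crest.Agent.R202.Mix (MixData SecData Sched Fits Cube)

noncomputable section

namespace Crest.Agent.R202.Top

/-- the parameter of `P` gates, extended by `1` -/
def extκ {P : ℕ} (κ : Cube P) : ℕ → ℝ := fun q => if h : q < P then (κ ⟨q, h⟩ : ℝ) else 1

/-- index type of the sectors -/
abbrev Sec {m : ℕ} {v : ℝ} {k : ℕ} (D : CountData m v k) : Type := {σ : ℕ × ℕ // σ ∈ D.S}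

/-- the cyclic schedule: gate `q` is of the type `jt q` -/
structure Slots {m : ℕ} {v : ℝ} {k : ℕ} (D : CountData m v k) where
  jt : ℕ → Gate D
  off : Sec D → ℕ
  M : ℕ
  M_pos : 1 ≤ M
  hM : ∀ σ : Sec D, D.N σ.1 - D.i0 σ.1 ≤ M
  active : ∀ (q : ℕ) (σ : Sec D), (q + off σ) % M < D.N σ.1 - D.i0 σ.1 ↔ (jt q).1.1 = σ.1
  cut : ∀ (q : ℕ) (σ : Sec D), (jt q).1.1 = σ.1 → (jt q).1.2 = D.i0 σ.1 + (q + off σ) % M

variable {m : ℕ} {v : ℝ} {k : ℕ} {D : CountData m v k} {εh : ℝ}

/-- the scheduled `θ` of a choice -/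
abbrev Choice.th (c : Choice D εh) (A : ℝ) (j : ℕ → Gate D) (κ : ℕ → ℝ) : ℝ → ℝ :=
  thY A c.prof D.b0_gt.le c.L j κ

/-- the scheduled `P` of a choice -/
abbrev Choice.P (c : Choice D εh) (A : ℝ) (j : ℕ → Gate D) (κ : ℕ → ℝ) : ℝ → ℝ → ℂ → ℝ :=
  PY A c.prof D.b0_gt.le c.L j κ

/-- the warping function -/
abbrev sfv (m : ℕ) (v : ℝ) : ℝ → ℝ := sf (-Real.log v / ((m : ℝ) + 2))

/-- coefficient field of the scheduled metric -/
abbrev Choice.coef (c : Choice D εh) (A : ℝ) (j : ℕ → Gate D) (κ : ℕ → ℝ) :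
    MetricField (m + 3) := coefF (sfv m v) (c.th A j κ) (c.P A j κ)

/-- structural facts of the scheduled family, as given by `sched_geoOut` -/
def Choice.SchedOK (c : Choice D εh) (K C A1 : ℝ) : Prop :=
  ∀ A : ℝ, A1 ≤ A → ∀ (j : ℕ → Gate D) (κ : ℕ → ℝ), (∀ q, κ q ∈ Icc (-1 : ℝ) 1) →
    Fam (sfv m v) (c.th A j κ) (c.P A j κ) 0 c.X0 c.X1 ∧
      ∀ t, RateAt (sfv m v) (c.th A j κ) (c.P A j κ) K (C / A) t

/-- the constants (independent of the number `P` of gates) of the functions -/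
structure BConst {m : ℕ} {v : ℝ} {k : ℕ} (D : CountData m v k) where
  r0 : ℝ
  C0 : ℝ
  CE : ℝ → ℝ
  φ : Idx D → EuclideanSpace ℝ (Fin (m + 3)) → ℝ
  ε : ℝ
  r0_pos : 0 < r0
  φ_L2 : ∀ i, MemLp (φ i) 2
  φ_supp : ∃ R, ∀ i, ∀ x ∉ ball (0 : EuclideanSpace ℝ (Fin (m + 3))) R, φ i x = 0
  ε_lt : ε * Fintype.card (Idx D) < 1

/-- the functions for `P` gates and a fixed parameter; `A` = coefficient field -/
structure BFun {m : ℕ} {v : ℝ} {k : ℕ} {D : CountData m v k} (B : BConst D) (P : ℕ)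
    (A : MetricField (m + 3)) (F : Idx D → EuclideanSpace ℝ (Fin (m + 3)) → ℝ) : Prop where
  reg : ∀ j, ContDiff ℝ 1 (F j)
  w0 : ∀ j, ∀ φ : EuclideanSpace ℝ (Fin (m + 3)) → ℝ, ContDiff ℝ ∞ φ → HasCompactSupport φ →
      tsupport φ ⊆ ball 0 B.r0 → ∫ x, Lim.Q A (F j) φ x = 0
  w1 : ∀ j, ∀ χ : ℝ → ℝ, ContDiff ℝ ∞ χ → HasCompactSupport χ → tsupport χ ⊆ Ioi 0 →
      ∀ p : MvPolynomial (Fin (m + 3)) ℝ, p.totalDegree ≤ P →
        ∫ x, Lim.Q A (F j) (fun x => χ ‖x‖ * Lim.pe p x) x = 0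
  energy : ∀ R : ℝ, R ≤ P → ∀ j,
      ∫ x in closedBall (0 : EuclideanSpace ℝ (Fin (m + 3))) R, ‖fderiv ℝ (F j) x‖ ^ 2 ≤ B.CE R
  growth : ∀ R : ℝ, 0 ≤ R → R ≤ P → ∀ j,
      ∫ x in ball (0 : EuclideanSpace ℝ (Fin (m + 3))) R, F j x ^ 2 ≤
        B.C0 * (1 + R) ^ (m + 3 + 2 * k)
  pair : ∀ i j, |(∫ x, F j x * B.φ i x) - if i = j then 1 else 0| ≤ B.ε

/-- **The statement of PART B** (given the output of Part C and the scheduled family). -/
def BExport (m : ℕ) : Prop :=
  ∀ (v : ℝ) (k : ℕ) (D : CountData m v k), ∃ εh : ℝ, 0 < εh ∧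
    ∀ (c : Choice D εh) (K C A1 : ℝ), 1 ≤ K → 0 ≤ C → 1 ≤ A1 → c.SchedOK K C A1 →
    ∃ A0 : ℝ, ∀ A : ℝ, A0 ≤ A → A1 ≤ A → ∀ sl : Slots D,
    ∃ (sd : Sec D → SecData) (S : Sched),
      (∀ σ, (sd σ).N = D.N σ.1 ∧ (sd σ).i0 = D.i0 σ.1 ∧ (sd σ).off = sl.off σ) ∧
      S.M = sl.M ∧ (∀ σ, (sd σ).mean + S.δ < k) ∧
      ∀ Cm : ℝ, ∃ B : BConst D, ∀ P : ℕ,
        ∃ (Hs : Sec D → Type) (_ : ∀ σ, NormedAddCommGroup (Hs σ))
          (_ : ∀ σ, InnerProductSpace ℝ (Hs σ)) (MD : ∀ σ, MixData (Hs σ) (sd σ).N P),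
          (∀ σ, Fits (sd σ) S (MD σ)) ∧
          ∀ κ : Cube P,
            (∀ σ, ∀ q ≤ P, ∀ u,
              ‖(MD σ).Jm q κ u‖ ≤
                Cm * Real.exp (k * ∑ i ∈ Finset.range q, S.T i) * ‖(MD σ).Jm 0 κ u‖ ∧
              ‖(MD σ).Jp q κ u‖ ≤
                Cm * Real.exp (k * ∑ i ∈ Finset.range q, S.T i) * ‖(MD σ).Jm 0 κ u‖) →
            ∃ F : Idx D → EuclideanSpace ℝ (Fin (m + 3)) → ℝ,
              BFun B P (c.coef A sl.jt (extκ κ)) F

end Crest.Agent.R202.Top
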