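import Crest.Agent.R202.SphDiv
import Crest.Agent.R202.SecQB
import Crest.Agent.R202.Lim1
import Mathlib
import Crest.Agent.R202.GalSmall
import Crest.Agent.R202.TopDefs
import Crest.Agent.R202.SecUnif

-- ▼ part R202/BridB
section

/-!
# Row 202, bridge (helper684): growth, energy and pairings of the Galerkin functions on `ℝⁿ`
-/

set_option autoImplicit false
open MeasureTheory Metric Set Filter Topology MvPolynomial
open scoped ContDiff
open Crest.GeometryTopology.CoordMetric (pderiv)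
open Crest.Agent.R202.SphDiv (polar)
open Crest.Agent.R202.Sph (ev ip)

namespace Crest.Agent.R202.Brid

noncomputable section

variable {n N : ℕ}

lemma norm_smul_sph {r : ℝ} (hr : 0 < r) (z : SphDiv.Sph n) :
    ‖r • (z : EuclideanSpace ℝ (Fin n))‖ = r := by
  rw [norm_smul, Real.norm_eq_abs, abs_of_pos hr]
  have : ‖(z : EuclideanSpace ℝ (Fin n))‖ = 1 := by simp
  rw [this, mul_one]

/-- polar integration of a function that vanishes off a shell -/
lemma integral_shell_polar (hn : 0 < n) {f : EuclideanSpace ℝ (Fin n) → ℝ}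
    (hf : Integrable f) {a b : ℝ} (ha : 0 ≤ a)
    (hs : ∀ x : EuclideanSpace ℝ (Fin n), ‖x‖ ∉ Ioo a b → f x = 0) :
    ∫ x, f x = ∫ r in Ioo a b, r ^ (n - 1) * ∫ z : SphDiv.Sph n,
          f (r • (z : EuclideanSpace ℝ (Fin n))) ∂(SphDiv.sig n) := by
  rw [polar hn _ hf]
  have h1 : ∀ r ∈ Ioi (0 : ℝ), r ^ (n - 1) * ∫ z : SphDiv.Sph n,
      f (r • (z : EuclideanSpace ℝ (Fin n))) ∂(SphDiv.sig n)
      = (Ioo a b).indicator (fun r => r ^ (n - 1) * ∫ z : SphDiv.Sph n,
          f (r • (z : EuclideanSpace ℝ (Fin n))) ∂(SphDiv.sig n)) r := by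
    intro r hr
    have hr0 : 0 < r := hr
    by_cases hrR : r ∈ Ioo a b
    · rw [indicator_of_mem hrR]
    · rw [indicator_of_notMem hrR]
      have : ∀ z : SphDiv.Sph n, f (r • (z : EuclideanSpace ℝ (Fin n))) = 0 := fun z =>
        hs _ (by rw [norm_smul_sph hr0]; exact hrR)
      simp [this]
  rw [setIntegral_congr_fun measurableSet_Ioi h1, setIntegral_indicator measurableSet_Ioo]
  congr 2
  rw [inter_eq_right.mpr]
  exact fun r hr => lt_of_le_of_lt ha hr.1

/-- polar integration over a ball -/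
lemma integral_ball_polar (hn : 0 < n) {f : EuclideanSpace ℝ (Fin n) → ℝ} (hf : Continuous f)
    (R : ℝ) :
    ∫ x in ball (0 : EuclideanSpace ℝ (Fin n)) R, f x
      = ∫ r in Ioo (0 : ℝ) R, r ^ (n - 1) * ∫ z : SphDiv.Sph n,
          f (r • (z : EuclideanSpace ℝ (Fin n))) ∂(SphDiv.sig n) := by
  have hi : Integrable ((ball (0 : EuclideanSpace ℝ (Fin n)) R).indicator f) :=
    ((hf.continuousOn.integrableOn_compact (isCompact_closedBall _ _)).mono_set
      ball_subset_closedBall).integrable_indicator measurableSet_ball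
  rw [← integral_indicator measurableSet_ball, polar hn _ hi]
  have h1 : ∀ r ∈ Ioi (0 : ℝ), r ^ (n - 1) * ∫ z : SphDiv.Sph n,
      (ball (0 : EuclideanSpace ℝ (Fin n)) R).indicator f
        (r • (z : EuclideanSpace ℝ (Fin n))) ∂(SphDiv.sig n)
      = (Ioo (0 : ℝ) R).indicator (fun r => r ^ (n - 1) * ∫ z : SphDiv.Sph n,
          f (r • (z : EuclideanSpace ℝ (Fin n))) ∂(SphDiv.sig n)) r := by
    intro r hr
    have hr0 : 0 < r := hr
    by_cases hrR : r < R
    · rw [indicator_of_mem (show r ∈ Ioo (0 : ℝ) R from ⟨hr0, hrR⟩)]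
      congr 1
      refine integral_congr_ae (Eventually.of_forall fun z => ?_)
      exact indicator_of_mem (by rw [mem_ball_zero_iff, norm_smul_sph hr0]; exact hrR) _
    · rw [indicator_of_notMem (fun h : r ∈ Ioo (0 : ℝ) R => hrR h.2)]
      have : ∀ z : SphDiv.Sph n, (ball (0 : EuclideanSpace ℝ (Fin n)) R).indicator f
          (r • (z : EuclideanSpace ℝ (Fin n))) = 0 := fun z =>
        indicator_of_notMem (by rw [mem_ball_zero_iff, norm_smul_sph hr0]; exact hrR) _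
      simp [this]
  rw [setIntegral_congr_fun measurableSet_Ioi h1, setIntegral_indicator measurableSet_Ioo]
  congr 2
  rw [inter_eq_right.mpr]
  exact fun r hr => hr.1

lemma continuous_ev_sph (q : MvPolynomial (Fin n) ℝ) :
    Continuous fun z : SphDiv.Sph n => ev q (z : EuclideanSpace ℝ (Fin n)) :=
  (Lim.contDiff_pe (n := n) q).continuous.comp continuous_subtype_val

lemma integrable_sph {f : SphDiv.Sph n → ℝ} (hf : Continuous f) : Integrable f (SphDiv.sig n) := by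
  obtain ⟨M, hM⟩ := (isCompact_univ : IsCompact (univ : Set (SphDiv.Sph n))).exists_bound_of_continuousOn
    hf.continuousOn
  exact Integrable.of_bound hf.aestronglyMeasurable M (Eventually.of_forall fun z => hM z (mem_univ z))

lemma integral_ev_mul (p q : MvPolynomial (Fin n) ℝ) :
    ∫ z : SphDiv.Sph n, ev p z * ev q z ∂(SphDiv.sig n) = ip p q := by
  unfold ip Sph.sph SphDiv.sig
  refine integral_congr_ae (Eventually.of_forall fun z => ?_)
  simp [ev]

/-- pairing of a slice with a polynomial -/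
lemma integral_slice_mul (p : Fin N → MvPolynomial (Fin n) ℝ) (q : MvPolynomial (Fin n) ℝ)
    (c : Fin N → ℝ) :
    ∫ z : SphDiv.Sph n, (∑ i, c i * ev (p i) z) * ev q z ∂(SphDiv.sig n)
      = ∑ i, c i * ip (p i) q := by
  have e : ∀ z : SphDiv.Sph n, (∑ i, c i * ev (p i) z) * ev q z
      = ∑ i, c i * (ev (p i) z * ev q z) := by
    intro z
    rw [Finset.sum_mul]
    exact Finset.sum_congr rfl fun i _ => by ring
  simp_rw [e]
  have hi : ∀ i ∈ (Finset.univ : Finset (Fin N)),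
      Integrable (fun z : SphDiv.Sph n => c i * (ev (p i) z * ev q z)) (SphDiv.sig n) := by
    intro i _
    refine integrable_sph ?_
    exact continuous_const.mul ((continuous_ev_sph (p i)).mul (continuous_ev_sph q))
  rw [integral_finsetSum _ hi]
  exact Finset.sum_congr rfl fun i _ => by rw [integral_const_mul, integral_ev_mul]

/-- the `L²` norm of a slice -/
lemma integral_slice_sq {p : Fin N → MvPolynomial (Fin n) ℝ}
    (horth : ∀ i j, ip (p i) (p j) = if i = j then 1 else 0) (c : EuclideanSpace ℝ (Fin N)) :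
    ∫ z : SphDiv.Sph n, (∑ i, c i * ev (p i) z) ^ 2 ∂(SphDiv.sig n) = ‖c‖ ^ 2 := by
  have e : ∀ z : SphDiv.Sph n, (∑ i, c i * ev (p i) z) ^ 2
      = ∑ j, c j * ((∑ i, c i * ev (p i) z) * ev (p j) z) := by
    intro z
    rw [sq]
    conv_lhs => rw [Finset.mul_sum]
    exact Finset.sum_congr rfl fun i _ => by ring
  simp_rw [e]
  have hi : ∀ j ∈ (Finset.univ : Finset (Fin N)),
      Integrable (fun z : SphDiv.Sph n => c j * ((∑ i, c i * ev (p i) z) * ev (p j) z))
        (SphDiv.sig n) := by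
    intro j _
    refine integrable_sph ?_
    refine continuous_const.mul (Continuous.mul ?_ (continuous_ev_sph (p j)))
    exact continuous_finsetSum _ fun i _ => continuous_const.mul (continuous_ev_sph (p i))
  rw [integral_finsetSum _ hi]
  rw [EuclideanSpace.real_norm_sq_eq]
  refine Finset.sum_congr rfl fun j _ => ?_
  rw [integral_const_mul, integral_slice_mul]
  simp [horth, sq]

/-- **Growth.** -/
theorem growth_ball (hn : 0 < n) {F : EuclideanSpace ℝ (Fin n) → ℝ} (hF : Continuous F)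
    {p : Fin N → MvPolynomial (Fin n) ℝ}
    (horth : ∀ i j, ip (p i) (p j) = if i = j then 1 else 0)
    {u : ℝ → EuclideanSpace ℝ (Fin N)}
    (hS : ∀ r, 0 < r → ∀ z : SphDiv.Sph n,
      F (r • (z : EuclideanSpace ℝ (Fin n))) = ∑ i, u (Real.log r) i * ev (p i) z)
    {C K T : ℝ} {k : ℕ} (hKk : K ≤ k)
    (hu : ∀ t, t ≤ T → ‖u t‖ ≤ C * Real.exp (K * max t 0)) {R : ℝ} (hR : 0 ≤ R)
    (hRT : R ≤ Real.exp T) :
    ∫ x in ball (0 : EuclideanSpace ℝ (Fin n)) R, F x ^ 2 ≤ C ^ 2 * (1 + R) ^ (n + 2 * k) := by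
  rw [integral_ball_polar hn (f := fun x => F x ^ 2) (hF.pow 2) R]
  have h1 : ∀ r ∈ Ioo (0 : ℝ) R, ∫ z : SphDiv.Sph n,
      F (r • (z : EuclideanSpace ℝ (Fin n))) ^ 2 ∂(SphDiv.sig n) = ‖u (Real.log r)‖ ^ 2 := by
    intro r hr
    simp_rw [hS r hr.1]
    exact integral_slice_sq horth _
  have h2 : ∀ r ∈ Ioo (0 : ℝ) R, r ^ (n - 1) * ∫ z : SphDiv.Sph n,
      F (r • (z : EuclideanSpace ℝ (Fin n))) ^ 2 ∂(SphDiv.sig n)
      = r ^ (n - 1) * ‖u (Real.log r)‖ ^ 2 := fun r hr => by rw [h1 r hr]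
  rw [setIntegral_congr_fun measurableSet_Ioo h2]
  have h3 : ∀ r ∈ Ioo (0 : ℝ) R, ‖r ^ (n - 1) * ‖u (Real.log r)‖ ^ 2‖
      ≤ C ^ 2 * (1 + R) ^ (n - 1 + 2 * k) := by
    intro r hr
    have hr0 := hr.1
    have hlog : Real.log r ≤ T := by
      rw [← Real.log_exp T]
      exact Real.log_le_log hr0 (hr.2.le.trans hRT)
    have h4 := hu _ hlog
    have h5 : Real.exp (K * max (Real.log r) 0) ≤ (1 + R) ^ k := by
      have h6 : Real.exp (max (Real.log r) 0) ≤ 1 + R := by
        rcases le_total (Real.log r) 0 with h | h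
        · rw [max_eq_right h, Real.exp_zero]; linarith
        · rw [max_eq_left h, Real.exp_log hr0]; linarith [hr.2]
      calc Real.exp (K * max (Real.log r) 0) ≤ Real.exp ((k : ℝ) * max (Real.log r) 0) :=
            Real.exp_le_exp.mpr (mul_le_mul_of_nonneg_right hKk (le_max_right _ _))
        _ = Real.exp (max (Real.log r) 0) ^ k := by rw [← Real.exp_nat_mul]
        _ ≤ (1 + R) ^ k := pow_le_pow_left₀ (Real.exp_pos _).le h6 k
    have hC : 0 ≤ C := by
      have := (norm_nonneg _).trans h4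
      exact nonneg_of_mul_nonneg_left this (Real.exp_pos _)
    have h7 : ‖u (Real.log r)‖ ≤ C * (1 + R) ^ k := h4.trans (mul_le_mul_of_nonneg_left h5 hC)
    rw [Real.norm_eq_abs, abs_of_nonneg (by positivity)]
    calc r ^ (n - 1) * ‖u (Real.log r)‖ ^ 2
        ≤ (1 + R) ^ (n - 1) * (C * (1 + R) ^ k) ^ 2 :=
          mul_le_mul (pow_le_pow_left₀ hr0.le (by linarith [hr.2]) _)
            (pow_le_pow_left₀ (norm_nonneg _) h7 2) (by positivity) (by positivity)
      _ = C ^ 2 * (1 + R) ^ (n - 1 + 2 * k) := by rw [pow_add]; ring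
  have h8 := norm_setIntegral_le_of_norm_le_const (μ := volume) (s := Ioo (0 : ℝ) R)
    (by rw [Real.volume_Ioo]; exact ENNReal.ofReal_lt_top) h3
  have hv : (volume.real (Ioo (0 : ℝ) R)) = R := by
    rw [Measure.real, Real.volume_Ioo, sub_zero, ENNReal.toReal_ofReal hR]
  rw [hv] at h8
  calc ∫ r in Ioo (0 : ℝ) R, r ^ (n - 1) * ‖u (Real.log r)‖ ^ 2
      ≤ ‖∫ r in Ioo (0 : ℝ) R, r ^ (n - 1) * ‖u (Real.log r)‖ ^ 2‖ := le_abs_self _
    _ ≤ C ^ 2 * (1 + R) ^ (n - 1 + 2 * k) * R := h8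
    _ ≤ C ^ 2 * (1 + R) ^ (n - 1 + 2 * k) * (1 + R) :=
        mul_le_mul_of_nonneg_left (by linarith) (by positivity)
    _ = C ^ 2 * (1 + R) ^ (n + 2 * k) := by
        have : n + 2 * k = (n - 1 + 2 * k) + 1 := by omega
        rw [this, pow_succ]; ring

/-! ### Pairings -/

/-- the test function `1_{a<|x|<b} |x|^{-(n-1)} q(x/|x|) / (b-a)` -/
def phiT (q : MvPolynomial (Fin n) ℝ) (a b : ℝ) (x : EuclideanSpace ℝ (Fin n)) : ℝ :=
  {x : EuclideanSpace ℝ (Fin n) | ‖x‖ ∈ Ioo a b}.indicator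
    (fun x => (b - a)⁻¹ * ((‖x‖ ^ (n - 1))⁻¹ * ev q (‖x‖⁻¹ • x))) x

lemma measurableSet_shell (a b : ℝ) :
    MeasurableSet {x : EuclideanSpace ℝ (Fin n) | ‖x‖ ∈ Ioo a b} :=
  measurable_norm measurableSet_Ioo

lemma phiT_eq_zero (q : MvPolynomial (Fin n) ℝ) {a b : ℝ} {x : EuclideanSpace ℝ (Fin n)}
    (hx : x ∉ ball (0 : EuclideanSpace ℝ (Fin n)) b) : phiT q a b x = 0 := by
  unfold phiT
  refine indicator_of_notMem (fun h => hx ?_) _
  rw [mem_ball_zero_iff]
  exact h.2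

lemma measurable_phiT (q : MvPolynomial (Fin n) ℝ) (a b : ℝ) : Measurable (phiT q a b) := by
  refine Measurable.indicator ?_ (measurableSet_shell a b)
  have h1 : Measurable fun x : EuclideanSpace ℝ (Fin n) => ev q (‖x‖⁻¹ • x) :=
    (Lim.contDiff_pe (n := n) q).continuous.measurable.comp
      (measurable_norm.inv.smul measurable_id)
  exact measurable_const.mul ((measurable_norm.pow_const _).inv.mul h1)

lemma exists_bound_phiT (q : MvPolynomial (Fin n) ℝ) {a b : ℝ} (ha : 0 < a) (hab : a < b) :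
    ∃ M, ∀ x, |phiT q a b x| ≤ M := by
  obtain ⟨M0, hM0⟩ := (isCompact_closedBall (0 : EuclideanSpace ℝ (Fin n)) 1).exists_bound_of_continuousOn
    (Lim.contDiff_pe (n := n) q).continuous.continuousOn
  have hM00 : 0 ≤ M0 := (norm_nonneg _).trans (hM0 0 (by simp))
  refine ⟨(b - a)⁻¹ * ((a ^ (n - 1))⁻¹ * M0), fun x => ?_⟩
  have hba : 0 < b - a := by linarith
  unfold phiT
  by_cases hx : x ∈ {x : EuclideanSpace ℝ (Fin n) | ‖x‖ ∈ Ioo a b}
  · rw [indicator_of_mem hx]
    have hx1 : a < ‖x‖ := hx.1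
    have hx0 : 0 < ‖x‖ := ha.trans hx1
    rw [abs_mul, abs_mul, abs_of_pos (inv_pos.mpr hba),
      abs_of_pos (inv_pos.mpr (pow_pos hx0 _))]
    refine mul_le_mul_of_nonneg_left ?_ (inv_pos.mpr hba).le
    refine mul_le_mul (inv_anti₀ (pow_pos ha _) (pow_le_pow_left₀ ha.le hx1.le _)) ?_
      (abs_nonneg _) (by positivity)
    have h2 := hM0 (‖x‖⁻¹ • x) (by
      rw [mem_closedBall, dist_zero_right, norm_smul, norm_inv, norm_norm,
        inv_mul_cancel₀ hx0.ne'])
    rw [Real.norm_eq_abs] at h2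
    exact h2
  · rw [indicator_of_notMem hx, abs_zero]; positivity

lemma memLp_phiT (q : MvPolynomial (Fin n) ℝ) {a b : ℝ} (ha : 0 < a) (hab : a < b) :
    MemLp (phiT q a b) 2 := by
  obtain ⟨M, hM⟩ := exists_bound_phiT q ha hab
  have h1 : phiT q a b = (ball (0 : EuclideanSpace ℝ (Fin n)) b).indicator (phiT q a b) := by
    funext x
    by_cases hx : x ∈ ball (0 : EuclideanSpace ℝ (Fin n)) b
    · rw [indicator_of_mem hx]
    · rw [indicator_of_notMem hx, phiT_eq_zero q hx]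
  rw [h1, memLp_indicator_iff_restrict measurableSet_ball]
  have hfin : IsFiniteMeasure (volume.restrict (ball (0 : EuclideanSpace ℝ (Fin n)) b)) :=
    ⟨by rw [Measure.restrict_apply_univ]; exact measure_ball_lt_top⟩
  exact MemLp.of_bound (measurable_phiT q a b).aestronglyMeasurable M
    (Eventually.of_forall fun x => hM x)

/-- **Pairing.** -/
theorem integral_mul_phiT (hn : 0 < n) {F : EuclideanSpace ℝ (Fin n) → ℝ} (hF : Continuous F)
    {p : Fin N → MvPolynomial (Fin n) ℝ} {u : ℝ → EuclideanSpace ℝ (Fin N)}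
    (hS : ∀ r, 0 < r → ∀ z : SphDiv.Sph n,
      F (r • (z : EuclideanSpace ℝ (Fin n))) = ∑ i, u (Real.log r) i * ev (p i) z)
    (q : MvPolynomial (Fin n) ℝ) {a b : ℝ} (ha : 0 < a) (hab : a < b) :
    ∫ x, F x * phiT q a b x
      = ∫ r in Ioo a b, (b - a)⁻¹ * ∑ i, u (Real.log r) i * ip (p i) q := by
  obtain ⟨M, hM⟩ := exists_bound_phiT q ha hab
  obtain ⟨M1, hM1⟩ := (isCompact_closedBall (0 : EuclideanSpace ℝ (Fin n)) b).exists_bound_of_continuousOn
    hF.continuousOn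
  have hint : Integrable fun x => F x * phiT q a b x := by
    have h1 : (fun x => F x * phiT q a b x)
        = (ball (0 : EuclideanSpace ℝ (Fin n)) b).indicator (fun x => F x * phiT q a b x) := by
      funext x
      by_cases hx : x ∈ ball (0 : EuclideanSpace ℝ (Fin n)) b
      · rw [indicator_of_mem hx]
      · rw [indicator_of_notMem hx, phiT_eq_zero q hx, mul_zero]
    rw [h1, integrable_indicator_iff measurableSet_ball]
    have hfin : IsFiniteMeasure (volume.restrict (ball (0 : EuclideanSpace ℝ (Fin n)) b)) :=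
      ⟨by rw [Measure.restrict_apply_univ]; exact measure_ball_lt_top⟩
    refine Integrable.of_bound
      (hF.aestronglyMeasurable.mul (measurable_phiT q a b).aestronglyMeasurable) (M1 * M) ?_
    refine (ae_restrict_iff' measurableSet_ball).mpr (Eventually.of_forall fun x hx => ?_)
    rw [norm_mul]
    exact mul_le_mul (hM1 x (ball_subset_closedBall hx)) (hM x) (norm_nonneg _)
      ((norm_nonneg _).trans (hM1 x (ball_subset_closedBall hx)))
  rw [integral_shell_polar hn hint ha.le (a := a) (b := b)]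
  · refine setIntegral_congr_fun measurableSet_Ioo fun r hr => ?_
    have hr0 : 0 < r := ha.trans hr.1
    have e1 : ∀ z : SphDiv.Sph n, F (r • (z : EuclideanSpace ℝ (Fin n))) *
        phiT q a b (r • (z : EuclideanSpace ℝ (Fin n)))
        = ((b - a)⁻¹ * (r ^ (n - 1))⁻¹) * ((∑ i, u (Real.log r) i * ev (p i) z) * ev q z) := by
      intro z
      have hm : r • (z : EuclideanSpace ℝ (Fin n))
          ∈ {x : EuclideanSpace ℝ (Fin n) | ‖x‖ ∈ Ioo a b} := by
        show ‖r • (z : EuclideanSpace ℝ (Fin n))‖ ∈ Ioo a b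
        rw [norm_smul_sph hr0]; exact hr
      unfold phiT
      rw [indicator_of_mem hm, norm_smul_sph hr0, hS r hr0, smul_smul,
        inv_mul_cancel₀ hr0.ne', one_smul]
      ring
    simp_rw [e1]
    rw [integral_const_mul, integral_slice_mul p q]
    have : r ^ (n - 1) ≠ 0 := (pow_pos hr0 _).ne'
    field_simp
  · intro x hx
    unfold phiT
    have hx' : x ∉ {x : EuclideanSpace ℝ (Fin n) | ‖x‖ ∈ Ioo a b} := hx
    rw [indicator_of_notMem hx', mul_zero]

/-- closeness of the averaged pairing -/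
theorem pair_close (hn : 0 < n) {F : EuclideanSpace ℝ (Fin n) → ℝ} (hF : Continuous F)
    {p : Fin N → MvPolynomial (Fin n) ℝ} {u : ℝ → EuclideanSpace ℝ (Fin N)}
    (hu : ContinuousOn u (Ici (0 : ℝ)))
    (hS : ∀ r, 0 < r → ∀ z : SphDiv.Sph n,
      F (r • (z : EuclideanSpace ℝ (Fin n))) = ∑ i, u (Real.log r) i * ev (p i) z)
    (q : MvPolynomial (Fin n) ℝ) {a b : ℝ} (ha : 1 ≤ a) (hab : a < b) {d ε : ℝ}
    (hd : ∀ r ∈ Ioo a b, |(∑ i, u (Real.log r) i * ip (p i) q) - d| ≤ ε) :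
    |(∫ x, F x * phiT q a b x) - d| ≤ ε := by
  have ha0 : 0 < a := by linarith
  have hba : 0 < b - a := by linarith
  rw [integral_mul_phiT hn hF hS q ha0 hab]
  have hv : volume.real (Ioo a b) = b - a := by
    rw [Measure.real, Real.volume_Ioo, ENNReal.toReal_ofReal hba.le]
  have e1 : d = ∫ _r in Ioo a b, (b - a)⁻¹ * d := by
    rw [setIntegral_const, hv, smul_eq_mul]
    field_simp
  have hc : ContinuousOn (fun r => (b - a)⁻¹ * ∑ i, u (Real.log r) i * ip (p i) q) (Icc a b) := by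
    refine continuousOn_const.mul (continuousOn_finsetSum _ fun i _ =>
      ContinuousOn.mul ?_ continuousOn_const)
    have h2 : ContinuousOn (fun r => u (Real.log r)) (Icc a b) := by
      refine hu.comp (Real.continuousOn_log.mono ?_) ?_
      · intro r hr
        have : 0 < r := lt_of_lt_of_le ha0 hr.1
        simp [this.ne']
      · intro r hr
        exact Real.log_nonneg (ha.trans hr.1)
    exact (EuclideanSpace.proj i : EuclideanSpace ℝ (Fin N) →L[ℝ] ℝ).continuous.comp_continuousOn h2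
  have i1 : IntegrableOn (fun r => (b - a)⁻¹ * ∑ i, u (Real.log r) i * ip (p i) q) (Ioo a b) :=
    (hc.integrableOn_compact isCompact_Icc).mono_set Ioo_subset_Icc_self
  have i2 : IntegrableOn (fun _ : ℝ => (b - a)⁻¹ * d) (Ioo a b) :=
    integrableOn_const (by rw [Real.volume_Ioo]; exact ENNReal.ofReal_ne_top)
  conv_lhs => rw [e1]
  rw [← integral_sub i1 i2]
  have h3 : ∀ r ∈ Ioo a b, ‖(b - a)⁻¹ * ∑ i, u (Real.log r) i * ip (p i) q - (b - a)⁻¹ * d‖
      ≤ (b - a)⁻¹ * ε := by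
    intro r hr
    rw [← mul_sub, Real.norm_eq_abs, abs_mul, abs_of_pos (inv_pos.mpr hba)]
    exact mul_le_mul_of_nonneg_left (hd r hr) (inv_pos.mpr hba).le
  have h4 := norm_setIntegral_le_of_norm_le_const (μ := volume) (s := Ioo a b)
    (by rw [Real.volume_Ioo]; exact ENNReal.ofReal_lt_top) h3
  rw [hv, Real.norm_eq_abs] at h4
  calc _ ≤ (b - a)⁻¹ * ε * (b - a) := h4
    _ = ε := by field_simp

end

end Crest.Agent.R202.Brid
end

-- ▼ part R202/GalNorm
section

/-! # Row 202, B1: growth and independence of the regular solutions (helper514)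

* `growth_steps`: bounds at the times `tp q` ⇒ `‖u t‖ ≤ C e^{K (t - tm 0)^+} M0` for all `t ≤ tp P`.
* `Reg.inner_sub_le`: the pairings `⟪f, u t⟫` move slowly (uniformly in the dimension of `G`).
* `Reg.avg_pairing`: averaged pairings on a short interval are close to the initial ones. -/

set_option autoImplicit false
set_option linter.unusedSectionVars false
set_option linter.unusedVariables false

open Set Filter Topology MeasureTheory
open scoped InnerProductSpace

namespace Crest.Agent.R202.Gal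

/-- growth from the bounds at the outer ends of the homes -/
theorem growth_steps {n : ℝ → ℝ} {t0 : ℝ} (hmono : ∀ s t, t0 ≤ s → s ≤ t → n s ≤ n t)
    {P : ℕ} {tm tp : ℕ → ℝ} (h0 : t0 ≤ tm 0)
    (h1 : ∀ q, q ≤ P → tm q ≤ tp q) (h2 : ∀ q, q < P → tp q ≤ tm (q + 1))
    {K M : ℝ} (hK : 0 ≤ K) (hM : 0 ≤ M)
    (hb : ∀ q, q ≤ P → n (tp q) ≤ M * Real.exp (K * ∑ i ∈ Finset.range q, (tp i - tm i))) :
    ∀ t, t0 ≤ t → t ≤ tp P → n t ≤ M * Real.exp (K * max (t - tm 0) 0) := by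
  have hsum : ∀ q, q ≤ P → ∑ i ∈ Finset.range q, (tp i - tm i) ≤ tm q - tm 0 := by
    intro q
    induction q with
    | zero => intro _; simp
    | succ q ih =>
      intro hq
      rw [Finset.sum_range_succ]
      have h3 := ih (by omega)
      have h4 := h2 q (by omega)
      linarith
  have htm : ∀ q, q ≤ P → t0 ≤ tm q := by
    intro q
    induction q with
    | zero => intro _; exact h0
    | succ q ih =>
      intro hq
      have h3 := ih (by omega)
      have h4 := h2 q (by omega)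
      have h5 := h1 q (by omega)
      linarith
  have key : ∀ q, q ≤ P → ∀ t, t0 ≤ t → t ≤ tp q →
      n t ≤ M * Real.exp (K * max (t - tm 0) 0) := by
    intro q
    induction q with
    | zero =>
      intro hq t ht htq
      have h3 := hmono t (tp 0) ht htq
      have h4 := hb 0 hq
      simp only [Finset.range_zero, Finset.sum_empty, mul_zero, Real.exp_zero, mul_one] at h4
      have h5 : (1 : ℝ) ≤ Real.exp (K * max (t - tm 0) 0) :=
        Real.one_le_exp (mul_nonneg hK (le_max_right _ _))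
      nlinarith
    | succ q ih =>
      intro hq t ht htq
      rcases le_total t (tp q) with h | h
      · exact ih (by omega) t ht h
      · have h3 := hmono t (tp (q + 1)) ht htq
        refine (h3.trans (hb (q + 1) hq)).trans (mul_le_mul_of_nonneg_left ?_ hM)
        refine Real.exp_le_exp.2 (mul_le_mul_of_nonneg_left ?_ hK)
        rw [Finset.sum_range_succ]
        have h4 := hsum q (by omega)
        exact le_trans (by linarith) (le_max_left _ _)
  exact key P le_rfl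

variable {G : Type*} [NormedAddCommGroup G] [InnerProductSpace ℝ G]
variable {C : Coef G} {u v : ℝ → G}

theorem Coef.wt_le {s t B : ℝ} (hst : s ≤ t) (hB : ∀ r ∈ Icc s t, C.b r ≤ B) :
    C.wt t ≤ C.wt s * Real.exp (B * (t - s)) := by
  have h1 : C.wt t * Real.exp (-(B * t)) ≤ C.wt s * Real.exp (-(B * s)) := by
    have := le_of_hasDerivAt (f := fun r => -(C.wt r * Real.exp (-(B * r))))
      (f' := fun r => -((C.b r * C.wt r) * Real.exp (-(B * r)) +
        C.wt r * (Real.exp (-(B * r)) * (-(B * 1))))) hst ?_ ?_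
    · linarith
    · intro r _
      have h2 : HasDerivAt (fun r : ℝ => Real.exp (-(B * r)))
          (Real.exp (-(B * r)) * (-(B * 1))) r :=
        (((hasDerivAt_id r).const_mul B).neg).exp
      exact ((C.hasDerivAt_wt r).mul h2).neg
    · intro r hr
      have h3 := hB r hr
      have h4 := C.wt_pos r
      have h5 := Real.exp_pos (-(B * r))
      have : -((C.b r * C.wt r) * Real.exp (-(B * r)) +
        C.wt r * (Real.exp (-(B * r)) * (-(B * 1)))) =
        (B - C.b r) * (C.wt r * Real.exp (-(B * r))) := by ring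
      rw [this]
      exact mul_nonneg (by linarith) (by positivity)
  have h6 : Real.exp (B * (t - s)) = Real.exp (-(B * s)) * Real.exp (B * t) := by
    rw [← Real.exp_add]; congr 1; ring
  have h7 : Real.exp (-(B * t)) * Real.exp (B * t) = 1 := by
    rw [← Real.exp_add]; simp
  calc C.wt t = (C.wt t * Real.exp (-(B * t))) * Real.exp (B * t) := by
        rw [mul_assoc, h7, mul_one]
    _ ≤ (C.wt s * Real.exp (-(B * s))) * Real.exp (B * t) :=
        mul_le_mul_of_nonneg_right h1 (Real.exp_pos _).le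
    _ = C.wt s * Real.exp (B * (t - s)) := by rw [h6]; ring

/-- slow motion of the pairings -/
theorem Reg.inner_sub_le (h : Reg C u v) {s t B : ℝ} (hs : C.t0 ≤ s) (hst : s ≤ t)
    (hB : ∀ r ∈ Icc s (t + 1), C.b r ≤ B) (f : G) {lam : ℝ} (hl : 0 < lam) :
    |⟪f, u t⟫_ℝ - ⟪f, u s⟫_ℝ| ≤ lam / 2 * ‖f‖ ^ 2 * (t - s) +
      1 / (4 * lam) * (Real.exp (B * (t + 1 - s)) * ‖u (t + 1)‖ ^ 2) := by
  have hws := C.wt_pos s
  have h1 := abs_sub_le_of_rates (f := fun r => ⟪f, u r⟫_ℝ)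
    (g := fun r => lam / 2 * ‖f‖ ^ 2 * r + 1 / (2 * lam * C.wt s) * (C.wt r * ⟪v r, u r⟫_ℝ))
    (f' := fun r => ⟪f, v r⟫_ℝ)
    (g' := fun r => lam / 2 * ‖f‖ ^ 2 * 1 + 1 / (2 * lam * C.wt s) *
      (C.wt r * (‖v r‖ ^ 2 + ⟪C.K r (u r), u r⟫_ℝ))) hst
    (fun r _ => by
      have := (hasDerivAt_const r f).inner ℝ (h.du r)
      simpa using this)
    (fun r _ => ((hasDerivAt_id r).const_mul _).add ((h.hasDerivAt_flux r).const_mul _))
    (fun r hr => by
      have hw := C.wt_mono hr.1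
      have hk := C.nonneg r (u r)
      have h2 : C.wt s * ‖v r‖ ^ 2 ≤ C.wt r * (‖v r‖ ^ 2 + ⟪C.K r (u r), u r⟫_ℝ) :=
        mul_le_mul hw (by linarith) (sq_nonneg _) (C.wt_pos r).le
      have h3 : 1 / (2 * lam) * ‖v r‖ ^ 2 ≤ 1 / (2 * lam * C.wt s) *
          (C.wt r * (‖v r‖ ^ 2 + ⟪C.K r (u r), u r⟫_ℝ)) := by
        have e : 1 / (2 * lam) * ‖v r‖ ^ 2 = 1 / (2 * lam * C.wt s) * (C.wt s * ‖v r‖ ^ 2) := by
          field_simp
        rw [e]
        exact mul_le_mul_of_nonneg_left h2 (by positivity)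
      have h4 : |⟪f, v r⟫_ℝ| ≤ lam / 2 * ‖f‖ ^ 2 + 1 / (2 * lam) * ‖v r‖ ^ 2 := by
        refine (abs_real_inner_le_norm f (v r)).trans ?_
        have h5 : 0 ≤ (lam * ‖f‖ - ‖v r‖) ^ 2 / (2 * lam) := by positivity
        have h6 : (lam * ‖f‖ - ‖v r‖) ^ 2 / (2 * lam) =
            lam / 2 * ‖f‖ ^ 2 + 1 / (2 * lam) * ‖v r‖ ^ 2 - ‖f‖ * ‖v r‖ := by
          field_simp
          ring
        linarith
      linarith)
  have h7 : 0 ≤ 1 / (2 * lam * C.wt s) * (C.wt s * ⟪v s, u s⟫_ℝ) :=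
    mul_nonneg (by positivity) (h.flux_nonneg hs)
  have h8 : 1 / (2 * lam * C.wt s) * (C.wt t * ⟪v t, u t⟫_ℝ) ≤
      1 / (4 * lam) * (Real.exp (B * (t + 1 - s)) * ‖u (t + 1)‖ ^ 2) := by
    have h9 := h.flux_le (hs.trans hst) (by linarith : t ≤ t + 1)
    have e : t + 1 - t = 1 := by ring
    rw [e, one_mul] at h9
    have h10 := C.wt_le (by linarith : s ≤ t + 1) hB
    have h11 : C.wt t * ⟪v t, u t⟫_ℝ ≤
        (C.wt s * Real.exp (B * (t + 1 - s))) / 2 * ‖u (t + 1)‖ ^ 2 :=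
      h9.trans (mul_le_mul_of_nonneg_right (by linarith) (sq_nonneg _))
    calc 1 / (2 * lam * C.wt s) * (C.wt t * ⟪v t, u t⟫_ℝ) ≤ 1 / (2 * lam * C.wt s) *
          ((C.wt s * Real.exp (B * (t + 1 - s))) / 2 * ‖u (t + 1)‖ ^ 2) :=
          mul_le_mul_of_nonneg_left h11 (by positivity)
      _ = 1 / (4 * lam) * (Real.exp (B * (t + 1 - s)) * ‖u (t + 1)‖ ^ 2) := by
          field_simp
          ring
  have h12 : lam / 2 * ‖f‖ ^ 2 * t - lam / 2 * ‖f‖ ^ 2 * s = lam / 2 * ‖f‖ ^ 2 * (t - s) := by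
    ring
  linarith

/-- quantitative form: on `[s, s + δ]`, `δ ≤ 1` -/
theorem Reg.inner_sub_le' (h : Reg C u v) {s t B C1 C2 δ : ℝ} (hs : C.t0 ≤ s) (hst : s ≤ t)
    (hδ : 0 < δ) (hδ1 : δ ≤ 1) (htδ : t ≤ s + δ) (hB0 : 0 ≤ B)
    (hB : ∀ r ∈ Icc s (s + 2), C.b r ≤ B) (f : G) (hf : ‖f‖ ≤ C2) (hu : ‖u (s + 2)‖ ≤ C1) :
    |⟪f, u t⟫_ℝ - ⟪f, u s⟫_ℝ| ≤ Real.sqrt δ * (C2 ^ 2 + Real.exp (2 * B) * C1 ^ 2) := by
  have hsq : 0 < Real.sqrt δ := Real.sqrt_pos.2 hδ
  have hC2 : 0 ≤ C2 := (norm_nonneg f).trans hf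
  have hC1 : 0 ≤ C1 := (norm_nonneg _).trans hu
  have h1 := h.inner_sub_le hs hst (B := B)
    (fun r hr => hB r ⟨hr.1, by linarith [hr.2]⟩) f (lam := 1 / Real.sqrt δ) (by positivity)
  refine h1.trans ?_
  have h2 : ‖u (t + 1)‖ ≤ C1 := (h.norm_mono (by linarith) (by linarith)).trans hu
  have h3 : ‖u (t + 1)‖ ^ 2 ≤ C1 ^ 2 := pow_le_pow_left₀ (norm_nonneg _) h2 2
  have h4 : ‖f‖ ^ 2 ≤ C2 ^ 2 := pow_le_pow_left₀ (norm_nonneg _) hf 2
  have h5 : Real.exp (B * (t + 1 - s)) ≤ Real.exp (2 * B) := by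
    refine Real.exp_le_exp.2 ?_
    nlinarith
  have h6 : Real.exp (B * (t + 1 - s)) * ‖u (t + 1)‖ ^ 2 ≤ Real.exp (2 * B) * C1 ^ 2 :=
    mul_le_mul h5 h3 (sq_nonneg _) (Real.exp_pos _).le
  have hss : Real.sqrt δ * Real.sqrt δ = δ := Real.mul_self_sqrt hδ.le
  have h7 : 1 / Real.sqrt δ / 2 * ‖f‖ ^ 2 * (t - s) ≤ Real.sqrt δ * C2 ^ 2 := by
    have h8 : 1 / Real.sqrt δ / 2 * ‖f‖ ^ 2 * (t - s) ≤ 1 / Real.sqrt δ / 2 * C2 ^ 2 * δ :=
      mul_le_mul (mul_le_mul_of_nonneg_left h4 (by positivity)) (by linarith) (by linarith)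
        (by positivity)
    have h9 : 1 / Real.sqrt δ / 2 * C2 ^ 2 * δ = Real.sqrt δ * C2 ^ 2 / 2 := by
      rw [← hss]
      field_simp
      rw [Real.sqrt_sq hsq.le]
    have h10 : 0 ≤ Real.sqrt δ * C2 ^ 2 := by positivity
    linarith
  have h8 : 1 / (4 * (1 / Real.sqrt δ)) * (Real.exp (B * (t + 1 - s)) * ‖u (t + 1)‖ ^ 2) ≤
      Real.sqrt δ * (Real.exp (2 * B) * C1 ^ 2) := by
    have h9 : 1 / (4 * (1 / Real.sqrt δ)) = Real.sqrt δ / 4 := by
      field_simp
    rw [h9]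
    have h10 := mul_le_mul_of_nonneg_left h6 (by positivity : 0 ≤ Real.sqrt δ / 4)
    have h11 : 0 ≤ Real.sqrt δ * (Real.exp (2 * B) * C1 ^ 2) := by positivity
    linarith
  calc _ ≤ Real.sqrt δ * C2 ^ 2 + Real.sqrt δ * (Real.exp (2 * B) * C1 ^ 2) := add_le_add h7 h8
    _ = _ := by ring




end Crest.Agent.R202.Gal
end

-- ▼ part R202/BridE
section

/-!
# Row 202, bridge (helper684): the energy bound
-/

set_option autoImplicit false
open MeasureTheory Metric Set Filter Topology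
open scoped ContDiff RealInnerProductSpace
open Crest.GeometryTopology.CoordMetric (pderiv)
open Crest.Agent.R202.SphDiv (polar)
open Crest.Agent.R202.Sph (ev ip)

namespace Crest.Agent.R202.Brid

noncomputable section

variable {n N : ℕ}

lemma norm_fderiv_sq (F : EuclideanSpace ℝ (Fin n) → ℝ) (x : EuclideanSpace ℝ (Fin n)) :
    ‖fderiv ℝ F x‖ ^ 2 = ∑ i, pderiv i F x ^ 2 := by
  have h1 : ‖fderiv ℝ F x‖ = ‖(InnerProductSpace.toDual ℝ (EuclideanSpace ℝ (Fin n))).symm
      (fderiv ℝ F x)‖ := (LinearIsometryEquiv.norm_map _ _).symm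
  rw [h1, EuclideanSpace.real_norm_sq_eq]
  refine Finset.sum_congr rfl fun i _ => ?_
  have h2 : ⟪(InnerProductSpace.toDual ℝ (EuclideanSpace ℝ (Fin n))).symm (fderiv ℝ F x),
      EuclideanSpace.single i (1 : ℝ)⟫ = fderiv ℝ F x (EuclideanSpace.single i 1) :=
    InnerProductSpace.toDual_symm_apply
  rw [EuclideanSpace.inner_single_right] at h2
  unfold pderiv
  rw [← h2]; simp

/-- pointwise ellipticity -/
lemma norm_fderiv_sq_le {A : EuclideanSpace ℝ (Fin n) → Matrix (Fin n) (Fin n) ℝ} {lam : ℝ}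
    (hell : ∀ x w : EuclideanSpace ℝ (Fin n),
      lam * ∑ i, w i * w i ≤ ∑ i, ∑ j, A x i j * w i * w j)
    (F : EuclideanSpace ℝ (Fin n) → ℝ) (x : EuclideanSpace ℝ (Fin n)) :
    lam * ‖fderiv ℝ F x‖ ^ 2 ≤ Lim.Q A F F x := by
  have h1 := hell x (WithLp.toLp 2 fun i => pderiv i F x)
  rw [norm_fderiv_sq]
  unfold Lim.Q
  calc lam * ∑ i, pderiv i F x ^ 2 = lam * ∑ i, pderiv i F x * pderiv i F x := by
        congr 1
        exact Finset.sum_congr rfl fun i _ => sq _
    _ ≤ ∑ i, ∑ j, A x i j * pderiv i F x * pderiv j F x := h1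
    _ = ∑ i, ∑ l, A x i l * pderiv l F x * pderiv i F x :=
        Finset.sum_congr rfl fun i _ => Finset.sum_congr rfl fun j _ => by ring

/-- **Energy on balls from a flux function.** -/
theorem energy_ball (hn : 0 < n) {A : EuclideanSpace ℝ (Fin n) → Matrix (Fin n) (Fin n) ℝ}
    (hA : ∀ i l, Continuous fun x => A x i l) {lam : ℝ} (hlam : 0 < lam)
    (hell : ∀ x w : EuclideanSpace ℝ (Fin n),
      lam * ∑ i, w i * w i ≤ ∑ i, ∑ j, A x i j * w i * w j)
    {F : EuclideanSpace ℝ (Fin n) → ℝ} (hF : ContDiff ℝ 1 F) {Ψ : ℝ → ℝ} {R : ℝ} (hR : 0 ≤ R)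
    (hΨc : ContinuousOn Ψ (Icc 0 R))
    (hΨd : ∀ r ∈ Ioo 0 R, HasDerivAt Ψ (r ^ (n - 1) * ∫ z : SphDiv.Sph n,
      Lim.Q A F F (r • (z : EuclideanSpace ℝ (Fin n))) ∂(SphDiv.sig n)) r) :
    ∫ x in ball (0 : EuclideanSpace ℝ (Fin n)) R, ‖fderiv ℝ F x‖ ^ 2 ≤ lam⁻¹ * (Ψ R - Ψ 0) := by
  have hQc : Continuous (Lim.Q A F F) := Lim.continuous_Q hA hF hF
  have hfc : Continuous fun x => ‖fderiv ℝ F x‖ ^ 2 :=
    ((hF.continuous_fderiv (by norm_num)).norm).pow 2
  have hi : ∀ g : EuclideanSpace ℝ (Fin n) → ℝ, Continuous g →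
      IntegrableOn g (ball (0 : EuclideanSpace ℝ (Fin n)) R) := fun g hg =>
    (hg.continuousOn.integrableOn_compact (isCompact_closedBall _ _)).mono_set
      ball_subset_closedBall
  have hpos : ∀ x, 0 ≤ Lim.Q A F F x := fun x =>
    le_trans (by positivity) (norm_fderiv_sq_le hell F x)
  have h1 : lam * ∫ x in ball (0 : EuclideanSpace ℝ (Fin n)) R, ‖fderiv ℝ F x‖ ^ 2
      ≤ ∫ x in ball (0 : EuclideanSpace ℝ (Fin n)) R, Lim.Q A F F x := by
    rw [← integral_const_mul]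
    exact setIntegral_mono (hi _ (continuous_const.mul hfc)) (hi _ hQc)
      fun x => norm_fderiv_sq_le hell F x
  have h2 : ∫ x in ball (0 : EuclideanSpace ℝ (Fin n)) R, Lim.Q A F F x = Ψ R - Ψ 0 := by
    rw [integral_ball_polar hn hQc R]
    set g' : ℝ → ℝ := fun r => r ^ (n - 1) * ∫ z : SphDiv.Sph n,
      Lim.Q A F F (r • (z : EuclideanSpace ℝ (Fin n))) ∂(SphDiv.sig n) with hg'
    have hg'pos : ∀ r ∈ Ioo (0 : ℝ) R, 0 ≤ g' r := fun r hr =>
      mul_nonneg (pow_nonneg hr.1.le _) (integral_nonneg fun z => hpos _)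
    rw [← integral_Ioc_eq_integral_Ioo, ← intervalIntegral.integral_of_le hR]
    refine intervalIntegral.integral_eq_sub_of_hasDerivAt_of_le hR hΨc (fun r hr => hΨd r hr) ?_
    refine intervalIntegral.intervalIntegrable_deriv_of_nonneg (g := Ψ) ?_ ?_ ?_
    · rwa [uIcc_of_le hR]
    · intro r hr
      rw [min_eq_left hR, max_eq_right hR] at hr
      exact hΨd r hr
    · intro r hr
      rw [min_eq_left hR, max_eq_right hR] at hr
      exact hg'pos r hr
  rw [h2] at h1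
  calc ∫ x in ball (0 : EuclideanSpace ℝ (Fin n)) R, ‖fderiv ℝ F x‖ ^ 2
      = lam⁻¹ * (lam * ∫ x in ball (0 : EuclideanSpace ℝ (Fin n)) R, ‖fderiv ℝ F x‖ ^ 2) := by
        field_simp
    _ ≤ lam⁻¹ * (Ψ R - Ψ 0) := mul_le_mul_of_nonneg_left h1 (by positivity)

/-- **Energy bound from the Galerkin flux.** -/
theorem energy_of_reg (hn : 0 < n) {A : EuclideanSpace ℝ (Fin n) → Matrix (Fin n) (Fin n) ℝ}
    (hA : ∀ i l, Continuous fun x => A x i l) {lam : ℝ} (hlam : 0 < lam)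
    (hell : ∀ x w : EuclideanSpace ℝ (Fin n),
      lam * ∑ i, w i * w i ≤ ∑ i, ∑ j, A x i j * w i * w j)
    {F : EuclideanSpace ℝ (Fin n) → ℝ} (hF : ContDiff ℝ 1 F)
    {G : Type*} [NormedAddCommGroup G] [InnerProductSpace ℝ G] {C : Gal.Coef G}
    {u v : ℝ → G} (h : Gal.Reg C u v) (ht0 : C.t0 ≤ 0)
    (hbd : ∃ M, ∀ t ≤ C.t0, ‖u t‖ ≤ M ∧ ‖v t‖ ≤ M)
    (hS1 : ∀ r, 0 < r → r ^ (n - 1) * ∫ z : SphDiv.Sph n,
      Lim.Q A F F (r • (z : EuclideanSpace ℝ (Fin n))) ∂(SphDiv.sig n)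
      = r⁻¹ * (C.wt (Real.log r) *
        (‖v (Real.log r)‖ ^ 2 + ⟪C.K (Real.log r) (u (Real.log r)), u (Real.log r)⟫)))
    {B : ℝ} (hB : ∀ t, C.b t ≤ B) {R : ℝ} (hR : 1 ≤ R) :
    ∫ x in ball (0 : EuclideanSpace ℝ (Fin n)) R, ‖fderiv ℝ F x‖ ^ 2
      ≤ lam⁻¹ * (Real.exp (B * (Real.log R + 1 - C.t0)) / 2 * ‖u (Real.log R + 1)‖ ^ 2) := by
  classical
  set Φ : ℝ → ℝ := fun t => C.wt t * ⟪v t, u t⟫ with hΦ
  set Ψ : ℝ → ℝ := fun r => if 0 < r then Φ (Real.log r) else 0 with hΨ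
  have hΨ0 : Ψ 0 = 0 := by simp [hΨ]
  have hΨpos : ∀ r, 0 < r → Ψ r = Φ (Real.log r) := fun r hr => by simp only [hΨ, hr, if_true]
  have hΦd : ∀ t, HasDerivAt Φ (C.wt t * (‖v t‖ ^ 2 + ⟪C.K t (u t), u t⟫)) t :=
    fun t => h.hasDerivAt_flux t
  have hR0 : 0 < R := by linarith
  have hder : ∀ r, 0 < r → HasDerivAt Ψ (r⁻¹ * (C.wt (Real.log r) *
        (‖v (Real.log r)‖ ^ 2 + ⟪C.K (Real.log r) (u (Real.log r)), u (Real.log r)⟫))) r := by
    intro r hr
    have h1 : HasDerivAt (fun r => Φ (Real.log r)) ((C.wt (Real.log r) *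
        (‖v (Real.log r)‖ ^ 2 + ⟪C.K (Real.log r) (u (Real.log r)), u (Real.log r)⟫)) * r⁻¹) r :=
      (hΦd (Real.log r)).comp r (Real.hasDerivAt_log hr.ne')
    rw [mul_comm] at h1
    refine h1.congr_of_eventuallyEq ?_
    filter_upwards [Ioi_mem_nhds hr] with s hs
    exact hΨpos s hs
  obtain ⟨M, hM⟩ := hbd
  have hcont : ContinuousOn Ψ (Icc 0 R) := by
    intro r hr
    rcases hr.1.eq_or_lt with h0 | h0
    · subst h0
      have hM0 : 0 ≤ M := (norm_nonneg _).trans (hM C.t0 le_rfl).1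
      -- `Ψ r → 0`
      have hwt : Tendsto (fun r => C.wt (Real.log r) * (M * M)) (𝓝[>] 0) (𝓝 0) := by
        have h2 : Tendsto (fun t => C.wt t) atBot (𝓝 0) := by
          have h3 : ∀ t ≤ C.t0, C.wt t ≤ Real.exp (1 / 2 * (t - C.t0)) := by
            intro t ht
            have h4 := C.wt_exp ht
            rw [C.wt_t0] at h4
            have h5 : Real.exp (1 / 2 * (t - C.t0)) * Real.exp ((C.t0 - t) / 2) = 1 := by
              rw [← Real.exp_add]; ring_nf; exact Real.exp_zero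
            have h6 := Real.exp_pos (1 / 2 * (t - C.t0))
            have h7 := Real.exp_pos ((C.t0 - t) / 2)
            calc C.wt t = (C.wt t * Real.exp ((C.t0 - t) / 2)) * Real.exp (1 / 2 * (t - C.t0)) := by
                  rw [mul_assoc, mul_comm (Real.exp ((C.t0 - t) / 2)), h5, mul_one]
              _ ≤ 1 * Real.exp (1 / 2 * (t - C.t0)) := mul_le_mul_of_nonneg_right h4 h6.le
              _ = _ := one_mul _
          refine tendsto_of_tendsto_of_tendsto_of_le_of_le' tendsto_const_nhds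
            (h := fun t => Real.exp (1 / 2 * (t - C.t0))) ?_
            (Eventually.of_forall fun t => (C.wt_pos t).le) ?_
          · refine Real.tendsto_exp_atBot.comp ?_
            refine Tendsto.const_mul_atBot (by norm_num) ?_
            exact tendsto_atBot_add_const_right _ _ tendsto_id
          · filter_upwards [eventually_le_atBot C.t0] with t ht using h3 t ht
        have h8 := (h2.comp Real.tendsto_log_nhdsGT_zero).mul_const (M * M)
        simpa using h8
      have hsq : Tendsto Ψ (𝓝[>] 0) (𝓝 0) := by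
        refine squeeze_zero_norm' ?_ hwt
        have hev : ∀ᶠ r in 𝓝[>] (0 : ℝ), Real.log r ≤ C.t0 :=
          Real.tendsto_log_nhdsGT_zero.eventually (eventually_le_atBot C.t0)
        filter_upwards [hev, self_mem_nhdsWithin] with r hr1 hr2
        rw [hΨpos r hr2, Real.norm_eq_abs, hΦ]
        simp only
        rw [abs_mul, abs_of_pos (C.wt_pos _)]
        refine mul_le_mul_of_nonneg_left ?_ (C.wt_pos _).le
        refine (abs_real_inner_le_norm _ _).trans ?_
        exact mul_le_mul (hM _ hr1).2 (hM _ hr1).1 (norm_nonneg _) hM0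
      have h9 : ContinuousWithinAt Ψ (Ioi 0) 0 := by
        rw [ContinuousWithinAt, hΨ0]; exact hsq
      have h10 : ContinuousWithinAt Ψ (Ici 0) 0 := by
        have := continuousWithinAt_Ioi_iff_Ici.mp h9
        exact this
      exact h10.mono Icc_subset_Ici_self
    · exact (hder r h0).continuousAt.continuousWithinAt
  have h11 := energy_ball hn hA hlam hell hF (Ψ := Ψ) hR0.le hcont (fun r hr => by
    rw [hS1 r hr.1]; exact hder r hr.1)
  refine h11.trans (mul_le_mul_of_nonneg_left ?_ (by positivity))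
  rw [hΨ0, sub_zero, hΨpos R hR0]
  have hlog : 0 ≤ Real.log R := Real.log_nonneg hR
  have h12 := h.flux_le (s := Real.log R) (t := Real.log R + 1) (ht0.trans hlog) (by linarith)
  have e : Real.log R + 1 - Real.log R = 1 := by ring
  rw [e, one_mul] at h12
  refine h12.trans (mul_le_mul_of_nonneg_right ?_ (sq_nonneg _))
  have h13 := C.wt_le (s := C.t0) (t := Real.log R + 1) (B := B) (by linarith)
    (fun r _ => hB r)
  rw [C.wt_t0, one_mul] at h13
  linarith

end

end Crest.Agent.R202.Brid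
end

-- ▼ part R202/BridG

/-!
# Row 202, bridge (helper684): from solutions in the sectors to `Top.BFun`
-/

set_option autoImplicit false
open MeasureTheory Metric Set Filter Topology
open scoped ContDiff RealInnerProductSpace
open Crest.GeometryTopology.CoordMetric
open Crest.Agent.R202.Sph (ev ip yI vI refl3 harm dimH sph)
open Crest.Agent.R202.Main Crest.Agent.R202.Top

namespace Crest.Agent.R202.Brid

noncomputable section

/-- everything that is used about one Galerkin function `F(r z) = ∑ u_i(log r) p_i(z)` -/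
structure FOK {m N : ℕ} (A : MetricField (m + 3)) (C : Gal.Coef (EuclideanSpace ℝ (Fin N)))
    (p : Fin N → MvPolynomial (Fin (m + 3)) ℝ) (u v : ℝ → EuclideanSpace ℝ (Fin N)) (P : ℕ)
    (F : EuclideanSpace ℝ (Fin (m + 3)) → ℝ) : Prop where
  sol : Gal.Reg C u v
  t0 : C.t0 = 0
  bdd : ∀ t ≤ 0, ‖u t‖ ≤ ‖u 0‖ ∧ ‖v t‖ ≤ ‖v 0‖
  orth : ∀ i j, ip (p i) (p j) = if i = j then 1 else 0
  reg : ContDiff ℝ 1 F
  slice : ∀ r, 0 < r → ∀ z : SphDiv.Sph (m + 3),
    F (r • (z : EuclideanSpace ℝ (Fin (m + 3)))) = ∑ i, u (Real.log r) i * ev (p i) z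
  flux : ∀ r, 0 < r → r ^ (m + 3 - 1) * ∫ z : SphDiv.Sph (m + 3),
      Lim.Q A F F (r • (z : EuclideanSpace ℝ (Fin (m + 3)))) ∂(SphDiv.sig (m + 3))
      = r⁻¹ * (C.wt (Real.log r) *
        (‖v (Real.log r)‖ ^ 2 + ⟪C.K (Real.log r) (u (Real.log r)), u (Real.log r)⟫))
  w0 : ∀ φ : EuclideanSpace ℝ (Fin (m + 3)) → ℝ, ContDiff ℝ ∞ φ → HasCompactSupport φ →
      tsupport φ ⊆ ball 0 1 → ∫ x, Lim.Q A F φ x = 0
  w1 : ∀ χ : ℝ → ℝ, ContDiff ℝ ∞ χ → HasCompactSupport χ → tsupport χ ⊆ Ioi 0 →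
      ∀ h : MvPolynomial (Fin (m + 3)) ℝ, h.totalDegree ≤ P →
        ∫ x, Lim.Q A F (fun x => χ ‖x‖ * Lim.pe h x) x = 0

/-- energy bound for one function -/
theorem FOK.energy {m N : ℕ} {A : MetricField (m + 3)} {C : Gal.Coef (EuclideanSpace ℝ (Fin N))}
    {p : Fin N → MvPolynomial (Fin (m + 3)) ℝ} {u v : ℝ → EuclideanSpace ℝ (Fin N)} {P : ℕ}
    {F : EuclideanSpace ℝ (Fin (m + 3)) → ℝ} (h : FOK A C p u v P F)
    (hA : ∀ i l, Continuous fun x => A x i l) {lam : ℝ} (hlam : 0 < lam)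
    (hell : ∀ x w : EuclideanSpace ℝ (Fin (m + 3)),
      lam * ∑ i, w i * w i ≤ ∑ i, ∑ j, A x i j * w i * w j)
    {B : ℝ} (hB : ∀ t, C.b t ≤ B) {Cg K T : ℝ}
    (hu : ∀ t, t ≤ T → ‖u t‖ ≤ Cg * Real.exp (K * max t 0)) {R : ℝ}
    (hRT : Real.log (|R| + 1) + 1 ≤ T) :
    ∫ x in closedBall (0 : EuclideanSpace ℝ (Fin (m + 3))) R, ‖fderiv ℝ F x‖ ^ 2
      ≤ lam⁻¹ * (Real.exp (B * (Real.log (|R| + 1) + 1)) / 2 *
        (Cg * Real.exp (K * (Real.log (|R| + 1) + 1))) ^ 2) := by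
  set R' : ℝ := |R| + 1 with hR'
  have hR1 : 1 ≤ R' := by have := abs_nonneg R; linarith
  have hfc : Continuous fun x => ‖fderiv ℝ F x‖ ^ 2 :=
    ((h.reg.continuous_fderiv (by norm_num)).norm).pow 2
  have hi : IntegrableOn (fun x => ‖fderiv ℝ F x‖ ^ 2)
      (ball (0 : EuclideanSpace ℝ (Fin (m + 3))) R') :=
    (hfc.continuousOn.integrableOn_compact (isCompact_closedBall _ _)).mono_set
      ball_subset_closedBall
  have h1 : ∫ x in closedBall (0 : EuclideanSpace ℝ (Fin (m + 3))) R, ‖fderiv ℝ F x‖ ^ 2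
      ≤ ∫ x in ball (0 : EuclideanSpace ℝ (Fin (m + 3))) R', ‖fderiv ℝ F x‖ ^ 2 := by
    refine setIntegral_mono_set hi (Eventually.of_forall fun x => sq_nonneg _) ?_
    refine (closedBall_subset_ball ?_).eventuallyLE
    have := le_abs_self R
    rw [hR']; linarith
  refine h1.trans ?_
  have h2 := energy_of_reg (n := m + 3) (by omega) hA hlam hell h.reg h.sol (h.t0.le)
    ⟨max ‖u 0‖ ‖v 0‖, fun t ht => by
      rw [h.t0] at ht
      exact ⟨(h.bdd t ht).1.trans (le_max_left _ _), (h.bdd t ht).2.trans (le_max_right _ _)⟩⟩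
    h.flux hB hR1
  refine h2.trans (mul_le_mul_of_nonneg_left ?_ (by positivity))
  rw [h.t0, sub_zero]
  refine mul_le_mul_of_nonneg_left ?_ (by positivity)
  have hlog : 0 ≤ Real.log R' := Real.log_nonneg hR1
  have h3 := hu _ hRT
  rw [max_eq_left (by linarith)] at h3
  exact pow_le_pow_left₀ (norm_nonneg _) h3 2

variable {m : ℕ} {v0 : ℝ} {k : ℕ} {D : CountData m v0 k}

/-- the parity sign of a sector -/
def par (σ : ℕ × ℕ) : ℝ := (-1) ^ σ.2

lemma par_mul {σ σ' : ℕ × ℕ} (ha : σ.2 ≤ 1) (hb : σ'.2 ≤ 1) (h : σ.2 ≠ σ'.2) :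
    par σ * par σ' = -1 := by
  unfold par
  have h1 : σ.2 = 0 ∨ σ.2 = 1 := by omega
  have h2 : σ'.2 = 0 ∨ σ'.2 = 1 := by omega
  rcases h1 with h1 | h1 <;> rcases h2 with h2 | h2
  · exact absurd (h1.trans h2.symm) h
  · rw [h1, h2]; norm_num
  · rw [h1, h2]; norm_num
  · exact absurd (h1.trans h2.symm) h

/-- orthonormal bases of the harmonic polynomials in `y` -/
def YB (m q : ℕ) : Module.Basis (Fin (dimH (m + 1) q)) ℝ (harm (m + 1) q) :=
  (Sph.exists_onb (D := m + 1) q).choose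

lemma YB_orth (m q : ℕ) (i j : Fin (dimH (m + 1) q)) :
    sph (ev ((YB m q i).1 * (YB m q j).1)) = if i = j then 1 else 0 :=
  (Sph.exists_onb (D := m + 1) q).choose_spec i j

/-- The constants of `BFun`. -/
def mkB (D : CountData m v0 k)
    (Vf : ∀ σ : Sec D, Fin (D.N σ.1) → MvPolynomial (Fin 3) ℝ)
    (Cg lam Bb τ0 dl ε : ℝ) (hdl : 0 < dl)
    (hε : ε * Fintype.card (Idx D) < 1) : BConst D where
  r0 := 1
  C0 := Cg ^ 2
  CE R := lam⁻¹ * (Real.exp (Bb * (Real.log (|R| + 1) + 1)) / 2 *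
        (Cg * Real.exp (k * (Real.log (|R| + 1) + 1))) ^ 2)
  φ j := phiT (yI m (YB m j.1.1.1 j.2.1).1 * vI m (Vf j.1 j.2.2)) (Real.exp τ0)
    (Real.exp (τ0 + dl))
  ε := ε
  r0_pos := one_pos
  φ_L2 j := memLp_phiT _ (Real.exp_pos _) (Real.exp_lt_exp.mpr (by linarith))
  φ_supp := ⟨Real.exp (τ0 + dl), fun _ _ hx => phiT_eq_zero _ hx⟩
  ε_lt := hε

/-- **From the solutions in the sectors to `BFun`.** -/
theorem bfun_of_FOK {Vf : ∀ σ : Sec D, Fin (D.N σ.1) → MvPolynomial (Fin 3) ℝ}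
    (hVf : ∀ σ i, refl3 (Vf σ i) = MvPolynomial.C (par σ.1) * Vf σ i)
    (hS2 : ∀ σ : Sec D, σ.1.2 ≤ 1)
    {Cg lam Bb τ0 dl ε : ℝ} {hdl : 0 < dl} {hε : ε * Fintype.card (Idx D) < 1}
    (hε0 : 0 ≤ ε) (hlam : 0 < lam) (hτ0 : 0 ≤ τ0)
    {P : ℕ} {A : MetricField (m + 3)} (hA : ∀ i l, Continuous fun x => A x i l)
    (hell : ∀ x w : EuclideanSpace ℝ (Fin (m + 3)),
      lam * ∑ i, w i * w i ≤ ∑ i, ∑ j, A x i j * w i * w j)
    {NN : Sec D → ℕ} {V : ∀ σ : Sec D, Fin (NN σ) → MvPolynomial (Fin 3) ℝ}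
    (hV : ∀ σ i, refl3 (V σ i) = MvPolynomial.C (par σ.1) * V σ i)
    {Cc : ∀ j : Idx D, Gal.Coef (EuclideanSpace ℝ (Fin (NN j.1)))}
    (hBb : ∀ j t, (Cc j).b t ≤ Bb)
    {u v : ∀ σ : Sec D, Fin (D.N σ.1) → ℝ → EuclideanSpace ℝ (Fin (NN σ))}
    {T : ℝ} (hT : Real.log (P + 1) + 1 ≤ T)
    (hgrow : ∀ σ c t, 0 ≤ t → t ≤ T → ‖u σ c t‖ ≤ Cg * Real.exp (k * max t 0))
    (hpair : ∀ σ i c, ∀ Y ∈ harm (m + 1) σ.1.1, sph (ev (Y * Y)) = 1 → ∀ t ∈ Icc τ0 (τ0 + dl),
      |(∑ l, u σ c t l * ip (yI m Y * vI m (V σ l)) (yI m Y * vI m (Vf σ i)))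
        - if i = c then 1 else 0| ≤ ε)
    {F : Idx D → EuclideanSpace ℝ (Fin (m + 3)) → ℝ}
    (hF : ∀ j : Idx D, FOK A (Cc j)
      (fun i => yI m (YB m j.1.1.1 j.2.1).1 * vI m (V j.1 i)) (u j.1 j.2.2) (v j.1 j.2.2) P (F j)) :
    BFun (mkB D Vf Cg lam Bb τ0 dl ε hdl hε) P A F := by
  have hT0 : 0 ≤ T := by
    have : 0 ≤ Real.log ((P : ℝ) + 1) := Real.log_nonneg (by
      have : (0 : ℝ) ≤ P := Nat.cast_nonneg P
      linarith)
    linarith
  have hgrow' : ∀ (j : Idx D) (t : ℝ), t ≤ T →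
      ‖u j.1 j.2.2 t‖ ≤ Cg * Real.exp (k * max t 0) := by
    intro j t ht
    rcases le_total 0 t with h0 | h0
    · exact hgrow j.1 j.2.2 t h0 ht
    · refine ((hF j).bdd t h0).1.trans ?_
      have := hgrow j.1 j.2.2 0 le_rfl hT0
      rw [max_self] at this
      rw [max_eq_right h0]
      exact this
  refine ⟨fun j => (hF j).reg, fun j => (hF j).w0, fun j => (hF j).w1, ?_, ?_, ?_⟩
  · -- energy
    intro R hR j
    by_cases hR0 : R < 0
    · have : closedBall (0 : EuclideanSpace ℝ (Fin (m + 3))) R = ∅ := closedBall_eq_empty.mpr hR0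
      rw [this]
      simp only [Measure.restrict_empty, integral_zero_measure]
      show 0 ≤ lam⁻¹ * _
      positivity
    · push Not at hR0
      refine (hF j).energy hA hlam hell (hBb j) (hgrow' j) ?_
      rw [abs_of_nonneg hR0]
      refine le_trans ?_ hT
      have := Real.log_le_log (by linarith : 0 < R + 1) (by linarith : R + 1 ≤ P + 1)
      linarith
  · -- growth
    intro R hR0 hR j
    have h1 := growth_ball (n := m + 3) (by omega) (hF j).reg.continuous (hF j).orth (hF j).slice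
      (C := Cg) (K := k) (T := T) (k := k) le_rfl (hgrow' j) hR0 (by
        have h2 : R ≤ Real.exp (Real.log (P + 1)) := by
          rw [Real.exp_log (by positivity)]; linarith
        exact h2.trans (Real.exp_le_exp.mpr (by linarith)))
    exact h1
  · -- pairing
    intro i j
    show |(∫ x, F j x * phiT (yI m (YB m i.1.1.1 i.2.1).1 * vI m (Vf i.1 i.2.2)) (Real.exp τ0)
      (Real.exp (τ0 + dl)) x) - if i = j then 1 else 0| ≤ ε
    have hcont : ContinuousOn (u j.1 j.2.2) (Ici 0) := fun t _ =>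
      ((hF j).sol.du t).continuousAt.continuousWithinAt
    refine pair_close (n := m + 3) (by omega) (hF j).reg.continuous hcont (hF j).slice _
      (Real.one_le_exp hτ0) (Real.exp_lt_exp.mpr (by linarith)) ?_
    intro r hr
    have hr0 : 0 < r := (Real.exp_pos _).trans hr.1
    have hlog : Real.log r ∈ Icc τ0 (τ0 + dl) := by
      constructor
      · rw [← Real.log_exp τ0]; exact Real.log_le_log (Real.exp_pos _) hr.1.le
      · rw [← Real.log_exp (τ0 + dl)]; exact Real.log_le_log hr0 hr.2.le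
    obtain ⟨σ, a, c⟩ := j
    obtain ⟨σ', a', c'⟩ := i
    by_cases hσ : σ' = σ
    · subst hσ
      by_cases ha : a' = a
      · subst ha
        have h2 := hpair σ' c' c (YB m σ'.1.1 a').1 (YB m σ'.1.1 a').2
          (by rw [YB_orth, if_pos rfl]) (Real.log r) hlog
        have h3 : ((if (⟨σ', a', c'⟩ : Idx D) = ⟨σ', a', c⟩ then (1 : ℝ) else 0))
            = if c' = c then 1 else 0 := by
          by_cases hc : c' = c
          · subst hc; simp
          · rw [if_neg hc, if_neg]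
            intro h
            apply hc
            simpa using h
        rw [h3]
        exact h2
      · -- different harmonics
        have h3 : ((if (⟨σ', a', c'⟩ : Idx D) = ⟨σ', a, c⟩ then (1 : ℝ) else 0)) = 0 := by
          rw [if_neg]
          intro h
          apply ha
          have := (Sigma.mk.inj_iff.mp h).2
          have h4 := eq_of_heq this
          exact congrArg Prod.fst h4
        have h5 : ∀ l, ip (yI m (YB m σ'.1.1 a).1 * vI m (V σ' l))
            (yI m (YB m σ'.1.1 a').1 * vI m (Vf σ' c')) = 0 := fun l =>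
          Sph.ip_zero_of_orth (YB m σ'.1.1 a).2 (YB m σ'.1.1 a').2
            (by rw [YB_orth, if_neg (Ne.symm ha)]) _ _
        simp only [h5, mul_zero, Finset.sum_const_zero, h3, sub_zero, abs_zero]
        exact hε0
    · have h3 : ((if (⟨σ', a', c'⟩ : Idx D) = ⟨σ, a, c⟩ then (1 : ℝ) else 0)) = 0 := by
        rw [if_neg]
        intro h
        exact hσ (Sigma.mk.inj_iff.mp h).1
      have h5 : ∀ l, ip (yI m (YB m σ.1.1 a).1 * vI m (V σ l))
          (yI m (YB m σ'.1.1 a').1 * vI m (Vf σ' c')) = 0 := by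
        intro l
        by_cases hq : σ.1.1 = σ'.1.1
        · -- same degree: different parity
          have hs : σ.1.2 ≠ σ'.1.2 := by
            intro hs
            apply hσ
            exact Subtype.ext (Prod.ext hq.symm hs.symm)
          refine Sph.ip_zero_of_parity (ε := par σ.1) (ε' := par σ'.1) ?_ (hV σ l) (hVf σ' c')
          exact par_mul (hS2 σ) (hS2 σ') hs
        · exact Sph.ip_zero_of_orth (YB m σ.1.1 a).2 (YB m σ'.1.1 a').2
            (Sph.sph_orth hq (YB m σ.1.1 a).2 (YB m σ'.1.1 a').2) _ _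
      simp only [h5, mul_zero, Finset.sum_const_zero, h3, sub_zero, abs_zero]
      exact hε0

end

end Crest.Agent.R202.Brid
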