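import Mathlib
import Crest.Agent.R202.SegDefs

-- ▼ part R202/GateLin
section

/-! # Row 202, PART B2 (gates): gap transfer `K → Λ`, finite-dimensional linear algebra (helper557) -/

set_option autoImplicit false
set_option linter.unusedSectionVars false
set_option linter.unusedVariables false

open Set Module
open scoped InnerProductSpace

namespace Crest.Agent.R202.GateLin

variable {G : Type*} [NormedAddCommGroup G] [InnerProductSpace ℝ G] [FiniteDimensional ℝ G]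

/-- Two-sided bound of a symmetric operator on a space and its complement gives invertibility. -/
theorem norm_ge_of_sep {Q : G →L[ℝ] G} (hQ : ∀ x y, ⟪Q x, y⟫_ℝ = ⟪x, Q y⟫_ℝ)
    {W : Submodule ℝ G} {η : ℝ}
    (hW : ∀ x ∈ W, ⟪Q x, x⟫_ℝ ≤ -η * ‖x‖ ^ 2) (hW' : ∀ x ∈ Wᗮ, η * ‖x‖ ^ 2 ≤ ⟪Q x, x⟫_ℝ) (x : G) :
    η * ‖x‖ ≤ ‖Q x‖ := by
  obtain ⟨y, hy, z, hz, rfl⟩ := W.exists_add_mem_mem_orthogonal x
  have hyz : ⟪y, z⟫_ℝ = 0 := Submodule.inner_right_of_mem_orthogonal hy hz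
  have hzy : ⟪z, y⟫_ℝ = 0 := by rw [real_inner_comm]; exact hyz
  have h1 : ⟪Q (y + z), z - y⟫_ℝ = ⟪Q z, z⟫_ℝ - ⟪Q y, y⟫_ℝ := by
    have h2 : ⟪Q y, z⟫_ℝ = ⟪Q z, y⟫_ℝ := by rw [hQ, real_inner_comm]
    rw [map_add, inner_add_left, inner_sub_right, inner_sub_right]
    linarith
  have n1 : ‖y + z‖ ^ 2 = ‖y‖ ^ 2 + ‖z‖ ^ 2 := by
    rw [norm_add_sq_real, hyz]; ring
  have n2 : ‖z - y‖ ^ 2 = ‖y‖ ^ 2 + ‖z‖ ^ 2 := by
    rw [norm_sub_sq_real, hzy]; ring
  have n3 : ‖z - y‖ = ‖y + z‖ := by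
    have : ‖z - y‖ ^ 2 = ‖y + z‖ ^ 2 := by rw [n1, n2]
    exact (pow_left_inj₀ (norm_nonneg _) (norm_nonneg _) two_ne_zero).1 this
  have h3 : η * ‖y + z‖ ^ 2 ≤ ⟪Q (y + z), z - y⟫_ℝ := by
    rw [h1, n1]
    have := hW y hy
    have := hW' z hz
    nlinarith
  have h4 : ⟪Q (y + z), z - y⟫_ℝ ≤ ‖Q (y + z)‖ * ‖y + z‖ := by
    rw [← n3]; exact real_inner_le_norm _ _
  rcases (norm_nonneg (y + z)).eq_or_lt with h0 | h0
  · rw [← h0, mul_zero]; exact norm_nonneg _
  · have : η * ‖y + z‖ * ‖y + z‖ ≤ ‖Q (y + z)‖ * ‖y + z‖ := by nlinarith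
    exact le_of_mul_le_mul_right this h0

section Spec

variable (L : G →L[ℝ] G) (hL : (L : G →ₗ[ℝ] G).IsSymmetric)

/-- eigenbasis -/
noncomputable def bs : OrthonormalBasis (Fin (finrank ℝ G)) ℝ G := hL.eigenvectorBasis rfl

/-- eigenvalues -/
noncomputable def ev : Fin (finrank ℝ G) → ℝ := hL.eigenvalues rfl

theorem L_bs (i) : L (bs L hL i) = ev L hL i • bs L hL i :=
  hL.apply_eigenvectorBasis rfl i

theorem inner_L_bs (x : G) (i) : ⟪L x, bs L hL i⟫_ℝ = ev L hL i * ⟪x, bs L hL i⟫_ℝ := by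
  have h := hL x (bs L hL i)
  have h2 : ⟪L x, bs L hL i⟫_ℝ = ⟪x, L (bs L hL i)⟫_ℝ := h
  rw [h2, L_bs, real_inner_smul_right]

theorem inner_L (x y : G) :
    ⟪L x, y⟫_ℝ = ∑ i, ev L hL i * (⟪x, bs L hL i⟫_ℝ * ⟪y, bs L hL i⟫_ℝ) := by
  rw [← (bs L hL).sum_inner_mul_inner]
  refine Finset.sum_congr rfl fun i _ => ?_
  rw [inner_L_bs, real_inner_comm y]; ring

theorem norm_sq_eq (x : G) : ‖x‖ ^ 2 = ∑ i, ⟪x, bs L hL i⟫_ℝ ^ 2 := by
  rw [← real_inner_self_eq_norm_sq, ← (bs L hL).sum_inner_mul_inner]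
  refine Finset.sum_congr rfl fun i _ => ?_
  rw [real_inner_comm x]; ring

theorem norm_L_sub_sq (γ : ℝ) (x : G) :
    ‖L x - γ • x‖ ^ 2 = ∑ i, (ev L hL i - γ) ^ 2 * ⟪x, bs L hL i⟫_ℝ ^ 2 := by
  rw [norm_sq_eq L hL]
  refine Finset.sum_congr rfl fun i _ => ?_
  rw [inner_sub_left, inner_L_bs, real_inner_smul_left]; ring

theorem norm_L_sub_ge {γ δ : ℝ} (hδ : 0 ≤ δ) (h : ∀ i, δ ≤ |ev L hL i - γ|) (x : G) :
    δ * ‖x‖ ≤ ‖L x - γ • x‖ := by
  have h1 : (δ * ‖x‖) ^ 2 ≤ ‖L x - γ • x‖ ^ 2 := by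
    rw [mul_pow, norm_sq_eq L hL x, norm_L_sub_sq L hL, Finset.mul_sum]
    refine Finset.sum_le_sum fun i _ => ?_
    have h2 : δ ^ 2 ≤ (ev L hL i - γ) ^ 2 := by
      rw [← sq_abs (ev L hL i - γ)]
      exact pow_le_pow_left₀ hδ (h i) 2
    exact mul_le_mul_of_nonneg_right h2 (sq_nonneg _)
  exact le_of_sq_le_sq h1 (norm_nonneg _)

/-- span of the eigenvectors with index in `S` -/
noncomputable def espan (S : Set (Fin (finrank ℝ G))) : Submodule ℝ G :=
  Submodule.span ℝ (Set.range fun i : S => bs L hL i)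

theorem inner_espan {S : Set (Fin (finrank ℝ G))} {x : G} (hx : x ∈ espan L hL S)
    {i : Fin (finrank ℝ G)} (hi : i ∉ S) : ⟪x, bs L hL i⟫_ℝ = 0 := by
  unfold espan at hx
  induction hx using Submodule.span_induction with
  | mem x h =>
    obtain ⟨k, rfl⟩ := h
    have hk : (k : Fin (finrank ℝ G)) ≠ i := fun h => hi (h ▸ k.2)
    exact (bs L hL).orthonormal.2 hk
  | zero => simp
  | add x y _ _ hx hy => rw [inner_add_left, hx, hy, add_zero]
  | smul a x _ hx => rw [real_inner_smul_left, hx, mul_zero]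

theorem finrank_espan (S : Set (Fin (finrank ℝ G))) [Fintype S] :
    finrank ℝ (espan L hL S) = Fintype.card S := by
  unfold espan
  rw [finrank_span_eq_card]
  exact ((bs L hL).orthonormal.linearIndependent.comp (fun i : S => (i : Fin (finrank ℝ G)))
    Subtype.val_injective)

end Spec

/-- Hypotheses of the gap transfer at one time. -/
structure GapHyp (K L : G →L[ℝ] G) (b m η ρ γ : ℝ) (W : Submodule ℝ G) : Prop where
  symm : ∀ x y, ⟪L x, y⟫_ℝ = ⟪x, L y⟫_ℝ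
  pos : ∀ x, 0 ≤ ⟪L x, x⟫_ℝ
  b_nonneg : 0 ≤ b
  m_nonneg : 0 ≤ m
  ρ_nonneg : 0 ≤ ρ
  ρ_le : ρ ≤ 1
  ρ_small : ρ * (m + 3) ≤ η
  γ_nonneg : 0 ≤ γ
  γ_eq : γ ^ 2 + b * γ = m
  bound : ∀ x, |⟪K x, x⟫_ℝ - b * ⟪L x, x⟫_ℝ - ‖L x‖ ^ 2| ≤ ρ * (⟪L x, x⟫_ℝ + ‖x‖ ^ 2)
  low : ∀ x ∈ W, ⟪K x, x⟫_ℝ ≤ (m - η) * ‖x‖ ^ 2
  high : ∀ x ∈ Wᗮ, (m + η) * ‖x‖ ^ 2 ≤ ⟪K x, x⟫_ℝ

namespace GapHyp

variable {K L : G →L[ℝ] G} {b m η ρ γ : ℝ} {W : Submodule ℝ G}

theorem inner_le (h : GapHyp K L b m η ρ γ W) (x : G) :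
    2 * ⟪L x, x⟫_ℝ ≤ ‖L x‖ ^ 2 + ‖x‖ ^ 2 := by
  have h1 := real_inner_le_norm (L x) x
  nlinarith [sq_nonneg (‖L x‖ - ‖x‖)]

theorem η_nonneg (h : GapHyp K L b m η ρ γ W) : 0 ≤ η :=
  (mul_nonneg h.ρ_nonneg (by linarith [h.m_nonneg])).trans h.ρ_small

/-- `Λ² + bΛ ≤ m - η/2` on `W`. -/
theorem q_low (h : GapHyp K L b m η ρ γ W) {x : G} (hx : x ∈ W) :
    ‖L x‖ ^ 2 + b * ⟪L x, x⟫_ℝ - m * ‖x‖ ^ 2 ≤ -(η / 4) * ‖x‖ ^ 2 := by
  have h1 := abs_le.1 (h.bound x)
  have h2 := h.low x hx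
  have h3 := h.inner_le x
  have h4 := h.ρ_nonneg
  have h5 := h.ρ_le
  have h6 := mul_nonneg h.b_nonneg (h.pos x)
  have h7 := mul_le_mul_of_nonneg_right h.ρ_small (sq_nonneg ‖x‖)
  have h8 := h.η_nonneg
  have h9 := mul_nonneg h8 (sq_nonneg ‖x‖)
  set A := ‖L x‖ ^ 2 with hA
  set B := ⟪L x, x⟫_ℝ with hB
  set N := ‖x‖ ^ 2 with hN
  have hA0 : 0 ≤ A := sq_nonneg _
  have hN0 : 0 ≤ N := sq_nonneg _
  set q := A + b * B - m * N with hq
  -- q ≤ -η N + ρ (B + N)
  have e1 : q ≤ -η * N + ρ * (B + N) := by nlinarith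
  -- ρ B ≤ ρ/2 (q + (m+1) N)
  have e2 : ρ * B ≤ ρ / 2 * (q + (m + 1) * N) := by
    have : 2 * B ≤ q + (m + 1) * N := by nlinarith
    nlinarith
  have e3 : (1 - ρ / 2) * q ≤ -(η / 2) * N := by nlinarith
  by_contra hcon
  push Not at hcon
  have : (1 - ρ / 2) * (-(η / 4) * N) < (1 - ρ / 2) * q :=
    mul_lt_mul_of_pos_left hcon (by linarith)
  nlinarith

theorem q_high (h : GapHyp K L b m η ρ γ W) {x : G} (hx : x ∈ Wᗮ) :
    (η / 4) * ‖x‖ ^ 2 ≤ ‖L x‖ ^ 2 + b * ⟪L x, x⟫_ℝ - m * ‖x‖ ^ 2 := by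
  have h1 := abs_le.1 (h.bound x)
  have h2 := h.high x hx
  have h3 := h.inner_le x
  have h4 := h.ρ_nonneg
  have h5 := h.ρ_le
  have h6 := mul_nonneg h.b_nonneg (h.pos x)
  have h7 := mul_le_mul_of_nonneg_right h.ρ_small (sq_nonneg ‖x‖)
  have h8 := h.η_nonneg
  have h9 := mul_nonneg h8 (sq_nonneg ‖x‖)
  set A := ‖L x‖ ^ 2 with hA
  set B := ⟪L x, x⟫_ℝ with hB
  set N := ‖x‖ ^ 2 with hN
  have hA0 : 0 ≤ A := sq_nonneg _
  have hN0 : 0 ≤ N := sq_nonneg _
  set q := A + b * B - m * N with hq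
  have e1 : η * N - ρ * (B + N) ≤ q := by nlinarith
  have e2 : ρ * B ≤ ρ / 2 * (q + (m + 1) * N) := by
    have : 2 * B ≤ q + (m + 1) * N := by nlinarith
    nlinarith
  have e3 : (η / 2) * N ≤ (1 + ρ / 2) * q := by nlinarith
  by_contra hcon
  push Not at hcon
  have : (1 + ρ / 2) * q < (1 + ρ / 2) * ((η / 4) * N) :=
    mul_lt_mul_of_pos_left hcon (by linarith)
  nlinarith

/-- the operator `Λ² + bΛ - m` -/
noncomputable def Q (L : G →L[ℝ] G) (b m : ℝ) : G →L[ℝ] G :=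
  L.comp L + b • L - m • ContinuousLinearMap.id ℝ G

theorem Q_apply (x : G) : Q L b m x = L (L x) + b • L x - m • x := rfl

theorem inner_Q (h : GapHyp K L b m η ρ γ W) (x : G) :
    ⟪Q L b m x, x⟫_ℝ = ‖L x‖ ^ 2 + b * ⟪L x, x⟫_ℝ - m * ‖x‖ ^ 2 := by
  rw [Q_apply, inner_sub_left, inner_add_left, real_inner_smul_left, real_inner_smul_left,
    h.symm, real_inner_self_eq_norm_sq, real_inner_self_eq_norm_sq]

theorem symm_Q (h : GapHyp K L b m η ρ γ W) (x y : G) :
    ⟪Q L b m x, y⟫_ℝ = ⟪x, Q L b m y⟫_ℝ := by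
  rw [Q_apply, Q_apply, inner_sub_left, inner_add_left, real_inner_smul_left,
    real_inner_smul_left, inner_sub_right, inner_add_right, real_inner_smul_right,
    real_inner_smul_right, h.symm, h.symm, h.symm]

theorem norm_Q (h : GapHyp K L b m η ρ γ W) (x : G) : (η / 4) * ‖x‖ ≤ ‖Q L b m x‖ := by
  refine norm_ge_of_sep h.symm_Q (W := W) (fun y hy => ?_) (fun y hy => ?_) x
  · rw [h.inner_Q]; exact h.q_low hy
  · rw [h.inner_Q]; exact h.q_high hy

theorem isSymm (h : GapHyp K L b m η ρ γ W) : (L : G →ₗ[ℝ] G).IsSymmetric := fun x y => h.symm x y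

theorem ev_nonneg (h : GapHyp K L b m η ρ γ W) (i) : 0 ≤ ev L h.isSymm i := by
  have h1 := h.pos (bs L h.isSymm i)
  rw [L_bs, real_inner_smul_left, real_inner_self_eq_norm_sq,
    (bs L h.isSymm).orthonormal.1 i] at h1
  simpa using h1

/-- The eigenvalues of `Λ` stay away from `γ`. -/
theorem ev_gap (h : GapHyp K L b m η ρ γ W) {δ : ℝ} (hδ0 : 0 < δ) (hδ1 : δ ≤ 1)
    (hδ : 4 * δ * (2 * γ + b + 1) ≤ η) (i) : δ ≤ |ev L h.isSymm i - γ| := by
  set p := ev L h.isSymm i with hp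
  have hp0 : 0 ≤ p := h.ev_nonneg i
  have h1 := h.norm_Q (bs L h.isSymm i)
  have h2 : Q L b m (bs L h.isSymm i) = (p ^ 2 + b * p - m) • bs L h.isSymm i := by
    rw [Q_apply, L_bs, map_smul, L_bs, ← hp]
    module
  rw [h2, norm_smul, (bs L h.isSymm).orthonormal.1 i, mul_one, mul_one, Real.norm_eq_abs] at h1
  have h3 : p ^ 2 + b * p - m = (p - γ) * (p + γ + b) := by rw [← h.γ_eq]; ring
  have hb := h.b_nonneg
  have hγ := h.γ_nonneg
  rw [h3, abs_mul, abs_of_nonneg (by linarith : 0 ≤ p + γ + b)] at h1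
  by_contra hcon
  push Not at hcon
  have h4 : |p - γ| < 1 := by linarith
  have h5 := (abs_lt.1 h4).2
  have h6 : p + γ + b < 2 * γ + b + 1 := by linarith
  have h7 : |p - γ| * (p + γ + b) < δ * (2 * γ + b + 1) := by
    have h8 : 0 ≤ |p - γ| := abs_nonneg _
    calc |p - γ| * (p + γ + b) ≤ |p - γ| * (2 * γ + b + 1) :=
          mul_le_mul_of_nonneg_left h6.le h8
      _ < δ * (2 * γ + b + 1) := mul_lt_mul_of_pos_right hcon (by linarith)
  linarith

theorem norm_ge (h : GapHyp K L b m η ρ γ W) {δ : ℝ} (hδ0 : 0 < δ) (hδ1 : δ ≤ 1)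
    (hδ : 4 * δ * (2 * γ + b + 1) ≤ η) (x : G) : δ * ‖x‖ ≤ ‖L x - γ • x‖ :=
  norm_L_sub_ge L h.isSymm hδ0.le (h.ev_gap hδ0 hδ1 hδ) x

/-- `Λ ≤ γ - δ` on `W`. -/
theorem low_L (h : GapHyp K L b m η ρ γ W) {δ : ℝ} (hδ0 : 0 < δ)
    (hδ : 4 * δ * (2 * γ + b + 1) ≤ η) {x : G} (hx : x ∈ W) :
    ⟪L x, x⟫_ℝ ≤ (γ - δ) * ‖x‖ ^ 2 := by
  have h1 := h.q_low hx
  have h2 := real_inner_le_norm (L x) x
  have h3 := h.pos x
  have hb := h.b_nonneg
  have hγ := h.γ_nonneg
  rcases (norm_nonneg x).eq_or_lt with h0 | h0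
  · have : x = 0 := norm_eq_zero.1 h0.symm
    simp [this]
  by_contra hcon
  push Not at hcon
  set B := ⟪L x, x⟫_ℝ
  set A := ‖L x‖
  set N := ‖x‖
  -- `B > (γ - δ) N²`, `B ≤ A N`, `A² + b B ≤ (m - η/4) N²`
  have hN2 : 0 < N ^ 2 := by positivity
  have hA0 : 0 ≤ A := norm_nonneg _
  rcases le_or_gt (γ - δ) 0 with hγδ | hγδ
  · -- then m - η/4 < 0
    have hA2 : 0 ≤ A ^ 2 + b * B := by positivity
    have h5 : (η / 4) * N ^ 2 ≤ m * N ^ 2 := by nlinarith
    have h6 : η / 4 ≤ m := le_of_mul_le_mul_right h5 hN2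
    have h7 : m ≤ γ * (γ + b) := by rw [← h.γ_eq]; nlinarith
    have h8 : γ * (γ + b) ≤ δ * (γ + b) := mul_le_mul_of_nonneg_right (by linarith) (by linarith)
    have h9 : δ * (γ + b) < δ * (2 * γ + b + 1) := mul_lt_mul_of_pos_left (by linarith) hδ0
    linarith
  · have h5 : ((γ - δ) * N) ^ 2 ≤ A ^ 2 := by
      apply pow_le_pow_left₀ (by positivity)
      have : (γ - δ) * N * N ≤ A * N := by nlinarith
      exact le_of_mul_le_mul_right this h0
    have h6 : b * ((γ - δ) * N ^ 2) ≤ b * B := mul_le_mul_of_nonneg_left hcon.le hb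
    have h7 : ((γ - δ) ^ 2 + b * (γ - δ)) * N ^ 2 ≤ (m - η / 4) * N ^ 2 := by nlinarith
    have h8 : (γ - δ) ^ 2 + b * (γ - δ) ≤ m - η / 4 := le_of_mul_le_mul_right h7 hN2
    have h9 : (γ - δ) ^ 2 + b * (γ - δ) = m - δ * (2 * γ + b) + δ ^ 2 := by
      rw [← h.γ_eq]; ring
    nlinarith

/-- Nondegeneracy: `u` in the cone `Λ ≤ γ` and `(Λ-γ)`-orthogonal to `W` vanishes. -/
theorem nondeg (h : GapHyp K L b m η ρ γ W) (hη : 0 < η) {u : G}
    (hu : ⟪L u - γ • u, u⟫_ℝ ≤ 0) (hW : ∀ x ∈ W, ⟪L x - γ • x, u⟫_ℝ = 0) : u = 0 := by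
  classical
  have hb := h.b_nonneg
  have hγ := h.γ_nonneg
  obtain ⟨δ, hδ0, hδ1, hδ⟩ : ∃ δ : ℝ, 0 < δ ∧ δ ≤ 1 ∧ 4 * δ * (2 * γ + b + 1) ≤ η := by
    have hc : 0 < 4 * (2 * γ + b + 1) := by linarith
    refine ⟨min 1 (η / (4 * (2 * γ + b + 1))), lt_min one_pos (by positivity), min_le_left _ _, ?_⟩
    have := min_le_right 1 (η / (4 * (2 * γ + b + 1)))
    calc 4 * min 1 (η / (4 * (2 * γ + b + 1))) * (2 * γ + b + 1)
        = min 1 (η / (4 * (2 * γ + b + 1))) * (4 * (2 * γ + b + 1)) := by ring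
      _ ≤ η / (4 * (2 * γ + b + 1)) * (4 * (2 * γ + b + 1)) :=
          mul_le_mul_of_nonneg_right this hc.le
      _ = η := div_mul_cancel₀ _ hc.ne'
  have hgap := h.ev_gap hδ0 hδ1 hδ
  set e := bs L h.isSymm with he
  set p := ev L h.isSymm with hp
  -- spectral spaces
  set Sm : Set (Fin (finrank ℝ G)) := {i | p i < γ} with hSm
  set Sp : Set (Fin (finrank ℝ G)) := {i | γ < p i} with hSp
  have hSmp : ∀ i, i ∉ Sp → i ∈ Sm := by
    intro i hi
    have h1 : ¬ γ < p i := hi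
    have h2 : p i ≠ γ := by
      intro h3
      have := hgap i
      rw [h3] at this
      simp at this
      linarith
    exact lt_of_le_of_ne (not_lt.1 h1) h2
  have hcard : Fintype.card Sm + Fintype.card Sp = finrank ℝ G := by
    have h1 : Sp = Smᶜ := by
      ext i
      constructor
      · intro h1 h2
        exact absurd (lt_trans (show γ < p i from h1) (show p i < γ from h2)) (lt_irrefl _)
      · intro h1
        by_contra h2
        exact h1 (hSmp i h2)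
    have h2 := Fintype.card_compl_set Sm
    have h3 : Fintype.card Sp = Fintype.card ↥(Smᶜ) := by
      simp only [h1]
    have h4 : Fintype.card Sm ≤ Fintype.card (Fin (finrank ℝ G)) := set_fintype_card_le_univ Sm
    rw [Fintype.card_fin] at h2 h4
    omega
  -- `finrank E₋ + finrank W^⊥ ≤ finrank G`
  have hEm : finrank ℝ (espan L h.isSymm Sm) + finrank ℝ Wᗮ ≤ finrank ℝ G := by
    apply Submodule.finrank_add_finrank_le_of_disjoint
    rw [Submodule.disjoint_def]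
    intro x hx1 hx2
    have h1 := h.q_high hx2
    have h2 : ‖L x‖ ^ 2 + b * ⟪L x, x⟫_ℝ - m * ‖x‖ ^ 2 ≤ 0 := by
      have e1 : ‖L x‖ ^ 2 = ∑ i, (p i) ^ 2 * ⟪x, e i⟫_ℝ ^ 2 := by
        have := norm_L_sub_sq L h.isSymm 0 x
        simpa using this
      rw [e1, inner_L L h.isSymm, norm_sq_eq L h.isSymm x, Finset.mul_sum, Finset.mul_sum,
        ← Finset.sum_add_distrib, ← Finset.sum_sub_distrib]
      refine Finset.sum_nonpos fun i _ => ?_
      rw [← hp, ← he]
      by_cases hi : i ∈ Sm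
      · have h3 : p i < γ := hi
        have h4 : 0 ≤ p i := h.ev_nonneg i
        have h5 : (p i) ^ 2 + b * p i - m ≤ 0 := by
          rw [← h.γ_eq]; nlinarith
        nlinarith [sq_nonneg ⟪x, e i⟫_ℝ]
      · have h3 := inner_espan L h.isSymm hx1 hi
        rw [← he] at h3
        rw [h3]; simp
    have h3 : (η / 4) * ‖x‖ ^ 2 ≤ 0 := h1.trans h2
    have h4 : ‖x‖ ^ 2 ≤ 0 := by
      by_contra h5
      push Not at h5
      have : 0 < (η / 4) * ‖x‖ ^ 2 := by positivity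
      linarith
    have h5 : ‖x‖ = 0 := by
      have := sq_nonneg ‖x‖
      have h6 : ‖x‖ ^ 2 = 0 := le_antisymm h4 this
      exact pow_eq_zero_iff (two_ne_zero) |>.1 h6
    exact norm_eq_zero.1 h5
  rw [finrank_espan] at hEm
  have hWW : finrank ℝ W + finrank ℝ Wᗮ = finrank ℝ G := W.finrank_add_finrank_orthogonal
  -- assume `u ≠ 0`
  by_contra hu0
  set Z : Submodule ℝ G := W ⊔ Submodule.span ℝ {u} with hZ
  have huW : u ∉ W := by
    intro hmem
    have h1 := h.low_L hδ0 hδ hmem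
    have h2 := hW u hmem
    rw [inner_sub_left, real_inner_smul_left, real_inner_self_eq_norm_sq] at h2
    have h3 : 0 < ‖u‖ ^ 2 := by
      have : 0 < ‖u‖ := norm_pos_iff.2 hu0
      positivity
    nlinarith
  have hZdim : finrank ℝ Z = finrank ℝ W + 1 := by
    have h1 : Disjoint W (Submodule.span ℝ {u}) := by
      rw [Submodule.disjoint_span_singleton' hu0]
      exact huW
    have h2 := Submodule.finrank_sup_add_finrank_inf_eq W (Submodule.span ℝ {u})
    rw [h1.eq_bot, finrank_bot, add_zero, finrank_span_singleton hu0] at h2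
    exact h2
  -- form nonpositive on `Z`
  have hZneg : ∀ x ∈ Z, ⟪L x - γ • x, x⟫_ℝ ≤ 0 := by
    intro x hx
    obtain ⟨y, hy, z, hz, rfl⟩ := Submodule.mem_sup.1 hx
    obtain ⟨c, rfl⟩ := Submodule.mem_span_singleton.1 hz
    have h1 := h.low_L hδ0 hδ hy
    have h2 := hW y hy
    have h3 : ⟪L y - γ • y, y⟫_ℝ ≤ 0 := by
      rw [inner_sub_left, real_inner_smul_left, real_inner_self_eq_norm_sq]
      nlinarith [sq_nonneg ‖y‖]
    have h4 : ⟪L u - γ • u, y⟫_ℝ = 0 := by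
      rw [inner_sub_left, real_inner_smul_left, h.symm, real_inner_comm] 
      rw [inner_sub_left, real_inner_smul_left] at h2
      rw [real_inner_comm u y] at h2
      linarith
    have e1 : L (y + c • u) - γ • (y + c • u) = (L y - γ • y) + c • (L u - γ • u) := by
      rw [map_add, map_smul]; module
    rw [e1, inner_add_left, inner_add_right, inner_add_right, real_inner_smul_right,
      real_inner_smul_left, real_inner_smul_left, real_inner_smul_right, h2, h4]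
    nlinarith [mul_nonneg (mul_self_nonneg c) (neg_nonneg.2 hu)]
  -- `Z ∩ E₊ = 0`
  have hdis : Disjoint Z (espan L h.isSymm Sp) := by
    rw [Submodule.disjoint_def]
    intro x hx1 hx2
    have h1 := hZneg x hx1
    have h2 : δ * ‖x‖ ^ 2 ≤ ⟪L x - γ • x, x⟫_ℝ := by
      rw [inner_sub_left, real_inner_smul_left, real_inner_self_eq_norm_sq,
        inner_L L h.isSymm, norm_sq_eq L h.isSymm x, Finset.mul_sum, Finset.mul_sum,
        ← Finset.sum_sub_distrib]
      refine Finset.sum_le_sum fun i _ => ?_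
      rw [← hp, ← he]
      by_cases hi : i ∈ Sp
      · have h3 : γ < p i := hi
        have h4 := hgap i
        rw [abs_of_pos (by linarith)] at h4
        nlinarith [sq_nonneg ⟪x, e i⟫_ℝ]
      · have h3 := inner_espan L h.isSymm hx2 hi
        rw [← he] at h3
        rw [h3]; simp
    have h3 : ‖x‖ ^ 2 ≤ 0 := by
      by_contra h5
      push Not at h5
      have : 0 < δ * ‖x‖ ^ 2 := by positivity
      linarith
    have h6 : ‖x‖ ^ 2 = 0 := le_antisymm h3 (sq_nonneg _)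
    exact norm_eq_zero.1 (pow_eq_zero_iff (two_ne_zero) |>.1 h6)
  have hfin := Submodule.finrank_add_finrank_le_of_disjoint hdis
  rw [finrank_espan, hZdim] at hfin
  omega

end GapHyp

end Crest.Agent.R202.GateLin
end

-- ▼ part R202/GateCone

/-! # Row 202, PART B2 (gates): `gateCone` and `gateSign` (helper557) -/

set_option autoImplicit false

open Set
open scoped InnerProductSpace

namespace Crest.Agent.R202.Seg

open Crest.Agent.R202.GateLin (GapHyp)

theorem freq_nonneg {b m : ℝ} (_hb : 0 ≤ b) (hm : 0 ≤ m) : 0 ≤ freq b m := by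
  unfold freq
  have h1 : b / 2 ≤ Real.sqrt (b ^ 2 / 4 + m) := by
    apply Real.le_sqrt_of_sq_le
    nlinarith
  linarith

theorem freq_eq {b m : ℝ} (hm : 0 ≤ m) : freq b m ^ 2 + b * freq b m = m := by
  unfold freq
  have h1 := Real.sq_sqrt (show 0 ≤ b ^ 2 / 4 + m by positivity)
  nlinarith

theorem freq_le {b m M : ℝ} (hb : 0 ≤ b) (hm : 0 ≤ m) (hM : m ≤ M) : freq b m ≤ 1 + M := by
  have h1 := freq_nonneg hb hm
  have h2 := freq_eq (b := b) hm
  have h3 := mul_nonneg hb h1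
  by_contra h
  push Not at h
  nlinarith

theorem hasDerivAt_freq {b m : ℝ → ℝ} {b' m' : ℝ} {t : ℝ} (hb : HasDerivAt b b' t)
    (hm : HasDerivAt m m' t) (hpos : 0 < b t ^ 2 / 4 + m t) :
    HasDerivAt (fun s => freq (b s) (m s))
      (-(b' / 2) + (b t * b' / 2 + m') / (2 * Real.sqrt (b t ^ 2 / 4 + m t))) t := by
  unfold freq
  have h1 : HasDerivAt (fun s => b s ^ 2 / 4 + m s) (b t * b' / 2 + m') t := by
    have := ((hb.pow 2).div_const 4).add hm
    refine this.congr_deriv ?_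
    simp
    ring
  have h2 := h1.sqrt hpos.ne'
  exact (hb.div_const 2).neg.add h2

theorem freq_deriv_le {b b' m m' δ M : ℝ} (hb : 1 / 2 ≤ b) (hbM : b ≤ M) (hm : 0 ≤ m)
    (hb' : |b'| ≤ δ) (hm' : |m'| ≤ δ) :
    |-(b' / 2) + (b * b' / 2 + m') / (2 * Real.sqrt (b ^ 2 / 4 + m))| ≤ δ * (5 / 2 + M) := by
  have hδ : 0 ≤ δ := (abs_nonneg _).trans hb'
  have h1 : 1 / 4 ≤ Real.sqrt (b ^ 2 / 4 + m) := by
    apply Real.le_sqrt_of_sq_le
    nlinarith
  have h2 : |(b * b' / 2 + m') / (2 * Real.sqrt (b ^ 2 / 4 + m))| ≤ 2 * (M * δ / 2 + δ) := by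
    rw [abs_div, abs_of_pos (by linarith : 0 < 2 * Real.sqrt (b ^ 2 / 4 + m))]
    rw [div_le_iff₀ (by linarith)]
    have h3 : |b * b' / 2 + m'| ≤ M * δ / 2 + δ := by
      have h4 : |b * b' / 2| ≤ M * δ / 2 := by
        rw [abs_div, abs_mul, abs_of_pos (by linarith : 0 < b), abs_two]
        have : b * |b'| ≤ M * δ := mul_le_mul hbM hb' (abs_nonneg _) (by linarith)
        linarith
      exact (abs_add_le _ _).trans (add_le_add h4 hm')
    have h5 : 0 ≤ M * δ / 2 + δ := by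
      have : 0 ≤ M := by linarith
      positivity
    nlinarith
  have h6 : |-(b' / 2)| ≤ δ / 2 := by
    rw [abs_neg, abs_div, abs_two]; linarith
  calc |-(b' / 2) + (b * b' / 2 + m') / (2 * Real.sqrt (b ^ 2 / 4 + m))|
      ≤ |-(b' / 2)| + |(b * b' / 2 + m') / (2 * Real.sqrt (b ^ 2 / 4 + m))| := abs_add_le _ _
    _ ≤ δ / 2 + 2 * (M * δ / 2 + δ) := add_le_add h6 h2
    _ = δ * (5 / 2 + M) := by ring

/-- If `B` can only vanish with positive derivative, then `B ≤ 0` is inherited inwards. -/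
theorem nonpos_of_deriv_pos {B B' : ℝ → ℝ} {a c : ℝ}
    (hB : ∀ t ∈ Icc a c, HasDerivAt B (B' t) t)
    (hpos : ∀ t ∈ Icc a c, B t = 0 → 0 < B' t) (hc : B c ≤ 0) {t : ℝ} (ht : t ∈ Icc a c) :
    B t ≤ 0 := by
  have h1 : ∀ s ∈ Icc a c, HasDerivAt (fun s => B (a + c - s)) (-B' (a + c - s)) s := by
    intro s hs
    have h2 : a + c - s ∈ Icc a c := ⟨by linarith [hs.2], by linarith [hs.1]⟩
    have h3 : HasDerivAt (fun s : ℝ => a + c - s) (-1) s := by
      simpa using (hasDerivAt_id s).const_sub (a + c)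
    have h4 := (hB _ h2).comp s h3
    refine h4.congr_deriv ?_
    ring
  have key := image_le_of_deriv_right_lt_deriv_boundary' (f := fun s => B (a + c - s))
    (f' := fun s => -B' (a + c - s)) (a := a) (b := c)
    (fun s hs => (h1 s hs).continuousAt.continuousWithinAt)
    (fun s hs => (h1 s ⟨hs.1, hs.2.le⟩).hasDerivWithinAt)
    (B := fun _ => 0) (B' := fun _ => 0) (by simpa using hc) continuousOn_const
    (fun s _ => hasDerivWithinAt_const _ _ _) (fun s hs h0 => by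
      have h2 : a + c - s ∈ Icc a c := ⟨by linarith [hs.2], by linarith [hs.1]⟩
      have := hpos _ h2 h0
      linarith)
  have h5 : a + c - t ∈ Icc a c := ⟨by linarith [ht.2], by linarith [ht.1]⟩
  have h6 := key h5
  simpa using h6

variable {G : Type} [NormedAddCommGroup G] [InnerProductSpace ℝ G]

namespace Flow

variable (F : Flow G)

theorem hasDerivAt_u {t : ℝ} (ht : F.t1 < t) (x : G) :
    HasDerivAt (fun s => F.U s x) (F.L t (F.U t x)) t := by
  have h := (F.hasDerivAt_U t ht).clm_apply (hasDerivAt_const t x)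
  simpa using h

theorem hasDerivAt_Lu {t : ℝ} (ht : F.t1 < t) (x : G) :
    HasDerivAt (fun s => F.L s (F.U s x)) (F.K t (F.U t x) - F.b t • F.L t (F.U t x)) t := by
  have h := (F.riccati t ht).clm_apply (F.hasDerivAt_u ht x)
  refine h.congr_deriv ?_
  simp

/-- derivative of the frequency defect -/
theorem hasDerivAt_defect {t γ' : ℝ} {γ : ℝ → ℝ} (ht : F.t1 < t) (hγ : HasDerivAt γ γ' t)
    (x : G) :
    HasDerivAt (fun s => ⟪F.L s (F.U s x), F.U s x⟫_ℝ - γ s * ‖F.U s x‖ ^ 2)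
      (2 * ‖F.L t (F.U t x) - γ t • F.U t x‖ ^ 2
        + 2 * γ t * (⟪F.L t (F.U t x), F.U t x⟫_ℝ - γ t * ‖F.U t x‖ ^ 2)
        + (⟪F.K t (F.U t x), F.U t x⟫_ℝ - F.b t * ⟪F.L t (F.U t x), F.U t x⟫_ℝ
          - ‖F.L t (F.U t x)‖ ^ 2)
        - γ' * ‖F.U t x‖ ^ 2) t := by
  have h1 := (F.hasDerivAt_Lu ht x).inner ℝ (F.hasDerivAt_u ht x)
  have h2 := (F.hasDerivAt_u ht x).norm_sq
  have h3 := h1.sub (hγ.mul h2)
  refine h3.congr_deriv ?_
  rw [norm_sub_sq_real, norm_smul, Real.norm_eq_abs, mul_pow, sq_abs, real_inner_smul_right,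
    inner_sub_left, real_inner_smul_left, real_inner_self_eq_norm_sq,
    real_inner_comm (F.L t (F.U t x)) (F.U t x)]
  ring

end Flow

namespace OpenCut

variable {F : Flow G} {l : ℕ} {η M δ : ℝ} {m m' b' : ℝ → ℝ} {f : ℝ → Fin l → G} {a c : ℝ}

theorem t1_lt' (h : OpenCut F l η M δ m m' b' f a c) {t : ℝ} (ht : t ∈ Icc a c) : F.t1 < t :=
  lt_of_lt_of_le h.t1_lt ht.1

theorem restrict (h : OpenCut F l η M δ m m' b' f a c) {t : ℝ} (ht : t ∈ Icc a c) :
    OpenCut F l η M δ m m' b' f t c := by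
  have hs : Icc t c ⊆ Icc a c := Icc_subset_Icc_left ht.1
  exact ⟨h.t1_lt' ht, ht.2, fun s hs' => h.li s (hs hs'), h.cont.mono hs,
    fun s hs' => h.low s (hs hs'), fun s hs' => h.high s (hs hs'),
    fun s hs' => h.m_deriv s (hs hs'), fun s hs' => h.m'_le s (hs hs'),
    fun s hs' => h.b_deriv s (hs hs'), fun s hs' => h.b'_le s (hs hs'),
    fun s hs' => h.b_le s (hs hs'), fun s hs' => h.m_ge s (hs hs'),
    fun s hs' => h.m_le s (hs hs'), fun s hs' => h.ρ_le s (hs hs')⟩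

/-- the gap hypotheses at time `t` -/
theorem gapHyp (h : OpenCut F l η M δ m m' b' f a c) (hη : 0 < η) (hδ1 : δ ≤ 1)
    (hδ : δ * (M + 3) ≤ η) {t : ℝ} (ht : t ∈ Icc a c) :
    GapHyp (F.K t) (F.L t) (F.b t) (m t) η (F.ρ t) (freq (F.b t) (m t))
      (Submodule.span ℝ (range (f t))) := by
  have ht1 := h.t1_lt' ht
  have hm0 : 0 ≤ m t := hη.le.trans (h.m_ge t ht)
  have hb0 : 0 ≤ F.b t := by linarith [F.b_ge t ht1]
  have hρ := h.ρ_le t ht
  have hρ0 := F.ρ_nonneg t ht1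
  refine ⟨F.symm t ht1, F.nonneg t ht1, hb0, hm0, hρ0, hρ.trans hδ1, ?_, freq_nonneg hb0 hm0,
    freq_eq hm0, F.bound t ht1, h.low t ht, ?_⟩
  · have hmM := h.m_le t ht
    calc F.ρ t * (m t + 3) ≤ δ * (M + 3) :=
          mul_le_mul hρ (by linarith) (by linarith) (hρ0.trans hρ)
      _ ≤ η := hδ
  · intro x hx
    apply h.high t ht x
    intro i
    exact Submodule.inner_right_of_mem_orthogonal (Submodule.subset_span (mem_range_self i)) hx

theorem freq_mem (h : OpenCut F l η M δ m m' b' f a c) (hη : 0 < η) {t : ℝ} (ht : t ∈ Icc a c) :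
    0 ≤ freq (F.b t) (m t) ∧ freq (F.b t) (m t) ≤ 1 + M := by
  have ht1 := h.t1_lt' ht
  have hm0 : 0 ≤ m t := hη.le.trans (h.m_ge t ht)
  have hb0 : 0 ≤ F.b t := by linarith [F.b_ge t ht1]
  exact ⟨freq_nonneg hb0 hm0, freq_le hb0 hm0 (by linarith [h.m_le t ht])⟩

end OpenCut

/-- (G1) -/
theorem gateCone : GateCone := by
  intro η M hη hM
  set g : ℝ := min 1 (η / (12 * (1 + M))) with hg
  have hM1 : 0 < 12 * (1 + M) := by linarith
  have hg0 : 0 < g := lt_min one_pos (by positivity)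
  have hg1 : g ≤ 1 := min_le_left _ _
  have hg2 : g * (12 * (1 + M)) ≤ η := by
    have := min_le_right 1 (η / (12 * (1 + M)))
    calc g * (12 * (1 + M)) ≤ η / (12 * (1 + M)) * (12 * (1 + M)) :=
          mul_le_mul_of_nonneg_right this hM1.le
      _ = η := div_mul_cancel₀ _ hM1.ne'
  set δ : ℝ := min 1 (min (η / (M + 3)) (g ^ 2 / (2 * M + 5))) with hδ
  have hδ0 : 0 < δ := lt_min one_pos (lt_min (by positivity) (by positivity))
  have hδ1 : δ ≤ 1 := min_le_left _ _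
  have hδ2 : δ * (M + 3) ≤ η := by
    have h1 : δ ≤ η / (M + 3) := (min_le_right _ _).trans (min_le_left _ _)
    have h2 : 0 < M + 3 := by linarith
    calc δ * (M + 3) ≤ η / (M + 3) * (M + 3) := mul_le_mul_of_nonneg_right h1 h2.le
      _ = η := div_mul_cancel₀ _ h2.ne'
  have hδ3 : δ * (2 * M + 5) ≤ g ^ 2 := by
    have h1 : δ ≤ g ^ 2 / (2 * M + 5) := (min_le_right _ _).trans (min_le_right _ _)
    have h2 : 0 < 2 * M + 5 := by linarith
    calc δ * (2 * M + 5) ≤ g ^ 2 / (2 * M + 5) * (2 * M + 5) :=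
          mul_le_mul_of_nonneg_right h1 h2.le
      _ = g ^ 2 := div_mul_cancel₀ _ h2.ne'
  refine ⟨δ, hδ0, ?_⟩
  intro G _ _ _ F l m m' b' f a c h x hc
  by_cases hx : x = 0
  · subst hx
    simp [FCone]
  set γ : ℝ → ℝ := fun s => freq (F.b s) (m s) with hγdef
  have hγd : ∀ t ∈ Icc a c, HasDerivAt γ
      (-(b' t / 2) + (F.b t * b' t / 2 + m' t) / (2 * Real.sqrt (F.b t ^ 2 / 4 + m t))) t := by
    intro t ht
    have hm0 : 0 < m t := lt_of_lt_of_le hη (h.m_ge t ht)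
    exact hasDerivAt_freq (h.b_deriv t ht) (h.m_deriv t ht) (by positivity)
  have hfin : ⟪F.L a (F.U a x), F.U a x⟫_ℝ - γ a * ‖F.U a x‖ ^ 2 ≤ 0 := by
    refine nonpos_of_deriv_pos (B := fun s => ⟪F.L s (F.U s x), F.U s x⟫_ℝ
      - γ s * ‖F.U s x‖ ^ 2) (fun t ht => F.hasDerivAt_defect (h.t1_lt' ht) (hγd t ht) x) ?_ ?_
      (left_mem_Icc.2 h.le)
    · intro t ht h0
      have ht1 := h.t1_lt' ht
      have hu0 : F.U t x ≠ 0 := by
        intro h1
        exact hx (F.inj t ht1 (by rw [h1, map_zero]))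
      have hgap := h.gapHyp hη hδ1 hδ2 ht
      have hγb := h.freq_mem hη ht
      have hbM := h.b_le t ht
      have h2 : g * ‖F.U t x‖ ≤ ‖F.L t (F.U t x) - γ t • F.U t x‖ := by
        refine hgap.norm_ge hg0 hg1 ?_ _
        calc 4 * g * (2 * freq (F.b t) (m t) + F.b t + 1) ≤ 4 * g * (2 * (1 + M) + M + 1) := by
              apply mul_le_mul_of_nonneg_left _ (by positivity)
              linarith [hγb.2]
          _ ≤ g * (12 * (1 + M)) := by nlinarith
          _ ≤ η := hg2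
      have h3 : g ^ 2 * ‖F.U t x‖ ^ 2 ≤ ‖F.L t (F.U t x) - γ t • F.U t x‖ ^ 2 := by
        rw [← mul_pow]
        exact pow_le_pow_left₀ (by positivity) h2 2
      have h4 := (abs_le.1 (F.bound t ht1 (F.U t x))).1
      have h5 : ⟪F.L t (F.U t x), F.U t x⟫_ℝ = γ t * ‖F.U t x‖ ^ 2 := by
        linarith
      have hm0 : 0 ≤ m t := hη.le.trans (h.m_ge t ht)
      have h6 := (abs_le.1 (freq_deriv_le (F.b_ge t ht1) hbM hm0 (h.b'_le t ht)
        (h.m'_le t ht))).2
      have hN : 0 < ‖F.U t x‖ ^ 2 := by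
        have : 0 < ‖F.U t x‖ := norm_pos_iff.2 hu0
        positivity
      have h7 : F.ρ t * (⟪F.L t (F.U t x), F.U t x⟫_ℝ + ‖F.U t x‖ ^ 2)
          ≤ δ * (2 + M) * ‖F.U t x‖ ^ 2 := by
        rw [h5]
        have e1 : γ t * ‖F.U t x‖ ^ 2 + ‖F.U t x‖ ^ 2 = (γ t + 1) * ‖F.U t x‖ ^ 2 := by ring
        rw [e1, ← mul_assoc]
        apply mul_le_mul_of_nonneg_right _ hN.le
        exact mul_le_mul (h.ρ_le t ht) (by linarith [hγb.2]) (by linarith [hγb.1]) hδ0.le
      have h8 := mul_le_mul_of_nonneg_right h6 hN.le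
      have h9 : γ t * ‖F.U t x‖ ^ 2 - γ t * ‖F.U t x‖ ^ 2 = 0 := by ring
      rw [h5] at h4 h7 ⊢
      rw [h9, mul_zero]
      have h10 : δ * (2 + M) + δ * (5 / 2 + M) < 2 * g ^ 2 := by
        have : 0 < g ^ 2 := by positivity
        nlinarith
      nlinarith
    · have := hc
      unfold FCone at this
      simp only [hγdef]
      linarith
  unfold FCone
  simp only [hγdef] at hfin
  linarith

/-- (G2) -/
theorem gateSign : GateSign := by
  intro η M hη hM
  obtain ⟨δ₁, hδ₁, hcone⟩ := gateCone η M hη hM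
  set δ : ℝ := min δ₁ (min 1 (η / (M + 3))) with hδ
  have hδ0 : 0 < δ := lt_min hδ₁ (lt_min one_pos (by positivity))
  have hδ1 : δ ≤ 1 := (min_le_right _ _).trans (min_le_left _ _)
  have hδ2 : δ * (M + 3) ≤ η := by
    have h1 : δ ≤ η / (M + 3) := (min_le_right _ _).trans (min_le_right _ _)
    have h2 : 0 < M + 3 := by linarith
    calc δ * (M + 3) ≤ η / (M + 3) * (M + 3) := mul_le_mul_of_nonneg_right h1 h2.le
      _ = η := div_mul_cancel₀ _ h2.ne'
  refine ⟨δ, hδ0, ?_⟩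
  intro G _ _ _ F l m m' b' f a c h v hv hcv
  -- monotonicity in `δ`
  have h' : OpenCut F l η M δ₁ m m' b' f a c :=
    ⟨h.t1_lt, h.le, h.li, h.cont, h.low, h.high, h.m_deriv,
      fun t ht => (h.m'_le t ht).trans (min_le_left _ _), h.b_deriv,
      fun t ht => (h.b'_le t ht).trans (min_le_left _ _), h.b_le, h.m_ge, h.m_le,
      fun t ht => (h.ρ_le t ht).trans (min_le_left _ _)⟩
  -- continuity
  have hcontL : ContinuousOn F.L (Icc a c) := fun t ht =>
    (F.riccati t (h.t1_lt' ht)).continuousAt.continuousWithinAt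
  have hcontU : ∀ w, ContinuousOn (fun t => F.U t w) (Icc a c) := fun w t ht =>
    (F.hasDerivAt_u (h.t1_lt' ht) w).continuousAt.continuousWithinAt
  have hcontf : ∀ i, ContinuousOn (fun t => f t i) (Icc a c) := fun i =>
    (continuous_apply i).comp_continuousOn h.cont
  have hcontγ : ContinuousOn (fun t => freq (F.b t) (m t)) (Icc a c) := by
    intro t ht
    have hm0 : 0 < m t := lt_of_lt_of_le hη (h.m_ge t ht)
    exact (hasDerivAt_freq (h.b_deriv t ht) (h.m_deriv t ht)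
      (by positivity)).continuousAt.continuousWithinAt
  have hcont : ContinuousOn (orDet F m f v) (Icc a c) := by
    unfold orDet
    have h1 : ContinuousOn (fun t => (Matrix.of fun i j => ⟪F.L t (f t i), F.U t (v j)⟫_ℝ -
        freq (F.b t) (m t) * ⟪f t i, F.U t (v j)⟫_ℝ : Matrix (Fin l) (Fin l) ℝ)) (Icc a c) := by
      apply continuousOn_pi.2
      intro i
      apply continuousOn_pi.2
      intro k
      exact ((hcontL.clm_apply (hcontf i)).inner (hcontU (v k))).sub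
        (hcontγ.mul ((hcontf i).inner (hcontU (v k))))
    exact (Continuous.matrix_det continuous_id).comp_continuousOn h1
  -- nonvanishing
  have hne : ∀ t ∈ Icc a c, orDet F m f v t ≠ 0 := by
    intro t ht h0
    unfold orDet at h0
    obtain ⟨y, hy0, hy⟩ := Matrix.exists_mulVec_eq_zero_iff.2 h0
    set w : G := ∑ k, y k • v k with hw
    have hwspan : w ∈ Submodule.span ℝ (range v) :=
      Submodule.sum_mem _ fun k _ => Submodule.smul_mem _ _
        (Submodule.subset_span (mem_range_self k))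
    have hcw : FCone F m t (F.U t w) :=
      hcone G F l m m' b' f t c (h'.restrict ht) w (hcv w hwspan)
    have hgap := h.gapHyp hη hδ1 hδ2 ht
    have horth : ∀ x ∈ Submodule.span ℝ (range (f t)),
        ⟪F.L t x - freq (F.b t) (m t) • x, F.U t w⟫_ℝ = 0 := by
      intro x hx
      induction hx using Submodule.span_induction with
      | mem x hx =>
        obtain ⟨i, rfl⟩ := hx
        have h1 := congrFun hy i
        simp only [Matrix.mulVec, dotProduct, Matrix.of_apply, Pi.zero_apply] at h1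
        rw [hw, map_sum, inner_sum, ← h1]
        refine Finset.sum_congr rfl fun k _ => ?_
        rw [map_smul, real_inner_smul_right, inner_sub_left, real_inner_smul_left]
        ring
      | zero => simp
      | add x y _ _ hx hy =>
        have e1 : F.L t (x + y) - freq (F.b t) (m t) • (x + y) =
            (F.L t x - freq (F.b t) (m t) • x) + (F.L t y - freq (F.b t) (m t) • y) := by
          rw [map_add]; module
        rw [e1, inner_add_left, hx, hy, add_zero]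
      | smul r x _ hx =>
        have e1 : F.L t (r • x) - freq (F.b t) (m t) • (r • x) =
            r • (F.L t x - freq (F.b t) (m t) • x) := by
          rw [map_smul]; module
        rw [e1, real_inner_smul_left, hx, mul_zero]
    have hu0 : F.U t w = 0 := by
      refine hgap.nondeg hη ?_ horth
      unfold FCone at hcw
      rw [inner_sub_left, real_inner_smul_left, real_inner_self_eq_norm_sq]
      linarith
    have hw0 : w = 0 := F.inj t (h.t1_lt' ht) (by rw [hu0, map_zero])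
    have h2 := (Fintype.linearIndependent_iff.1 hv) y (by rw [← hw, hw0])
    exact hy0 (funext h2)
  -- sign
  by_contra hcon
  push Not at hcon
  have ha := hne a (left_mem_Icc.2 h.le)
  have hcc := hne c (right_mem_Icc.2 h.le)
  have hivt := intermediate_value_uIcc (f := orDet F m f v) (a := a) (b := c)
    (by rw [uIcc_of_le h.le]; exact hcont)
  have hmem : (0 : ℝ) ∈ uIcc (orDet F m f v a) (orDet F m f v c) := by
    rcases lt_or_gt_of_ne ha with h1 | h1
    · have h2 : 0 ≤ orDet F m f v c := by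
        by_contra h3
        push Not at h3
        have := mul_pos_of_neg_of_neg h1 h3
        linarith
      exact mem_uIcc.2 (Or.inl ⟨h1.le, h2⟩)
    · have h2 : orDet F m f v c ≤ 0 := by
        by_contra h3
        push Not at h3
        have := mul_pos h1 h3
        linarith
      exact mem_uIcc.2 (Or.inr ⟨h2, h1.le⟩)
  obtain ⟨t, ht, ht0⟩ := hivt hmem
  rw [uIcc_of_le h.le] at ht
  exact hne t ht ht0

end Crest.Agent.R202.Seg
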