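import Mathlib
import Crest.Agent.R202.SegDefs
import Crest.Agent.R202.BFinSeg
import Crest.Agent.R202.GateCone
import Crest.Agent.R202.BridG
import Crest.Agent.R202.GalSmall
import Crest.Agent.R202.BFinHome

-- ▼ part R202/HomeLem
section

/-! # Row 202, PART B: home lemmas (helper384)

Blocks of the frequency operator `L = Λ(t)` in a home (where `K` commutes with the projection `P`
on the lowest modes), moving barriers for the cones `|(1-P)u| ≤ θ |P u|`, growth in the cones. -/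

set_option autoImplicit false
open Set Filter Topology
open scoped RealInnerProductSpace

namespace Crest.Agent.R202.HomeL

variable {G : Type*} [NormedAddCommGroup G] [InnerProductSpace ℝ G]

/-! ## Algebra at a fixed time -/

/-- data at a fixed time: `K = D + b L + L²`, `D = Λ'` small -/
structure Blk (K L D P : G →L[ℝ] G) (b ρ lo hi : ℝ) : Prop where
  Lsym : ∀ x y, ⟪L x, y⟫ = ⟪x, L y⟫
  Lpos : ∀ x, 0 ≤ ⟪L x, x⟫
  Dsym : ∀ x y, ⟪D x, y⟫ = ⟪x, D y⟫
  eq : ∀ x, K x = D x + b • L x + L (L x)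
  Dle : ∀ x, |⟪D x, x⟫| ≤ ρ * (⟪L x, x⟫ + ‖x‖ ^ 2)
  Psym : ∀ x y, ⟪P x, y⟫ = ⟪x, P y⟫
  Pidem : ∀ x, P (P x) = P x
  KP : ∀ x, K (P x) = P (K x)
  lo_le : ∀ x, P x = x → ⟪K x, x⟫ ≤ lo * ‖x‖ ^ 2
  hi_le : ∀ x, P x = 0 → hi * ‖x‖ ^ 2 ≤ ⟪K x, x⟫
  b_ge : 1 / 2 ≤ b
  ρ_nonneg : 0 ≤ ρ
  ρ_le : ρ ≤ b

variable {K L D P : G →L[ℝ] G} {b ρ lo hi : ℝ}

/-- the positive form `q` -/
noncomputable def qf (L : G →L[ℝ] G) (x : G) : ℝ := ⟪L x, x⟫ + ‖x‖ ^ 2

lemma Blk.qf_nonneg (h : Blk K L D P b ρ lo hi) (x : G) : 0 ≤ qf L x := by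
  unfold qf; have := h.Lpos x; positivity

/-- Cauchy–Schwarz for a form dominated by a positive one -/
lemma Blk.cs (h : Blk K L D P b ρ lo hi) (x z : G) :
    ⟪D x, z⟫ ^ 2 ≤ ρ ^ 2 * qf L x * qf L z := by
  have key : ∀ t : ℝ, 0 ≤ (ρ * qf L x) * (t * t) + (-2 * ⟪D x, z⟫) * t + ρ * qf L z := by
    intro t
    have h1 := h.Dle (t • x + z)
    have h2 := h.Dle (t • x - z)
    have e1 : ⟪D (t • x + z), t • x + z⟫ - ⟪D (t • x - z), t • x - z⟫ = 4 * t * ⟪D x, z⟫ := by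
      have hs : ⟪D z, x⟫ = ⟪D x, z⟫ := by rw [h.Dsym, real_inner_comm]
      simp only [map_add, map_sub, map_smul, inner_add_left, inner_add_right, inner_sub_left,
        inner_sub_right, real_inner_smul_left, real_inner_smul_right, hs]
      ring
    have e2 : (⟪L (t • x + z), t • x + z⟫ + ‖t • x + z‖ ^ 2)
        + (⟪L (t • x - z), t • x - z⟫ + ‖t • x - z‖ ^ 2) = 2 * (t * t * qf L x + qf L z) := by
      have hs : ⟪L z, x⟫ = ⟪L x, z⟫ := by rw [h.Lsym, real_inner_comm]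
      have hs' : ⟪z, x⟫ = ⟪x, z⟫ := real_inner_comm _ _
      unfold qf
      simp only [← real_inner_self_eq_norm_sq, map_add, map_sub, map_smul, inner_add_left,
        inner_add_right, inner_sub_left,
        inner_sub_right, real_inner_smul_left, real_inner_smul_right, hs, hs']
      ring
    have h3 := abs_le.1 h1
    have h4 := abs_le.1 h2
    have e3 := congrArg (fun r => ρ * r) e2
    have e4 : ρ * (2 * (t * t * qf L x + qf L z))
        = 2 * (ρ * qf L x * (t * t)) + 2 * (ρ * qf L z) := by ring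
    rw [e4, mul_add] at e3
    linarith [h3.1, h3.2, h4.1, h4.2, e1, e3]
  have hd := discrim_le_zero key
  unfold discrim at hd
  nlinarith [hd]


/-- eigenvector of the compression of `L` to `range P` -/
lemma Blk.eig (h : Blk K L D P b ρ lo hi) {x z : G} {p : ℝ} (hPx : P x = x) (hPz : P z = 0)
    (hL : L x = p • x + z) (hx : ‖x‖ = 1) :
    0 ≤ p ∧ ‖z‖ ^ 2 + ⟪L z, z⟫ ≤ 4 * ρ ^ 2 * (p + 1) ∧
      p ^ 2 + b * p + ‖z‖ ^ 2 = ⟪K x, x⟫ - ⟪D x, x⟫ := by
  have hxz : ⟪x, z⟫ = 0 := by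
    have := h.Psym x z
    rw [hPx, hPz, inner_zero_right] at this
    exact this
  have hzx : ⟪z, x⟫ = 0 := by rw [real_inner_comm]; exact hxz
  have hxx : ⟪x, x⟫ = (1:ℝ) := by rw [real_inner_self_eq_norm_sq, hx]; norm_num
  have hp : ⟪L x, x⟫ = p := by
    rw [hL, inner_add_left, real_inner_smul_left, hxx, hzx]; ring
  have hp0 : 0 ≤ p := hp ▸ h.Lpos x
  have hLxz : ⟪L x, z⟫ = ‖z‖ ^ 2 := by
    rw [hL, inner_add_left, real_inner_smul_left, hxz, real_inner_self_eq_norm_sq]; ring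
  have hLLxz : ⟪L (L x), z⟫ = p * ‖z‖ ^ 2 + ⟪L z, z⟫ := by
    have e : L (L x) = p • L x + L z := by
      conv_lhs => rw [hL]
      rw [map_add, map_smul]
    rw [e, inner_add_left, real_inner_smul_left, hLxz]
  have hKxz : ⟪K x, z⟫ = 0 := by
    have e : P (K x) = K x := by rw [← h.KP, hPx]
    have := h.Psym (K x) z
    rw [e, hPz, inner_zero_right] at this
    exact this
  have hDxz : ⟪D x, z⟫ = -((p + b) * ‖z‖ ^ 2 + ⟪L z, z⟫) := by
    have := h.eq x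
    have e : D x = K x - b • L x - L (L x) := by rw [this]; abel
    rw [e, inner_sub_left, inner_sub_left, real_inner_smul_left, hKxz, hLxz, hLLxz]
    ring
  have hcs := h.cs x z
  have hqx : qf L x = p + 1 := by unfold qf; rw [hp, hx]; norm_num
  have hqz : qf L z = ⟪L z, z⟫ + ‖z‖ ^ 2 := rfl
  have hLz := h.Lpos z
  have hb := h.b_ge
  refine ⟨hp0, ?_, ?_⟩
  · set Q := qf L z with hQ
    have hQ0 : 0 ≤ Q := h.qf_nonneg z
    have hge : Q / 2 ≤ (p + b) * ‖z‖ ^ 2 + ⟪L z, z⟫ := by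
      rw [hqz]
      nlinarith [sq_nonneg ‖z‖, mul_nonneg hp0 (sq_nonneg ‖z‖),
        mul_nonneg (sub_nonneg.2 hb) (sq_nonneg ‖z‖)]
    have h1 : (Q / 2) ^ 2 ≤ ρ ^ 2 * (p + 1) * Q := by
      calc (Q / 2) ^ 2 ≤ ((p + b) * ‖z‖ ^ 2 + ⟪L z, z⟫) ^ 2 :=
            pow_le_pow_left₀ (by positivity) hge 2
        _ = ⟪D x, z⟫ ^ 2 := by rw [hDxz]; ring
        _ ≤ _ := by rw [hqx] at hcs; exact hcs
    have h2 : Q ≤ 4 * ρ ^ 2 * (p + 1) := by
      rcases hQ0.eq_or_lt with h0 | h0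
      · rw [← h0]; positivity
      · have : Q * Q ≤ (4 * ρ ^ 2 * (p + 1)) * Q := by nlinarith
        exact le_of_mul_le_mul_right this h0
    rw [hqz] at h2
    linarith
  · have := h.eq x
    have e : ⟪K x, x⟫ = ⟪D x, x⟫ + b * ⟪L x, x⟫ + ⟪L (L x), x⟫ := by
      rw [this, inner_add_left, inner_add_left, real_inner_smul_left]
    have e2 : ⟪L (L x), x⟫ = p ^ 2 + ‖z‖ ^ 2 := by
      rw [h.Lsym, hL, inner_add_left, inner_add_right, inner_add_right, real_inner_smul_left,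
        real_inner_smul_left, real_inner_smul_right, real_inner_smul_right, hxx, hxz, hzx,
        real_inner_self_eq_norm_sq]
      ring
    rw [e, e2, hp]
    ring

/-- complementary projection data (`P ↦ 1 - P`, signs of the bounds are not exchanged): used for
the lower bound on the complement. -/
lemma Blk.eig' (h : Blk K L D P b ρ lo hi) {y z : G} {p : ℝ} (hPy : P y = 0) (hPz : P z = z)
    (hL : L y = p • y + z) (hy : ‖y‖ = 1) :
    0 ≤ p ∧ ‖z‖ ^ 2 + ⟪L z, z⟫ ≤ 4 * ρ ^ 2 * (p + 1) ∧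
      p ^ 2 + b * p + ‖z‖ ^ 2 = ⟪K y, y⟫ - ⟪D y, y⟫ := by
  set M : ℝ := max lo (‖K‖) with hM
  have h' : Blk K L D (ContinuousLinearMap.id ℝ G - P) b ρ (‖K‖) (-‖K‖) :=
    { Lsym := h.Lsym
      Lpos := h.Lpos
      Dsym := h.Dsym
      eq := h.eq
      Dle := h.Dle
      Psym := fun x y => by
        simp only [sub_apply, ContinuousLinearMap.id_apply, inner_sub_left,
          inner_sub_right, h.Psym]
      Pidem := fun x => by
        simp only [sub_apply, ContinuousLinearMap.id_apply, map_sub, h.Pidem]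
        abel
      KP := fun x => by
        simp only [sub_apply, ContinuousLinearMap.id_apply, map_sub, h.KP]
      lo_le := fun x _ => by
        calc ⟪K x, x⟫ ≤ ‖K x‖ * ‖x‖ := real_inner_le_norm _ _
          _ ≤ (‖K‖ * ‖x‖) * ‖x‖ := by gcongr; exact K.le_opNorm x
          _ = ‖K‖ * ‖x‖ ^ 2 := by ring
      hi_le := fun x _ => by
        have h1 : |⟪K x, x⟫| ≤ ‖K‖ * ‖x‖ ^ 2 := by
          calc |⟪K x, x⟫| ≤ ‖K x‖ * ‖x‖ := abs_real_inner_le_norm _ _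
            _ ≤ (‖K‖ * ‖x‖) * ‖x‖ := by gcongr; exact K.le_opNorm x
            _ = ‖K‖ * ‖x‖ ^ 2 := by ring
        have := (abs_le.1 h1).1
        linarith
      b_ge := h.b_ge
      ρ_nonneg := h.ρ_nonneg
      ρ_le := h.ρ_le }
  exact h'.eig (by simp [hPy]) (by simp [hPz]) hL hy

/-! ## Eigenbasis of a compression -/

lemma exists_eig [FiniteDimensional ℝ G] (P L : G →L[ℝ] G) (Psym : ∀ x y, ⟪P x, y⟫ = ⟪x, P y⟫)
    (Pidem : ∀ x, P (P x) = P x) (Lsym : ∀ x y, ⟪L x, y⟫ = ⟪x, L y⟫) :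
    ∃ (v : Fin (Module.finrank ℝ (LinearMap.range (P : G →ₗ[ℝ] G))) → G)
      (p : Fin (Module.finrank ℝ (LinearMap.range (P : G →ₗ[ℝ] G))) → ℝ),
      Orthonormal ℝ v ∧ (∀ i, P (v i) = v i) ∧ (∀ i, P (L (v i)) = p i • v i) ∧
      ∀ x, P x = x → ∑ i, ⟪v i, x⟫ • v i = x := by
  classical
  set S : Submodule ℝ G := LinearMap.range (P : G →ₗ[ℝ] G) with hS
  have hfix : ∀ x ∈ S, P x = x := by
    rintro x ⟨w, rfl⟩
    exact Pidem w
  let T : S →ₗ[ℝ] S := LinearMap.codRestrict S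
    (((P : G →ₗ[ℝ] G) ∘ₗ (L : G →ₗ[ℝ] G)) ∘ₗ S.subtype) (fun x => ⟨L x, rfl⟩)
  have hTc : ∀ x : S, ((T x : S) : G) = P (L (x : G)) := fun x => rfl
  have hT : T.IsSymmetric := by
    intro x y
    change ⟪((T x : S) : G), (y : G)⟫ = ⟪(x : G), ((T y : S) : G)⟫
    rw [hTc, hTc, Psym, hfix y y.2, Lsym, ← Psym, hfix x x.2]
  set B := hT.eigenvectorBasis rfl with hB
  refine ⟨fun i => (B i : G), fun i => hT.eigenvalues rfl i, ?_, ?_, ?_, ?_⟩
  · have := B.orthonormal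
    exact this.comp_linearIsometry S.subtypeₗᵢ
  · intro i; exact hfix _ (B i).2
  · intro i
    have h1 := hT.apply_eigenvectorBasis rfl i
    calc P (L (B i : G)) = ((T (B i) : S) : G) := rfl
      _ = (((hT.eigenvalues rfl i : ℝ) • B i : S) : G) := by
          rw [hB, h1]; rfl
      _ = _ := rfl
  · intro x hx
    have hxS : x ∈ S := ⟨x, hx⟩
    have := B.sum_repr' ⟨x, hxS⟩
    have h2 := congrArg (fun y : S => (y : G)) this
    simp only [Submodule.coe_sum, Submodule.coe_smul, Submodule.coe_inner] at h2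
    exact h2

section
variable [FiniteDimensional ℝ G]

/-- expansion in the eigenbasis of a compression -/
lemma sum_facts {n : ℕ} {P L : G →L[ℝ] G} (Psym : ∀ x y, ⟪P x, y⟫ = ⟪x, P y⟫)
    {v : Fin n → G} {p : Fin n → ℝ} (hPL : ∀ i, P (L (v i)) = p i • v i)
    {x : G} (hx : P x = x) (hsum : ∑ i, ⟪v i, x⟫ • v i = x) :
    ⟪L x, x⟫ = ∑ i, p i * ⟪v i, x⟫ ^ 2 ∧ ‖x‖ ^ 2 = ∑ i, ⟪v i, x⟫ ^ 2 := by
  constructor
  · have e1 : ⟪L x, x⟫ = ⟪P (L x), x⟫ := by rw [Psym, hx]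
    have e2 : P (L x) = ∑ i, ⟪v i, x⟫ • (p i • v i) := by
      conv_lhs => rw [← hsum]
      simp only [map_sum, map_smul, hPL]
    rw [e1, e2, sum_inner]
    refine Finset.sum_congr rfl fun i _ => ?_
    rw [real_inner_smul_left, real_inner_smul_left]
    ring
  · rw [← real_inner_self_eq_norm_sq]
    have e : ⟪x, x⟫ = ⟪∑ i, ⟪v i, x⟫ • v i, x⟫ := by rw [hsum]
    rw [e, sum_inner]
    refine Finset.sum_congr rfl fun i _ => ?_
    rw [real_inner_smul_left]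
    ring

/-- upper bound of `L` on the low modes -/
theorem Blk.upper (h : Blk K L D P b ρ lo hi) {a : ℝ} (ha0 : 0 ≤ a)
    (ha : lo ≤ a ^ 2 + b * a - ρ * (a + 1)) {x : G} (hx : P x = x) :
    ⟪L x, x⟫ ≤ a * ‖x‖ ^ 2 := by
  obtain ⟨v, p, hv, hPv, hPL, hsum⟩ := exists_eig P L h.Psym h.Pidem h.Lsym
  obtain ⟨e1, e2⟩ := sum_facts h.Psym hPL hx (hsum x hx)
  rw [e1, e2, Finset.mul_sum]
  refine Finset.sum_le_sum fun i _ => ?_
  have hz : P (L (v i) - p i • v i) = 0 := by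
    rw [map_sub, map_smul, hPL, hPv, sub_self]
  obtain ⟨hp0, hz1, hpe⟩ := h.eig (hPv i) hz (by abel) (hv.1 i)
  have hD := h.Dle (v i)
  have hlo := h.lo_le _ (hPv i)
  have hLv : ⟪L (v i), v i⟫ = p i := by
    have : ⟪L (v i), v i⟫ = ⟪P (L (v i)), v i⟫ := by rw [h.Psym, hPv]
    rw [this, hPL, real_inner_smul_left, real_inner_self_eq_norm_sq, hv.1 i]; ring
  rw [hLv, hv.1 i] at hD
  rw [hv.1 i] at hlo
  have hD1 := (abs_le.1 hD).1
  have hρb := h.ρ_le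
  have hρ0 := h.ρ_nonneg
  have hle : p i ≤ a := by
    by_contra hcon
    push Not at hcon
    have h1 : p i ^ 2 + b * p i - ρ * (p i + 1) ≤ a ^ 2 + b * a - ρ * (a + 1) := by
      nlinarith [sq_nonneg ‖L (v i) - p i • v i‖]
    have h2 : 0 < (p i - a) * (p i + a + (b - ρ)) := by
      apply mul_pos (by linarith)
      linarith
    nlinarith
  exact mul_le_mul_of_nonneg_right hle (sq_nonneg _)

/-- lower bound of `L` on the complement -/
theorem Blk.lower (h : Blk K L D P b ρ lo hi) {c : ℝ} (_hc0 : 0 ≤ c)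
    (hc : c ^ 2 + b * c + (4 * ρ ^ 2 + ρ) * (c + 1) ≤ hi) {y : G} (hy : P y = 0) :
    c * ‖y‖ ^ 2 ≤ ⟪L y, y⟫ := by
  set R : G →L[ℝ] G := ContinuousLinearMap.id ℝ G - P with hR
  have hRa : ∀ x, R x = x - P x := fun x => rfl
  have Rsym : ∀ x y, ⟪R x, y⟫ = ⟪x, R y⟫ := fun x y => by
    simp only [hRa, inner_sub_left, inner_sub_right, h.Psym]
  have Ridem : ∀ x, R (R x) = R x := fun x => by
    simp only [hRa, map_sub, h.Pidem]; abel
  obtain ⟨v, p, hv, hPv, hPL, hsum⟩ := exists_eig R L Rsym Ridem h.Lsym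
  have hyR : R y = y := by rw [hRa, hy, sub_zero]
  obtain ⟨e1, e2⟩ := sum_facts Rsym hPL hyR (hsum y hyR)
  rw [e1, e2, Finset.mul_sum]
  refine Finset.sum_le_sum fun i _ => ?_
  have hPv0 : P (v i) = 0 := by
    have := hPv i
    rw [hRa] at this
    exact sub_eq_self.1 this
  have hz : P (L (v i) - p i • v i) = L (v i) - p i • v i := by
    have h1 : R (L (v i) - p i • v i) = 0 := by
      rw [map_sub, map_smul, hPL, hPv, sub_self]
    rw [hRa, sub_eq_zero] at h1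
    exact h1.symm
  obtain ⟨hp0, hz1, hpe⟩ := h.eig' hPv0 hz (by abel) (hv.1 i)
  have hD := h.Dle (v i)
  have hhi := h.hi_le _ hPv0
  have hLv : ⟪L (v i), v i⟫ = p i := by
    have : ⟪L (v i), v i⟫ = ⟪R (L (v i)), v i⟫ := by rw [Rsym, hPv]
    rw [this, hPL, real_inner_smul_left, real_inner_self_eq_norm_sq, hv.1 i]; ring
  rw [hLv, hv.1 i] at hD
  rw [hv.1 i] at hhi
  have hD1 := (abs_le.1 hD).2
  have hLz := h.Lpos (L (v i) - p i • v i)
  have hρ0 := h.ρ_nonneg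
  have hb := h.b_ge
  have hle : c ≤ p i := by
    by_contra hcon
    push Not at hcon
    have h1 : c ^ 2 + b * c + (4 * ρ ^ 2 + ρ) * (c + 1)
        ≤ p i ^ 2 + b * p i + (4 * ρ ^ 2 + ρ) * (p i + 1) := by
      nlinarith
    have h2 : 0 < (c - p i) * (c + p i + (b + (4 * ρ ^ 2 + ρ))) := by
      apply mul_pos (by linarith)
      positivity
    nlinarith
  exact mul_le_mul_of_nonneg_right hle (sq_nonneg _)

/-- the off-diagonal block of `L` is small -/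
theorem Blk.offdiag (h : Blk K L D P b ρ lo hi) {a : ℝ} (ha0 : 0 ≤ a)
    (ha : lo ≤ a ^ 2 + b * a - ρ * (a + 1)) {x y : G} (hx : P x = x) (hy : P y = 0) :
    ⟪L x, y⟫ ^ 2 ≤ 4 * ρ ^ 2 * (a + 1) *
      (Module.finrank ℝ (LinearMap.range (P : G →ₗ[ℝ] G)) : ℝ) * (‖x‖ ^ 2 * ‖y‖ ^ 2) := by
  obtain ⟨v, p, hv, hPv, hPL, hsum⟩ := exists_eig P L h.Psym h.Pidem h.Lsym
  obtain ⟨-, e2⟩ := sum_facts h.Psym hPL hx (hsum x hx)
  have hvy : ∀ i, ⟪v i, y⟫ = 0 := fun i => by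
    have := h.Psym (v i) y
    rw [hPv, hy, inner_zero_right] at this
    exact this
  have e3 : ⟪L x, y⟫ = ∑ i, ⟪v i, x⟫ * ⟪L (v i) - p i • v i, y⟫ := by
    have : L x = ∑ i, ⟪v i, x⟫ • L (v i) := by
      conv_lhs => rw [← hsum x hx]
      simp only [map_sum, map_smul]
    rw [this, sum_inner]
    refine Finset.sum_congr rfl fun i _ => ?_
    rw [real_inner_smul_left, inner_sub_left, real_inner_smul_left, hvy i]
    ring
  have e4 : ∀ i, ⟪L (v i) - p i • v i, y⟫ ^ 2 ≤ 4 * ρ ^ 2 * (a + 1) * ‖y‖ ^ 2 := by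
    intro i
    have hz : P (L (v i) - p i • v i) = 0 := by
      rw [map_sub, map_smul, hPL, hPv, sub_self]
    obtain ⟨hp0, hz1, hpe⟩ := h.eig (hPv i) hz (by abel) (hv.1 i)
    have hLv : ⟪L (v i), v i⟫ = p i := by
      have : ⟪L (v i), v i⟫ = ⟪P (L (v i)), v i⟫ := by rw [h.Psym, hPv]
      rw [this, hPL, real_inner_smul_left, real_inner_self_eq_norm_sq, hv.1 i]; ring
    have hle : p i ≤ a := by
      have := h.upper ha0 ha (hPv i)
      rw [hLv, hv.1 i] at this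
      linarith
    have hLz := h.Lpos (L (v i) - p i • v i)
    have hz2 : ‖L (v i) - p i • v i‖ ^ 2 ≤ 4 * ρ ^ 2 * (a + 1) := by
      calc ‖L (v i) - p i • v i‖ ^ 2 ≤ 4 * ρ ^ 2 * (p i + 1) := by linarith
        _ ≤ _ := by gcongr
    calc ⟪L (v i) - p i • v i, y⟫ ^ 2 ≤ (‖L (v i) - p i • v i‖ * ‖y‖) ^ 2 := by
          rw [← sq_abs]
          exact pow_le_pow_left₀ (abs_nonneg _) (abs_real_inner_le_norm _ _) 2
      _ = ‖L (v i) - p i • v i‖ ^ 2 * ‖y‖ ^ 2 := by ring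
      _ ≤ _ := by gcongr
  rw [e3]
  calc (∑ i, ⟪v i, x⟫ * ⟪L (v i) - p i • v i, y⟫) ^ 2
      ≤ (∑ i, ⟪v i, x⟫ ^ 2) * ∑ i, ⟪L (v i) - p i • v i, y⟫ ^ 2 :=
        Finset.sum_mul_sq_le_sq_mul_sq _ _ _
    _ ≤ ‖x‖ ^ 2 * ∑ _i : Fin (Module.finrank ℝ (LinearMap.range (P : G →ₗ[ℝ] G))),
          4 * ρ ^ 2 * (a + 1) * ‖y‖ ^ 2 := by
        rw [e2]
        gcongr with i _
        exact e4 i
    _ = _ := by
        rw [Finset.sum_const, Finset.card_univ, Fintype.card_fin, nsmul_eq_mul]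
        ring

end

end Crest.Agent.R202.HomeL
end

-- ▼ part R202/HomeBar
section

/-! # Row 202, PART B: moving barriers and growth in a home (helper384)

The levels `a t` (upper bound of `L` on the low modes) and `c t` (lower bound on the complement)
may depend on time, with `c t - a t ≥ g`. -/

set_option autoImplicit false
open Set Filter Topology
open scoped RealInnerProductSpace

namespace Crest.Agent.R202.HomeL

/-! ## Scalar part -/

lemma sqrt_mul_le {X Y θ : ℝ} (hX : 0 ≤ X) (hY : 0 ≤ Y) :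
    2 * θ * (√X * √Y) ≤ Y + θ ^ 2 * X := by
  have h1 := Real.sq_sqrt hX
  have h2 := Real.sq_sqrt hY
  nlinarith [sq_nonneg (√Y - θ * √X)]

/-- a differentiable function which is positive at `s` and nondecreasing where it is nonnegative
stays positive -/
lemma pos_of_deriv_nonneg {Q Q' : ℝ → ℝ} {s e : ℝ} (hse : s ≤ e)
    (hQ : ∀ t ∈ Icc s e, HasDerivAt Q (Q' t) t) (h : ∀ t ∈ Icc s e, 0 ≤ Q t → 0 ≤ Q' t)
    (hs : 0 < Q s) : 0 < Q e := by
  by_contra hcon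
  push Not at hcon
  set S : Set ℝ := {t ∈ Icc s e | Q t ≤ 0} with hS
  have hcont : ContinuousOn Q (Icc s e) := fun t ht => (hQ t ht).continuousAt.continuousWithinAt
  have hSc : IsClosed S := by
    have := hcont.preimage_isClosed_of_isClosed isClosed_Icc (isClosed_Iic (a := (0:ℝ)))
    exact this
  have hSn : S.Nonempty := ⟨e, right_mem_Icc.2 hse, hcon⟩
  have hSb : BddBelow S := ⟨s, fun t ht => ht.1.1⟩
  have hmem : sInf S ∈ S := hSc.csInf_mem hSn hSb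
  set t₀ := sInf S with ht₀
  have hst : s ≤ t₀ := hmem.1.1
  have hmono : MonotoneOn Q (Icc s t₀) := by
    apply monotoneOn_of_deriv_nonneg (convex_Icc s t₀)
    · exact hcont.mono (Icc_subset_Icc le_rfl hmem.1.2)
    · intro t ht
      rw [interior_Icc] at ht
      exact (hQ t ⟨ht.1.le, ht.2.le.trans hmem.1.2⟩).differentiableAt.differentiableWithinAt
    · intro t ht
      rw [interior_Icc] at ht
      have ht' : t ∈ Icc s e := ⟨ht.1.le, ht.2.le.trans hmem.1.2⟩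
      rw [(hQ t ht').deriv]
      apply h t ht'
      by_contra hneg
      push Not at hneg
      have : t ∈ S := ⟨ht', hneg.le⟩
      exact absurd (csInf_le hSb this) (not_le.2 ht.2)
  have := hmono (left_mem_Icc.2 hst) (right_mem_Icc.2 hst) hst
  have h2 := hmem.2
  linarith

/-- moving barrier -/
theorem barrier {X Y X' Y' a c : ℝ → ℝ} {s e g ζ κ θ₀ : ℝ} (hse : s ≤ e)
    (ha0 : ∀ t ∈ Icc s e, 0 ≤ a t) (hac : ∀ t ∈ Icc s e, a t + g ≤ c t) (hg : 0 ≤ g)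
    (hX : ∀ t ∈ Icc s e, HasDerivAt X (X' t) t) (hY : ∀ t ∈ Icc s e, HasDerivAt Y (Y' t) t)
    (hX0 : ∀ t ∈ Icc s e, 0 ≤ X t) (hY0 : ∀ t ∈ Icc s e, 0 ≤ Y t)
    (hX' : ∀ t ∈ Icc s e, X' t ≤ 2 * a t * X t + 2 * ζ * (√(X t) * √(Y t)))
    (hY' : ∀ t ∈ Icc s e, 2 * c t * Y t - 2 * ζ * (√(X t) * √(Y t)) ≤ Y' t)
    (hκ : κ ≤ g / 2) (hθ₀ : 0 < θ₀)
    (hθ : ∀ t ∈ Icc s e, 2 * ζ * (1 + (θ₀ * Real.exp (κ * (t - s))) ^ 2)
      ≤ θ₀ * Real.exp (κ * (t - s)) * g)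
    (hs : θ₀ ^ 2 * X s < Y s) : (θ₀ * Real.exp (κ * (e - s))) ^ 2 * X e < Y e := by
  set F : ℝ → ℝ := fun t => Y t - (θ₀ * Real.exp (κ * (t - s))) ^ 2 * X t with hF
  have hder : ∀ t ∈ Icc s e, HasDerivAt F
      (Y' t - (θ₀ * Real.exp (κ * (t - s))) ^ 2 * X' t
        - 2 * κ * (θ₀ * Real.exp (κ * (t - s))) ^ 2 * X t) t := by
    intro t ht
    have h2 : HasDerivAt (fun t => θ₀ * Real.exp (κ * (t - s)))
        (θ₀ * (Real.exp (κ * (t - s)) * κ)) t := by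
      have h0 : HasDerivAt (fun t : ℝ => κ * (t - s)) κ t := by
        have := ((hasDerivAt_id t).sub_const s).const_mul κ
        simp only [id, mul_one] at this
        exact this
      exact h0.exp.const_mul θ₀
    have h3 := (hY t ht).sub ((h2.pow 2).mul (hX t ht))
    refine h3.congr_deriv ?_
    simp only [Pi.pow_apply]
    ring
  have hnn : ∀ t ∈ Icc s e, 0 ≤ F t → 0 ≤ Y' t - (θ₀ * Real.exp (κ * (t - s))) ^ 2 * X' t
        - 2 * κ * (θ₀ * Real.exp (κ * (t - s))) ^ 2 * X t := by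
    intro t ht hFt
    simp only [hF] at hFt
    have h3 := hθ t ht
    set θ := θ₀ * Real.exp (κ * (t - s)) with hθd
    have hθpos : 0 < θ := mul_pos hθ₀ (Real.exp_pos _)
    have h1 := hX' t ht
    have h2 := hY' t ht
    have h4 := hX0 t ht
    have h5 := hY0 t ht
    set m := √(X t) * √(Y t) with hm
    have hm0 : 0 ≤ m := mul_nonneg (Real.sqrt_nonneg _) (Real.sqrt_nonneg _)
    have h6 := sqrt_mul_le (θ := θ) h4 h5
    rw [← hm] at h6
    have h7 : θ ^ 2 * X' t ≤ θ ^ 2 * (2 * a t * X t + 2 * ζ * m) :=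
      mul_le_mul_of_nonneg_left h1 (sq_nonneg θ)
    have h8 : 2 * ζ * (1 + θ ^ 2) * m ≤ θ * g * m := mul_le_mul_of_nonneg_right h3 hm0
    have h9 : g / 4 * (2 * θ * m) ≤ g / 4 * (Y t + θ ^ 2 * X t) :=
      mul_le_mul_of_nonneg_left h6 (by linarith)
    have h10 : 0 ≤ θ ^ 2 * X t := mul_nonneg (sq_nonneg _) h4
    have h11 : κ * (θ ^ 2 * X t) ≤ g / 2 * (θ ^ 2 * X t) :=
      mul_le_mul_of_nonneg_right hκ h10
    have ha := ha0 t ht
    have hc := hac t ht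
    have h12 : (a t + g) * Y t ≤ c t * Y t := mul_le_mul_of_nonneg_right hc h5
    -- at a point with `θ² X ≤ Y`
    have h13 : (a t + 3 * g / 4) * (θ ^ 2 * X t) ≤ (a t + 3 * g / 4) * Y t := by
      apply mul_le_mul_of_nonneg_left (by linarith)
      positivity
    nlinarith
  have := pos_of_deriv_nonneg hse hder hnn (by simp only [hF]; simpa using hs)
  simp only [hF] at this
  linarith

/-- growth in the cone -/
theorem growth_scalar {X Y X' : ℝ → ℝ} {s e a ζ θ : ℝ} (hse : s ≤ e) (hζ : 0 ≤ ζ) (hθ : 0 ≤ θ)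
    (hX : ∀ t ∈ Icc s e, HasDerivAt X (X' t) t)
    (hX0 : ∀ t ∈ Icc s e, 0 ≤ X t)
    (hX' : ∀ t ∈ Icc s e, X' t ≤ 2 * a * X t + 2 * ζ * (√(X t) * √(Y t)))
    (hcone : ∀ t ∈ Icc s e, Y t ≤ θ ^ 2 * X t) :
    X e ≤ Real.exp (2 * (a + ζ * θ) * (e - s)) * X s := by
  set μ : ℝ := a + ζ * θ with hμ
  set F : ℝ → ℝ := fun t => Real.exp (-(2 * μ * (t - s))) * X t with hF
  have hder : ∀ t ∈ Icc s e, HasDerivAt F
      (Real.exp (-(2 * μ * (t - s))) * (X' t - 2 * μ * X t)) t := by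
    intro t ht
    have h1 : HasDerivAt (fun t => Real.exp (-(2 * μ * (t - s))))
        (Real.exp (-(2 * μ * (t - s))) * (-(2 * μ))) t := by
      have h0 : HasDerivAt (fun t : ℝ => -(2 * μ * (t - s))) (-(2 * μ)) t := by
        have := ((hasDerivAt_id t).sub_const s).const_mul (-(2 * μ))
        simp only [id, mul_one] at this
        refine this.congr_of_eventuallyEq (Eventually.of_forall fun x => ?_)
        simp only; ring
      exact h0.exp
    refine (h1.mul (hX t ht)).congr_deriv ?_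
    ring
  have hanti : AntitoneOn F (Icc s e) := by
    apply antitoneOn_of_deriv_nonpos (convex_Icc s e)
    · exact fun t ht => (hder t ht).continuousAt.continuousWithinAt
    · intro t ht
      rw [interior_Icc] at ht
      exact (hder t (Ioo_subset_Icc_self ht)).differentiableAt.differentiableWithinAt
    · intro t ht
      rw [interior_Icc] at ht
      have ht' := Ioo_subset_Icc_self ht
      rw [(hder t ht').deriv]
      have h1 : √(X t) * √(Y t) ≤ θ * X t := by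
        have h2 : √(Y t) ≤ θ * √(X t) := by
          rw [← Real.sqrt_sq hθ, ← Real.sqrt_mul (sq_nonneg θ)]
          exact Real.sqrt_le_sqrt (hcone t ht')
        calc √(X t) * √(Y t) ≤ √(X t) * (θ * √(X t)) := by gcongr
          _ = θ * (√(X t) * √(X t)) := by ring
          _ = θ * X t := by rw [Real.mul_self_sqrt (hX0 t ht')]
      have h3 : X' t - 2 * μ * X t ≤ 0 := by
        have := hX' t ht'
        have h4 : ζ * (√(X t) * √(Y t)) ≤ ζ * (θ * X t) := mul_le_mul_of_nonneg_left h1 hζ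
        rw [hμ]; nlinarith
      exact mul_nonpos_of_nonneg_of_nonpos (Real.exp_pos _).le h3
  have h := hanti (left_mem_Icc.2 hse) (right_mem_Icc.2 hse) hse
  have h0 : F s = X s := by simp [hF]
  rw [h0] at h
  have h1 : X e = Real.exp (2 * μ * (e - s)) * F e := by
    simp only [hF]
    rw [← mul_assoc, ← Real.exp_add]
    simp
  rw [h1]
  exact mul_le_mul_of_nonneg_left h (Real.exp_pos _).le

/-! ## Curves -/

variable {G : Type*} [NormedAddCommGroup G] [InnerProductSpace ℝ G]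

/-- block bounds on `[s, e]` -/
structure HomeB (L : ℝ → G →L[ℝ] G) (P : G →L[ℝ] G) (a c : ℝ → ℝ) (g ζ s e : ℝ) : Prop where
  Psym : ∀ x y, ⟪P x, y⟫ = ⟪x, P y⟫
  Pidem : ∀ x, P (P x) = P x
  Lsym : ∀ t ∈ Icc s e, ∀ x y, ⟪L t x, y⟫ = ⟪x, L t y⟫
  up : ∀ t ∈ Icc s e, ∀ x, P x = x → ⟪L t x, x⟫ ≤ a t * ‖x‖ ^ 2
  low : ∀ t ∈ Icc s e, ∀ y, P y = 0 → c t * ‖y‖ ^ 2 ≤ ⟪L t y, y⟫
  off : ∀ t ∈ Icc s e, ∀ x y, P x = x → P y = 0 → |⟪L t x, y⟫| ≤ ζ * (‖x‖ * ‖y‖)
  a_nonneg : ∀ t ∈ Icc s e, 0 ≤ a t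
  ac : ∀ t ∈ Icc s e, a t + g ≤ c t
  g_pos : 0 < g
  ζ_nonneg : 0 ≤ ζ

/-- `u' = L u` on `[s, e]` -/
def Sol (L : ℝ → G →L[ℝ] G) (u : ℝ → G) (s e : ℝ) : Prop :=
  ∀ t ∈ Icc s e, HasDerivAt u (L t (u t)) t

variable {L : ℝ → G →L[ℝ] G} {P : G →L[ℝ] G} {a c : ℝ → ℝ} {g ζ s e : ℝ} {u : ℝ → G}

lemma HomeB.mono (h : HomeB L P a c g ζ s e) {s' e' : ℝ} (hs : s ≤ s') (he : e' ≤ e) :
    HomeB L P a c g ζ s' e' :=
  { h with
    Lsym := fun t ht => h.Lsym t ⟨hs.trans ht.1, ht.2.trans he⟩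
    up := fun t ht => h.up t ⟨hs.trans ht.1, ht.2.trans he⟩
    low := fun t ht => h.low t ⟨hs.trans ht.1, ht.2.trans he⟩
    off := fun t ht => h.off t ⟨hs.trans ht.1, ht.2.trans he⟩
    a_nonneg := fun t ht => h.a_nonneg t ⟨hs.trans ht.1, ht.2.trans he⟩
    ac := fun t ht => h.ac t ⟨hs.trans ht.1, ht.2.trans he⟩ }

lemma Sol.mono (hu : Sol L u s e) {s' e' : ℝ} (hs : s ≤ s') (he : e' ≤ e) : Sol L u s' e' :=
  fun t ht => hu t ⟨hs.trans ht.1, ht.2.trans he⟩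

lemma HomeB.orth (h : HomeB L P a c g ζ s e) (z : G) : P (z - P z) = 0 := by
  rw [map_sub, h.Pidem, sub_self]

lemma HomeB.pyth (h : HomeB L P a c g ζ s e) (z : G) : ‖z‖ ^ 2 = ‖P z‖ ^ 2 + ‖z - P z‖ ^ 2 := by
  have h1 : ⟪P z, z - P z⟫ = 0 := by
    rw [h.Psym, h.orth, inner_zero_right]
  have h2 : z = P z + (z - P z) := by abel
  have h3 := norm_add_sq_real (P z) (z - P z)
  rw [← h2, h1] at h3
  linarith

lemma HomeB.derX (h : HomeB L P a c g ζ s e) (hu : Sol L u s e) {t : ℝ} (ht : t ∈ Icc s e) :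
    HasDerivAt (fun τ => ‖P (u τ)‖ ^ 2) (2 * ⟪P (u t), L t (u t)⟫) t := by
  have h1 : HasDerivAt (fun τ => P (u τ)) (P (L t (u t))) t := P.hasFDerivAt.comp_hasDerivAt t (hu t ht)
  have h2 := h1.norm_sq
  refine h2.congr_deriv ?_
  rw [← h.Psym, h.Pidem]

lemma HomeB.derY (h : HomeB L P a c g ζ s e) (hu : Sol L u s e) {t : ℝ} (ht : t ∈ Icc s e) :
    HasDerivAt (fun τ => ‖u τ - P (u τ)‖ ^ 2) (2 * ⟪u t - P (u t), L t (u t)⟫) t := by
  have h1 : HasDerivAt (fun τ => P (u τ)) (P (L t (u t))) t := P.hasFDerivAt.comp_hasDerivAt t (hu t ht)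
  have h2 : HasDerivAt (fun τ => u τ - P (u τ)) (L t (u t) - P (L t (u t))) t := (hu t ht).sub h1
  refine h2.norm_sq.congr_deriv ?_
  rw [inner_sub_right, ← h.Psym, h.orth, inner_zero_left, sub_zero]

lemma HomeB.X'_le (h : HomeB L P a c g ζ s e) {t : ℝ} (ht : t ∈ Icc s e) {A : ℝ}
    (hA : ∀ x, P x = x → ⟪L t x, x⟫ ≤ A * ‖x‖ ^ 2) (z : G) :
    2 * ⟪P z, L t z⟫ ≤ 2 * A * ‖P z‖ ^ 2 + 2 * ζ * (√(‖P z‖ ^ 2) * √(‖z - P z‖ ^ 2)) := by
  rw [Real.sqrt_sq (norm_nonneg _), Real.sqrt_sq (norm_nonneg _)]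
  have e1 : ⟪P z, L t z⟫ = ⟪L t (P z), P z⟫ + ⟪L t (P z), z - P z⟫ := by
    rw [← inner_add_right, ← h.Lsym t ht]
    congr 1
    abel
  have h1 := hA (P z) (h.Pidem z)
  have h2 := (abs_le.1 (h.off t ht (P z) (z - P z) (h.Pidem z) (h.orth z))).2
  rw [e1]
  linarith

lemma HomeB.Y'_ge (h : HomeB L P a c g ζ s e) {t : ℝ} (ht : t ∈ Icc s e) (z : G) :
    2 * c t * ‖z - P z‖ ^ 2 - 2 * ζ * (√(‖P z‖ ^ 2) * √(‖z - P z‖ ^ 2))
      ≤ 2 * ⟪z - P z, L t z⟫ := by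
  rw [Real.sqrt_sq (norm_nonneg _), Real.sqrt_sq (norm_nonneg _)]
  have e1 : ⟪z - P z, L t z⟫ = ⟪L t (z - P z), z - P z⟫ + ⟪L t (P z), z - P z⟫ := by
    rw [← inner_add_left, ← map_add]
    have : z - P z + P z = z := by abel
    rw [this, real_inner_comm]
  have h1 := h.low t ht (z - P z) (h.orth z)
  have h2 := (abs_le.1 (h.off t ht (P z) (z - P z) (h.Pidem z) (h.orth z))).1
  rw [e1]
  linarith

/-- moving barrier for curves -/
theorem HomeB.barrier (h : HomeB L P a c g ζ s e) (hu : Sol L u s e) (hse : s ≤ e)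
    {κ θ₀ : ℝ} (hκ : κ ≤ g / 2) (hθ₀ : 0 < θ₀)
    (hθ : ∀ t ∈ Icc s e, 2 * ζ * (1 + (θ₀ * Real.exp (κ * (t - s))) ^ 2)
      ≤ θ₀ * Real.exp (κ * (t - s)) * g)
    (hs : θ₀ * ‖P (u s)‖ < ‖u s - P (u s)‖) :
    θ₀ * Real.exp (κ * (e - s)) * ‖P (u e)‖ < ‖u e - P (u e)‖ := by
  have hmain := HomeL.barrier (X := fun τ => ‖P (u τ)‖ ^ 2) (Y := fun τ => ‖u τ - P (u τ)‖ ^ 2)
    (X' := fun t => 2 * ⟪P (u t), L t (u t)⟫) (Y' := fun t => 2 * ⟪u t - P (u t), L t (u t)⟫)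
    hse h.a_nonneg h.ac h.g_pos.le
    (fun t ht => h.derX hu ht) (fun t ht => h.derY hu ht) (fun t _ => sq_nonneg _)
    (fun t _ => sq_nonneg _) (fun t ht => h.X'_le ht (h.up t ht) (u t))
    (fun t ht => h.Y'_ge ht (u t))
    hκ hθ₀ hθ (by
      rw [← mul_pow]
      exact pow_lt_pow_left₀ hs (by positivity) (by norm_num))
  rw [← mul_pow] at hmain
  exact lt_of_pow_lt_pow_left₀ 2 (norm_nonneg _) hmain

/-- cones are invariant inward -/
theorem HomeB.cone_inward (h : HomeB L P a c g ζ s e) (hu : Sol L u s e) (hse : s ≤ e)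
    {θ : ℝ} (hθ₀ : 0 < θ) (hθ : 2 * ζ * (1 + θ ^ 2) ≤ θ * g)
    (he : ‖u e - P (u e)‖ ≤ θ * ‖P (u e)‖) : ‖u s - P (u s)‖ ≤ θ * ‖P (u s)‖ := by
  by_contra hcon
  push Not at hcon
  have := h.barrier hu hse (κ := 0) (by linarith [h.g_pos]) hθ₀ (by
    intro t _; simpa using hθ) hcon
  simp only [zero_mul, Real.exp_zero, mul_one] at this
  linarith

/-- narrowing of the cones inward -/
theorem HomeB.narrow (h : HomeB L P a c g ζ s e) (hu : Sol L u s e)
    {θ₁ θ₂ : ℝ} (hθ₁ : 0 < θ₁) (hθ₁₂ : θ₁ ≤ θ₂)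
    (hθ : 2 * ζ * (1 + θ₂ ^ 2) ≤ θ₁ * g)
    (hlen : 2 / g * Real.log (θ₂ / θ₁) ≤ e - s)
    (he : ‖u e - P (u e)‖ ≤ θ₂ * ‖P (u e)‖) : ‖u s - P (u s)‖ ≤ θ₁ * ‖P (u s)‖ := by
  by_contra hcon
  push Not at hcon
  have hg : 0 < g := h.g_pos
  have hθ₂ : 0 < θ₂ := hθ₁.trans_le hθ₁₂
  set m := s + 2 / g * Real.log (θ₂ / θ₁) with hm
  have hlog : 0 ≤ Real.log (θ₂ / θ₁) := Real.log_nonneg ((one_le_div hθ₁).2 hθ₁₂)
  have hsm : s ≤ m := by
    have : 0 ≤ 2 / g * Real.log (θ₂ / θ₁) := by positivity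
    linarith
  have hme : m ≤ e := by linarith
  have hexp : θ₁ * Real.exp (g / 2 * (m - s)) = θ₂ := by
    have : g / 2 * (m - s) = Real.log (θ₂ / θ₁) := by
      rw [hm]; field_simp; ring
    rw [this, Real.exp_log (by positivity)]
    field_simp
  have hb := (h.mono le_rfl hme).barrier (hu.mono le_rfl hme) hsm (κ := g / 2) le_rfl hθ₁
    (by
      intro t ht
      have h1 : 1 ≤ Real.exp (g / 2 * (t - s)) :=
        Real.one_le_exp (by have := ht.1; apply mul_nonneg <;> linarith)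
      have h2 : θ₁ * Real.exp (g / 2 * (t - s)) ≤ θ₂ := by
        rw [← hexp]
        have := ht.2
        gcongr
      have h3 : θ₁ ≤ θ₁ * Real.exp (g / 2 * (t - s)) := by nlinarith
      have h4 : 0 < θ₁ * Real.exp (g / 2 * (t - s)) := by positivity
      calc 2 * ζ * (1 + (θ₁ * Real.exp (g / 2 * (t - s))) ^ 2)
          ≤ 2 * ζ * (1 + θ₂ ^ 2) := by
            have := h.ζ_nonneg
            gcongr
        _ ≤ θ₁ * g := hθ
        _ ≤ _ := by gcongr) hcon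
  rw [hexp] at hb
  have hc := (h.mono hsm le_rfl).cone_inward (hu.mono hsm le_rfl) hme hθ₂ (by
    calc 2 * ζ * (1 + θ₂ ^ 2) ≤ θ₁ * g := hθ
      _ ≤ θ₂ * g := by gcongr) he
  linarith

/-- growth in the cone, outward, for a constant upper bound `A` of `L` on the low modes -/
theorem HomeB.growth (h : HomeB L P a c g ζ s e) (hu : Sol L u s e) (hse : s ≤ e)
    {θ A : ℝ} (hθ₀ : 0 < θ) (hθ : 2 * ζ * (1 + θ ^ 2) ≤ θ * g)
    (hA : ∀ t ∈ Icc s e, ∀ x, P x = x → ⟪L t x, x⟫ ≤ A * ‖x‖ ^ 2)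
    (he : ‖u e - P (u e)‖ ≤ θ * ‖P (u e)‖) :
    ‖u e‖ ≤ (1 + θ) * Real.exp ((A + ζ * θ) * (e - s)) * ‖u s‖ := by
  have hcone : ∀ t ∈ Icc s e, ‖u t - P (u t)‖ ^ 2 ≤ θ ^ 2 * ‖P (u t)‖ ^ 2 := by
    intro t ht
    have := (h.mono ht.1 le_rfl).cone_inward (hu.mono ht.1 le_rfl) ht.2 hθ₀ hθ he
    rw [← mul_pow]
    exact pow_le_pow_left₀ (norm_nonneg _) this 2
  have h1 := growth_scalar (X := fun τ => ‖P (u τ)‖ ^ 2) (Y := fun τ => ‖u τ - P (u τ)‖ ^ 2)
    (X' := fun t => 2 * ⟪P (u t), L t (u t)⟫) hse h.ζ_nonneg hθ₀.le (fun t ht => h.derX hu ht)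
    (fun t _ => sq_nonneg _) (fun t ht => h.X'_le ht (hA t ht) (u t)) hcone
  have h0 : ‖P (u s)‖ ^ 2 ≤ ‖u s‖ ^ 2 := by
    rw [h.pyth (u s)]; nlinarith [sq_nonneg ‖u s - P (u s)‖]
  have h2 : ‖u e‖ ^ 2 ≤ ((1 + θ) * Real.exp ((A + ζ * θ) * (e - s)) * ‖u s‖) ^ 2 := by
    rw [mul_pow, mul_pow, ← Real.exp_nat_mul, h.pyth (u e)]
    have h3 := hcone e (right_mem_Icc.2 hse)
    have e1 : ((2:ℕ):ℝ) * ((A + ζ * θ) * (e - s)) = 2 * (A + ζ * θ) * (e - s) := by
      push_cast; ring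
    rw [e1]
    calc ‖P (u e)‖ ^ 2 + ‖u e - P (u e)‖ ^ 2 ≤ (1 + θ ^ 2) * ‖P (u e)‖ ^ 2 := by linarith
      _ ≤ (1 + θ ^ 2) * (Real.exp (2 * (A + ζ * θ) * (e - s)) * ‖P (u s)‖ ^ 2) := by gcongr
      _ ≤ (1 + θ) ^ 2 * (Real.exp (2 * (A + ζ * θ) * (e - s)) * ‖u s‖ ^ 2) := by
          gcongr
          nlinarith
      _ = _ := by ring
  exact le_of_sq_le_sq h2 (by positivity)

/-- **the frequency level is reached**: if `u` stays in a cone at time `e` and `e - s` is long,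
there is a time with `⟪L u, u⟫ ≤ (a + g/2) |u|²` -/
theorem HomeB.exists_freq (h : HomeB L P a c g ζ s e) (hu : Sol L u s e) (hse : s ≤ e)
    {θ : ℝ} (hθ₀ : 0 < θ) (hθ : 2 * ζ * (1 + θ ^ 2) ≤ θ * g)
    (hζθ : ζ * θ ≤ g / 4) (hlen : (1 + θ ^ 2) < Real.exp (g / 2 * (e - s)))
    (he : ‖u e - P (u e)‖ ≤ θ * ‖P (u e)‖) (hne : u e ≠ 0) (hns : u s ≠ 0) :
    ∃ t ∈ Icc s e, ⟪L t (u t), u t⟫ ≤ (a t + g / 2) * ‖u t‖ ^ 2 := by
  by_contra hcon
  push Not at hcon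
  have hcone : ∀ t ∈ Icc s e, ‖u t - P (u t)‖ ≤ θ * ‖P (u t)‖ := by
    intro t ht
    exact (h.mono ht.1 le_rfl).cone_inward (hu.mono ht.1 le_rfl) ht.2 hθ₀ hθ he
  have hn : ∀ t ∈ Icc s e, HasDerivAt (fun τ => ‖u τ‖ ^ 2) (2 * ⟪L t (u t), u t⟫) t := by
    intro t ht
    refine ((hu t ht).norm_sq).congr_deriv ?_
    rw [real_inner_comm]
  have hXe : ‖u e‖ ^ 2 ≤ (1 + θ ^ 2) * ‖P (u e)‖ ^ 2 := by
    rw [h.pyth (u e)]
    have := pow_le_pow_left₀ (norm_nonneg _) (hcone e (right_mem_Icc.2 hse)) 2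
    rw [mul_pow] at this
    linarith
  have hPe : 0 < ‖P (u e)‖ ^ 2 := by
    by_contra h0
    push Not at h0
    have h3 : ‖u e‖ ^ 2 ≤ 0 := hXe.trans (by
      have : ‖P (u e)‖ ^ 2 = 0 := le_antisymm h0 (sq_nonneg _)
      rw [this, mul_zero])
    have h4 : 0 < ‖u e‖ := norm_pos_iff.2 hne
    nlinarith
  -- choose `η` with `(1 + η) (1 + θ²) < exp`
  obtain ⟨η, hη0, hη⟩ : ∃ η > 0, (1 + η) * (1 + θ ^ 2) < Real.exp (g / 2 * (e - s)) := by
    refine ⟨(Real.exp (g / 2 * (e - s)) - (1 + θ ^ 2)) / (2 * (1 + θ ^ 2)), ?_, ?_⟩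
    · apply div_pos (by linarith) (by positivity)
    · have : (1 + (Real.exp (g / 2 * (e - s)) - (1 + θ ^ 2)) / (2 * (1 + θ ^ 2))) * (1 + θ ^ 2)
          = (1 + θ ^ 2) + (Real.exp (g / 2 * (e - s)) - (1 + θ ^ 2)) / 2 := by
        have : (1 + θ ^ 2) ≠ 0 := by positivity
        field_simp
      rw [this]; linarith
  set Q : ℝ → ℝ := fun t => (1 + η) * ‖u t‖ ^ 2 - Real.exp (g / 2 * (t - s)) * ‖P (u t)‖ ^ 2 with hQ
  have hder : ∀ t ∈ Icc s e, HasDerivAt Q ((1 + η) * (2 * ⟪L t (u t), u t⟫)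
      - (Real.exp (g / 2 * (t - s)) * (g / 2) * ‖P (u t)‖ ^ 2
        + Real.exp (g / 2 * (t - s)) * (2 * ⟪P (u t), L t (u t)⟫))) t := by
    intro t ht
    have h0 : HasDerivAt (fun t : ℝ => g / 2 * (t - s)) (g / 2) t := by
      have := ((hasDerivAt_id t).sub_const s).const_mul (g / 2)
      simp only [id, mul_one] at this
      exact this
    exact ((hn t ht).const_mul (1 + η)).sub (h0.exp.mul (h.derX hu ht))
  have hnn : ∀ t ∈ Icc s e, 0 ≤ Q t → 0 ≤ (1 + η) * (2 * ⟪L t (u t), u t⟫)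
      - (Real.exp (g / 2 * (t - s)) * (g / 2) * ‖P (u t)‖ ^ 2
        + Real.exp (g / 2 * (t - s)) * (2 * ⟪P (u t), L t (u t)⟫)) := by
    intro t ht hQt
    simp only [hQ] at hQt
    have h1 := hcon t ht
    have h2 := h.X'_le ht (h.up t ht) (u t)
    rw [Real.sqrt_sq (norm_nonneg _), Real.sqrt_sq (norm_nonneg _)] at h2
    have h3 := hcone t ht
    have h4 : ‖P (u t)‖ * ‖u t - P (u t)‖ ≤ θ * ‖P (u t)‖ ^ 2 := by
      calc ‖P (u t)‖ * ‖u t - P (u t)‖ ≤ ‖P (u t)‖ * (θ * ‖P (u t)‖) := by gcongr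
        _ = _ := by ring
    have h5 : ζ * (‖P (u t)‖ * ‖u t - P (u t)‖) ≤ g / 4 * ‖P (u t)‖ ^ 2 := by
      calc ζ * (‖P (u t)‖ * ‖u t - P (u t)‖) ≤ ζ * (θ * ‖P (u t)‖ ^ 2) :=
            mul_le_mul_of_nonneg_left h4 h.ζ_nonneg
        _ = (ζ * θ) * ‖P (u t)‖ ^ 2 := by ring
        _ ≤ _ := by gcongr
    set E := Real.exp (g / 2 * (t - s)) with hE
    have hE0 : 0 < E := Real.exp_pos _
    have h6 : 2 * ⟪P (u t), L t (u t)⟫ ≤ (2 * a t + g / 2) * ‖P (u t)‖ ^ 2 := by linarith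
    have h7 : E * (2 * ⟪P (u t), L t (u t)⟫) ≤ E * ((2 * a t + g / 2) * ‖P (u t)‖ ^ 2) :=
      mul_le_mul_of_nonneg_left h6 hE0.le
    have h8 := h.a_nonneg t ht
    have h9 := h.g_pos
    have h10 : (2 * a t + g) * (E * ‖P (u t)‖ ^ 2) ≤ (2 * a t + g) * ((1 + η) * ‖u t‖ ^ 2) :=
      mul_le_mul_of_nonneg_left (by linarith) (by linarith)
    have h11 : (1 + η) * ((a t + g / 2) * ‖u t‖ ^ 2) ≤ (1 + η) * ⟪L t (u t), u t⟫ :=
      mul_le_mul_of_nonneg_left h1.le (by linarith)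
    nlinarith
  have hQs : 0 < Q s := by
    simp only [hQ, sub_self, mul_zero, Real.exp_zero, one_mul]
    have h1 := h.pyth (u s)
    have h2 : 0 < ‖u s‖ ^ 2 := by have := norm_pos_iff.2 hns; positivity
    nlinarith [sq_nonneg ‖u s - P (u s)‖]
  have hQe := pos_of_deriv_nonneg hse hder hnn hQs
  simp only [hQ] at hQe
  nlinarith

end Crest.Agent.R202.HomeL
end

-- ▼ part R202/HomeSeg
section

/-! # Row 202, PART B2: the home lemmas `homeNarrow`, `homePtoF`, `homeFtoP`, `homeGrowth`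
(helper384) -/

set_option autoImplicit false
open Set Filter Topology
open scoped InnerProductSpace

namespace Crest.Agent.R202.Seg

open Crest.Agent.R202.Mix Crest.Agent.R202.HomeL

variable {G : Type} [NormedAddCommGroup G] [InnerProductSpace ℝ G]

/-! ## The projection as a continuous linear map -/

lemma pr_symm {N : ℕ} {e : Fin N → G} (he : Orthonormal ℝ e) (l : ℕ) (x y : G) :
    ⟪pr e l x, y⟫_ℝ = ⟪x, pr e l y⟫_ℝ := by
  rw [inner_pr_self he, real_inner_comm, inner_pr_self he]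
  refine Finset.sum_congr rfl fun j _ => ?_
  split_ifs
  · ring
  · rfl

lemma pr_idem {N : ℕ} {e : Fin N → G} (he : Orthonormal ℝ e) (l : ℕ) (x : G) :
    pr e l (pr e l x) = pr e l x := by
  conv_lhs => rw [pr_apply]
  conv_rhs => rw [pr_apply]
  refine Finset.sum_congr rfl fun j _ => ?_
  split_ifs with h
  · rw [inner_pr he, if_pos h]
  · rfl

lemma mem_span_of_pr {N : ℕ} {e : Fin N → G} {l : ℕ} (hl : l ≤ N) {x : G} (hx : pr e l x = x) :
    x ∈ Submodule.span ℝ (range fun i : Fin l => e (Fin.castLE hl i)) := by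
  rw [← hx, pr_apply]
  refine Submodule.sum_mem _ fun j _ => ?_
  split_ifs with h
  · refine Submodule.smul_mem _ _ (Submodule.subset_span ⟨⟨j.1, h⟩, ?_⟩)
    simp only
    congr 1
  · exact Submodule.zero_mem _

lemma inner_eq_zero_of_pr {N : ℕ} {e : Fin N → G} (he : Orthonormal ℝ e) {l : ℕ} (hl : l ≤ N)
    {y : G} (hy : pr e l y = 0) (i : Fin l) : ⟪e (Fin.castLE hl i), y⟫_ℝ = 0 := by
  have := inner_pr he l (Fin.castLE hl i) y
  rw [hy, inner_zero_right, if_pos (by simp)] at this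
  exact this.symm

/-! ## Constants -/

/-- half of the frequency gap -/
noncomputable def gg (η M : ℝ) : ℝ := η / (12 * (M + 1))

noncomputable def dl0 (η M : ℝ) : ℝ := min (1 / 2) (η / (12 * (M + 3)))

noncomputable def dlt (N : ℕ) (η M θ₁ θ₂ : ℝ) : ℝ :=
  min (dl0 η M) (θ₁ * gg η M / (2 * (M + 2) * (N + 1) * (1 + θ₂ ^ 2)))

lemma gg_pos {η M : ℝ} (hη : 0 < η) (hM : 0 < M) : 0 < gg η M := by unfold gg; positivity

lemma dl0_pos {η M : ℝ} (hη : 0 < η) (hM : 0 < M) : 0 < dl0 η M := by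
  unfold dl0; exact lt_min (by norm_num) (by positivity)

lemma dlt_pos {N : ℕ} {η M θ₁ θ₂ : ℝ} (hη : 0 < η) (hM : 0 < M) (h1 : 0 < θ₁) :
    0 < dlt N η M θ₁ θ₂ := by
  unfold dlt
  have := gg_pos hη hM
  exact lt_min (dl0_pos hη hM) (by positivity)

/-- the off-diagonal constant -/
noncomputable def zt (N : ℕ) (M δ : ℝ) : ℝ := 2 * δ * (M + 2) * (N + 1)

lemma zt_le {N : ℕ} {η M θ₁ θ₂ δ : ℝ} (_hη : 0 < η) (hM : 0 < M)
    (hδ : δ ≤ dlt N η M θ₁ θ₂) : 2 * zt N M δ * (1 + θ₂ ^ 2) ≤ θ₁ * (2 * gg η M) := by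
  have h1 : δ ≤ θ₁ * gg η M / (2 * (M + 2) * (N + 1) * (1 + θ₂ ^ 2)) := hδ.trans (min_le_right _ _)
  have hpos : 0 < 2 * (M + 2) * ((N:ℝ) + 1) * (1 + θ₂ ^ 2) := by positivity
  rw [le_div_iff₀ hpos] at h1
  unfold zt
  nlinarith

/-- facts on the frequency -/
lemma freq_facts {η M b m : ℝ} (hη : 0 < η) (hb : 1 / 2 ≤ b) (hbM : b ≤ M) (hm : η ≤ m)
    (hmM : m + η ≤ M) :
    freq b m ^ 2 + b * freq b m = m ∧ gg η M ≤ freq b m ∧ freq b m ≤ M + 1 := by
  have hm0 : 0 ≤ b ^ 2 / 4 + m := by nlinarith [sq_nonneg b]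
  have e1 : freq b m ^ 2 + b * freq b m = m := by
    unfold freq
    have := Real.sq_sqrt hm0
    nlinarith
  have h0 : 0 < freq b m := by
    unfold freq
    have : b / 2 < √(b ^ 2 / 4 + m) := by
      apply Real.lt_sqrt_of_sq_lt
      nlinarith
    linarith
  have h1 : freq b m ≤ M + 1 := by
    by_contra hcon
    push Not at hcon
    nlinarith
  refine ⟨e1, ?_, h1⟩
  unfold gg
  rw [div_le_iff₀ (by linarith)]
  nlinarith

section
variable [FiniteDimensional ℝ G]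

/-- block data at a time of a home -/
lemma HomeCut.blk {N : ℕ} {F : Flow G} {e : Fin N → G} {l : ℕ} {hl : l ≤ N} {η M δ : ℝ}
    {m m' b' : ℝ → ℝ} {ta tc : ℝ} (h : HomeCut F e l hl η M δ m m' b' ta tc)
    (hδ : δ ≤ 1 / 2) {t : ℝ} (ht : t ∈ Icc ta tc) {lo : ℝ}
    (hlo : ∀ x, pr e l x = x → ⟪F.K t x, x⟫_ℝ ≤ lo * ‖x‖ ^ 2) :
    Blk (F.K t) (F.L t) (F.K t - F.b t • F.L t - (F.L t).comp (F.L t))
      (pr e l).toContinuousLinearMap (F.b t) (F.ρ t) lo (m t + η) := by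
  have ht1 : F.t1 < t := h.opn.t1_lt.trans_le ht.1
  have hsymm := F.symm
  refine
    { Lsym := F.symm t ht1
      Lpos := F.nonneg t ht1
      Dsym := ?_
      eq := fun x => ?_
      Dle := fun x => ?_
      Psym := fun x y => pr_symm h.orth l x y
      Pidem := fun x => pr_idem h.orth l x
      KP := fun x => h.comm t ht x
      lo_le := fun x hx => hlo x hx
      hi_le := fun x hx => h.opn.high t ht x fun i => inner_eq_zero_of_pr h.orth hl hx i
      b_ge := F.b_ge t ht1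
      ρ_nonneg := F.ρ_nonneg t ht1
      ρ_le := ((h.opn.ρ_le t ht).trans hδ).trans (F.b_ge t ht1) }
  · intro x y
    have hr := F.riccati t ht1
    have h1 : HasDerivAt (fun s => ⟪F.L s x, y⟫_ℝ)
        (⟪(F.K t - F.b t • F.L t - (F.L t).comp (F.L t)) x, y⟫_ℝ) t := by
      have := (hr.clm_apply (hasDerivAt_const t x)).inner ℝ (hasDerivAt_const t y)
      simpa using this
    have h2 : HasDerivAt (fun s => ⟪x, F.L s y⟫_ℝ)
        (⟪x, (F.K t - F.b t • F.L t - (F.L t).comp (F.L t)) y⟫_ℝ) t := by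
      have := (hasDerivAt_const t x).inner ℝ (hr.clm_apply (hasDerivAt_const t y))
      simpa using this
    have h3 : (fun s => ⟪F.L s x, y⟫_ℝ) =ᶠ[𝓝 t] fun s => ⟪x, F.L s y⟫_ℝ := by
      filter_upwards [lt_mem_nhds ht1] with s hs
      exact F.symm s hs x y
    exact (h1.congr_of_eventuallyEq h3.symm).unique h2
  · simp only [sub_apply, smul_apply, ContinuousLinearMap.comp_apply]
    abel
  · have := F.bound t ht1 x
    have e1 : ⟪(F.K t - F.b t • F.L t - (F.L t).comp (F.L t)) x, x⟫_ℝ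
        = ⟪F.K t x, x⟫_ℝ - F.b t * ⟪F.L t x, x⟫_ℝ - ‖F.L t x‖ ^ 2 := by
      simp only [sub_apply, smul_apply, ContinuousLinearMap.comp_apply,
        inner_sub_left, real_inner_smul_left]
      rw [F.symm t ht1 (F.L t x) x, real_inner_self_eq_norm_sq]
    rw [e1]
    exact this

lemma finrank_pr_le {N : ℕ} {e : Fin N → G} {l : ℕ} (hl : l ≤ N) (he : Orthonormal ℝ e) :
    (Module.finrank ℝ (LinearMap.range (((pr e l).toContinuousLinearMap : G →L[ℝ] G) : G →ₗ[ℝ] G)) : ℝ)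
      ≤ N := by
  have h1 : LinearMap.range (((pr e l).toContinuousLinearMap : G →L[ℝ] G) : G →ₗ[ℝ] G)
      ≤ Submodule.span ℝ (range e) := by
    rintro x ⟨y, rfl⟩
    have hx : pr e l (pr e l y) = pr e l y := pr_idem he l y
    have := mem_span_of_pr hl hx
    refine Submodule.span_mono ?_ this
    rintro _ ⟨i, rfl⟩
    exact ⟨_, rfl⟩
  have h2 := Submodule.finrank_mono h1
  have h3 : Module.finrank ℝ (Submodule.span ℝ (range e)) ≤ N := by
    have := finrank_range_le_card (R := ℝ) e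
    simpa [Set.finrank] using this
  exact_mod_cast h2.trans h3

set_option maxHeartbeats 1000000 in
/-- **block bounds on a home** -/
theorem HomeCut.homeB {N : ℕ} {F : Flow G} {e : Fin N → G} {l : ℕ} {hl : l ≤ N} {η M δ : ℝ}
    {m m' b' : ℝ → ℝ} {ta tc : ℝ} (h : HomeCut F e l hl η M δ m m' b' ta tc)
    (hη : 0 < η) (hM : 0 < M) (hδ0 : 0 < δ) (hδ : δ ≤ dl0 η M) :
    HomeB F.L (pr e l).toContinuousLinearMap (fun t => freq (F.b t) (m t) - gg η M)
      (fun t => freq (F.b t) (m t) + gg η M) (2 * gg η M) (zt N M δ) ta tc := by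
  have hδ12 : δ ≤ 1 / 2 := hδ.trans (min_le_left _ _)
  have hδ3 : δ * (12 * (M + 3)) ≤ η := by
    have := hδ.trans (min_le_right _ _)
    rwa [le_div_iff₀ (by positivity)] at this
  have hg := gg_pos hη hM
  have hgη : gg η M * (12 * (M + 1)) = η := by unfold gg; field_simp
  have key : ∀ t ∈ Icc ta tc, F.t1 < t ∧
      freq (F.b t) (m t) ^ 2 + F.b t * freq (F.b t) (m t) = m t ∧ gg η M ≤ freq (F.b t) (m t) ∧
      freq (F.b t) (m t) ≤ M + 1 ∧ 1 / 2 ≤ F.b t ∧ F.b t ≤ M ∧ 0 ≤ F.ρ t ∧ F.ρ t ≤ δ ∧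
      m t - η ≤ (freq (F.b t) (m t) - gg η M) ^ 2 + F.b t * (freq (F.b t) (m t) - gg η M)
        - F.ρ t * ((freq (F.b t) (m t) - gg η M) + 1) ∧
      (freq (F.b t) (m t) + gg η M) ^ 2 + F.b t * (freq (F.b t) (m t) + gg η M)
        + (4 * F.ρ t ^ 2 + F.ρ t) * ((freq (F.b t) (m t) + gg η M) + 1) ≤ m t + η := by
    intro t ht
    have ht1 : F.t1 < t := h.opn.t1_lt.trans_le ht.1
    have hb := F.b_ge t ht1
    have hbM := h.opn.b_le t ht
    have hm := h.opn.m_ge t ht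
    have hmM := h.opn.m_le t ht
    have hρ0 := F.ρ_nonneg t ht1
    have hρ := h.opn.ρ_le t ht
    obtain ⟨e1, e2, e3⟩ := freq_facts hη hb hbM hm hmM
    set γ := freq (F.b t) (m t) with hγ
    set g := gg η M with hgd
    have hηM : η ≤ M := by linarith
    have hg1 : g ≤ 1 := by nlinarith
    have hγ0 : 0 ≤ γ := hg.le.trans e2
    have h1 : g * (2 * γ + F.b t) ≤ η / 4 := by
      have : g * (2 * γ + F.b t) ≤ g * (3 * (M + 1)) := by
        apply mul_le_mul_of_nonneg_left _ hg.le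
        linarith
      linarith
    have h2 : F.ρ t * (γ + 1) ≤ η / 4 := by
      calc F.ρ t * (γ + 1) ≤ δ * (M + 2) := by
            apply mul_le_mul hρ (by linarith) (by linarith) hδ0.le
        _ ≤ η / 4 := by nlinarith
    have h3 : F.ρ t * (γ - g + 1) ≤ η / 4 := by
      refine le_trans ?_ h2
      apply mul_le_mul_of_nonneg_left _ hρ0
      linarith
    have h4 : (4 * F.ρ t ^ 2 + F.ρ t) * (γ + g + 1) ≤ η / 4 := by
      have h5 : 4 * F.ρ t ^ 2 + F.ρ t ≤ 3 * δ := by nlinarith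
      calc (4 * F.ρ t ^ 2 + F.ρ t) * (γ + g + 1) ≤ 3 * δ * (M + 3) := by
            apply mul_le_mul h5 (by linarith) (by linarith) (by positivity)
        _ ≤ η / 4 := by nlinarith
    have h5 : g ^ 2 ≤ η / 12 := by
      have : g ^ 2 ≤ g * 1 := by nlinarith
      have h6 : g ≤ η / 12 := by nlinarith
      linarith
    refine ⟨ht1, e1, e2, e3, hb, hbM, hρ0, hρ, ?_, ?_⟩
    · nlinarith [sq_nonneg g]
    · nlinarith
  have hζ0 : 0 ≤ zt N M δ := by unfold zt; positivity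
  refine
    { Psym := fun x y => pr_symm h.orth l x y
      Pidem := fun x => pr_idem h.orth l x
      Lsym := fun t ht => F.symm t (key t ht).1
      up := fun t ht x hx => ?_
      low := fun t ht y hy => ?_
      off := fun t ht x y hx hy => ?_
      a_nonneg := fun t ht => by have := (key t ht).2.2.1; linarith
      ac := fun t _ => by linarith
      g_pos := by linarith
      ζ_nonneg := hζ0 }
  · obtain ⟨-, -, k1, -, -, -, -, -, k2, -⟩ := key t ht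
    have hB := h.blk hδ12 ht (lo := m t - η)
      (fun x hx => h.opn.low t ht x (mem_span_of_pr hl hx))
    exact hB.upper (by linarith) k2 hx
  · obtain ⟨-, -, k1, -, -, -, -, -, -, k2⟩ := key t ht
    have hB := h.blk hδ12 ht (lo := m t - η)
      (fun x hx => h.opn.low t ht x (mem_span_of_pr hl hx))
    exact hB.lower (by linarith) k2 hy
  · obtain ⟨-, -, k1, k3, -, -, k4, k5, k2, -⟩ := key t ht
    have hB := h.blk hδ12 ht (lo := m t - η)
      (fun x hx => h.opn.low t ht x (mem_span_of_pr hl hx))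
    have h1 := hB.offdiag (by linarith) k2 hx hy
    have h2 : ⟪F.L t x, y⟫_ℝ ^ 2 ≤ (zt N M δ * (‖x‖ * ‖y‖)) ^ 2 := by
      refine h1.trans ?_
      have hfr := finrank_pr_le hl h.orth (e := e)
      set fr := (Module.finrank ℝ
        (LinearMap.range (((pr e l).toContinuousLinearMap : G →L[ℝ] G) : G →ₗ[ℝ] G)) : ℝ) with hfrd
      have hfr0 : 0 ≤ fr := by rw [hfrd]; positivity
      have hρ2 : F.ρ t ^ 2 ≤ δ ^ 2 := pow_le_pow_left₀ k4 k5 2
      have hA : freq (F.b t) (m t) - gg η M + 1 ≤ M + 2 := by linarith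
      have hA0 : 0 ≤ freq (F.b t) (m t) - gg η M + 1 := by linarith
      calc 4 * F.ρ t ^ 2 * (freq (F.b t) (m t) - gg η M + 1) * fr * (‖x‖ ^ 2 * ‖y‖ ^ 2)
          ≤ 4 * δ ^ 2 * (M + 2) * (N:ℝ) * (‖x‖ ^ 2 * ‖y‖ ^ 2) := by gcongr
        _ ≤ 4 * δ ^ 2 * (M + 2) ^ 2 * ((N:ℝ) + 1) ^ 2 * (‖x‖ ^ 2 * ‖y‖ ^ 2) := by
            have h3 : M + 2 ≤ (M + 2) ^ 2 := by nlinarith
            have h4 : (N:ℝ) ≤ ((N:ℝ) + 1) ^ 2 := by
              have : (0:ℝ) ≤ N := Nat.cast_nonneg N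
              nlinarith
            gcongr
        _ = (zt N M δ * (‖x‖ * ‖y‖)) ^ 2 := by unfold zt; ring
    have h3 : 0 ≤ zt N M δ * (‖x‖ * ‖y‖) :=
      mul_nonneg hζ0 (mul_nonneg (norm_nonneg _) (norm_nonneg _))
    exact abs_le_of_sq_le_sq h2 h3

omit [FiniteDimensional ℝ G] in
lemma Flow.sol (F : Flow G) {ta tc : ℝ} (h : F.t1 < ta) (x : G) :
    Sol F.L (fun t => F.U t x) ta tc := by
  intro t ht
  have h1 := F.hasDerivAt_U t (h.trans_le ht.1)
  have := h1.clm_apply (hasDerivAt_const t x)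
  simpa using this

end

/-! ## The home lemmas -/

theorem homeNarrow : HomeNarrow := by
  intro N η M C κ hη hM hC hκ
  have hθ : 0 < min κ C := lt_min hκ hC
  refine ⟨dlt N η M (min κ C) C, dlt_pos hη hM hθ,
    2 / (2 * gg η M) * Real.log (C / min κ C) + 1, ?_, ?_⟩
  · have h1 : 0 ≤ Real.log (C / min κ C) :=
      Real.log_nonneg ((one_le_div hθ).2 (min_le_right _ _))
    have h2 := gg_pos hη hM
    positivity
  intro G _ _ _ F e l hl m m' b' ta tc h x hx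
  have hB := h.homeB hη hM (dlt_pos hη hM hθ) (min_le_left _ _)
  have hS := F.sol (tc := tc) h.opn.t1_lt x
  have hz := zt_le (N := N) (θ₁ := min κ C) (θ₂ := C) hη hM le_rfl
  have hg := gg_pos hη hM
  have hz' : 2 * zt N M (dlt N η M (min κ C) C) * (1 + C ^ 2) ≤ C * (2 * gg η M) := by
    refine hz.trans ?_
    gcongr
    exact min_le_right _ _
  refine ⟨fun t ht => ?_, fun hT => ?_⟩
  · exact (hB.mono ht.1 le_rfl).cone_inward (hS.mono ht.1 le_rfl) ht.2 hC hz' hx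
  · have := hB.narrow hS hθ (min_le_right _ _) hz (by linarith) hx
    unfold PCone
    calc ‖F.U ta x - pr e l (F.U ta x)‖ ≤ min κ C * ‖pr e l (F.U ta x)‖ := this
      _ ≤ κ * ‖pr e l (F.U ta x)‖ := by
        gcongr
        exact min_le_left _ _

theorem homeFtoP : HomeFtoP := by
  intro N η M hη hM
  have hg := gg_pos hη hM
  refine ⟨dlt N η M 1 0, dlt_pos hη hM one_pos,
    (M + 1 + 2 * gg η M) / gg η M + 1, by positivity, ?_⟩
  intro G _ _ _ F e l hl m m' b' ta tc h t ht u hu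
  have hB := h.homeB hη hM (dlt_pos hη hM one_pos) (min_le_left _ _)
  have hz := zt_le (N := N) (θ₁ := 1) (θ₂ := 0) hη hM le_rfl
  set ζ := zt N M (dlt N η M 1 0) with hζd
  have hζ : ζ ≤ gg η M := by nlinarith
  have ht1 : F.t1 < t := h.opn.t1_lt.trans_le ht.1
  obtain ⟨-, e2, e3⟩ := freq_facts hη (F.b_ge t ht1) (h.opn.b_le t ht) (h.opn.m_ge t ht)
    (h.opn.m_le t ht)
  unfold FCone at hu
  unfold PCone
  set γ := freq (F.b t) (m t) with hγ
  set P := (pr e l).toContinuousLinearMap with hP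
  have hPa : ∀ z, P z = pr e l z := fun z => rfl
  set x := pr e l u with hx
  set y := u - pr e l u with hy
  have hpx : P x = x := by rw [hPa]; exact pr_idem h.orth l u
  have hpy : P y = 0 := by rw [hPa, hy, map_sub, pr_idem h.orth, sub_self]
  have huxy : u = x + y := by rw [hx, hy]; abel
  have hlow := hB.low t ht y hpy
  have hoff := (abs_le.1 (hB.off t ht x y hpx hpy)).1
  have hpos := F.nonneg t ht1 x
  have e4 : ⟪F.L t u, u⟫_ℝ = ⟪F.L t x, x⟫_ℝ + 2 * ⟪F.L t x, y⟫_ℝ + ⟪F.L t y, y⟫_ℝ := by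
    have hs : ⟪F.L t y, x⟫_ℝ = ⟪F.L t x, y⟫_ℝ := by
      rw [F.symm t ht1, real_inner_comm]
    rw [huxy, map_add, inner_add_left, inner_add_right, inner_add_right, hs]
    ring
  have e5 : ‖u‖ ^ 2 = ‖x‖ ^ 2 + ‖y‖ ^ 2 := norm_sq_split h.orth l u
  rw [e4, e5] at hu
  set X := ‖x‖ with hX
  set Y := ‖y‖ with hY
  have hX0 : 0 ≤ X := norm_nonneg _
  have hY0 : 0 ≤ Y := norm_nonneg _
  -- `g Y² ≤ γ X² + 2 ζ X Y`
  have h1 : gg η M * Y ^ 2 ≤ (M + 1) * X ^ 2 + 2 * gg η M * (X * Y) := by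
    have h2 : ζ * (X * Y) ≤ gg η M * (X * Y) := by gcongr
    have h3 : γ * X ^ 2 ≤ (M + 1) * X ^ 2 := by gcongr
    nlinarith
  by_contra hcon
  push Not at hcon
  have hC : ((M + 1 + 2 * gg η M) / gg η M + 1) * gg η M = M + 1 + 3 * gg η M := by
    field_simp; ring
  set CC := (M + 1 + 2 * gg η M) / gg η M + 1 with hCC
  have hCC1 : 1 ≤ CC := by
    have : 0 ≤ (M + 1 + 2 * gg η M) / gg η M := by positivity
    linarith
  have hXY : X ≤ Y := by nlinarith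
  have hYpos : 0 < Y := by nlinarith
  -- `g Y² ≥ g CC X Y = (M + 1 + 3 g) X Y`
  have h4 : gg η M * (CC * X) * Y < gg η M * Y * Y := by
    have : gg η M * (CC * X) < gg η M * Y := by gcongr
    exact mul_lt_mul_of_pos_right this hYpos
  have h5 : gg η M * (CC * X) * Y = (M + 1 + 3 * gg η M) * (X * Y) := by
    rw [← hC]; ring
  have h6 : X ^ 2 ≤ X * Y := by nlinarith
  nlinarith

theorem homeGrowth : HomeGrowth := by
  intro N η M C ε hη hM hC hε
  have hg := gg_pos hη hM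
  set δ := min (dlt N η M C C) (min (ε / (4 * (M + ε + 1))) (ε / (4 * (M + 2) * (N + 1) * C)))
    with hδd
  have hδ0 : 0 < δ := lt_min (dlt_pos hη hM hC) (lt_min (by positivity) (by positivity))
  refine ⟨δ, hδ0, ?_⟩
  intro G _ _ _ F e l hl m m' b' ta tc s h hs0 hsM hK x hx
  have hδ1 : δ ≤ dlt N η M C C := min_le_left _ _
  have hδ2 : δ * (4 * (M + ε + 1)) ≤ ε := by
    have := (min_le_right (dlt N η M C C) _).trans (min_le_left (ε / (4 * (M + ε + 1)))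
      (ε / (4 * (M + 2) * (N + 1) * C)))
    rwa [← hδd, le_div_iff₀ (by positivity)] at this
  have hδ3 : δ * (4 * (M + 2) * (N + 1) * C) ≤ ε := by
    have := (min_le_right (dlt N η M C C) _).trans (min_le_right (ε / (4 * (M + ε + 1)))
      (ε / (4 * (M + 2) * (N + 1) * C)))
    rwa [← hδd, le_div_iff₀ (by positivity)] at this
  have hδ4 : δ ≤ dl0 η M := hδ1.trans (min_le_left _ _)
  have hB := h.homeB hη hM hδ0 hδ4
  have hS := F.sol (tc := tc) h.opn.t1_lt x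
  have hz := zt_le (N := N) (θ₁ := C) (θ₂ := C) hη hM hδ1
  have hup : ∀ t ∈ Icc ta tc, ∀ x, (pr e l).toContinuousLinearMap x = x →
      ⟪F.L t x, x⟫_ℝ ≤ (s + ε / 2) * ‖x‖ ^ 2 := by
    intro t ht z hz
    have ht1 : F.t1 < t := h.opn.t1_lt.trans_le ht.1
    have hb := F.b_ge t ht1
    have hρ0 := F.ρ_nonneg t ht1
    have hρ := h.opn.ρ_le t ht
    have hBl := h.blk (hδ4.trans (min_le_left _ _)) ht (lo := s ^ 2 + F.b t * s)
      (fun x hx => hK t ht x (mem_span_of_pr hl hx))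
    refine hBl.upper (by positivity) ?_ hz
    have h1 : F.ρ t * (s + ε / 2 + 1) ≤ ε / 4 := by
      calc F.ρ t * (s + ε / 2 + 1) ≤ δ * (M + ε + 1) := by
            apply mul_le_mul hρ (by linarith) (by positivity) hδ0.le
        _ ≤ ε / 4 := by linarith
    nlinarith [mul_nonneg hs0 hε.le]
  have hmain := hB.growth hS h.opn.le hC hz hup hx
  have hζ : zt N M δ * C ≤ ε / 2 := by unfold zt; nlinarith
  refine hmain.trans ?_
  have hlen : 0 ≤ tc - ta := by have := h.opn.le; linarith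
  have hexp : s + ε / 2 + zt N M δ * C ≤ s + ε := by linarith
  gcongr

theorem homePtoF (hG : GateCone) : HomePtoF := by
  intro N η M C hη hM hC
  obtain ⟨δ₁, hδ₁, hG'⟩ := hG η M hη hM
  have hg := gg_pos hη hM
  set δ := min δ₁ (dlt N η M (C / 2) C) with hδd
  have hδ0 : 0 < δ := lt_min hδ₁ (dlt_pos hη hM (by positivity))
  refine ⟨δ, hδ0, Real.log (1 + C ^ 2) / gg η M + 1, ?_, ?_⟩
  · have : 0 ≤ Real.log (1 + C ^ 2) := Real.log_nonneg (by nlinarith [sq_nonneg C])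
    positivity
  intro G _ _ _ F e l hl m m' b' ta tc h hT x hx
  have hδ1 : δ ≤ dlt N η M (C / 2) C := min_le_right _ _
  have hB := h.homeB hη hM hδ0 (hδ1.trans (min_le_left _ _))
  have hS := F.sol (tc := tc) h.opn.t1_lt x
  have hz := zt_le (N := N) (θ₁ := C / 2) (θ₂ := C) hη hM hδ1
  by_cases hx0 : x = 0
  · subst hx0
    unfold FCone
    simp
  have hne : ∀ t ∈ Icc ta tc, F.U t x ≠ 0 := fun t ht h0 =>
    hx0 (F.inj t (h.opn.t1_lt.trans_le ht.1) (by rw [h0, map_zero]))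
  have hζ0 := hB.ζ_nonneg
  obtain ⟨t, ht, hft⟩ := hB.exists_freq hS h.opn.le (θ := C) hC
    (hz.trans (by nlinarith)) (by nlinarith) (by
      have e1 : 2 * gg η M / 2 * (tc - ta) = gg η M * (tc - ta) := by ring
      rw [e1]
      have h1 : Real.log (1 + C ^ 2) < gg η M * (tc - ta) := by
        have h2 : Real.log (1 + C ^ 2) / gg η M < tc - ta := by linarith
        rwa [div_lt_iff₀ hg, mul_comm] at h2
      rwa [← Real.log_lt_iff_lt_exp (by positivity)])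
    hx (hne tc (right_mem_Icc.2 h.opn.le)) (hne ta (left_mem_Icc.2 h.opn.le))
  have hopn : OpenCut F l η M δ₁ m m' b' (fun _ i => e (Fin.castLE hl i)) ta t :=
    { t1_lt := h.opn.t1_lt
      le := ht.1
      li := fun τ hτ => h.opn.li τ ⟨hτ.1, hτ.2.trans ht.2⟩
      cont := h.opn.cont.mono (Icc_subset_Icc le_rfl ht.2)
      low := fun τ hτ => h.opn.low τ ⟨hτ.1, hτ.2.trans ht.2⟩
      high := fun τ hτ => h.opn.high τ ⟨hτ.1, hτ.2.trans ht.2⟩
      m_deriv := fun τ hτ => h.opn.m_deriv τ ⟨hτ.1, hτ.2.trans ht.2⟩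
      m'_le := fun τ hτ => (h.opn.m'_le τ ⟨hτ.1, hτ.2.trans ht.2⟩).trans (min_le_left _ _)
      b_deriv := fun τ hτ => h.opn.b_deriv τ ⟨hτ.1, hτ.2.trans ht.2⟩
      b'_le := fun τ hτ => (h.opn.b'_le τ ⟨hτ.1, hτ.2.trans ht.2⟩).trans (min_le_left _ _)
      b_le := fun τ hτ => h.opn.b_le τ ⟨hτ.1, hτ.2.trans ht.2⟩
      m_ge := fun τ hτ => h.opn.m_ge τ ⟨hτ.1, hτ.2.trans ht.2⟩
      m_le := fun τ hτ => h.opn.m_le τ ⟨hτ.1, hτ.2.trans ht.2⟩
      ρ_le := fun τ hτ => (h.opn.ρ_le τ ⟨hτ.1, hτ.2.trans ht.2⟩).trans (min_le_left _ _) }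
  refine hG' G F l m m' b' _ ta t hopn x ?_
  unfold FCone
  refine hft.trans (le_of_eq ?_)
  ring

end Crest.Agent.R202.Seg
end

-- ▼ part R202/HomeSign
section

/-! # Row 202, PART B2: the home lemma `homeSign` (helper384) -/

set_option autoImplicit false
open Set Filter Topology
open scoped InnerProductSpace

namespace Crest.Agent.R202.Seg

open Crest.Agent.R202.Mix Crest.Agent.R202.HomeL

lemma mul_pos_of_continuousOn {D : ℝ → ℝ} (hc : ContinuousOn D (Icc 0 1))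
    (hne : ∀ τ ∈ Icc (0:ℝ) 1, D τ ≠ 0) : 0 < D 0 * D 1 := by
  by_contra hcon
  push Not at hcon
  have h0 := hne 0 (left_mem_Icc.2 zero_le_one)
  have h1 := hne 1 (right_mem_Icc.2 zero_le_one)
  have hmem : (0:ℝ) ∈ uIcc (D 0) (D 1) := by
    rcases lt_or_gt_of_ne h0 with h | h
    · have : 0 ≤ D 1 := by by_contra hh; push Not at hh; nlinarith [mul_pos_of_neg_of_neg h hh]
      rw [uIcc_of_le (h.le.trans this)]; exact ⟨h.le, this⟩
    · have : D 1 ≤ 0 := by by_contra hh; push Not at hh; nlinarith [mul_pos h hh]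
      rw [uIcc_of_ge (this.trans h.le)]; exact ⟨this, h.le⟩
  have := intermediate_value_uIcc (a := (0:ℝ)) (b := 1) (f := D)
    (by rwa [uIcc_of_le zero_le_one]) hmem
  obtain ⟨τ, hτ, h⟩ := this
  rw [uIcc_of_le zero_le_one] at hτ
  exact hne τ hτ h

variable {G : Type} [NormedAddCommGroup G] [InnerProductSpace ℝ G]

lemma pr_eq_sum {N : ℕ} (e : Fin N → G) {l : ℕ} (hl : l ≤ N) (u : G) :
    pr e l u = ∑ i : Fin l, ⟪e (Fin.castLE hl i), u⟫_ℝ • e (Fin.castLE hl i) := by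
  classical
  rw [pr_apply]
  rw [← Finset.sum_filter]
  symm
  refine Finset.sum_bij (fun i _ => Fin.castLE hl i) ?_ ?_ ?_ ?_
  · intro i _; simp
  · intro i _ j _ h; exact Fin.castLE_injective hl h
  · intro j hj
    rw [Finset.mem_filter] at hj
    exact ⟨⟨j.1, hj.2⟩, Finset.mem_univ _, by ext; simp⟩
  · intro i _; rfl

theorem homeSign : HomeSign := by
  intro N η M C hη hM hC
  have hg := gg_pos hη hM
  refine ⟨dlt N η M (C / 2) C, dlt_pos hη hM (by positivity), ?_⟩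
  intro G _ _ _ F e l hl m m' b' ta tc h t ht v hv hcone
  set δ := dlt N η M (C / 2) C with hδ
  have hδ0 : 0 < δ := dlt_pos hη hM (by positivity)
  have hB := h.homeB hη hM hδ0 (min_le_left _ _)
  have hz := zt_le (N := N) (θ₁ := C / 2) (θ₂ := C) hη hM (le_refl δ)
  have ht1 : F.t1 < t := h.opn.t1_lt.trans_le ht.1
  have hζC : zt N M δ * C < gg η M := by
    have hζ0 := hB.ζ_nonneg
    nlinarith [sq_nonneg C]
  set γ := freq (F.b t) (m t) with hγ
  set P := (pr e l).toContinuousLinearMap with hP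
  have hPa : ∀ z, P z = pr e l z := fun z => rfl
  set ei : Fin l → G := fun i => e (Fin.castLE hl i) with hei
  have heo : Orthonormal ℝ ei := h.orth.comp _ (Fin.castLE_injective hl)
  set X : Matrix (Fin l) (Fin l) ℝ := Matrix.of fun i j => ⟪ei i, F.U t (v j)⟫_ℝ with hX
  set Q : Matrix (Fin l) (Fin l) ℝ := Matrix.of fun i j =>
    ⟪F.L t (ei i), F.U t (v j)⟫_ℝ - γ * ⟪ei i, F.U t (v j)⟫_ℝ with hQ
  -- solutions with coefficients `d`
  have hsol : ∀ d : Fin l → ℝ, F.U t (∑ j, d j • v j) = ∑ j, d j • F.U t (v j) := by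
    intro d; simp only [map_sum, map_smul]
  have hXd : ∀ (d : Fin l → ℝ) (i : Fin l),
      ⟪ei i, F.U t (∑ j, d j • v j)⟫_ℝ = (X.mulVec d) i := by
    intro d i
    rw [hsol, inner_sum]
    simp only [Matrix.mulVec, dotProduct, hX, Matrix.of_apply]
    refine Finset.sum_congr rfl fun j _ => ?_
    rw [real_inner_smul_right]; ring
  have hmem : ∀ d : Fin l → ℝ, ∑ j, d j • v j ∈ Submodule.span ℝ (range v) := fun d =>
    Submodule.sum_mem _ fun j _ => Submodule.smul_mem _ _ (Submodule.subset_span ⟨j, rfl⟩)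
  have hXdet : X.det ≠ 0 := by
    intro h0
    obtain ⟨d, hd0, hd⟩ := Matrix.exists_mulVec_eq_zero_iff.2 h0
    have hpr : pr e l (F.U t (∑ j, d j • v j)) = 0 := by
      rw [pr_eq_sum e hl]
      refine Finset.sum_eq_zero fun i _ => ?_
      have := hXd d i
      simp only [hei] at this
      rw [this, hd]; simp
    have hc := hcone _ (hmem d)
    unfold PCone at hc
    rw [hpr, norm_zero, mul_zero, sub_zero] at hc
    have hu0 : F.U t (∑ j, d j • v j) = 0 := norm_le_zero_iff.1 hc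
    have hw0 : ∑ j, d j • v j = 0 := F.inj t ht1 (by rw [hu0, map_zero])
    exact hd0 (funext fun j => (Fintype.linearIndependent_iff.1 hv) d hw0 j)
  have hne : ∀ τ ∈ Icc (0:ℝ) 1, ((1 - τ) • Q - τ • X).det ≠ 0 := by
    intro τ hτ h0
    obtain ⟨c, hc0, hc⟩ := Matrix.exists_vecMul_eq_zero_iff.2 h0
    set d : Fin l → ℝ := X⁻¹.mulVec c with hd
    have hXdc : X.mulVec d = c := by
      rw [hd, Matrix.mulVec_mulVec, Matrix.mul_nonsing_inv X (isUnit_iff_ne_zero.2 hXdet),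
        Matrix.one_mulVec]
    set u := F.U t (∑ j, d j • v j) with hu
    set x := pr e l u with hx
    set y := u - pr e l u with hy
    have hxs : x = ∑ i, c i • ei i := by
      rw [hx, pr_eq_sum e hl]
      refine Finset.sum_congr rfl fun i _ => ?_
      have := hXd d i
      rw [hXdc] at this
      simp only [hei] at this ⊢
      rw [this]
    have hxne : x ≠ 0 := by
      intro hx0
      rw [hxs] at hx0
      exact hc0 (funext fun i =>
        (Fintype.linearIndependent_iff.1 heo.linearIndependent) c hx0 i)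
    have hxpos : 0 < ‖x‖ ^ 2 := by have := norm_pos_iff.2 hxne; positivity
    have hcn := hcone _ (hmem d)
    unfold PCone at hcn
    rw [← hu, ← hy, ← hx] at hcn
    have hpx : P x = x := by rw [hPa]; exact pr_idem h.orth l u
    have hpy : P y = 0 := by rw [hPa, hy, map_sub, pr_idem h.orth, sub_self]
    have huxy : u = x + y := by rw [hx, hy]; abel
    have hxu : ⟪x, u⟫_ℝ = ‖x‖ ^ 2 := by
      have h1 : ⟪x, y⟫_ℝ = 0 := inner_pr_sub h.orth l u u
      rw [huxy, inner_add_right, h1, real_inner_self_eq_norm_sq, add_zero]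
    have hLx : ⟪F.L t x, u⟫_ℝ ≤ (γ - gg η M + zt N M δ * C) * ‖x‖ ^ 2 := by
      have h1 := hB.up t ht x hpx
      have h2 := (abs_le.1 (hB.off t ht x y hpx hpy)).2
      have h3 : zt N M δ * (‖x‖ * ‖y‖) ≤ zt N M δ * (‖x‖ * (C * ‖x‖)) := by
        apply mul_le_mul_of_nonneg_left _ hB.ζ_nonneg
        gcongr
      have e1 : ⟪F.L t x, u⟫_ℝ = ⟪F.L t x, x⟫_ℝ + ⟪F.L t x, y⟫_ℝ := by
        rw [← inner_add_right, ← huxy]
      rw [e1]
      nlinarith
    -- the pairing of `c` and `d`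
    have hpair : dotProduct (Matrix.vecMul c ((1 - τ) • Q - τ • X)) d
        = (1 - τ) * (⟪F.L t x, u⟫_ℝ - γ * ⟪x, u⟫_ℝ) - τ * ⟪x, u⟫_ℝ := by
      have e1 : ⟪x, u⟫_ℝ = ∑ i, c i * (X.mulVec d) i := by
        rw [hxs, sum_inner]
        refine Finset.sum_congr rfl fun i _ => ?_
        rw [real_inner_smul_left, hu, hXd]
      have e2 : ⟪F.L t x, u⟫_ℝ - γ * ⟪x, u⟫_ℝ = ∑ i, c i * (Q.mulVec d) i := by
        have e3 : ∀ i, (Q.mulVec d) i = ⟪F.L t (ei i), u⟫_ℝ - γ * ⟪ei i, u⟫_ℝ := by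
          intro i
          rw [hu, hsol, inner_sum, inner_sum, Finset.mul_sum, ← Finset.sum_sub_distrib]
          simp only [Matrix.mulVec, dotProduct, hQ, Matrix.of_apply]
          refine Finset.sum_congr rfl fun j _ => ?_
          rw [real_inner_smul_right, real_inner_smul_right]; ring
        rw [hxs, map_sum, sum_inner, sum_inner, Finset.mul_sum, ← Finset.sum_sub_distrib]
        refine Finset.sum_congr rfl fun i _ => ?_
        rw [e3, map_smul, real_inner_smul_left, real_inner_smul_left]; ring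
      rw [← Matrix.dotProduct_mulVec, Matrix.sub_mulVec, Matrix.smul_mulVec, Matrix.smul_mulVec,
        dotProduct_sub, dotProduct_smul, dotProduct_smul, e2, e1]
      simp only [dotProduct, smul_eq_mul]
    rw [hc, zero_dotProduct, hxu] at hpair
    have hτ0 := hτ.1
    have hτ1 := hτ.2
    have h5 : (1 - τ) * (⟪F.L t x, u⟫_ℝ - γ * ‖x‖ ^ 2)
        ≤ (1 - τ) * ((zt N M δ * C - gg η M) * ‖x‖ ^ 2) := by
      apply mul_le_mul_of_nonneg_left _ (by linarith)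
      linarith
    have h6 : (1 - τ) * ((zt N M δ * C - gg η M) * ‖x‖ ^ 2) - τ * ‖x‖ ^ 2 < 0 := by
      rcases eq_or_lt_of_le hτ0 with h7 | h7
      · rw [← h7]; nlinarith
      · have : (1 - τ) * ((gg η M - zt N M δ * C) * ‖x‖ ^ 2) ≥ 0 := by
          apply mul_nonneg (by linarith)
          apply mul_nonneg (by linarith) hxpos.le
        nlinarith
    linarith
  have hcont : ContinuousOn (fun τ : ℝ => ((1 - τ) • Q - τ • X).det) (Icc 0 1) := by
    apply Continuous.continuousOn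
    apply Continuous.matrix_det
    fun_prop
  have hprod := mul_pos_of_continuousOn hcont hne
  simp only [sub_zero, one_smul, zero_smul, sub_self, zero_sub] at hprod
  rw [Matrix.det_neg, Fintype.card_fin] at hprod
  have e1 : orDet F m (fun _ i => e (Fin.castLE hl i)) v t = Q.det := rfl
  rw [e1]
  calc 0 < Q.det * ((-1) ^ l * X.det) := hprod
    _ = (-1) ^ l * Q.det * X.det := by ring

end Crest.Agent.R202.Seg
end

-- ▼ part R202/BFinMix
section

set_option autoImplicit false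

open Set
open scoped InnerProductSpace

namespace Crest.Agent.R202.BFin

open Crest.Agent.R202.Mix (MixData)
open Crest.Agent.R202.Seg
open Crest.Agent.R202.Sch (hs he Th Tg sf)

/-- FINITE-DIMENSIONAL EXPORT OF PART B (all lemmas discharged) -/
theorem exists_mixDataL
    (mm : ℕ) {sI : ℝ} (hsI : 0 < sI) {N i0 : ℕ} (hi0 : 1 ≤ i0) (hiN : i0 ≤ N)
    {η Cμ Mμ ε : ℝ} {Λ a : ℕ → ℝ} (hη : 0 < η) (hCμ : 0 ≤ Cμ) (hε : 0 < ε)
    (ha : ∀ l, i0 ≤ l → l ≤ N → 0 ≤ a l ∧ Real.exp (2 * sI) * Λ l ≤ a l ^ 2 + (mm + 1) * a l) :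
    ∃ δ > 0, ∃ Lc0 > 0, ∃ CΓ > 0, ∃ M > 0, ∀ Lc : ℝ, Lc0 ≤ Lc →
      ∃ A0 : ℝ, 1 ≤ A0 ∧ ∀ A : ℝ, A0 ≤ A →
      2 * Lc + 1 ≤ A ∧
      ∀ (G : Type) [NormedAddCommGroup G] [InnerProductSpace ℝ G] [FiniteDimensional ℝ G]
        (ι : Type) (LS : LoopSys G ι N i0 η Cμ Mμ Λ) (P : ℕ) (jq : ℕ → ι)
        (FF : FlowFam LS mm sI A δ P jq), ∃ D : MixData G N P,
        D.e = LS.e ∧ D.i0 = i0 ∧ (D.a = fun l => a l + ε) ∧
        (D.T = fun q => Th A q - 2 * Lc) ∧ (D.ε = fun _ => Real.log 4) ∧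
        (D.d = fun k => LS.des (jq k.1)) ∧
        (D.Γ = fun k => CΓ * Real.exp (M * (Tg A k.1 + 2 * Lc))) ∧
        (∀ q κ u, D.Jm q κ u = (FF.F κ).U (hs A q + Lc)
          (Ring.inverse ((FF.F κ).U (he A P - Lc)) (∑ j, u j • LS.e j))) ∧
        (∀ q κ u, D.Jp q κ u = (FF.F κ).U (he A q - Lc)
          (Ring.inverse ((FF.F κ).U (he A P - Lc)) (∑ j, u j • LS.e j))) :=
  exists_mixData_of_loopsL gateCone gateSign homeNarrow (homePtoF gateCone) homeFtoP homeGrowth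
    homeSign mm hsI hi0 hiN hη hCμ hε ha


variable {G : Type} [NormedAddCommGroup G] [InnerProductSpace ℝ G] {ι : Type}
  {N i0 : ℕ} {η Cμ Mμ : ℝ} {Λ : ℕ → ℝ}

/-- flows with a smaller error bound -/
def FlowFam.mono {LS : LoopSys G ι N i0 η Cμ Mμ Λ} {mm : ℕ} {sI A δ δ' : ℝ} {P : ℕ} {jq : ℕ → ι}
    (FF : FlowFam LS mm sI A δ P jq) (h : δ ≤ δ') : FlowFam LS mm sI A δ' P jq where
  F := FF.F
  K_gate := FF.K_gate
  K_home := FF.K_home
  b_eq := FF.b_eq
  t1_lt := FF.t1_lt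
  ρ_le := fun κ t ht => (FF.ρ_le κ t ht).trans h
  cont := FF.cont

/-- the value at time `t` of the solution with boundary data `u` -/
noncomputable def FlowFam.sol {LS : LoopSys G ι N i0 η Cμ Mμ Λ} {mm : ℕ} {sI A δ : ℝ} {P : ℕ}
    {jq : ℕ → ι} (FF : FlowFam LS mm sI A δ P jq) (Lc : ℝ) (κ : Mix.Cube P) (t : ℝ)
    (u : Fin N → ℝ) : G :=
  (FF.F κ).U t (Ring.inverse ((FF.F κ).U (he A P - Lc)) (∑ j, u j • LS.e j))

/-- FINITE-DIMENSIONAL EXPORT OF PART B, with the normalisation facts in home `0`: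
(E1) at the inner end of home `0` all solutions are in the `κn`-cone around the span of `e`;
(E2) their frequency is `≤ M2` on a unit interval after it. -/
theorem exists_mixDataL'
    (mm : ℕ) {sI : ℝ} (hsI : 0 < sI) {N i0 : ℕ} (hi0 : 1 ≤ i0) (hiN : i0 ≤ N)
    {η Cμ Mμ ε κn : ℝ} {Λ a : ℕ → ℝ} (hη : 0 < η) (hCμ : 0 ≤ Cμ) (hε : 0 < ε) (hκn : 0 < κn)
    (ha : ∀ l, i0 ≤ l → l ≤ N → 0 ≤ a l ∧ Real.exp (2 * sI) * Λ l ≤ a l ^ 2 + (mm + 1) * a l) :
    ∃ δ > 0, ∃ Lc0 > 0, ∃ CΓ > 0, ∃ M > 0, ∃ M2 > 0, ∀ Lc : ℝ, Lc0 ≤ Lc →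
      ∃ A0 : ℝ, 1 ≤ A0 ∧ ∀ A : ℝ, A0 ≤ A →
      2 * Lc + 1 ≤ A ∧
      ∀ (G : Type) [NormedAddCommGroup G] [InnerProductSpace ℝ G] [FiniteDimensional ℝ G]
        (ι : Type) (LS : LoopSys G ι N i0 η Cμ Mμ Λ) (P : ℕ) (jq : ℕ → ι)
        (FF : FlowFam LS mm sI A δ P jq), ∃ D : MixData G N P,
        D.e = LS.e ∧ D.i0 = i0 ∧ (D.a = fun l => a l + ε) ∧
        (D.T = fun q => Th A q - 2 * Lc) ∧ (D.ε = fun _ => Real.log 4) ∧
        (D.d = fun k => LS.des (jq k.1)) ∧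
        (D.Γ = fun k => CΓ * Real.exp (M * (Tg A k.1 + 2 * Lc))) ∧
        (∀ q κ u, D.Jm q κ u = FF.sol Lc κ (hs A q + Lc) u) ∧
        (∀ q κ u, D.Jp q κ u = FF.sol Lc κ (he A q - Lc) u) ∧
        (∀ κ u, PCone LS.e N κn (FF.sol Lc κ (hs A 0 + Lc) u)) ∧
        (∀ κ u, ∀ t ∈ Icc (hs A 0 + Lc) (hs A 0 + Lc + 1),
          ⟪(FF.F κ).L t (FF.sol Lc κ t u), FF.sol Lc κ t u⟫_ℝ ≤ M2 * ‖FF.sol Lc κ t u‖ ^ 2) := by
  obtain ⟨δ, hδ, Lc0, hLc0, CΓ, hCΓ, M, hM, hmainL⟩ :=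
    exists_mixDataL mm hsI hi0 hiN hη hCμ hε ha
  -- size constant for home `0`
  set M1 : ℝ := (mm + 1 : ℝ) + Real.exp (2 * sI) * |Mμ| with hM1
  have hexp : 0 < Real.exp (2 * sI) := Real.exp_pos _
  have h0 : (0 : ℝ) ≤ mm := Nat.cast_nonneg mm
  have hM1pos : 0 < M1 := by rw [hM1]; positivity
  obtain ⟨δ1, hδ1, T1, hT1, hn⟩ := homeNarrow N η M1 1 κn hη hM1pos one_pos hκn
  obtain ⟨δ2, hδ2, T2, hT2, hf⟩ := homePtoF gateCone N η M1 1 hη hM1pos one_pos
  set δ' : ℝ := min δ (min δ1 δ2) with hδ'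
  have hδ'pos : 0 < δ' := by rw [hδ']; simp only [lt_min_iff]; exact ⟨hδ, hδ1, hδ2⟩
  have hd0 : δ' ≤ δ := min_le_left _ _
  have hd1 : δ' ≤ δ1 := (min_le_right _ _).trans (min_le_left _ _)
  have hd2 : δ' ≤ δ2 := (min_le_right _ _).trans (min_le_right _ _)
  -- the slope bound
  obtain ⟨c0, hc0, hc0a, hc0b, hc0c⟩ : ∃ c0 : ℝ, 0 < c0 ∧ c0 ≤ 1 ∧
      (mm + 2) * c0 ≤ δ' ∧ Real.exp (2 * sI) * (2 * c0 * Mμ) ≤ δ' / 2 := by
    have q2 : (0 : ℝ) < 4 * Real.exp (2 * sI) * (|Mμ| + 1) := by positivity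
    set c1 := min 1 (min (δ' / (mm + 2)) (δ' / (4 * Real.exp (2 * sI) * (|Mμ| + 1)))) with hc1
    have h3 : 0 < c1 := by
      rw [hc1]
      simp only [lt_min_iff]
      refine ⟨one_pos, by positivity, by positivity⟩
    refine ⟨c1, h3, min_le_left _ _, ?_, ?_⟩
    · have h1 : c1 ≤ δ' / (mm + 2) := (min_le_right _ _).trans (min_le_left _ _)
      have h2 := mul_le_mul_of_nonneg_left h1 (by positivity : (0 : ℝ) ≤ (mm : ℝ) + 2)
      refine h2.trans (le_of_eq ?_)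
      field_simp
    · have h1 : c1 ≤ δ' / (4 * Real.exp (2 * sI) * (|Mμ| + 1)) :=
        (min_le_right _ _).trans (min_le_right _ _)
      calc Real.exp (2 * sI) * (2 * c1 * Mμ) ≤ Real.exp (2 * sI) * (2 * c1 * (|Mμ| + 1)) := by
            refine mul_le_mul_of_nonneg_left (mul_le_mul_of_nonneg_left ?_ (by positivity)) hexp.le
            linarith [le_abs_self Mμ]
        _ ≤ Real.exp (2 * sI) * (2 * (δ' / (4 * Real.exp (2 * sI) * (|Mμ| + 1))) *
            (|Mμ| + 1)) := by gcongr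
        _ = δ' / 2 := by field_simp; ring
  obtain ⟨A1, hA1, hsch⟩ := Sch.exists_A hsI hc0 0 one_pos
  refine ⟨δ', hδ'pos, Lc0, hLc0, CΓ, hCΓ, M, hM, M1 + 1, by linarith, fun Lc hLcc => ?_⟩
  have hLc : 0 < Lc := lt_of_lt_of_le hLc0 hLcc
  obtain ⟨A0, hA0, hmain⟩ := hmainL Lc hLcc
  refine ⟨max A0 (max A1 (max (T1 + T2 + 1 + 2 * Lc) (2 * Real.exp (2 * sI) * Cμ / δ'))),
    hA0.trans (le_max_left _ _), fun A hA => ?_⟩
  have hAA0 : A0 ≤ A := (le_max_left _ _).trans hA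
  have hAA1 : A1 ≤ A := (le_max_left _ _).trans ((le_max_right _ _).trans hA)
  have hAA2 : T1 + T2 + 1 + 2 * Lc ≤ A :=
    (le_max_left _ _).trans ((le_max_right _ _).trans ((le_max_right _ _).trans hA))
  have hAA3 : 2 * Real.exp (2 * sI) * Cμ / δ' ≤ A :=
    (le_max_right _ _).trans ((le_max_right _ _).trans ((le_max_right _ _).trans hA))
  obtain ⟨hLA, hmain'⟩ := hmain A hAA0
  refine ⟨hLA, ?_⟩
  intro G _ _ _ ι LS P jq FF
  have hApos : 0 < A := by linarith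
  have hA5 : Real.exp (2 * sI) * (Cμ * (1 / A)) ≤ δ' / 2 := by
    rw [div_le_iff₀ hδ'pos] at hAA3
    have h4 : Real.exp (2 * sI) * (Cμ * (1 / A)) = (2 * Real.exp (2 * sI) * Cμ) / (2 * A) := by
      field_simp
    rw [h4, div_le_iff₀ (by positivity)]
    nlinarith
  obtain ⟨hsA, -, -⟩ := hsch A hAA1
  obtain ⟨D, e1, e2, e3, e4, e5, e6, e7, e8, e9⟩ := hmain' G ι LS P jq (FF.mono hd0)
  -- home `0` as a home cut, cut `N`
  obtain ⟨μ, hμM, hlow, hhigh⟩ := LS.home_gap N le_rfl hiN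
  have hTh : A ≤ Th A 0 := by unfold Th; norm_num
  have hcut : ∀ (κ : Mix.Cube P) (α β : ℝ), hs A 0 + Lc ≤ α → α ≤ β → β ≤ he A 0 - Lc →
      HomeCut (FF.F κ) LS.e N le_rfl η M1 δ' (mfun sI (fun _ => μ) 0 A)
        (mfun' sI (fun _ => μ) (fun _ => 0) 0 A)
        (fun t => -((mm + 2) * deriv (deriv (sf sI)) t)) α β := by
    intro κ α β hα hαβ hβ
    have h2A : 2 * A ≤ hs A 0 := Sch.two_mul_le_hs hApos 0
    refine homeCut_of (c0 := c0) (A := A) (Mμ := Mμ) (Cμ := Cμ) (μ := fun _ => μ)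
      (μ' := fun _ => 0) (c := 0) (T := A) hsI LS (FF.F κ) (by omega) le_rfl hη hApos le_rfl
      (lt_of_lt_of_le (FF.t1_lt κ) (by linarith)) hαβ ?_
      (FF.b_eq κ) ?_ ?_ ?_ (by rw [mul_add]; linarith) hc0b
      (by rw [hM1]; have := mul_nonneg hexp.le (abs_nonneg Mμ); linarith)
      (by rw [hM1]; have h8 := mul_le_mul_of_nonneg_left (le_abs_self Mμ) hexp.le; linarith)
      hCμ (fun τ => hasDerivAt_const τ μ) ?_ (fun _ => hμM) ?_ ?_
    · intro t ht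
      exact FF.K_home κ 0 (Nat.zero_le P) t (by linarith [ht.1]) (by linarith [ht.2])
    · intro t ht
      exact FF.ρ_le κ t (by linarith [ht.1])
    · intro t ht
      exact (hsA t (by linarith [ht.1])).2.1
    · intro t ht
      have h1 := (hsA t (by linarith [ht.1])).2.2
      have h2 := (hsA t (by linarith [ht.1])).2.1
      have h3 := Sch.deriv_sf_nonneg hsI t
      nlinarith
    · intro τ; simpa using hCμ
    · intro t _ x hx
      exact hlow x hx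
    · intro t _ x hx
      exact hhigh x hx
  have hend : hs A 0 + Lc + (T1 + T2 + 1) ≤ he A 0 - Lc := by
    rw [Sch.he_eq]
    linarith
  have hP1 : ∀ (κ : Mix.Cube P) (u : Fin N → ℝ), PCone LS.e N 1 ((FF.F κ).U (he A 0 - Lc)
      (Ring.inverse ((FF.F κ).U (he A P - Lc)) (∑ j, u j • LS.e j))) := by
    intro κ u
    have h1 := D.coneN_p 0 (Nat.zero_le P) κ u
    rw [e9, e1] at h1
    unfold PCone
    rw [one_mul]
    exact h1
  refine ⟨D, e1, e2, e3, e4, e5, e6, e7, e8, e9, ?_, ?_⟩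
  · intro κ u
    exact (hn G (FF.F κ) LS.e N le_rfl _ _ _ _ _ ((hcut κ (hs A 0 + Lc) (he A 0 - Lc) le_rfl
      (by linarith) le_rfl).mono hd1) _ (hP1 κ u)).2 (by linarith)
  · intro κ u t ht
    have hc := hcut κ t (he A 0 - Lc) ht.1 (by linarith [ht.2]) le_rfl
    have h1 := hf G (FF.F κ) LS.e N le_rfl _ _ _ _ _ (hc.mono hd2) (by linarith [ht.2]) _
      (hP1 κ u)
    unfold FCone at h1
    refine h1.trans (mul_le_mul_of_nonneg_right ?_ (by positivity))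
    have h2 := hc.opn.m_le t ⟨le_rfl, hc.opn.le⟩
    have h3 := (FF.F κ).b_ge t (lt_of_lt_of_le hc.opn.t1_lt le_rfl)
    have h4 := freq_le_add_one (b := (FF.F κ).b t) (by linarith) hM1pos.le
      (by linarith : mfun sI (fun _ => μ) 0 A t ≤ M1)
    linarith


end Crest.Agent.R202.BFin
end

-- ▼ part R202/BridH
section

/-!
# Row 202, bridge (helper684): normalised solutions in one sector
-/

set_option autoImplicit false
open MeasureTheory Metric Set Filter Topology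
open scoped ContDiff RealInnerProductSpace

namespace Crest.Agent.R202.Brid

open Crest.Agent.R202.Gal

variable {G : Type*} [NormedAddCommGroup G] [InnerProductSpace ℝ G]

/-- **Normalised solutions.** `J w` = initial vector of the solution with boundary data `w`. -/
theorem sector_solutions {C : Coef G} {U V : ℝ → G →L[ℝ] G} (hsol : Sol C U V) (ht0 : C.t0 = 0)
    {N P : ℕ} {tm tp : ℕ → ℝ} (h0 : 0 ≤ tm 0) (h1 : ∀ q, q ≤ P → tm q ≤ tp q)
    (h2 : ∀ q, q < P → tp q ≤ tm (q + 1)) {k Cm Cd : ℝ} (hk : 0 ≤ k) (hCm : 0 ≤ Cm)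
    (J : (Fin N → ℝ) → G)
    (hb : ∀ w, ∀ q, q ≤ P → ‖U (tp q) (J w)‖ ≤
      Cm * Real.exp (k * ∑ i ∈ Finset.range q, (tp i - tm i)) * ‖U (tm 0) (J w)‖)
    (F : Fin N → G) (w : Fin N → Fin N → ℝ)
    (hdual : ∀ i j, ⟪F i, U (tm 0) (J (w j))⟫ = if i = j then 1 else 0)
    (hw : ∀ j, ‖U (tm 0) (J (w j))‖ ≤ Cd) :
    (∀ c, Reg C (fun t => U t (J (w c))) (fun t => V t (J (w c)))) ∧
    (∀ c t, 0 ≤ t → t ≤ tp P → ‖U t (J (w c))‖ ≤ Cm * Cd * Real.exp (k * max t 0)) ∧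
    ∀ {B C2 dl ε : ℝ}, 0 ≤ B → (∀ t, C.b t ≤ B) → (∀ i, ‖F i‖ ≤ C2) → 0 < dl → dl ≤ 1 →
      tm 0 + 2 ≤ tp P →
      Real.sqrt dl * (C2 ^ 2 + Real.exp (2 * B) *
        (Cm * Cd * Real.exp (k * (tm 0 + 2))) ^ 2) ≤ ε →
      ∀ i c, ∀ t ∈ Icc (tm 0) (tm 0 + dl),
        |⟪F i, U t (J (w c))⟫ - if i = c then 1 else 0| ≤ ε := by
  have hgrow : ∀ c t, 0 ≤ t → t ≤ tp P → ‖U t (J (w c))‖ ≤ Cm * Cd * Real.exp (k * max t 0) := by
    intro c t h3 h4
    have hCd : 0 ≤ Cd := (norm_nonneg _).trans (hw c)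
    have h5 := growth_steps (n := fun t => ‖U t (J (w c))‖) (t0 := 0)
      (fun s t hs hst => hsol.norm_mono (by rw [ht0]; exact hs) hst (J (w c)))
      h0 h1 h2 hk (mul_nonneg hCm hCd) (fun q hq => by
        refine (hb (w c) q hq).trans ?_
        calc Cm * Real.exp (k * ∑ i ∈ Finset.range q, (tp i - tm i)) * ‖U (tm 0) (J (w c))‖
            ≤ Cm * Real.exp (k * ∑ i ∈ Finset.range q, (tp i - tm i)) * Cd :=
              mul_le_mul_of_nonneg_left (hw c) (mul_nonneg hCm (Real.exp_pos _).le)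
          _ = Cm * Cd * Real.exp (k * ∑ i ∈ Finset.range q, (tp i - tm i)) := by ring) t h3 h4
    refine h5.trans (mul_le_mul_of_nonneg_left (Real.exp_le_exp.mpr ?_) (mul_nonneg hCm hCd))
    refine mul_le_mul_of_nonneg_left ?_ hk
    exact max_le_max (by linarith) le_rfl
  refine ⟨fun c => hsol.reg _, hgrow, ?_⟩
  intro B C2 dl ε hB0 hB hF hdl hdl1 htp hε i c t ht
  have hCd : 0 ≤ Cd := (norm_nonneg _).trans (hw c)
  have h3 := hgrow c (tm 0 + 2) (by linarith) htp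
  rw [max_eq_left (by linarith)] at h3
  have h4 := (hsol.reg (J (w c))).inner_sub_le' (s := tm 0) (t := t) (δ := dl)
    (by rw [ht0]; exact h0) ht.1 hdl hdl1 ht.2 hB0 (fun r _ => hB r) (F i) (hF i) h3
  rw [hdual i c] at h4
  exact h4.trans hε

end Crest.Agent.R202.Brid
end

-- ▼ part R202/BFinNorm

set_option autoImplicit false

open Set Module
open scoped InnerProductSpace

namespace Crest.Agent.R202.BFin

open Crest.Agent.R202.Jac (SepF)
open Crest.Agent.R202.Seg (PCone)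
open Crest.Agent.R202.Mix (pr pr_apply)

variable {G : Type*} [NormedAddCommGroup G] [InnerProductSpace ℝ G]

/-- quadratic Young inequality for a symmetric nonnegative form -/
theorem form_young {H : G →L[ℝ] G} (hs : ∀ x y, ⟪H x, y⟫_ℝ = ⟪x, H y⟫_ℝ)
    (h0 : ∀ x, 0 ≤ ⟪H x, x⟫_ℝ) {t : ℝ} (ht : 0 < t) (x w : G) :
    ⟪H (x - w), x - w⟫_ℝ ≤ (1 + t) * ⟪H x, x⟫_ℝ + (1 + 1 / t) * ⟪H w, w⟫_ℝ := by
  have h1 := h0 (t • x + w)
  have e1 : ⟪H (t • x + w), t • x + w⟫_ℝ =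
      t ^ 2 * ⟪H x, x⟫_ℝ + 2 * t * ⟪H x, w⟫_ℝ + ⟪H w, w⟫_ℝ := by
    rw [map_add, map_smul, inner_add_left, inner_add_right, inner_add_right, real_inner_smul_left,
      real_inner_smul_left, real_inner_smul_right, real_inner_smul_right, hs w x,
      real_inner_comm (H x) w]
    ring
  have e2 : ⟪H (x - w), x - w⟫_ℝ = ⟪H x, x⟫_ℝ - 2 * ⟪H x, w⟫_ℝ + ⟪H w, w⟫_ℝ := by
    rw [map_sub, inner_sub_left, inner_sub_right, inner_sub_right, hs w x,
      real_inner_comm (H x) w]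
    ring
  rw [e1] at h1
  rw [e2]
  have h2 : 0 ≤ (t ^ 2 * ⟪H x, x⟫_ℝ + 2 * t * ⟪H x, w⟫_ℝ + ⟪H w, w⟫_ℝ) / t := by positivity
  have e3 : (t ^ 2 * ⟪H x, x⟫_ℝ + 2 * t * ⟪H x, w⟫_ℝ + ⟪H w, w⟫_ℝ) / t =
      t * ⟪H x, x⟫_ℝ + 2 * ⟪H x, w⟫_ℝ + 1 / t * ⟪H w, w⟫_ℝ := by
    field_simp
  rw [e3] at h2
  linarith

/-- for a separating frame `F` and `x` in a subspace on which the form is small, the projection to
`span F` is bounded below -/
theorem proj_lower {A B : ℝ} (hA : 0 ≤ A) (hAB : A < B) : ∃ c > 0, c ≤ 1 ∧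
    ∀ (G : Type) [NormedAddCommGroup G] [InnerProductSpace ℝ G] (H : G →L[ℝ] G) (N : ℕ)
      (F : Fin N → G), (∀ x y, ⟪H x, y⟫_ℝ = ⟪x, H y⟫_ℝ) → (∀ x, 0 ≤ ⟪H x, x⟫_ℝ) →
      SepF H F A B → ∀ x w : G, ⟪H x, x⟫_ℝ ≤ A * ‖x‖ ^ 2 → w ∈ Submodule.span ℝ (range F) →
      (∀ i, ⟪F i, x - w⟫_ℝ = 0) → c * ‖x‖ ≤ ‖w‖ := by
  set t : ℝ := (B - A) / (2 * (A + 1)) with ht
  have ht0 : 0 < t := by rw [ht]; have : 0 < B - A := by linarith
                         positivity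
  have hB : 0 < B := by linarith
  set c2 : ℝ := ((B - A) / 2) / (B + (1 + 1 / t) * A) with hc2
  have hden : 0 < B + (1 + 1 / t) * A := by positivity
  have hc20 : 0 < c2 := by rw [hc2]; have : 0 < (B - A) / 2 := by linarith
                           positivity
  refine ⟨min 1 (Real.sqrt c2), lt_min one_pos (Real.sqrt_pos.2 hc20), min_le_left _ _, ?_⟩
  intro G _ _ H N F hs h0 hF x w hx hw hort
  have h1 := hF.ge (x - w) hort
  have h2 := hF.le w hw
  have h3 := form_young hs h0 ht0 x w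
  have hwo : ⟪w, x - w⟫_ℝ = 0 := by
    have : ∀ z ∈ Submodule.span ℝ (range F), ⟪z, x - w⟫_ℝ = 0 := by
      intro z hz
      induction hz using Submodule.span_induction with
      | mem y hy => obtain ⟨j, rfl⟩ := hy; exact hort j
      | zero => simp
      | add y z _ _ hy hz => rw [inner_add_left, hy, hz, add_zero]
      | smul a y _ hy => rw [real_inner_smul_left, hy, mul_zero]
    exact this w hw
  have h4 : ‖x‖ ^ 2 = ‖x - w‖ ^ 2 + ‖w‖ ^ 2 := by
    have : x = (x - w) + w := by abel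
    conv_lhs => rw [this]
    rw [norm_add_sq_real, real_inner_comm, hwo]; ring
  have h5 : (1 + t) * A ≤ (A + B) / 2 := by
    have h6 : t * A ≤ (B - A) / 2 := by
      rw [ht, div_mul_eq_mul_div, div_le_iff₀ (by positivity)]
      have : 0 < B - A := by linarith
      nlinarith
    linarith
  have h6 : (B - A) / 2 * ‖x‖ ^ 2 ≤ (B + (1 + 1 / t) * A) * ‖w‖ ^ 2 := by
    have h7 : B * ‖x - w‖ ^ 2 ≤ (1 + t) * (A * ‖x‖ ^ 2) + (1 + 1 / t) * (A * ‖w‖ ^ 2) :=
      h1.trans (h3.trans (add_le_add (mul_le_mul_of_nonneg_left hx (by positivity))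
        (mul_le_mul_of_nonneg_left h2 (by positivity))))
    have h8 : ‖x - w‖ ^ 2 = ‖x‖ ^ 2 - ‖w‖ ^ 2 := by linarith
    rw [h8] at h7
    have h9 : (1 + t) * A * ‖x‖ ^ 2 ≤ (A + B) / 2 * ‖x‖ ^ 2 :=
      mul_le_mul_of_nonneg_right h5 (sq_nonneg _)
    nlinarith
  have h7 : c2 * ‖x‖ ^ 2 ≤ ‖w‖ ^ 2 := by
    rw [hc2, div_mul_eq_mul_div, div_le_iff₀ hden]
    linarith
  have h8 : Real.sqrt c2 * ‖x‖ ≤ ‖w‖ := by
    refine le_of_sq_le_sq ?_ (norm_nonneg _)
    rw [mul_pow, Real.sq_sqrt hc20.le]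
    exact h7
  exact (mul_le_mul_of_nonneg_right (min_le_right _ _) (norm_nonneg _)).trans h8

/-- the Gram matrix of a linearly independent family is invertible -/
theorem gram_det_ne {N : ℕ} {F : Fin N → G} (hF : LinearIndependent ℝ F)
    {Gr : Matrix (Fin N) (Fin N) ℝ} (hGr : ∀ i j, ⟪F i, F j⟫_ℝ = Gr i j) : Gr.det ≠ 0 := by
  intro h0
  obtain ⟨c, hc0, hc⟩ := Matrix.exists_mulVec_eq_zero_iff.2 h0
  have h1 : ⟪∑ i, c i • F i, ∑ j, c j • F j⟫_ℝ = 0 := by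
    rw [sum_inner]
    refine Finset.sum_eq_zero fun i _ => ?_
    rw [real_inner_smul_left, inner_sum]
    have h2 := congrFun hc i
    simp only [Matrix.mulVec, dotProduct, Pi.zero_apply] at h2
    have h3 : ∑ j, ⟪F i, c j • F j⟫_ℝ = ∑ j, Gr i j * c j :=
      Finset.sum_congr rfl fun j _ => by rw [real_inner_smul_right, hGr]; ring
    rw [h3, h2, mul_zero]
  have h2 : ∑ i, c i • F i = 0 := inner_self_eq_zero.1 h1
  exact hc0 (funext ((Fintype.linearIndependent_iff.1 hF) c h2))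

/-- existence of the projection onto the span of a frame with its coordinates -/
theorem exists_proj {N : ℕ} {F : Fin N → G} (hF : LinearIndependent ℝ F)
    {Gr : Matrix (Fin N) (Fin N) ℝ} (hGr : ∀ i j, ⟪F i, F j⟫_ℝ = Gr i j) (u : G) :
    ∃ w ∈ Submodule.span ℝ (range F), (∀ i, ⟪F i, u - w⟫_ℝ = 0) ∧
      ‖w‖ ^ 2 = ∑ i, (Gr⁻¹.mulVec fun i => ⟪F i, u⟫_ℝ) i * ⟪F i, u⟫_ℝ := by
  set v : Fin N → ℝ := fun i => ⟪F i, u⟫_ℝ with hv
  set c : Fin N → ℝ := Gr⁻¹.mulVec v with hc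
  have hdet := gram_det_ne hF hGr
  have hGc : Gr.mulVec c = v := by
    rw [hc, Matrix.mulVec_mulVec, Matrix.mul_nonsing_inv _ (isUnit_iff_ne_zero.2 hdet),
      Matrix.one_mulVec]
  set w : G := ∑ j, c j • F j with hw
  have hFw : ∀ i, ⟪F i, w⟫_ℝ = v i := by
    intro i
    rw [← hGc, hw, inner_sum]
    simp only [Matrix.mulVec, dotProduct]
    exact Finset.sum_congr rfl fun j _ => by rw [real_inner_smul_right, hGr]; ring
  refine ⟨w, Submodule.sum_mem _ fun j _ => Submodule.smul_mem _ _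
    (Submodule.subset_span ⟨j, rfl⟩), ?_, ?_⟩
  · intro i
    rw [inner_sub_right, hFw i]
    exact sub_self _
  · rw [← real_inner_self_eq_norm_sq]
    conv_lhs => rw [hw]
    rw [sum_inner]
    refine Finset.sum_congr rfl fun i _ => ?_
    rw [real_inner_smul_left, ← hw, hFw i]

/-- **Normalisation.** If all values `J u` are in the `κn`-cone around the low eigenspace, and `F`
is a separating frame of the home operator with Gram matrix `Gr`, then there are dual boundary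
data `w j` with `⟪F i, J (w j)⟫ = δ_ij` and `‖J (w j)‖ ≤ C`. The constants depend only on `A, B`
and `Gr`. -/
theorem exists_dual {A B : ℝ} (hA : 0 ≤ A) (hAB : A < B) : ∃ κn > 0, ∀ (N : ℕ)
    (Gr : Matrix (Fin N) (Fin N) ℝ), ∃ C > 0,
    ∀ (G : Type) [NormedAddCommGroup G] [InnerProductSpace ℝ G] (H : G →L[ℝ] G)
      (F e : Fin N → G), (∀ x y, ⟪H x, y⟫_ℝ = ⟪x, H y⟫_ℝ) → (∀ x, 0 ≤ ⟪H x, x⟫_ℝ) →
      SepF H F A B → (∀ i j, ⟪F i, F j⟫_ℝ = Gr i j) → Orthonormal ℝ e →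
      (∀ x ∈ Submodule.span ℝ (range e), ⟪H x, x⟫_ℝ ≤ A * ‖x‖ ^ 2) →
      ∀ J : (Fin N → ℝ) →ₗ[ℝ] G, (∀ u, J u = 0 → u = 0) → (∀ u, PCone e N κn (J u)) →
      ∃ w : Fin N → (Fin N → ℝ), (∀ i j, ⟪F i, J (w j)⟫_ℝ = if i = j then 1 else 0) ∧
        ∀ j, ‖J (w j)‖ ≤ C := by
  obtain ⟨c, hc, hc1, hlow⟩ := proj_lower hA hAB
  refine ⟨c / 2, by positivity, fun N Gr => ?_⟩
  refine ⟨4 / c * (1 + ∑ j, |Gr⁻¹ j j|), by positivity, ?_⟩
  intro G _ _ H F e hs h0 hF hGr he hle J hJ hcone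
  -- lower bound of the projection for all values
  have key : ∀ u w, w ∈ Submodule.span ℝ (range F) → (∀ i, ⟪F i, J u - w⟫_ℝ = 0) →
      ‖J u‖ ≤ 4 / c * ‖w‖ := by
    intro u w hw hort
    set z := J u with hz
    set x := pr e N z with hx
    have hxs : x ∈ Submodule.span ℝ (range e) := by
      rw [hx, pr_apply]
      refine Submodule.sum_mem _ fun j _ => ?_
      split_ifs
      · exact Submodule.smul_mem _ _ (Submodule.subset_span ⟨j, rfl⟩)
      · exact Submodule.zero_mem _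
    obtain ⟨wx, hwx, hortx, -⟩ := exists_proj hF.li hGr x
    have h1 := hlow G H N F hs h0 hF x wx (hle x hxs) hwx hortx
    have hcu : ‖z - x‖ ≤ c / 2 * ‖x‖ := hcone u
    -- w - wx is the projection of z - x
    have h2 : ‖w - wx‖ ≤ ‖z - x‖ := by
      have h3 : w - wx ∈ Submodule.span ℝ (range F) := Submodule.sub_mem _ hw hwx
      have h4 : ⟪w - wx, (z - x) - (w - wx)⟫_ℝ = 0 := by
        have : ∀ y ∈ Submodule.span ℝ (range F), ⟪y, (z - x) - (w - wx)⟫_ℝ = 0 := by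
          intro y hy
          induction hy using Submodule.span_induction with
          | mem y hy =>
            obtain ⟨j, rfl⟩ := hy
            have : (z - x) - (w - wx) = (z - w) - (x - wx) := by abel
            rw [this, inner_sub_right, hort j, hortx j, sub_zero]
          | zero => simp
          | add y z _ _ hy hz => rw [inner_add_left, hy, hz, add_zero]
          | smul a y _ hy => rw [real_inner_smul_left, hy, mul_zero]
        exact this _ h3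
      have h5 : ‖z - x‖ ^ 2 = ‖(z - x) - (w - wx)‖ ^ 2 + ‖w - wx‖ ^ 2 := by
        have : z - x = ((z - x) - (w - wx)) + (w - wx) := by abel
        conv_lhs => rw [this]
        rw [norm_add_sq_real, real_inner_comm, h4]; ring
      refine le_of_sq_le_sq ?_ (norm_nonneg _)
      rw [h5]
      linarith [sq_nonneg ‖(z - x) - (w - wx)‖]
    have h3 : ‖wx‖ ≤ ‖w‖ + ‖w - wx‖ := by
      calc ‖wx‖ = ‖w - (w - wx)‖ := by congr 1; abel
        _ ≤ _ := norm_sub_le _ _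
    have h4 : c / 2 * ‖x‖ ≤ ‖w‖ := by linarith
    have h5 : ‖z‖ ≤ ‖x‖ + ‖z - x‖ := by
      calc ‖z‖ = ‖x + (z - x)‖ := by congr 1; abel
        _ ≤ _ := norm_add_le _ _
    have h6 : ‖z‖ ≤ 2 * ‖x‖ := by
      have := norm_nonneg x
      nlinarith
    have h7 : ‖x‖ ≤ 2 / c * ‖w‖ := by
      rw [div_mul_eq_mul_div, le_div_iff₀ hc]
      linarith
    calc ‖z‖ ≤ 2 * ‖x‖ := h6
      _ ≤ 2 * (2 / c * ‖w‖) := by linarith
      _ = 4 / c * ‖w‖ := by ring
  -- the coordinate map is injective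
  set T : (Fin N → ℝ) →ₗ[ℝ] (Fin N → ℝ) :=
    LinearMap.pi fun i => (innerSL ℝ (F i)).toLinearMap ∘ₗ J with hT
  have hTa : ∀ u i, T u i = ⟪F i, J u⟫_ℝ := fun u i => rfl
  have hTinj : Function.Injective T := by
    rw [← LinearMap.ker_eq_bot, LinearMap.ker_eq_bot']
    intro u hu
    apply hJ
    have h1 := key u 0 (Submodule.zero_mem _) (fun i => by
      rw [sub_zero, ← hTa, hu]; rfl)
    rw [norm_zero, mul_zero] at h1
    exact norm_le_zero_iff.1 h1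
  have hTsurj : Function.Surjective T := LinearMap.injective_iff_surjective.1 hTinj
  choose w hw using fun j : Fin N => hTsurj (Pi.single j 1)
  refine ⟨w, ?_, ?_⟩
  · intro i j
    rw [← hTa, hw j, Pi.single_apply]
  · intro j
    obtain ⟨z, hz, hort, hzn⟩ := exists_proj hF.li hGr (J (w j))
    have h1 := key (w j) z hz hort
    have hv : (fun i => ⟪F i, J (w j)⟫_ℝ) = Pi.single j 1 := by
      funext i
      rw [← hTa, hw j]
    have h2 : ‖z‖ ^ 2 = Gr⁻¹ j j := by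
      rw [hzn, hv]
      have h3 : ∀ i, ⟪F i, J (w j)⟫_ℝ = (Pi.single j (1 : ℝ) : Fin N → ℝ) i :=
        fun i => congrFun hv i
      simp only [h3]
      rw [Finset.sum_eq_single j]
      · simp [Matrix.mulVec_single]
      · intro i _ hi
        rw [Pi.single_eq_of_ne hi, mul_zero]
      · intro h; exact absurd (Finset.mem_univ j) h
    have h3 : ‖z‖ ≤ 1 + ∑ j, |Gr⁻¹ j j| := by
      have h4 : |Gr⁻¹ j j| ≤ ∑ j, |Gr⁻¹ j j| :=
        Finset.single_le_sum (f := fun j => |Gr⁻¹ j j|) (fun i _ => abs_nonneg _)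
          (Finset.mem_univ j)
      have h5 : ‖z‖ ^ 2 ≤ (1 + ∑ j, |Gr⁻¹ j j|) ^ 2 := by
        rw [h2]
        have h6 := le_abs_self (Gr⁻¹ j j)
        have h7 := abs_nonneg (Gr⁻¹ j j)
        nlinarith
      exact le_of_sq_le_sq h5 (by linarith [abs_nonneg (Gr⁻¹ j j)])
    exact h1.trans (mul_le_mul_of_nonneg_left h3 (by positivity))

end Crest.Agent.R202.BFin
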