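import Mathlib
import Crest.Agent.R202.GeoDefs
import Crest.Agent.R202.GeoHyp

-- ▼ part R202/WgtForm
section

/-! # Row 202, part B4b (helper728): weighted forms and their matrices

`wf μ w f g = ∫ ∑ k, w k z * f k z * g k z ∂μ` for bounded measurable component functions on a finite
measure space; `opM` = operator on `EuclideanSpace ℝ ι` of a matrix; differentiation and continuity
of `opM (wf μ (W t) (c i) (c j))` in a parameter. -/

set_option autoImplicit false
set_option linter.unusedSectionVars false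
set_option linter.deprecated false

open MeasureTheory Filter Topology Set
open scoped InnerProductSpace

namespace Crest.Agent.R202.Wgt

noncomputable section

variable {α : Type*} [MeasurableSpace α]
variable {κ : Type*} [Fintype κ]

/-- bounded measurable components -/
structure Bdd (μ : Measure α) (f : κ → α → ℝ) : Prop where
  meas : ∀ k, AEStronglyMeasurable (f k) μ
  bdd : ∃ C : ℝ, 0 ≤ C ∧ ∀ k, ∀ᵐ z ∂μ, |f k z| ≤ C

/-- the weighted form -/
def wf (μ : Measure α) (w f g : κ → α → ℝ) : ℝ := ∫ z, ∑ k, w k z * f k z * g k z ∂μ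

variable {μ : Measure α} [IsFiniteMeasure μ]

theorem Bdd.integrable_mul {w f g : κ → α → ℝ} (hw : Bdd μ w) (hf : Bdd μ f) (hg : Bdd μ g)
    (k : κ) : Integrable (fun z => w k z * f k z * g k z) μ := by
  obtain ⟨C1, h1, b1⟩ := hw.bdd
  obtain ⟨C2, h2, b2⟩ := hf.bdd
  obtain ⟨C3, h3, b3⟩ := hg.bdd
  refine Integrable.mono' (integrable_const (C1 * C2 * C3))
    (((hw.meas k).mul (hf.meas k)).mul (hg.meas k)) ?_
  filter_upwards [b1 k, b2 k, b3 k] with z a1 a2 a3
  rw [Real.norm_eq_abs, abs_mul, abs_mul]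
  gcongr

theorem Bdd.integrable {w f g : κ → α → ℝ} (hw : Bdd μ w) (hf : Bdd μ f) (hg : Bdd μ g) :
    Integrable (fun z => ∑ k, w k z * f k z * g k z) μ :=
  integrable_finsetSum _ fun k _ => hw.integrable_mul hf hg k

omit [IsFiniteMeasure μ] in
theorem Bdd.add {f g : κ → α → ℝ} (hf : Bdd μ f) (hg : Bdd μ g) :
    Bdd μ (fun k z => f k z + g k z) := by
  obtain ⟨C2, h2, b2⟩ := hf.bdd
  obtain ⟨C3, h3, b3⟩ := hg.bdd
  refine ⟨fun k => (hf.meas k).add (hg.meas k), C2 + C3, by linarith, fun k => ?_⟩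
  filter_upwards [b2 k, b3 k] with z a2 a3
  exact (abs_add_le _ _).trans (add_le_add a2 a3)

omit [IsFiniteMeasure μ] in
theorem Bdd.smul {f : κ → α → ℝ} (hf : Bdd μ f) (c : ℝ) : Bdd μ (fun k z => c * f k z) := by
  obtain ⟨C2, h2, b2⟩ := hf.bdd
  refine ⟨fun k => (hf.meas k).const_mul c, |c| * C2, by positivity, fun k => ?_⟩
  filter_upwards [b2 k] with z a2
  rw [abs_mul]; gcongr

omit [IsFiniteMeasure μ] in
theorem Bdd.zero : Bdd μ (fun (_ : κ) (_ : α) => (0 : ℝ)) :=
  ⟨fun _ => aestronglyMeasurable_const, 0, le_rfl, fun _ => by simp⟩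

omit [IsFiniteMeasure μ] in
theorem Bdd.sum {ι : Type*} (s : Finset ι) {c : ι → κ → α → ℝ} (hc : ∀ i, Bdd μ (c i)) :
    Bdd μ (fun k z => ∑ i ∈ s, c i k z) := by
  classical
  induction s using Finset.induction_on with
  | empty => simpa using (Bdd.zero (μ := μ) (κ := κ))
  | insert i s his ih =>
    have h := (hc i).add ih
    refine ⟨fun k => (h.meas k).congr (Eventually.of_forall fun z => ?_), ?_⟩
    · simp [Finset.sum_insert his]
    · obtain ⟨C, hC, hb⟩ := h.bdd
      refine ⟨C, hC, fun k => ?_⟩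
      filter_upwards [hb k] with z hz
      rwa [Finset.sum_insert his]

/-! ### bilinearity -/

omit [IsFiniteMeasure μ] in
theorem wf_comm (w f g : κ → α → ℝ) : wf μ w f g = wf μ w g f := by
  unfold wf
  congr 1; ext z
  exact Finset.sum_congr rfl fun k _ => by ring

theorem wf_add_left {w f f' g : κ → α → ℝ} (hw : Bdd μ w) (hf : Bdd μ f) (hf' : Bdd μ f')
    (hg : Bdd μ g) :
    wf μ w (fun k z => f k z + f' k z) g = wf μ w f g + wf μ w f' g := by
  unfold wf
  rw [← integral_add (hw.integrable hf hg) (hw.integrable hf' hg)]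
  congr 1; ext z
  rw [← Finset.sum_add_distrib]
  exact Finset.sum_congr rfl fun k _ => by ring

omit [IsFiniteMeasure μ] in
theorem wf_smul_left (w f g : κ → α → ℝ) (c : ℝ) :
    wf μ w (fun k z => c * f k z) g = c * wf μ w f g := by
  unfold wf
  rw [← integral_const_mul]
  congr 1; ext z
  rw [Finset.mul_sum]
  exact Finset.sum_congr rfl fun k _ => by ring


omit [IsFiniteMeasure μ] in
theorem wf_smul_weight (w f g : κ → α → ℝ) (c : ℝ) :
    wf μ (fun k z => c * w k z) f g = c * wf μ w f g := by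
  unfold wf
  rw [← integral_const_mul]
  congr 1; ext z
  rw [Finset.mul_sum]
  exact Finset.sum_congr rfl fun k _ => by ring

/-- comparison of weights -/
theorem wf_mono {w w' f : κ → α → ℝ} (hw : Bdd μ w) (hw' : Bdd μ w') (hf : Bdd μ f)
    (h : ∀ᵐ z ∂μ, ∀ k, w k z ≤ w' k z) : wf μ w f f ≤ wf μ w' f f := by
  refine integral_mono_ae (hw.integrable hf hf) (hw'.integrable hf hf) ?_
  filter_upwards [h] with z hz
  refine Finset.sum_le_sum fun k _ => ?_
  have := mul_le_mul_of_nonneg_right (hz k) (mul_self_nonneg (f k z))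
  nlinarith [this]

omit [IsFiniteMeasure μ] in
theorem wf_nonneg {w f : κ → α → ℝ} (h : ∀ᵐ z ∂μ, ∀ k, 0 ≤ w k z) : 0 ≤ wf μ w f f := by
  refine integral_nonneg_of_ae ?_
  filter_upwards [h] with z hz
  refine Finset.sum_nonneg fun k _ => ?_
  rw [mul_assoc]
  exact mul_nonneg (hz k) (mul_self_nonneg _)

theorem abs_wf_le {w w' f : κ → α → ℝ} (hw : Bdd μ w) (hw' : Bdd μ w') (hf : Bdd μ f)
    (h : ∀ᵐ z ∂μ, ∀ k, |w k z| ≤ w' k z) : |wf μ w f f| ≤ wf μ w' f f := by
  rw [abs_le]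
  constructor
  · have := wf_mono (μ := μ) (hw'.smul (-1)) hw hf (by
      filter_upwards [h] with z hz k
      have := (abs_le.1 (hz k)).1; linarith)
    rw [wf_smul_weight] at this
    linarith
  · exact wf_mono hw hw' hf (by
      filter_upwards [h] with z hz k
      exact (abs_le.1 (hz k)).2)

/-! ### linear combinations -/

variable {ι : Type*} [Fintype ι]

/-- linear combination of component functions -/
def comb (c : ι → κ → α → ℝ) (x : ι → ℝ) : κ → α → ℝ := fun k z => ∑ i, x i * c i k z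

omit [IsFiniteMeasure μ] in
theorem Bdd.comb {c : ι → κ → α → ℝ} (hc : ∀ i, Bdd μ (c i)) (x : ι → ℝ) :
    Bdd μ (comb c x) := Bdd.sum Finset.univ fun i => (hc i).smul (x i)

theorem wf_sum_left {w g : κ → α → ℝ} {c : ι → κ → α → ℝ} (hw : Bdd μ w)
    (hc : ∀ i, Bdd μ (c i)) (hg : Bdd μ g) (s : Finset ι) :
    wf μ w (fun k z => ∑ i ∈ s, c i k z) g = ∑ i ∈ s, wf μ w (c i) g := by
  classical
  induction s using Finset.induction_on with
  | empty => simp [wf]
  | insert i s his ih =>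
    rw [Finset.sum_insert his, ← ih, ← wf_add_left hw (hc i) (Bdd.sum s hc) hg]
    congr 1
    funext k z
    rw [Finset.sum_insert his]

theorem wf_comb {w : κ → α → ℝ} {c : ι → κ → α → ℝ} (hw : Bdd μ w) (hc : ∀ i, Bdd μ (c i))
    (x y : ι → ℝ) :
    wf μ w (comb c x) (comb c y) = ∑ i, ∑ j, wf μ w (c i) (c j) * x j * y i := by
  have h1 : ∀ (x : ι → ℝ) (g : κ → α → ℝ), Bdd μ g →
      wf μ w (comb c x) g = ∑ j, x j * wf μ w (c j) g := by
    intro x g hg
    have := wf_sum_left (μ := μ) hw (fun i => (hc i).smul (x i)) hg Finset.univ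
    simp only [wf_smul_left] at this
    exact this
  rw [h1 x _ (Bdd.comb hc y), Finset.sum_comm]
  refine Finset.sum_congr rfl fun j _ => ?_
  rw [wf_comm, h1 y _ (hc j), Finset.mul_sum]
  exact Finset.sum_congr rfl fun i _ => by ring

/-! ### the operator of a matrix -/

/-- elementary operator `x ↦ x j • e i` -/
def El [DecidableEq ι] (i j : ι) : EuclideanSpace ℝ ι →L[ℝ] EuclideanSpace ℝ ι :=
  (EuclideanSpace.proj j : EuclideanSpace ℝ ι →L[ℝ] ℝ).smulRight (EuclideanSpace.single i (1 : ℝ))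

/-- the operator of a matrix -/
def opM [DecidableEq ι] (M : ι → ι → ℝ) : EuclideanSpace ℝ ι →L[ℝ] EuclideanSpace ℝ ι :=
  ∑ i, ∑ j, M i j • El i j

variable [DecidableEq ι]

theorem El_apply (i j : ι) (x : EuclideanSpace ℝ ι) (k : ι) :
    El i j x k = if k = i then x j else 0 := by
  have : El i j x = x j • EuclideanSpace.single i (1 : ℝ) := rfl
  rw [this]
  simp [PiLp.smul_apply]

theorem opM_apply (M : ι → ι → ℝ) (x : EuclideanSpace ℝ ι) (i : ι) :
    opM M x i = ∑ j, M i j * x j := by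
  have h : opM M x = ∑ i, ∑ j, M i j • El i j x := by
    unfold opM
    rw [ContinuousLinearMap.sum_apply]
    refine Finset.sum_congr rfl fun i _ => ?_
    rw [ContinuousLinearMap.sum_apply]
    rfl
  rw [h, WithLp.ofLp_sum, Finset.sum_apply]
  rw [Finset.sum_eq_single i]
  · rw [WithLp.ofLp_sum, Finset.sum_apply]
    refine Finset.sum_congr rfl fun j _ => ?_
    rw [PiLp.smul_apply, El_apply]
    simp
  · intro k _ hk
    rw [WithLp.ofLp_sum, Finset.sum_apply]
    refine Finset.sum_eq_zero fun j _ => ?_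
    rw [PiLp.smul_apply, El_apply, if_neg (Ne.symm hk)]
    simp
  · intro h; exact absurd (Finset.mem_univ i) h

theorem inner_opM (M : ι → ι → ℝ) (x y : EuclideanSpace ℝ ι) :
    ⟪opM M x, y⟫_ℝ = ∑ i, ∑ j, M i j * x j * y i := by
  rw [PiLp.inner_apply]
  refine Finset.sum_congr rfl fun i _ => ?_
  rw [opM_apply]
  simp only [RCLike.inner_apply, conj_trivial]
  rw [mul_comm, Finset.sum_mul]

theorem opM_symm {M : ι → ι → ℝ} (hM : ∀ i j, M i j = M j i) (x y : EuclideanSpace ℝ ι) :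
    ⟪opM M x, y⟫_ℝ = ⟪x, opM M y⟫_ℝ := by
  rw [real_inner_comm (opM M y) x, inner_opM, inner_opM, Finset.sum_comm]
  exact Finset.sum_congr rfl fun i _ => Finset.sum_congr rfl fun j _ => by rw [hM i j]; ring

theorem opM_smul (M : ι → ι → ℝ) (c : ℝ) : opM (fun i j => c * M i j) = c • opM M := by
  simp only [opM, Finset.smul_sum, smul_smul]


theorem hasDerivAt_opM {M : ℝ → ι → ι → ℝ} {M' : ι → ι → ℝ} {t : ℝ}
    (h : ∀ i j, HasDerivAt (fun t => M t i j) (M' i j) t) :
    HasDerivAt (fun t => opM (M t)) (opM M') t := by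
  unfold opM
  exact HasDerivAt.fun_sum fun i _ => HasDerivAt.fun_sum fun j _ => (h i j).smul_const (El i j)

theorem continuous_opM {Y : Type*} [TopologicalSpace Y] {M : Y → ι → ι → ℝ}
    (h : ∀ i j, Continuous (fun t => M t i j)) : Continuous (fun t => opM (M t)) := by
  unfold opM
  exact continuous_finsetSum _ fun i _ => continuous_finsetSum _ fun j _ =>
    (h i j).smul continuous_const

/-! ### dependence on parameters -/

/-- locally bounded family of weights, continuous in the parameter -/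
structure WCont {Y : Type*} [TopologicalSpace Y] (μ : Measure α) (W : Y → κ → α → ℝ) : Prop where
  meas : ∀ y k, AEStronglyMeasurable (W y k) μ
  cont : ∀ᵐ z ∂μ, ∀ k, Continuous fun y => W y k z
  bdd : ∀ y0, ∃ C : ℝ, 0 ≤ C ∧ ∀ᶠ y in 𝓝 y0, ∀ᵐ z ∂μ, ∀ k, |W y k z| ≤ C

omit [IsFiniteMeasure μ] in
theorem WCont.toBdd {Y : Type*} [TopologicalSpace Y] {W : Y → κ → α → ℝ} (h : WCont μ W)
    (y : Y) : Bdd μ (W y) := by
  obtain ⟨C, hC, hb⟩ := h.bdd y
  refine ⟨h.meas y, C, hC, fun k => ?_⟩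
  filter_upwards [hb.self_of_nhds] with z hz using hz k

theorem WCont.continuous_wf {Y : Type*} [TopologicalSpace Y] [FirstCountableTopology Y]
    {W : Y → κ → α → ℝ} (h : WCont μ W) {f g : κ → α → ℝ} (hf : Bdd μ f) (hg : Bdd μ g) :
    Continuous fun y => wf μ (W y) f g := by
  rw [continuous_iff_continuousAt]
  intro y0
  obtain ⟨C, hC, hb⟩ := h.bdd y0
  obtain ⟨C2, h2, b2⟩ := hf.bdd
  obtain ⟨C3, h3, b3⟩ := hg.bdd
  unfold wf
  refine continuousAt_of_dominated (bound := fun _ => ∑ _k : κ, C * C2 * C3) ?_ ?_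
    (integrable_const _) ?_
  · exact Eventually.of_forall fun y => ((h.toBdd y).integrable hf hg).aestronglyMeasurable
  · filter_upwards [hb] with y hy
    filter_upwards [hy, (ae_all_iff.2 b2), (ae_all_iff.2 b3)] with z a1 a2 a3
    refine (norm_sum_le _ _).trans (Finset.sum_le_sum fun k _ => ?_)
    rw [Real.norm_eq_abs, abs_mul, abs_mul]
    have := a1 k
    have := a2 k
    have := a3 k
    gcongr
  · filter_upwards [h.cont] with z hz
    refine Continuous.continuousAt ?_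
    exact continuous_finsetSum _ fun k _ => ((hz k).mul continuous_const).mul continuous_const

/-- differentiable family of weights -/
structure WDeriv (μ : Measure α) (W W' : ℝ → κ → α → ℝ) : Prop where
  W_cont : WCont μ W
  W'_cont : WCont μ W'
  deriv : ∀ᵐ z ∂μ, ∀ k t, HasDerivAt (fun t => W t k z) (W' t k z) t
  bdd' : ∀ t0 : ℝ, ∃ C : ℝ, 0 ≤ C ∧ ∃ ε > 0, ∀ᵐ z ∂μ, ∀ k, ∀ t ∈ Metric.ball t0 ε, |W' t k z| ≤ C

theorem WDeriv.hasDerivAt_wf {W W' : ℝ → κ → α → ℝ} (h : WDeriv μ W W') {f g : κ → α → ℝ}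
    (hf : Bdd μ f) (hg : Bdd μ g) (t0 : ℝ) :
    HasDerivAt (fun t => wf μ (W t) f g) (wf μ (W' t0) f g) t0 := by
  obtain ⟨C, hC, ε, hε, hb⟩ := h.bdd' t0
  obtain ⟨C2, h2, b2⟩ := hf.bdd
  obtain ⟨C3, h3, b3⟩ := hg.bdd
  unfold wf
  refine (hasDerivAt_integral_of_dominated_loc_of_deriv_le
    (F := fun t z => ∑ k, W t k z * f k z * g k z)
    (F' := fun t z => ∑ k, W' t k z * f k z * g k z)
    (bound := fun _ => ∑ _k : κ, C * C2 * C3) (s := Metric.ball t0 ε)
    (Metric.ball_mem_nhds t0 hε) ?_ ?_ ?_ ?_ (integrable_const _) ?_).2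
  · exact Eventually.of_forall fun y => ((h.W_cont.toBdd y).integrable hf hg).aestronglyMeasurable
  · exact (h.W_cont.toBdd t0).integrable hf hg
  · exact ((h.W'_cont.toBdd t0).integrable hf hg).aestronglyMeasurable
  · filter_upwards [hb, (ae_all_iff.2 b2), (ae_all_iff.2 b3)] with z a1 a2 a3 t ht
    refine (norm_sum_le _ _).trans (Finset.sum_le_sum fun k _ => ?_)
    rw [Real.norm_eq_abs, abs_mul, abs_mul]
    have := a1 k t ht
    have := a2 k
    have := a3 k
    gcongr
  · filter_upwards [h.deriv] with z hz t _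
    exact HasDerivAt.fun_sum fun k _ => ((hz k t).mul_const _).mul_const _

end

end Crest.Agent.R202.Wgt
end

-- ▼ part R202/WgtFam

/-! # Row 202, part B4b (helper728): the weights of the row-202 metrics

`w4 m s θ p k = e^{2s} θ^{2/(m+2)} * (0, p, (θ² p)⁻¹, 1)_k`. -/

set_option autoImplicit false
set_option linter.unusedSectionVars false
set_option linter.deprecated false

open MeasureTheory Filter Topology Set
open scoped InnerProductSpace ContDiff

namespace Crest.Agent.R202.Wgt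

open Crest.Agent.R202.Geo (Fam PP dT)

noncomputable section




/-- the compact set `[0,1] × circle` -/
def Kc : Set (ℝ × ℂ) := Icc (0 : ℝ) 1 ×ˢ Metric.sphere (0 : ℂ) 1

theorem isCompact_Kc : IsCompact Kc := isCompact_Icc.prod (isCompact_sphere 0 1)


variable {α : Type*} [MeasurableSpace α] {μ : Measure α} [IsFiniteMeasure μ]
variable {κ : Type*} [Fintype κ]

/-- weights which are jointly continuous on `Y × ℝ × ℂ`, evaluated along `π : α → ℝ × ℂ` -/
theorem wcont_of_continuous {Y : Type*} [TopologicalSpace Y] {π : α → ℝ × ℂ}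
    (hm : AEMeasurable π μ) (hμ : ∀ᵐ z ∂μ, π z ∈ Kc)
    (F : Y → κ → ℝ → ℂ → ℝ)
    (hF : ∀ k, Continuous fun q : Y × ℝ × ℂ => F q.1 k q.2.1 q.2.2) :
    WCont μ (fun y k z => F y k (π z).1 (π z).2) := by
  refine ⟨fun y k => ?_, ?_, fun y0 => ?_⟩
  · have h1 : Continuous fun q : ℝ × ℂ => F y k q.1 q.2 :=
      (hF k).comp (continuous_const.prodMk continuous_id)
    exact (h1.measurable.comp_aemeasurable hm).aestronglyMeasurable
  · refine Eventually.of_forall fun z k => ?_
    have h : Continuous fun y : Y => ((y, (π z).1, (π z).2) : Y × ℝ × ℂ) :=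
      continuous_id.prodMk continuous_const
    exact (hF k).comp h
  · -- local bound
    have h1 : ∀ k, ∃ C : ℝ, 0 ≤ C ∧ ∀ᶠ y in 𝓝 y0, ∀ q ∈ Kc, |F y k q.1 q.2| ≤ C := by
      intro k
      have hc : Continuous fun q : ℝ × ℂ => F y0 k q.1 q.2 :=
        (hF k).comp (continuous_const.prodMk continuous_id)
      obtain ⟨C, hC⟩ := isCompact_Kc.exists_bound_of_continuousOn hc.continuousOn
      refine ⟨|C| + 1, by positivity, ?_⟩
      refine isCompact_Kc.eventually_forall_of_forall_eventually fun q hq => ?_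
      have h2 : Continuous fun z : Y × ℝ × ℂ => |F z.1 k z.2.1 z.2.2| := (hF k).abs
      have h3 : |F y0 k q.1 q.2| < |C| + 1 := by
        have := hC q hq
        rw [Real.norm_eq_abs] at this
        have := le_abs_self C
        linarith
      filter_upwards [h2.continuousAt.eventually_lt
        (continuousAt_const (y := |C| + 1) (x := ((y0, q) : Y × ℝ × ℂ))) h3] with z hz
      exact hz.le
    choose C hC h2 using h1
    refine ⟨∑ k, C k, Finset.sum_nonneg fun k _ => hC k, ?_⟩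
    filter_upwards [eventually_all.2 h2] with y hy
    filter_upwards [hμ] with z hz k
    exact (hy k _ hz).trans
      (Finset.single_le_sum (fun k _ => hC k) (Finset.mem_univ k))

/-- differentiable weights -/
theorem wderiv_of_hasDerivAt {π : α → ℝ × ℂ}
    (hm : AEMeasurable π μ) (hμ : ∀ᵐ z ∂μ, π z ∈ Kc)
    (F F' : ℝ → κ → ℝ → ℂ → ℝ)
    (hF : ∀ k, Continuous fun q : ℝ × ℝ × ℂ => F q.1 k q.2.1 q.2.2)
    (hF' : ∀ k, Continuous fun q : ℝ × ℝ × ℂ => F' q.1 k q.2.1 q.2.2)
    (hd : ∀ k t X u, HasDerivAt (fun t => F t k X u) (F' t k X u) t) :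
    WDeriv μ (fun t k z => F t k (π z).1 (π z).2) (fun t k z => F' t k (π z).1 (π z).2) := by
  refine ⟨wcont_of_continuous hm hμ F hF, wcont_of_continuous hm hμ F' hF', ?_, fun t0 => ?_⟩
  · exact Eventually.of_forall fun z k t => hd k t _ _
  · have h1 : ∀ k, ∃ C : ℝ, 0 ≤ C ∧ ∀ t ∈ Metric.ball t0 1, ∀ q ∈ Kc, |F' t k q.1 q.2| ≤ C := by
      intro k
      obtain ⟨C, hC⟩ := ((isCompact_closedBall t0 1).prod isCompact_Kc).exists_bound_of_continuousOn
        (hF' k).continuousOn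
      refine ⟨|C|, abs_nonneg C, fun t ht q hq => ?_⟩
      have := hC (t, q) ⟨Metric.ball_subset_closedBall ht, hq⟩
      rw [Real.norm_eq_abs] at this
      exact this.trans (le_abs_self C)
    choose C hC h2 using h1
    refine ⟨∑ k, C k, Finset.sum_nonneg fun k _ => hC k, 1, one_pos, ?_⟩
    filter_upwards [hμ] with z hz k t ht
    exact (h2 k t ht _ hz).trans
      (Finset.single_le_sum (fun k _ => hC k) (Finset.mem_univ k))

/-! ### the weights of the metric -/

/-- common factor `e^{2s} θ^{2/(m+2)}` -/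
def cfac (m : ℕ) (s θ : ℝ) : ℝ := Real.exp (2 * s) * θ ^ ((2 : ℝ) / ((m : ℝ) + 2))

/-- weights for frozen data `(s, θ, p)` -/
def w4 (m : ℕ) (s θ p : ℝ) (k : Fin 4) : ℝ :=
  cfac m s θ * (![0, p, (θ ^ 2 * p)⁻¹, 1] : Fin 4 → ℝ) k

theorem cfac_pos (m : ℕ) (s : ℝ) {θ : ℝ} (hθ : 0 < θ) : 0 < cfac m s θ := by
  unfold cfac; positivity

theorem w4_zero (m : ℕ) (s θ p : ℝ) : w4 m s θ p 0 = 0 := by simp [w4]
theorem w4_one (m : ℕ) (s θ p : ℝ) : w4 m s θ p 1 = cfac m s θ * p := by simp [w4]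
theorem w4_two (m : ℕ) (s θ p : ℝ) : w4 m s θ p 2 = cfac m s θ * (θ ^ 2 * p)⁻¹ := by simp [w4]
theorem w4_three (m : ℕ) (s θ p : ℝ) : w4 m s θ p 3 = cfac m s θ := by simp [w4]

theorem w4_nonneg (m : ℕ) (s : ℝ) {θ p : ℝ} (hθ : 0 < θ) (hp : 0 < p) (k : Fin 4) :
    0 ≤ w4 m s θ p k := by
  have hc := cfac_pos m s hθ
  fin_cases k
  · exact (w4_zero m s θ p).ge
  · change 0 ≤ w4 m s θ p 1; rw [w4_one]; positivity
  · change 0 ≤ w4 m s θ p 2; rw [w4_two]; positivity
  · change 0 ≤ w4 m s θ p 3; rw [w4_three]; exact hc.le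


/-- joint continuity of the weights in a parameter -/
theorem continuous_w4 {Y : Type*} [TopologicalSpace Y] (m : ℕ) {s θ p : Y → ℝ}
    (hs : Continuous s) (hθ : Continuous θ) (hp : Continuous p) (θpos : ∀ y, 0 < θ y)
    (ppos : ∀ y, 0 < p y) (k : Fin 4) : Continuous fun y => w4 m (s y) (θ y) (p y) k := by
  have hc : Continuous fun y => cfac m (s y) (θ y) := by
    unfold cfac
    refine (Real.continuous_exp.comp (continuous_const.mul hs)).mul ?_
    exact hθ.rpow_const fun y => Or.inl (θpos y).ne'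
  fin_cases k
  · have : (fun y => w4 m (s y) (θ y) (p y) 0) = fun _ => 0 := by funext y; exact w4_zero _ _ _ _
    change Continuous fun y => w4 m (s y) (θ y) (p y) 0
    rw [this]; exact continuous_const
  · change Continuous fun y => w4 m (s y) (θ y) (p y) 1
    simp only [w4_one]; exact hc.mul hp
  · change Continuous fun y => w4 m (s y) (θ y) (p y) 2
    simp only [w4_two]
    refine hc.mul (((hθ.pow 2).mul hp).inv₀ fun y => ?_)
    exact (mul_pos (pow_pos (θpos y) 2) (ppos y)).ne'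
  · change Continuous fun y => w4 m (s y) (θ y) (p y) 3
    simp only [w4_three]; exact hc

/-- frozen scaling -/
theorem w4_exp (m : ℕ) (s θ p : ℝ) (k : Fin 4) : w4 m s θ p k = Real.exp (2 * s) * w4 m 0 θ p k := by
  unfold w4 cfac
  rw [mul_zero, Real.exp_zero, one_mul, mul_assoc]

/-- derivative of the weights -/
def w4' (m : ℕ) (s θ p s' θ' p' : ℝ) (k : Fin 4) : ℝ :=
  (![0, 2 * s' + 2 / ((m : ℝ) + 2) * (θ' / θ) + p' / p,
    2 * s' + 2 / ((m : ℝ) + 2) * (θ' / θ) - 2 * (θ' / θ) - p' / p,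
    2 * s' + 2 / ((m : ℝ) + 2) * (θ' / θ)] : Fin 4 → ℝ) k * w4 m s θ p k

theorem hasDerivAt_w4 (m : ℕ) {s θ p : ℝ → ℝ} {s' θ' p' t : ℝ} (hs : HasDerivAt s s' t)
    (hθ : HasDerivAt θ θ' t) (hp : HasDerivAt p p' t) (θpos : 0 < θ t) (ppos : 0 < p t)
    (k : Fin 4) :
    HasDerivAt (fun t => w4 m (s t) (θ t) (p t) k) (w4' m (s t) (θ t) (p t) s' θ' p' k) t := by
  have hc : HasDerivAt (fun t => cfac m (s t) (θ t))
      ((2 * s' + 2 / ((m : ℝ) + 2) * (θ' / θ t)) * cfac m (s t) (θ t)) t := by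
    unfold cfac
    have h1 : HasDerivAt (fun t => Real.exp (2 * s t)) (Real.exp (2 * s t) * (2 * s')) t :=
      (hs.const_mul 2).exp
    have h2 := hθ.rpow_const (p := (2 : ℝ) / ((m : ℝ) + 2)) (Or.inl θpos.ne')
    refine (h1.mul h2).congr_deriv ?_
    rw [Real.rpow_sub_one θpos.ne']
    field_simp
  fin_cases k
  · change HasDerivAt (fun t => w4 m (s t) (θ t) (p t) 0) (w4' m (s t) (θ t) (p t) s' θ' p' 0) t
    simp only [w4_zero, w4', mul_zero]
    exact hasDerivAt_const _ _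
  · change HasDerivAt (fun t => w4 m (s t) (θ t) (p t) 1) (w4' m (s t) (θ t) (p t) s' θ' p' 1) t
    simp only [w4_one, w4']
    refine (hc.mul hp).congr_deriv ?_
    simp only [Matrix.cons_val_one, Matrix.cons_val_zero]
    field_simp
  · change HasDerivAt (fun t => w4 m (s t) (θ t) (p t) 2) (w4' m (s t) (θ t) (p t) s' θ' p' 2) t
    simp only [w4_two, w4']
    have h0 : θ t ^ 2 * p t ≠ 0 := by positivity
    have h4 : HasDerivAt (fun t => (θ t ^ 2 * p t)⁻¹)
        (-(2 * θ t * θ' * p t + θ t ^ 2 * p') / (θ t ^ 2 * p t) ^ 2) t := by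
      have h5 : HasDerivAt (fun t => θ t ^ 2) (2 * θ t * θ') t := by
        simpa using hθ.fun_pow 2
      exact (h5.fun_mul hp).fun_inv h0
    refine (hc.mul h4).congr_deriv ?_
    have h3 : ((![0, 2 * s' + 2 / ((m : ℝ) + 2) * (θ' / θ t) + p' / p t,
      2 * s' + 2 / ((m : ℝ) + 2) * (θ' / θ t) - 2 * (θ' / θ t) - p' / p t,
      2 * s' + 2 / ((m : ℝ) + 2) * (θ' / θ t)] : Fin 4 → ℝ) 2)
      = 2 * s' + 2 / ((m : ℝ) + 2) * (θ' / θ t) - 2 * (θ' / θ t) - p' / p t := rfl
    rw [h3]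
    field_simp
    ring
  · change HasDerivAt (fun t => w4 m (s t) (θ t) (p t) 3) (w4' m (s t) (θ t) (p t) s' θ' p' 3) t
    simp only [w4_three, w4']
    exact hc

/-- relative size of the derivative -/
theorem abs_w4'_le (m : ℕ) {s θ p s' θ' p' r : ℝ} (θpos : 0 < θ) (ppos : 0 < p) (hs : |s'| ≤ r)
    (hθ : |θ'| ≤ r * θ) (hp : |p'| ≤ r * p) (k : Fin 4) :
    |w4' m s θ p s' θ' p' k| ≤ 6 * r * w4 m s θ p k := by
  have h0 := w4_nonneg m s θpos ppos k
  unfold w4'
  rw [abs_mul, abs_of_nonneg h0]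
  refine mul_le_mul_of_nonneg_right ?_ h0
  have hr : 0 ≤ r := (abs_nonneg _).trans hs
  have h1 : |θ' / θ| ≤ r := by
    rw [abs_div, abs_of_pos θpos, div_le_iff₀ θpos]; exact hθ
  have h2 : |p' / p| ≤ r := by
    rw [abs_div, abs_of_pos ppos, div_le_iff₀ ppos]; exact hp
  have h3 : |2 / ((m : ℝ) + 2) * (θ' / θ)| ≤ r := by
    rw [abs_mul]
    have : |2 / ((m : ℝ) + 2)| ≤ 1 := by
      rw [abs_of_pos (by positivity), div_le_one (by positivity)]
      have : (0 : ℝ) ≤ m := Nat.cast_nonneg m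
      linarith
    calc |2 / ((m : ℝ) + 2)| * |θ' / θ| ≤ 1 * r := by gcongr
      _ = r := one_mul r
  have hs2 := abs_le.1 hs
  have h12 := abs_le.1 h1
  have h22 := abs_le.1 h2
  have h32 := abs_le.1 h3
  fin_cases k
  · change |(0 : ℝ)| ≤ 6 * r
    rw [abs_zero]; positivity
  · change |2 * s' + 2 / ((m : ℝ) + 2) * (θ' / θ) + p' / p| ≤ 6 * r
    rw [abs_le]; constructor <;> linarith
  · change |2 * s' + 2 / ((m : ℝ) + 2) * (θ' / θ) - 2 * (θ' / θ) - p' / p| ≤ 6 * r
    rw [abs_le]; constructor <;> linarith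
  · change |2 * s' + 2 / ((m : ℝ) + 2) * (θ' / θ)| ≤ 6 * r
    rw [abs_le]; constructor <;> linarith

/-- joint continuity of the derivative of the weights -/
theorem continuous_w4' {Y : Type*} [TopologicalSpace Y] (m : ℕ) {s θ p s' θ' p' : Y → ℝ}
    (hs : Continuous s) (hθ : Continuous θ) (hp : Continuous p)
    (hs' : Continuous s') (hθ' : Continuous θ') (hp' : Continuous p') (θpos : ∀ y, 0 < θ y)
    (ppos : ∀ y, 0 < p y) (k : Fin 4) :
    Continuous fun y => w4' m (s y) (θ y) (p y) (s' y) (θ' y) (p' y) k := by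
  unfold w4'
  refine Continuous.mul ?_ (continuous_w4 m hs hθ hp θpos ppos k)
  have h1 : Continuous fun y => θ' y / θ y := hθ'.div hθ fun y => (θpos y).ne'
  have h2 : Continuous fun y => p' y / p y := hp'.div hp fun y => (ppos y).ne'
  have h3 : Continuous fun y => 2 * s' y + 2 / ((m : ℝ) + 2) * (θ' y / θ y) :=
    (continuous_const.mul hs').add (continuous_const.mul h1)
  fin_cases k
  · exact continuous_const
  · exact h3.add h2
  · exact (h3.sub (continuous_const.mul h1)).sub h2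
  · exact h3

end

end Crest.Agent.R202.Wgt
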