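import Mathlib
import Crest.Agent.R202.WgtSph
import Crest.Agent.R202.SecQB
import Crest.Agent.R202.GalErr
import Crest.Agent.R202.SchY

-- ▼ part R202/WgtGal
section

/-! # Row 202, part B4b (helper728): Galerkin operators on the sphere

`QB B p h = ∫_S ∑ B_ij ∂_i p ∂_j h` (helper862), `Sop p θ P` = operator of the matrix `QB (SB θ P) (p i) (p j)`,
`Kop p s θ P t = e^{2 s t} • Sop p (θ t) (P t)`. -/

set_option autoImplicit false
set_option linter.unusedSectionVars false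
set_option linter.deprecated false

open MeasureTheory Filter Topology Set Metric MvPolynomial
open scoped InnerProductSpace ContDiff

namespace Crest.Agent.R202.Wgt

open Crest.Agent.R202.Geo Crest.Agent.R202.Sph

noncomputable section

variable {m : ℕ}

/-- gradient of a polynomial -/
def gradE (p : MvPolynomial (Fin (m + 3)) ℝ) (z : EuclideanSpace ℝ (Fin (m + 3))) :
    EuclideanSpace ℝ (Fin (m + 3)) := WithLp.toLp 2 fun i => ev (pderiv i p) z


/-- components of a polynomial on the sphere -/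
def gc (p : MvPolynomial (Fin (m + 3)) ℝ) (k : Fin 2 ⊕ Fin (m + 3)) (z : Sn m) : ℝ :=
  cv (z : EuclideanSpace ℝ (Fin (m + 3))) (gradE p z) k

theorem meas_ev (p : MvPolynomial (Fin (m + 3)) ℝ) :
    Measurable fun z : Sn m => ev p (z : EuclideanSpace ℝ (Fin (m + 3))) :=
  ((continuous_ev p).comp continuous_subtype_val).measurable

theorem meas_dt {f g : Sn m → EuclideanSpace ℝ (Fin (m + 3))}
    (hf : ∀ i, Measurable fun z => f z i) (hg : ∀ i, Measurable fun z => g z i) :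
    Measurable fun z => dt (f z) (g z) := by
  unfold dt
  exact Finset.measurable_fun_sum _ fun i _ => (hf i).mul (hg i)

theorem meas_gc (p : MvPolynomial (Fin (m + 3)) ℝ) (k : Fin 2 ⊕ Fin (m + 3)) :
    Measurable (gc p k) := by
  have hg : ∀ i, Measurable fun z : Sn m => gradE p (z : EuclideanSpace ℝ (Fin (m + 3))) i :=
    fun i => meas_ev _
  have h1 := meas_dt meas_e1 hg
  have h2 := meas_dt meas_e2 hg
  have h3 := meas_dt meas_nu hg
  unfold gc
  rcases k with k | a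
  · fin_cases k
    · exact h1
    · exact h2
  · exact (((hg a).sub (h3.mul (meas_nu a))).sub (h1.mul (meas_e1 a))).sub (h2.mul (meas_e2 a))

theorem exists_bound_ev (p : MvPolynomial (Fin (m + 3)) ℝ) : ∃ C : ℝ, 0 ≤ C ∧
    ∀ z : Sn m, |ev p (z : EuclideanSpace ℝ (Fin (m + 3)))| ≤ C := by
  obtain ⟨C, hC⟩ := (isCompact_univ (X := Sn m)).exists_bound_of_continuousOn
    ((continuous_ev p).comp continuous_subtype_val).continuousOn
  refine ⟨|C|, abs_nonneg C, fun z => ?_⟩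
  have := hC z (mem_univ z)
  exact (show |ev p (z : EuclideanSpace ℝ (Fin (m + 3)))| ≤ C from this).trans (le_abs_self C)

theorem abs_le_one_of_sum {n : ℕ} {v : EuclideanSpace ℝ (Fin n)} (h : ∑ i, v i * v i = 1)
    (i : Fin n) : |v i| ≤ 1 := by
  have h1 : v i * v i ≤ 1 := by
    rw [← h]
    exact Finset.single_le_sum (f := fun i => v i * v i) (fun j _ => mul_self_nonneg _)
      (Finset.mem_univ i)
  exact abs_le_one_iff_mul_self_le_one.2 h1

theorem abs_dt_le {n : ℕ} {v w : EuclideanSpace ℝ (Fin n)} (h : ∑ i, v i * v i = 1) {C : ℝ}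
    (hw : ∀ i, |w i| ≤ C) : |dt v w| ≤ n * C := by
  unfold dt
  refine (Finset.abs_sum_le_sum_abs _ _).trans ?_
  have : ∀ i ∈ Finset.univ, |v i * w i| ≤ C := fun i _ => by
    rw [abs_mul]
    calc |v i| * |w i| ≤ 1 * C := by
          have := abs_le_one_of_sum h i
          have := hw i
          gcongr
      _ = C := one_mul C
  refine (Finset.sum_le_card_nsmul _ _ _ this).trans ?_
  simp

theorem bdd_gc (p : MvPolynomial (Fin (m + 3)) ℝ) : Bdd (muS m) (gc p) := by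
  have h : ∀ i : Fin (m + 3), ∃ C : ℝ, 0 ≤ C ∧
    ∀ z : Sn m, |ev (pderiv i p) (z : EuclideanSpace ℝ (Fin (m + 3)))| ≤ C :=
    fun i => exists_bound_ev _
  choose C0 hC0 hC using h
  set C := ∑ i, C0 i with hCdef
  have hCn : 0 ≤ C := Finset.sum_nonneg fun i _ => hC0 i
  have hg : ∀ (z : Sn m) i, |gradE p (z : EuclideanSpace ℝ (Fin (m + 3))) i| ≤ C := fun z i =>
    (hC i z).trans (Finset.single_le_sum (fun i _ => hC0 i) (Finset.mem_univ i))
  set N : ℝ := ((m + 3 : ℕ) : ℝ) with hN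
  have hN0 : 0 ≤ N := Nat.cast_nonneg _
  refine ⟨fun k => (meas_gc p k).aestronglyMeasurable, C + 3 * (N * C), by positivity,
    fun k => ?_⟩
  filter_upwards [ae_axes] with z hz
  have hz0 : (z : EuclideanSpace ℝ (Fin (m + 3))) ≠ 0 := by
    intro h; have : ‖(z : EuclideanSpace ℝ (Fin (m + 3)))‖ = 1 := by simp
    rw [h, norm_zero] at this; exact zero_ne_one this
  have hT := tri_e1_e2 hz0 hz.1 hz.2
  have h1 := abs_dt_le hT.aa (hg z)
  have h2 := abs_dt_le hT.bb (hg z)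
  have h3 := abs_dt_le hT.vv (hg z)
  have hNC : 0 ≤ N * C := by positivity
  unfold gc
  rcases k with k | a
  · fin_cases k
    · exact h1.trans (by linarith)
    · exact h2.trans (by linarith)
  · have a1 := abs_le_one_of_sum hT.aa a
    have a2 := abs_le_one_of_sum hT.bb a
    have a3 := abs_le_one_of_sum hT.vv a
    have b1 : |dt (e1 (z : EuclideanSpace ℝ (Fin (m + 3)))) (gradE p z) * e1 z a| ≤ N * C := by
      rw [abs_mul]
      calc _ ≤ (N * C) * 1 := by gcongr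
        _ = N * C := mul_one _
    have b2 : |dt (e2 (z : EuclideanSpace ℝ (Fin (m + 3)))) (gradE p z) * e2 z a| ≤ N * C := by
      rw [abs_mul]
      calc _ ≤ (N * C) * 1 := by gcongr
        _ = N * C := mul_one _
    have b3 : |dt (nu (z : EuclideanSpace ℝ (Fin (m + 3)))) (gradE p z) * nu z a| ≤ N * C := by
      rw [abs_mul]
      calc _ ≤ (N * C) * 1 := by gcongr
        _ = N * C := mul_one _
    have b0 := hg z a
    simp only [cv]
    rw [abs_le] at b0 b1 b2 b3 ⊢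
    constructor <;> linarith

/-- weight functions on the sphere for a frozen datum -/
def wS (m : ℕ) (s θ : ℝ) (P : ℝ → ℂ → ℝ) (k : Fin 2 ⊕ Fin (m + 3)) (z : Sn m) : ℝ :=
  w4 m s θ (P (piS z).1 (piS z).2) (cl m k)

theorem QB_eq_wf {θ : ℝ} {P : ℝ → ℂ → ℝ} (hθ : 0 < θ) (hP : ∀ q ∈ Kc, 0 < P q.1 q.2)
    (p h : MvPolynomial (Fin (m + 3)) ℝ) :
    QB (SB θ P) p h = wf (muS m) (wS m 0 θ P) (gc p) (gc h) := by
  unfold QB qb wf
  refine integral_congr_ae ?_
  filter_upwards [ae_axes, ae_piS] with z hz hz2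
  have := SB_form hθ z (hP _ hz2) hz.1 hz.2 (gradE p z) (gradE h z)
  exact this

theorem wf_wS_exp (s θ : ℝ) (P : ℝ → ℂ → ℝ) (f g : Fin 2 ⊕ Fin (m + 3) → Sn m → ℝ) :
    wf (muS m) (wS m s θ P) f g = Real.exp (2 * s) * wf (muS m) (wS m 0 θ P) f g := by
  rw [← wf_smul_weight]
  congr 1
  funext k z
  exact w4_exp m s θ _ _

/-- frozen Galerkin operator -/
def Sop {N : ℕ} (p : Fin N → MvPolynomial (Fin (m + 3)) ℝ) (θ : ℝ) (P : ℝ → ℂ → ℝ) :
    EuclideanSpace ℝ (Fin N) →L[ℝ] EuclideanSpace ℝ (Fin N) :=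
  opM fun i j => QB (SB θ P) (p i) (p j)

/-- Galerkin operator at time `t` -/
def Kop {N : ℕ} (p : Fin N → MvPolynomial (Fin (m + 3)) ℝ) (s θ : ℝ → ℝ)
    (P : ℝ → ℝ → ℂ → ℝ) (t : ℝ) :
    EuclideanSpace ℝ (Fin N) →L[ℝ] EuclideanSpace ℝ (Fin N) :=
  Real.exp (2 * s t) • Sop p (θ t) (P t)

variable {N : ℕ} (p : Fin N → MvPolynomial (Fin (m + 3)) ℝ)

theorem Kop_eq {s θ : ℝ → ℝ} {P : ℝ → ℝ → ℂ → ℝ} {t : ℝ} (hθ : 0 < θ t)
    (hP : ∀ q ∈ Kc, 0 < P t q.1 q.2) :
    Kop p s θ P t = opM fun i j =>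
      wf (muS m) (wS m (s t) (θ t) (P t)) (gc (p i)) (gc (p j)) := by
  unfold Kop Sop
  rw [← opM_smul]
  congr 1
  funext i j
  rw [QB_eq_wf hθ hP, wf_wS_exp (s t)]

/-- weights of frozen data are bounded measurable -/
theorem wcont_wS {Y : Type*} [TopologicalSpace Y] {s θ : Y → ℝ} {P : Y → ℝ → ℂ → ℝ}
    (hs : Continuous s) (hθ : Continuous θ) (hP : Continuous fun q : Y × ℝ × ℂ => P q.1 q.2.1 q.2.2)
    (θpos : ∀ y, 0 < θ y) (Ppos : ∀ y X u, 0 < P y X u) :
    WCont (muS m) (fun y => wS m (s y) (θ y) (P y)) := by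
  refine wcont_of_continuous (π := piS) meas_piS.aemeasurable ae_piS
    (fun y k X u => w4 m (s y) (θ y) (P y X u) (cl m k)) (fun k => ?_)
  exact continuous_w4 m (hs.comp continuous_fst) (hθ.comp continuous_fst) hP
    (fun q => θpos _) (fun q => Ppos _ _ _) _

theorem continuous_Kop_param {Y : Type*} [TopologicalSpace Y] [FirstCountableTopology Y]
    {s θ : Y → ℝ} {P : Y → ℝ → ℂ → ℝ}
    (hs : Continuous s) (hθ : Continuous θ) (hP : Continuous fun q : Y × ℝ × ℂ => P q.1 q.2.1 q.2.2)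
    (θpos : ∀ y, 0 < θ y) (Ppos : ∀ y X u, 0 < P y X u) :
    Continuous fun y => Real.exp (2 * s y) • Sop p (θ y) (P y) := by
  have h : (fun y => Real.exp (2 * s y) • Sop p (θ y) (P y)) = fun y => opM fun i j =>
      wf (muS m) (wS m (s y) (θ y) (P y)) (gc (p i)) (gc (p j)) := by
    funext y
    unfold Sop
    rw [← opM_smul]
    congr 1
    funext i j
    rw [QB_eq_wf (θpos y) (fun q _ => Ppos _ _ _), wf_wS_exp (s y)]
  rw [h]
  refine continuous_opM fun i j => ?_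
  exact (wcont_wS hs hθ hP θpos Ppos).continuous_wf (bdd_gc _) (bdd_gc _)

theorem continuous_Sop_param {Y : Type*} [TopologicalSpace Y] [FirstCountableTopology Y]
    {θ : Y → ℝ} {P : Y → ℝ → ℂ → ℝ} (hθ : Continuous θ)
    (hP : Continuous fun q : Y × ℝ × ℂ => P q.1 q.2.1 q.2.2)
    (θpos : ∀ y, 0 < θ y) (Ppos : ∀ y X u, 0 < P y X u) :
    Continuous fun y => Sop p (θ y) (P y) := by
  have := continuous_Kop_param p (s := fun _ => 0) continuous_const hθ hP θpos Ppos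
  simpa using this

theorem Sop_symm {θ : ℝ} {P : ℝ → ℂ → ℝ} (hθ : 0 < θ) (hP : ∀ q ∈ Kc, 0 < P q.1 q.2)
    (x y : EuclideanSpace ℝ (Fin N)) : ⟪Sop p θ P x, y⟫_ℝ = ⟪x, Sop p θ P y⟫_ℝ := by
  refine opM_symm (fun i j => ?_) x y
  rw [QB_eq_wf hθ hP, QB_eq_wf hθ hP, wf_comm]

theorem inner_Sop {θ : ℝ} {P : ℝ → ℂ → ℝ} (hθ : 0 < θ) (hP : Continuous fun q : ℝ × ℂ => P q.1 q.2)
    (Ppos : ∀ X u, 0 < P X u) (x y : EuclideanSpace ℝ (Fin N)) :
    ⟪Sop p θ P x, y⟫_ℝ = wf (muS m) (wS m 0 θ P) (comb (fun i => gc (p i)) x)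
      (comb (fun i => gc (p i)) y) := by
  have hw : Bdd (muS m) (wS m 0 θ P) :=
    (wcont_wS (Y := Unit) (s := fun _ => 0) (θ := fun _ => θ) (P := fun _ => P) continuous_const
      continuous_const (hP.comp (by fun_prop : Continuous fun q : Unit × ℝ × ℂ => q.2))
      (fun _ => hθ) (fun _ => Ppos)).toBdd ()
  rw [wf_comb hw (fun i => bdd_gc (p i))]
  unfold Sop
  rw [inner_opM]
  refine Finset.sum_congr rfl fun i _ => Finset.sum_congr rfl fun j _ => ?_
  rw [QB_eq_wf hθ (fun q _ => Ppos _ _)]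

theorem Sop_nonneg {θ : ℝ} {P : ℝ → ℂ → ℝ} (hθ : 0 < θ) (hP : Continuous fun q : ℝ × ℂ => P q.1 q.2)
    (Ppos : ∀ X u, 0 < P X u) (x : EuclideanSpace ℝ (Fin N)) : 0 ≤ ⟪Sop p θ P x, x⟫_ℝ := by
  rw [inner_Sop p hθ hP Ppos]
  refine wf_nonneg (Eventually.of_forall fun z k => ?_)
  exact w4_nonneg m 0 hθ (Ppos _ _) _

end

end Crest.Agent.R202.Wgt
end

-- ▼ part R202/WgtCoef
section

/-! # Row 202, part B4b (helper728): time derivative of the Galerkin operators, `Gal.Coef` -/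

set_option autoImplicit false
set_option linter.unusedSectionVars false
set_option linter.deprecated false

open MeasureTheory Filter Topology Set Metric MvPolynomial
open scoped InnerProductSpace ContDiff

namespace Crest.Agent.R202.Wgt

open Crest.Agent.R202.Geo Crest.Agent.R202.Sph

noncomputable section

variable {m : ℕ} {s θ : ℝ → ℝ} {P : ℝ → ℝ → ℂ → ℝ} {t0 X0 X1 : ℝ}

/-- time derivative of `P` -/
def Pt (P : ℝ → ℝ → ℂ → ℝ) (t X : ℝ) (u : ℂ) : ℝ := deriv (fun τ => P τ X u) t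

theorem hasDerivAt_Pt (hP : ContDiff ℝ ∞ (fun q : ℝ × ℝ × ℂ => P q.1 q.2.1 q.2.2)) (t X : ℝ)
    (u : ℂ) : HasDerivAt (fun τ => P τ X u) (Pt P t X u) t := by
  have h1 : Differentiable ℝ (fun q : ℝ × ℝ × ℂ => P q.1 q.2.1 q.2.2) :=
    hP.differentiable (by simp)
  have h2 : Differentiable ℝ (fun τ : ℝ => ((τ, X, u) : ℝ × ℝ × ℂ)) :=
    differentiable_id.prodMk (differentiable_const _)
  exact ((h1.comp h2) t).hasDerivAt

theorem continuous_Pt (hP : ContDiff ℝ ∞ (fun q : ℝ × ℝ × ℂ => P q.1 q.2.1 q.2.2)) :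
    Continuous fun q : ℝ × ℝ × ℂ => Pt P q.1 q.2.1 q.2.2 := by
  have h : (fun q : ℝ × ℝ × ℂ => Pt P q.1 q.2.1 q.2.2) =
      fun q => fderiv ℝ (fun q : ℝ × ℝ × ℂ => P q.1 q.2.1 q.2.2) q (1, 0, 0) := by
    funext q
    have h1 : DifferentiableAt ℝ (fun q : ℝ × ℝ × ℂ => P q.1 q.2.1 q.2.2) (q.1, q.2.1, q.2.2) :=
      (hP.differentiable (by simp)) _
    have h2 : HasDerivAt (fun τ : ℝ => ((τ, q.2.1, q.2.2) : ℝ × ℝ × ℂ)) ((1 : ℝ), (0 : ℝ), (0 : ℂ))
        q.1 := (hasDerivAt_id q.1).prodMk ((hasDerivAt_const q.1 (q.2.1, q.2.2)))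
    exact (h1.hasFDerivAt.comp_hasDerivAt q.1 h2).deriv
  rw [h]
  exact (hP.continuous_fderiv (by simp)).clm_apply continuous_const

/-- time derivative of the weights -/
def wS' (m : ℕ) (s θ : ℝ → ℝ) (P : ℝ → ℝ → ℂ → ℝ) (t : ℝ) (k : Fin 2 ⊕ Fin (m + 3))
    (z : Sn m) : ℝ :=
  w4' m (s t) (θ t) (P t (piS z).1 (piS z).2) (deriv s t) (deriv θ t)
    (Pt P t (piS z).1 (piS z).2) (cl m k)

theorem wderiv_wS (h : Fam s θ P t0 X0 X1) :
    WDeriv (muS m) (fun t => wS m (s t) (θ t) (P t)) (wS' m s θ P) := by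
  have cs : Continuous s := h.smooth_s.continuous
  have cθ : Continuous θ := h.smooth_θ.continuous
  have cs' : Continuous (deriv s) := (h.smooth_s.continuous_deriv (by simp))
  have cθ' : Continuous (deriv θ) := (h.smooth_θ.continuous_deriv (by simp))
  refine wderiv_of_hasDerivAt (π := piS) meas_piS.aemeasurable ae_piS
    (fun t k X u => w4 m (s t) (θ t) (P t X u) (cl m k))
    (fun t k X u => w4' m (s t) (θ t) (P t X u) (deriv s t) (deriv θ t) (Pt P t X u) (cl m k))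
    (fun k => ?_) (fun k => ?_) (fun k t X u => ?_)
  · exact continuous_w4 m (cs.comp continuous_fst) (cθ.comp continuous_fst) h.smooth_P.continuous
      (fun q => h.θ_pos _) (fun q => h.P_pos _ _ _) _
  · exact continuous_w4' m (cs.comp continuous_fst) (cθ.comp continuous_fst)
      h.smooth_P.continuous (cs'.comp continuous_fst) (cθ'.comp continuous_fst)
      (continuous_Pt h.smooth_P)
      (fun q => h.θ_pos _) (fun q => h.P_pos _ _ _) _
  · exact hasDerivAt_w4 m (h.smooth_s.differentiable (by simp) t).hasDerivAt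
      (h.smooth_θ.differentiable (by simp) t).hasDerivAt (hasDerivAt_Pt h.smooth_P t X u)
      (h.θ_pos t) (h.P_pos _ _ _) _

variable {N : ℕ} (p : Fin N → MvPolynomial (Fin (m + 3)) ℝ)

/-- derivative of the Galerkin operator -/
def Kop' (s θ : ℝ → ℝ) (P : ℝ → ℝ → ℂ → ℝ) (t : ℝ) :
    EuclideanSpace ℝ (Fin N) →L[ℝ] EuclideanSpace ℝ (Fin N) :=
  opM fun i j => wf (muS m) (wS' m s θ P t) (gc (p i)) (gc (p j))

theorem Kop_fun_eq (h : Fam s θ P t0 X0 X1) :
    Kop p s θ P = fun t => opM fun i j =>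
      wf (muS m) (wS m (s t) (θ t) (P t)) (gc (p i)) (gc (p j)) := by
  funext t
  exact Kop_eq p (h.θ_pos t) (fun q _ => h.P_pos _ _ _)

theorem hasDerivAt_Kop (h : Fam s θ P t0 X0 X1) (t : ℝ) :
    HasDerivAt (Kop p s θ P) (Kop' p s θ P t) t := by
  rw [Kop_fun_eq p h]
  exact hasDerivAt_opM fun i j => (wderiv_wS h).hasDerivAt_wf (bdd_gc _) (bdd_gc _) t

theorem continuous_Kop' (h : Fam s θ P t0 X0 X1) : Continuous (Kop' p s θ P) := by
  unfold Kop'
  exact continuous_opM fun i j => (wderiv_wS h).W'_cont.continuous_wf (bdd_gc _) (bdd_gc _)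

theorem inner_Kop (h : Fam s θ P t0 X0 X1) (t : ℝ) (x y : EuclideanSpace ℝ (Fin N)) :
    ⟪Kop p s θ P t x, y⟫_ℝ = wf (muS m) (wS m (s t) (θ t) (P t)) (comb (fun i => gc (p i)) x)
      (comb (fun i => gc (p i)) y) := by
  rw [wf_comb ((wderiv_wS h).W_cont.toBdd t) (fun i => bdd_gc (p i)), Kop_fun_eq p h, inner_opM]

theorem inner_Kop' (h : Fam s θ P t0 X0 X1) (t : ℝ) (x y : EuclideanSpace ℝ (Fin N)) :
    ⟪Kop' p s θ P t x, y⟫_ℝ = wf (muS m) (wS' m s θ P t) (comb (fun i => gc (p i)) x)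
      (comb (fun i => gc (p i)) y) := by
  rw [wf_comb ((wderiv_wS h).W'_cont.toBdd t) (fun i => bdd_gc (p i))]
  unfold Kop'
  rw [inner_opM]

theorem Kop_symm (h : Fam s θ P t0 X0 X1) (t : ℝ) (x y : EuclideanSpace ℝ (Fin N)) :
    ⟪Kop p s θ P t x, y⟫_ℝ = ⟪x, Kop p s θ P t y⟫_ℝ := by
  rw [real_inner_comm (Kop p s θ P t y) x, inner_Kop p h, inner_Kop p h, wf_comm]

theorem Kop_nonneg (h : Fam s θ P t0 X0 X1) (t : ℝ) (x : EuclideanSpace ℝ (Fin N)) :
    0 ≤ ⟪Kop p s θ P t x, x⟫_ℝ := by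
  rw [inner_Kop p h]
  exact wf_nonneg (Eventually.of_forall fun z k =>
    w4_nonneg m _ (h.θ_pos t) (h.P_pos _ _ _) _)

/-- the rate bound -/
theorem Kop'_rate (h : Fam s θ P t0 X0 X1) {t r : ℝ} (h1 : |deriv s t| ≤ r)
    (h2 : |deriv θ t| ≤ r * θ t) (h3 : ∀ X ∈ Ioo (0 : ℝ) 1, ∀ u : ℂ, ‖u‖ = 1 →
      |Pt P t X u| ≤ r * P t X u) (x : EuclideanSpace ℝ (Fin N)) :
    |⟪Kop' p s θ P t x, x⟫_ℝ| ≤ 6 * r * ⟪Kop p s θ P t x, x⟫_ℝ := by
  rw [inner_Kop p h, inner_Kop' p h, ← wf_smul_weight]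
  refine abs_wf_le ((wderiv_wS h).W'_cont.toBdd t) (((wderiv_wS h).W_cont.toBdd t).smul _)
    (Bdd.comb (fun i => bdd_gc (p i)) x) ?_
  filter_upwards [ae_axes] with z hz k
  refine abs_w4'_le m (h.θ_pos t) (h.P_pos _ _ _) h1 h2 (h3 _ ?_ _ (norm_uu hz.1)) _
  have hz0 : (z : EuclideanSpace ℝ (Fin (m + 3))) ≠ 0 := by
    intro h; have : ‖(z : EuclideanSpace ℝ (Fin (m + 3)))‖ = 1 := by simp
    rw [h, norm_zero] at this; exact zero_ne_one this
  have hn : 0 < ‖(z : EuclideanSpace ℝ (Fin (m + 3)))‖ := norm_pos_iff.2 hz0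
  constructor
  · exact div_pos (lt_of_le_of_ne (sig_nonneg _) (Ne.symm hz.2)) hn
  · show sig (z : EuclideanSpace ℝ (Fin (m + 3))) / ‖(z : EuclideanSpace ℝ (Fin (m + 3)))‖ < 1
    rw [div_lt_one hn]
    have h4 := norm_sq_eq_rs (z : EuclideanSpace ℝ (Fin (m + 3)))
    have h5 : 0 < rho (z : EuclideanSpace ℝ (Fin (m + 3))) :=
      lt_of_le_of_ne (rho_nonneg _) (Ne.symm hz.1)
    exact (sq_lt_sq₀ (sig_nonneg _) hn.le).1 (by nlinarith)

end

end Crest.Agent.R202.Wgt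
end

-- ▼ part R202/WgtFlow

/-! # Row 202, part B4b (helper728): the Galerkin coefficients `Gal.Coef` of a sector basis -/

set_option autoImplicit false
set_option linter.unusedSectionVars false
set_option linter.deprecated false

open MeasureTheory Filter Topology Set Metric MvPolynomial
open scoped InnerProductSpace ContDiff

namespace Crest.Agent.R202.Wgt

open Crest.Agent.R202.Geo Crest.Agent.R202.Sph

noncomputable section

variable {m : ℕ}

/-- an orthonormal family of homogeneous harmonic polynomials -/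
structure SBasis {N : ℕ} (p : Fin N → MvPolynomial (Fin (m + 3)) ℝ) (l : Fin N → ℕ) : Prop where
  mem : ∀ i, p i ∈ harm (m + 3) (l i)
  orth : ∀ i j, ip (p i) (p j) = if i = j then 1 else 0

/-! ### the round form -/

theorem SB_round (x : EuclideanSpace ℝ (Fin (m + 3))) :
    SB 1 (fun _ _ => 1) x = 1 - outer x := by
  have h : Afam (fun _ => (1 : ℝ)) (fun _ _ _ => (1 : ℝ)) x = 1 := by
    unfold Afam
    simp
  unfold SB
  rw [h, inv_one]

theorem qb_round (p h : MvPolynomial (Fin (m + 3)) ℝ) {k l : ℕ} (hp : p.IsHomogeneous k)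
    (hh : h.IsHomogeneous l) (x : EuclideanSpace ℝ (Fin (m + 3))) :
    qb (SB 1 (fun _ _ => 1)) p h x = ev (gp p h) x - (k * l) * ev (p * h) x := by
  have e1 : ∑ i, x i * ev (pderiv i p) x = k * ev p x := by
    have h := congrArg (fun p => ev p x) hp.sum_X_mul_pderiv
    simp only [ev_sum, ev_mul, ev_X] at h
    rw [h]; simp [ev, nsmul_eq_mul]
  have e2 : ∑ i, x i * ev (pderiv i h) x = l * ev h x := by
    have h := congrArg (fun p => ev p x) hh.sum_X_mul_pderiv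
    simp only [ev_sum, ev_mul, ev_X] at h
    rw [h]; simp [ev, nsmul_eq_mul]
  have e3 : ∑ i, ∑ j, outer x i j * ev (pderiv i p) x * ev (pderiv j h) x
      = (∑ i, x i * ev (pderiv i p) x) * (∑ j, x j * ev (pderiv j h) x) := sum_outer x _ _
  have e4 : ∑ i, ∑ j, (1 : Matrix (Fin (m + 3)) (Fin (m + 3)) ℝ) i j
      * ev (pderiv i p) x * ev (pderiv j h) x = ev (gp p h) x := by
    rw [ev_gp]
    refine Finset.sum_congr rfl fun i _ => ?_
    rw [Finset.sum_eq_single i]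
    · simp
    · intro j _ hj; rw [Matrix.one_apply_ne (Ne.symm hj)]; ring
    · intro h; exact absurd (Finset.mem_univ i) h
  unfold qb
  have e5 : ∑ i, ∑ j, SB 1 (fun _ _ => 1) x i j * ev (pderiv i p) x * ev (pderiv j h) x
      = ∑ i, ∑ j, (1 : Matrix (Fin (m + 3)) (Fin (m + 3)) ℝ) i j
      * ev (pderiv i p) x * ev (pderiv j h) x
        - ∑ i, ∑ j, outer x i j * ev (pderiv i p) x * ev (pderiv j h) x := by
    simp only [← Finset.sum_sub_distrib]
    refine Finset.sum_congr rfl fun i _ => Finset.sum_congr rfl fun j _ => ?_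
    rw [SB_round, Matrix.sub_apply]; ring
  rw [e5, e4, e3, e1, e2, ev_mul]
  ring

theorem QB_round {k l : ℕ} {p h : MvPolynomial (Fin (m + 3)) ℝ} (hp : p ∈ harm (m + 3) k)
    (hh : h ∈ harm (m + 3) l) :
    QB (SB 1 (fun _ _ => 1)) p h = sph (ev (gp p h)) - (k * l) * sph (ev (p * h)) := by
  rw [QB_eq]
  have : qb (SB 1 (fun _ _ => 1)) p h = ev (gp p h + (-(k * l : ℝ)) • (p * h)) := by
    funext x
    rw [qb_round p h (mem_harm.1 hp).1 (mem_harm.1 hh).1, ev_add, ev_smul]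
    ring
  rw [this, sph_add, sph_smul]
  ring

variable {N : ℕ} {p : Fin N → MvPolynomial (Fin (m + 3)) ℝ} {l : Fin N → ℕ}

theorem SBasis.QB_round (h : SBasis p l) (i j : Fin N) :
    QB (SB 1 (fun _ _ => 1)) (p i) (p j) = if i = j then (l i : ℝ) * (l i + m + 1) else 0 := by
  rw [Wgt.QB_round (h.mem i) (h.mem j)]
  have ho := h.orth i j
  unfold ip at ho
  by_cases hij : i = j
  · subst hij
    rw [if_pos rfl] at ho ⊢
    rw [sph_gp (h.mem i) (h.mem i), ho]
    push_cast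
    ring
  · rw [if_neg hij] at ho ⊢
    rw [sph_gp_zero (h.mem i) (h.mem j) ho, ho]
    ring

/-- the degree operator -/
def L0op (l : Fin N → ℕ) : EuclideanSpace ℝ (Fin N) →L[ℝ] EuclideanSpace ℝ (Fin N) :=
  opM fun i j => if i = j then (l i : ℝ) else 0

theorem L0op_apply (l : Fin N → ℕ) (x : EuclideanSpace ℝ (Fin N)) (i : Fin N) :
    L0op l x i = l i * x i := by
  unfold L0op
  rw [opM_apply]
  simp

theorem L0op_symm (l : Fin N → ℕ) (x y : EuclideanSpace ℝ (Fin N)) :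
    ⟪L0op l x, y⟫_ℝ = ⟪x, L0op l y⟫_ℝ :=
  opM_symm (fun i j => by
    by_cases h : i = j
    · subst h; rfl
    · rw [if_neg h, if_neg (Ne.symm h)]) x y

theorem L0op_nonneg (l : Fin N → ℕ) (x : EuclideanSpace ℝ (Fin N)) : 0 ≤ ⟪L0op l x, x⟫_ℝ := by
  rw [PiLp.inner_apply]
  refine Finset.sum_nonneg fun i _ => ?_
  rw [L0op_apply]
  simp only [RCLike.inner_apply, conj_trivial]
  have : (0 : ℝ) ≤ l i := Nat.cast_nonneg _
  nlinarith [mul_nonneg this (mul_self_nonneg (x i))]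

theorem SBasis.Sop_round (h : SBasis p l) (x : EuclideanSpace ℝ (Fin N)) :
    Sop p 1 (fun _ _ => 1) x = L0op l (L0op l x) + ((m : ℝ) + 1) • L0op l x := by
  refine PiLp.ext fun i => ?_
  unfold Sop
  rw [opM_apply, PiLp.add_apply, PiLp.smul_apply, L0op_apply, L0op_apply]
  simp only [h.QB_round, smul_eq_mul]
  simp
  ring

variable {s θ : ℝ → ℝ} {P : ℝ → ℝ → ℂ → ℝ} {t0 X0 X1 : ℝ}

theorem Kop_init (hb : SBasis p l) (h : Fam s θ P t0 X0 X1) {t : ℝ} (ht : t ≤ t0)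
    (x : EuclideanSpace ℝ (Fin N)) :
    Kop p s θ P t x = L0op l (L0op l x) + ((m : ℝ) + 1) • L0op l x := by
  have h1 : P t = fun _ _ => 1 := by
    funext X u; exact h.P_init t ht X u
  unfold Kop
  rw [h.s_init t ht, h.θ_init t ht, h1, mul_zero, Real.exp_zero, one_smul, hb.Sop_round]

theorem deriv_s_init (h : Fam s θ P t0 X0 X1) : deriv s t0 = 0 := by
  have h1 : HasDerivAt s (deriv s t0) t0 := (h.smooth_s.differentiable (by simp) t0).hasDerivAt
  have h2 : HasDerivWithinAt s (deriv s t0) (Iic t0) t0 := h1.hasDerivWithinAt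
  have h3 : HasDerivWithinAt s 0 (Iic t0) t0 := by
    refine (hasDerivWithinAt_const t0 (Iic t0) (0 : ℝ)).congr (fun x hx => h.s_init x hx) ?_
    exact h.s_init t0 le_rfl
  exact (uniqueDiffWithinAt_Iic t0).eq_deriv _ h2 h3

/-- **the Galerkin coefficients** -/
def coefOf (hb : SBasis p l) (h : Fam s θ P t0 X0 X1) (h1 : ∀ t, deriv s t ≤ 1 / 4) :
    Gal.Coef (EuclideanSpace ℝ (Fin N)) where
  b t := ((m : ℝ) + 1) - ((m : ℝ) + 2) * deriv s t
  b' t := -(((m : ℝ) + 2) * deriv (deriv s) t)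
  K := Kop p s θ P
  K' := Kop' p s θ P
  t0 := t0
  L0 := L0op l
  hb t := by
    have h2 : ContDiff ℝ ∞ (deriv s) := (contDiff_infty_iff_deriv.1 h.smooth_s).2
    have h3 := (h2.differentiable (by simp) t).hasDerivAt
    have h4 := (h3.const_mul ((m : ℝ) + 2)).const_sub ((m : ℝ) + 1)
    exact h4
  hK := hasDerivAt_Kop p h
  cb' := by
    have h2 : ContDiff ℝ ∞ (deriv s) := (contDiff_infty_iff_deriv.1 h.smooth_s).2
    exact (continuous_const.mul (h2.continuous_deriv (by simp))).neg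
  cK' := continuous_Kop' p h
  symm := Kop_symm p h
  nonneg := Kop_nonneg p h
  L0_symm := L0op_symm l
  L0_nonneg := L0op_nonneg l
  L0_sq x := by
    rw [Kop_init hb h le_rfl, deriv_s_init h, mul_zero, sub_zero]
  b_pos t := by
    have h2 := h1 t
    have h3 : (0 : ℝ) ≤ m := Nat.cast_nonneg m
    nlinarith






/-- a unit complex number is `e^{iφ}` -/
theorem exists_phi {u : ℂ} (hu : ‖u‖ = 1) : ∃ φ : ℝ, Complex.exp ((φ : ℂ) * Complex.I) = u := by
  refine ⟨Complex.arg u, ?_⟩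
  have := Complex.norm_mul_exp_arg_mul_I u
  rwa [hu, Complex.ofReal_one, one_mul] at this


/-- joint continuity in a parameter -/
theorem continuous_Kop_joint {Y : Type*} [TopologicalSpace Y] [FirstCountableTopology Y]
    (p : Fin N → MvPolynomial (Fin (m + 3)) ℝ) {s : ℝ → ℝ} {θ : Y → ℝ → ℝ}
    {P : Y → ℝ → ℝ → ℂ → ℝ} (hs : Continuous s) (hθ : Continuous fun q : Y × ℝ => θ q.1 q.2)
    (hP : Continuous fun q : Y × ℝ × ℝ × ℂ => P q.1 q.2.1 q.2.2.1 q.2.2.2)
    (θpos : ∀ y t, 0 < θ y t) (Ppos : ∀ y t X u, 0 < P y t X u) :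
    Continuous (Function.uncurry fun y t => Kop p s (θ y) (P y) t) := by
  have := continuous_Kop_param (Y := Y × ℝ) p (s := fun q => s q.2) (θ := fun q => θ q.1 q.2)
    (P := fun q => P q.1 q.2) (hs.comp continuous_snd) hθ
    (hP.comp (by fun_prop : Continuous fun q : (Y × ℝ) × ℝ × ℂ =>
      ((q.1.1, q.1.2, q.2.1, q.2.2) : Y × ℝ × ℝ × ℂ)))
    (fun _ => θpos _ _) (fun _ => Ppos _ _)
  exact this

end

end Crest.Agent.R202.Wgt
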