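import Mathlib

-- ▼ part R202/SpinPoly
section

/-! Row 202, PART C1 (helper816): the Jacobi-type polynomials of the ideal spindle operator. -/

set_option autoImplicit false

namespace Crest.Agent.R202

open Polynomial

/-- `κ_i = 2 i (2 i + d + 2 q + 2 μ + 1)`. -/
noncomputable def kap (d q : ℕ) (μ : ℝ) (i : ℕ) : ℝ :=
  2 * i * (2 * i + d + 2 * q + 2 * μ + 1)

/-- coefficients of the `j`-th polynomial, normalised by `P_j(0) = 1`. -/
noncomputable def jc (d q : ℕ) (μ : ℝ) (j : ℕ) : ℕ → ℝ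
  | 0 => 1
  | i + 1 => jc d q μ j i * (kap d q μ i - kap d q μ j) / (2 * (i + 1) * (2 * i + d + 2 * q + 1))

/-- the `j`-th polynomial (in the variable `y = x²`). -/
noncomputable def jp (d q : ℕ) (μ : ℝ) (j : ℕ) : ℝ[X] :=
  ∑ i ∈ Finset.range (j + 1), C (jc d q μ j i) * X ^ i

theorem jc_zero (d q : ℕ) (μ : ℝ) (j : ℕ) : jc d q μ j 0 = 1 := rfl

theorem jc_succ (d q : ℕ) (μ : ℝ) (j i : ℕ) :
    jc d q μ j (i + 1) =
      jc d q μ j i * (kap d q μ i - kap d q μ j) / (2 * (i + 1) * (2 * i + d + 2 * q + 1)) := rfl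

theorem jc_recur (d q : ℕ) (μ : ℝ) (j i : ℕ) :
    2 * ((i : ℝ) + 1) * (2 * i + d + 2 * q + 1) * jc d q μ j (i + 1) =
      (kap d q μ i - kap d q μ j) * jc d q μ j i := by
  rw [jc_succ]
  have h1 : (0 : ℝ) < 2 * ((i : ℝ) + 1) := by positivity
  have h2 : (0 : ℝ) < 2 * (i : ℝ) + d + 2 * q + 1 := by positivity
  field_simp

theorem jc_eq_zero (d q : ℕ) (μ : ℝ) (j : ℕ) : ∀ i, j < i → jc d q μ j i = 0 := by
  intro i hi
  induction i with
  | zero => omega
  | succ i ih =>
    rw [jc_succ]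
    rcases Nat.lt_or_ge j i with h | h
    · rw [ih h]; simp
    · have : i = j := by omega
      subst this
      simp

theorem kap_strictMono (d q : ℕ) {μ : ℝ} (hμ : 0 ≤ μ) : StrictMono (kap d q μ) := by
  apply strictMono_nat_of_lt_succ
  intro i
  unfold kap
  push_cast
  have h1 : (0 : ℝ) ≤ (i : ℝ) := by positivity
  have h2 : (0 : ℝ) ≤ (d : ℝ) := by positivity
  have h3 : (0 : ℝ) ≤ (q : ℝ) := by positivity
  nlinarith

theorem kap_nonneg (d q : ℕ) {μ : ℝ} (hμ : 0 ≤ μ) (i : ℕ) : 0 ≤ kap d q μ i := by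
  unfold kap; positivity

theorem jc_ne_zero (d q : ℕ) {μ : ℝ} (hμ : 0 ≤ μ) (j : ℕ) : ∀ i, i ≤ j → jc d q μ j i ≠ 0 := by
  intro i hi
  induction i with
  | zero => rw [jc_zero]; exact one_ne_zero
  | succ i ih =>
    rw [jc_succ]
    have h0 := ih (by omega)
    have h1 : kap d q μ i < kap d q μ j := kap_strictMono d q hμ (by omega)
    have h2 : (0 : ℝ) < 2 * ((i : ℝ) + 1) * (2 * i + d + 2 * q + 1) := by positivity
    have h3 : kap d q μ i - kap d q μ j ≠ 0 := (sub_neg.mpr h1).ne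
    exact div_ne_zero (mul_ne_zero h0 h3) h2.ne'

theorem jp_coeff (d q : ℕ) (μ : ℝ) (j i : ℕ) : (jp d q μ j).coeff i = jc d q μ j i := by
  unfold jp
  rw [finsetSum_coeff]
  simp only [coeff_C_mul, coeff_X_pow]
  by_cases h : i < j + 1
  · rw [Finset.sum_eq_single_of_mem i (Finset.mem_range.mpr h)]
    · simp
    · intro b _ hb
      simp [Ne.symm hb]
  · rw [jc_eq_zero d q μ j i (by omega)]
    apply Finset.sum_eq_zero
    intro b hb
    have : b < j + 1 := Finset.mem_range.mp hb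
    have : i ≠ b := by omega
    simp [this]

theorem jp_natDegree (d q : ℕ) {μ : ℝ} (hμ : 0 ≤ μ) (j : ℕ) : (jp d q μ j).natDegree = j := by
  apply le_antisymm
  · rw [natDegree_le_iff_coeff_eq_zero]
    intro i hi
    rw [jp_coeff]
    exact jc_eq_zero d q μ j i hi
  · apply le_natDegree_of_ne_zero
    rw [jp_coeff]
    exact jc_ne_zero d q hμ j j le_rfl

theorem jp_eval_zero (d q : ℕ) (μ : ℝ) (j : ℕ) : (jp d q μ j).eval 0 = 1 := by
  rw [← coeff_zero_eq_eval_zero, jp_coeff, jc_zero]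

/-- the differential equation of `P_j`, as an identity of polynomials. -/
theorem jp_ode (d q : ℕ) (μ : ℝ) (j : ℕ) :
    C 4 * (X * (1 - X)) * derivative (derivative (jp d q μ j)) +
      C 2 * (C ((d : ℝ) + 2 * q + 1) * (1 - X) - C (2 * (μ + 1)) * X) * derivative (jp d q μ j) +
      C (kap d q μ j) * jp d q μ j = 0 := by
  ext i
  have e1 : C 4 * (X * (1 - X)) * derivative (derivative (jp d q μ j)) =
      C 4 * (X * derivative (derivative (jp d q μ j))) -
        C 4 * (X * (X * derivative (derivative (jp d q μ j)))) := by ring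
  have e2 : C 2 * (C ((d : ℝ) + 2 * q + 1) * (1 - X) - C (2 * (μ + 1)) * X) *
        derivative (jp d q μ j) =
      C (2 * ((d : ℝ) + 2 * q + 1)) * derivative (jp d q μ j) -
        C (2 * ((d : ℝ) + 2 * q + 1) + 2 * (2 * (μ + 1))) * (X * derivative (jp d q μ j)) := by
    simp only [C_add, C_mul]
    ring
  rw [e1, e2]
  simp only [coeff_add, coeff_sub, coeff_C_mul, coeff_zero]
  rcases i with _ | _ | i
  · simp only [coeff_X_mul_zero, coeff_derivative, jp_coeff]
    have h := jc_recur d q μ j 0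
    unfold kap at h ⊢
    push_cast at h ⊢
    linear_combination h
  · simp only [coeff_X_mul, coeff_X_mul_zero, coeff_derivative, jp_coeff]
    have h := jc_recur d q μ j 1
    unfold kap at h ⊢
    push_cast at h ⊢
    linear_combination h
  · simp only [coeff_X_mul, coeff_derivative, jp_coeff]
    have h := jc_recur d q μ j (i + 2)
    unfold kap at h ⊢
    push_cast at h ⊢
    linear_combination h

/-- `P_j(1) ≠ 0`. -/
theorem jp_eval_one_ne_zero (d q : ℕ) {μ : ℝ} (hμ : 0 ≤ μ) (j : ℕ) :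
    (jp d q μ j).eval 1 ≠ 0 := by
  intro h1
  set P := jp d q μ j with hP
  set T := P.comp (X + C 1) with hT
  have hdT : derivative T = (derivative P).comp (X + C 1) := by
    rw [hT, derivative_comp]; simp
  have hddT : derivative (derivative T) = (derivative (derivative P)).comp (X + C 1) := by
    rw [hdT, derivative_comp]; simp
  have hode := congrArg (fun Q : ℝ[X] => Q.comp (X + C 1)) (jp_ode d q μ j)
  simp only [add_comp, mul_comp, sub_comp, C_comp, X_comp, one_comp, zero_comp] at hode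
  rw [← hP, ← hT, ← hdT, ← hddT] at hode
  have hrec : ∀ i : ℕ, 4 * ((i : ℝ) + 1) * (i + μ + 1) * T.coeff (i + 1) =
      (kap d q μ j - kap d q μ i) * T.coeff i := by
    intro i
    have e1 : C 4 * ((X + C 1) * (1 - (X + C 1))) * derivative (derivative T) =
        -(C 4 * (X * (X * derivative (derivative T)))) - C 4 * (X * derivative (derivative T)) := by
      simp only [C_1]; ring
    have e2 : C 2 * (C ((d : ℝ) + 2 * q + 1) * (1 - (X + C 1)) - C (2 * (μ + 1)) * (X + C 1)) *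
          derivative T =
        -(C (2 * ((d : ℝ) + 2 * q + 1) + 2 * (2 * (μ + 1))) * (X * derivative T)) -
          C (2 * (2 * (μ + 1))) * derivative T := by
      simp only [C_add, C_mul, C_1]
      ring
    rw [e1, e2] at hode
    have hc := congrArg (fun Q : ℝ[X] => Q.coeff i) hode
    simp only [coeff_add, coeff_sub, coeff_neg, coeff_C_mul, coeff_zero] at hc
    rcases i with _ | _ | i
    · simp only [coeff_X_mul_zero, coeff_derivative] at hc
      unfold kap at hc ⊢
      push_cast at hc ⊢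
      linear_combination -hc
    · simp only [coeff_X_mul, coeff_X_mul_zero, coeff_derivative] at hc
      unfold kap at hc ⊢
      push_cast at hc ⊢
      linear_combination -hc
    · simp only [coeff_X_mul, coeff_derivative] at hc
      unfold kap at hc ⊢
      push_cast at hc ⊢
      linear_combination -hc
  have hz : ∀ i, T.coeff i = 0 := by
    intro i
    induction i with
    | zero => rw [coeff_zero_eq_eval_zero, hT, eval_comp]; simpa using h1
    | succ i ih =>
      have h := hrec i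
      rw [ih, mul_zero] at h
      have hpos : (0 : ℝ) < 4 * ((i : ℝ) + 1) * (i + μ + 1) := by positivity
      exact (mul_eq_zero.mp h).resolve_left hpos.ne'
  have hT0 : T = 0 := by ext i; simpa using hz i
  have hP0 : P = 0 := by
    have : T.comp (X - C 1) = P := by
      rw [hT, comp_assoc]; simp
    rw [← this, hT0, zero_comp]
  have := jp_eval_zero d q μ j
  rw [← hP, hP0] at this
  simp at this

end Crest.Agent.R202
end

-- ▼ part R202/SpinOde

/-! Row 202, PART C1 (helper816): the radial functions of the ideal spindle operator, their flux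
and the eigenvalue equation; orthogonality. -/

set_option autoImplicit false

namespace Crest.Agent.R202

open Polynomial MeasureTheory Set

/-- `X^q P_j(X²)`. -/
noncomputable def jQ (d q : ℕ) (μ : ℝ) (j : ℕ) : ℝ[X] := X ^ q * (jp d q μ j).comp (X ^ 2)

/-- the exponent `a_j = μ + 2 j + q`. -/
noncomputable def aj (q : ℕ) (μ : ℝ) (j : ℕ) : ℝ := μ + 2 * j + q

/-- the eigenvalue `E_j = a_j (a_j + d + 1)`. -/
noncomputable def Ej (d q : ℕ) (μ : ℝ) (j : ℕ) : ℝ := aj q μ j * (aj q μ j + d + 1)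

/-- the angular constant `q (q + d - 1)`. -/
noncomputable def E0 (d q : ℕ) : ℝ := (q : ℝ) * (q + d - 1)

theorem Ej_eq (d q : ℕ) (μ : ℝ) (j : ℕ) :
    Ej d q μ j = (μ + q) * (μ + q + d + 1) + kap d q μ j := by
  unfold Ej aj kap; ring

theorem Ej_strictMono (d q : ℕ) {μ : ℝ} (hμ : 0 ≤ μ) : StrictMono (Ej d q μ) := by
  intro i j hij
  rw [Ej_eq, Ej_eq]
  have := kap_strictMono d q hμ hij
  linarith


theorem E0_nonneg (d q : ℕ) : 0 ≤ E0 d q := by
  unfold E0
  rcases Nat.eq_zero_or_pos q with h | h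
  · subst h; simp
  · have h1 : (1 : ℝ) ≤ q := by exact_mod_cast h
    have h2 : (0 : ℝ) ≤ d := by positivity
    have : (0 : ℝ) ≤ (q : ℝ) + d - 1 := by linarith
    positivity

theorem X_mul_deriv_jQ (d q : ℕ) (μ : ℝ) (j : ℕ) :
    X * derivative (jQ d q μ j) =
      C (q : ℝ) * jQ d q μ j + C 2 * X ^ (q + 2) * (derivative (jp d q μ j)).comp (X ^ 2) := by
  unfold jQ
  rw [derivative_mul, derivative_comp, derivative_X_pow, derivative_X_pow]
  rcases q with _ | q
  · simp only [Nat.cast_zero, map_zero, zero_mul, pow_zero, zero_add, one_mul,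
      Nat.cast_ofNat]
    simp only [map_ofNat, Nat.add_one_sub_one, pow_one]
    ring
  · simp only [Nat.cast_add, Nat.cast_one, Nat.cast_ofNat, map_ofNat,
      Nat.add_one_sub_one, pow_one]
    ring

theorem X_sq_mul_deriv2_jQ (d q : ℕ) (μ : ℝ) (j : ℕ) :
    X ^ 2 * derivative (derivative (jQ d q μ j)) =
      C ((q : ℝ) * (q - 1)) * jQ d q μ j +
        C (4 * (q : ℝ) + 2) * X ^ (q + 2) * (derivative (jp d q μ j)).comp (X ^ 2) +
        C 4 * X ^ (q + 4) * (derivative (derivative (jp d q μ j))).comp (X ^ 2) := by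
  have h1 := X_mul_deriv_jQ d q μ j
  have h2 := congrArg derivative h1
  set Q := jQ d q μ j
  set P1 := derivative (jp d q μ j) with hP1
  rw [derivative_mul, derivative_X, derivative_add, derivative_mul, derivative_C,
    derivative_mul, derivative_mul, derivative_C, derivative_comp, derivative_X_pow,
    derivative_X_pow] at h2
  simp only [Nat.cast_add, Nat.cast_ofNat, pow_one, zero_mul, zero_add,
    Nat.add_one_sub_one] at h2
  have h3 := congrArg (fun p => X * p) h2
  have e : X ^ 2 * derivative (derivative Q) =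
      X * (1 * derivative Q + X * derivative (derivative Q)) - X * derivative Q := by ring
  rw [e, h3, h1]
  have e3 : X * (C (q : ℝ) * derivative Q) = C (q : ℝ) * (X * derivative Q) := by ring
  rw [mul_add, e3, h1]
  simp only [map_add, map_mul, map_sub, map_one, map_ofNat]
  ring

/-- the differential equation of `Q = X^q P_j(X²)`. -/
theorem jQ_ode (d q : ℕ) (μ : ℝ) (j : ℕ) :
    X ^ 2 * (1 - X ^ 2) * derivative (derivative (jQ d q μ j)) +
      C (d : ℝ) * X * (1 - X ^ 2) * derivative (jQ d q μ j) -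
      C (2 * (μ + 1)) * X ^ 3 * derivative (jQ d q μ j) =
    (C (E0 d q) - C (Ej d q μ j - μ ^ 2 - μ * (1 + d)) * X ^ 2) * jQ d q μ j := by
  have h1 := X_mul_deriv_jQ d q μ j
  have h2 := X_sq_mul_deriv2_jQ d q μ j
  have hode := congrArg (fun p : ℝ[X] => p.comp (X ^ 2)) (jp_ode d q μ j)
  simp only [add_comp, mul_comp, sub_comp, C_comp, X_comp, one_comp, zero_comp] at hode
  have e : X ^ 2 * (1 - X ^ 2) * derivative (derivative (jQ d q μ j)) +
      C (d : ℝ) * X * (1 - X ^ 2) * derivative (jQ d q μ j) -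
      C (2 * (μ + 1)) * X ^ 3 * derivative (jQ d q μ j) =
      (1 - X ^ 2) * (X ^ 2 * derivative (derivative (jQ d q μ j))) +
      C (d : ℝ) * (1 - X ^ 2) * (X * derivative (jQ d q μ j)) -
      C (2 * (μ + 1)) * X ^ 2 * (X * derivative (jQ d q μ j)) := by ring
  have hE : Ej d q μ j = (μ + q) * (μ + q + d + 1) + kap d q μ j := Ej_eq d q μ j
  rw [e, h1, h2, hE]
  unfold E0
  generalize hP2 : (derivative (derivative (jp d q μ j))).comp (X ^ 2) = P2 at *
  generalize hP1 : (derivative (jp d q μ j)).comp (X ^ 2) = P1 at *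
  unfold jQ
  generalize hP0 : (jp d q μ j).comp (X ^ 2) = P0 at *
  simp only [map_add, map_mul, map_sub, map_one, map_ofNat, map_pow] at hode ⊢
  linear_combination X ^ (q + 2) * hode

theorem jQ_eval (d q : ℕ) (μ : ℝ) (j : ℕ) (x : ℝ) :
    (jQ d q μ j).eval x = x ^ q * (jp d q μ j).eval (x ^ 2) := by
  unfold jQ; simp [eval_comp]

theorem jQ_ode_eval (d q : ℕ) (μ : ℝ) (j : ℕ) (x : ℝ) :
    x ^ 2 * (1 - x ^ 2) * (derivative (derivative (jQ d q μ j))).eval x +
      d * x * (1 - x ^ 2) * (derivative (jQ d q μ j)).eval x -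
      2 * (μ + 1) * x ^ 3 * (derivative (jQ d q μ j)).eval x =
    (E0 d q - (Ej d q μ j - μ ^ 2 - μ * (1 + d)) * x ^ 2) * (jQ d q μ j).eval x := by
  have h := congrArg (fun p : ℝ[X] => p.eval x) (jQ_ode d q μ j)
  simpa only [eval_add, eval_sub, eval_mul, eval_pow, eval_X, eval_C, eval_one] using h

/-- the case `d = 0`, `q ≤ 1` (the dimension `n = 3`). -/
theorem jQ_ode_three {q : ℕ} (hq : q ≤ 1) (μ : ℝ) (j : ℕ) :
    (1 - X ^ 2) * derivative (derivative (jQ 0 q μ j)) -
      C (2 * (μ + 1)) * X * derivative (jQ 0 q μ j) =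
    -C (Ej 0 q μ j - μ ^ 2 - μ) * jQ 0 q μ j := by
  have h := jQ_ode 0 q μ j
  have h0 : E0 0 q = 0 := by
    unfold E0
    interval_cases q <;> simp
  rw [h0] at h
  simp only [Nat.cast_zero, map_zero, zero_mul, add_zero, zero_sub, mul_one] at h
  have hX : (X ^ 2 : ℝ[X]) ≠ 0 := pow_ne_zero _ X_ne_zero
  apply mul_left_cancel₀ hX
  linear_combination h

/-- the radial function `R_j`. -/
noncomputable def Rj (d q : ℕ) (μ : ℝ) (j : ℕ) (x : ℝ) : ℝ :=
  (1 - x ^ 2) ^ (μ / 2) * (jQ d q μ j).eval x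

/-- its derivative. -/
noncomputable def dRj (d q : ℕ) (μ : ℝ) (j : ℕ) (x : ℝ) : ℝ :=
  (1 - x ^ 2) ^ (μ / 2) *
    ((derivative (jQ d q μ j)).eval x - μ * x / (1 - x ^ 2) * (jQ d q μ j).eval x)

/-- its flux `x^d (1 - x²) R_j'`. -/
noncomputable def Flj (d q : ℕ) (μ : ℝ) (j : ℕ) (x : ℝ) : ℝ :=
  x ^ d * (1 - x ^ 2) * dRj d q μ j x

theorem w_hasDerivAt (μ : ℝ) {x : ℝ} (hx : 0 < 1 - x ^ 2) :
    HasDerivAt (fun x : ℝ => (1 - x ^ 2) ^ (μ / 2))
      (-(μ * x / (1 - x ^ 2)) * (1 - x ^ 2) ^ (μ / 2)) x := by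
  have h1 : HasDerivAt (fun x : ℝ => 1 - x ^ 2) (-(2 * x)) x := by
    have := (hasDerivAt_pow 2 x).const_sub 1
    simpa using this
  have h2 := h1.rpow_const (p := μ / 2) (Or.inl hx.ne')
  convert h2 using 1
  rw [Real.rpow_sub hx, Real.rpow_one]
  field_simp

theorem Rj_hasDerivAt (d q : ℕ) (μ : ℝ) (j : ℕ) {x : ℝ} (hx : 0 < 1 - x ^ 2) :
    HasDerivAt (Rj d q μ j) (dRj d q μ j x) x := by
  have h : HasDerivAt (Rj d q μ j) _ x := (w_hasDerivAt μ hx).mul ((jQ d q μ j).hasDerivAt x)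
  convert h using 1
  unfold dRj
  ring

theorem Flj_eq (d q : ℕ) (μ : ℝ) (j : ℕ) {x : ℝ} (hx : 0 < 1 - x ^ 2) :
    Flj d q μ j x = (1 - x ^ 2) ^ (μ / 2) * (x ^ d *
      ((1 - x ^ 2) * (derivative (jQ d q μ j)).eval x - μ * x * (jQ d q μ j).eval x)) := by
  unfold Flj dRj
  field_simp

theorem Flj_hasDerivAt (d q : ℕ) (μ : ℝ) (j : ℕ) {x : ℝ} (hx0 : x ≠ 0) (hx : 0 < 1 - x ^ 2) :
    HasDerivAt (Flj d q μ j)
      ((μ ^ 2 / (1 - x ^ 2) + E0 d q / x ^ 2 - Ej d q μ j) * (x ^ d * Rj d q μ j x)) x := by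
  have hopen : ∀ᶠ y in nhds x, 0 < 1 - y ^ 2 := by
    have : Continuous fun y : ℝ => 1 - y ^ 2 := by fun_prop
    exact this.continuousAt.eventually (Ioi_mem_nhds hx)
  have hT : HasDerivAt (fun y : ℝ => (1 - y ^ 2) * (derivative (jQ d q μ j)).eval y -
      μ * y * (jQ d q μ j).eval y)
      (-(2 * x) * (derivative (jQ d q μ j)).eval x +
        (1 - x ^ 2) * (derivative (derivative (jQ d q μ j))).eval x -
        (μ * (jQ d q μ j).eval x + μ * x * (derivative (jQ d q μ j)).eval x)) x := by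
    have h1 : HasDerivAt (fun x : ℝ => 1 - x ^ 2) (-(2 * x)) x := by
      have := (hasDerivAt_pow 2 x).const_sub 1
      simpa using this
    have h2 : HasDerivAt (fun x : ℝ => μ * x) μ x := by
      simpa using (hasDerivAt_id x).const_mul μ
    exact (h1.mul ((derivative (jQ d q μ j)).hasDerivAt x)).sub
      (h2.mul ((jQ d q μ j).hasDerivAt x))
  have h := (w_hasDerivAt μ hx).mul ((hasDerivAt_pow d x).mul hT)
  have h' : HasDerivAt (Flj d q μ j) _ x := h.congr_of_eventuallyEq (by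
    filter_upwards [hopen] with y hy
    rw [Flj_eq d q μ j hy]
    rfl)
  convert h' using 1
  unfold Rj
  have hode := jQ_ode_eval d q μ j x
  have hd : (d : ℝ) * x ^ (d - 1) = (d : ℝ) * x ^ d / x := by
    rcases d with _ | d
    · simp
    · rw [Nat.add_sub_cancel, pow_succ]; field_simp
  simp only [Pi.mul_apply]
  rw [hd]
  set Q := (jQ d q μ j).eval x
  set Q1 := (derivative (jQ d q μ j)).eval x
  set Q2 := (derivative (derivative (jQ d q μ j))).eval x
  set w := (1 - x ^ 2) ^ (μ / 2)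
  have hne : (1 - x ^ 2) ≠ 0 := hx.ne'
  have hQ2 : Q2 = ((E0 d q - (Ej d q μ j - μ ^ 2 - μ * (1 + d)) * x ^ 2) * Q -
      d * x * (1 - x ^ 2) * Q1 + 2 * (μ + 1) * x ^ 3 * Q1) / (x ^ 2 * (1 - x ^ 2)) := by
    rw [eq_div_iff (mul_ne_zero (pow_ne_zero 2 hx0) hne)]
    linear_combination hode
  rw [hQ2]
  field_simp
  ring

/-- the equation on all of `(-1,1)` when `d = 0`, `q ≤ 1`. -/
theorem Flj_hasDerivAt_three {q : ℕ} (hq : q ≤ 1) (μ : ℝ) (j : ℕ) {x : ℝ} (hx : 0 < 1 - x ^ 2) :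
    HasDerivAt (Flj 0 q μ j)
      ((μ ^ 2 / (1 - x ^ 2) - Ej 0 q μ j) * Rj 0 q μ j x) x := by
  have hopen : ∀ᶠ y in nhds x, 0 < 1 - y ^ 2 := by
    have : Continuous fun y : ℝ => 1 - y ^ 2 := by fun_prop
    exact this.continuousAt.eventually (Ioi_mem_nhds hx)
  have hT : HasDerivAt (fun y : ℝ => (1 - y ^ 2) * (derivative (jQ 0 q μ j)).eval y -
      μ * y * (jQ 0 q μ j).eval y)
      (-(2 * x) * (derivative (jQ 0 q μ j)).eval x +
        (1 - x ^ 2) * (derivative (derivative (jQ 0 q μ j))).eval x -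
        (μ * (jQ 0 q μ j).eval x + μ * x * (derivative (jQ 0 q μ j)).eval x)) x := by
    have h1 : HasDerivAt (fun x : ℝ => 1 - x ^ 2) (-(2 * x)) x := by
      have := (hasDerivAt_pow 2 x).const_sub 1
      simpa using this
    have h2 : HasDerivAt (fun x : ℝ => μ * x) μ x := by
      simpa using (hasDerivAt_id x).const_mul μ
    exact (h1.mul ((derivative (jQ 0 q μ j)).hasDerivAt x)).sub
      (h2.mul ((jQ 0 q μ j).hasDerivAt x))
  have h := (w_hasDerivAt μ hx).mul hT
  have h' : HasDerivAt (Flj 0 q μ j) _ x := h.congr_of_eventuallyEq (by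
    filter_upwards [hopen] with y hy
    rw [Flj_eq 0 q μ j hy]
    simp)
  convert h' using 1
  unfold Rj
  have hode := congrArg (fun p : ℝ[X] => p.eval x) (jQ_ode_three hq μ j)
  simp only [eval_sub, eval_mul, eval_pow, eval_X, eval_C, eval_one, eval_neg] at hode
  set Q := (jQ 0 q μ j).eval x
  set Q1 := (derivative (jQ 0 q μ j)).eval x
  set Q2 := (derivative (derivative (jQ 0 q μ j))).eval x
  set w := (1 - x ^ 2) ^ (μ / 2)
  have hne : (1 - x ^ 2) ≠ 0 := hx.ne'
  have hQ2 : (1 - x ^ 2) * Q2 = -(Ej 0 q μ j - μ ^ 2 - μ) * Q + 2 * (μ + 1) * x * Q1 := by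
    linear_combination hode
  have e : -(2 * x) * Q1 + (1 - x ^ 2) * Q2 - (μ * Q + μ * x * Q1) =
      -(Ej 0 q μ j - μ ^ 2) * Q + μ * x * Q1 := by rw [hQ2]; ring
  rw [e]
  field_simp
  ring

/-- left end of the interval: `(-1,1)` for `d = 0` (that is `n = 3`), `(0,1)` for `d ≥ 1`. -/
noncomputable def lft (d : ℕ) : ℝ := if d = 0 then -1 else 0

theorem lft_zero : lft 0 = -1 := by simp [lft]

theorem lft_pos {d : ℕ} (hd : d ≠ 0) : lft d = 0 := by simp [lft, hd]

theorem lft_lt_one (d : ℕ) : lft d < 1 := by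
  unfold lft; split_ifs <;> norm_num

theorem neg_one_le_lft (d : ℕ) : -1 ≤ lft d := by
  unfold lft; split_ifs <;> norm_num

theorem one_sub_sq_pos {d : ℕ} {x : ℝ} (hx : x ∈ Ioo (lft d) 1) : 0 < 1 - x ^ 2 := by
  have h1 := neg_one_le_lft d
  have h2 := hx.1
  have h3 := hx.2
  nlinarith

theorem pow_nonneg_of_mem {d : ℕ} {x : ℝ} (hx : x ∈ Ioo (lft d) 1) : 0 ≤ x ^ d := by
  by_cases hd : d = 0
  · subst hd; simp
  · have := hx.1
    rw [lft_pos hd] at this
    positivity

theorem pow_pos_of_mem {d : ℕ} {x : ℝ} (hx : x ∈ Ioo (lft d) 1) : 0 < x ^ d := by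
  by_cases hd : d = 0
  · subst hd; simp
  · have := hx.1
    rw [lft_pos hd] at this
    positivity

theorem E0_three {q : ℕ} (hq : q ≤ 1) : E0 0 q = 0 := by
  unfold E0
  interval_cases q <;> simp

/-- the eigenvalue equation on the whole interval. -/
theorem Flj_hasDerivAt' {d q : ℕ} (hadm : d = 0 → q ≤ 1) (μ : ℝ) (j : ℕ) {x : ℝ}
    (hx : x ∈ Ioo (lft d) 1) :
    HasDerivAt (Flj d q μ j)
      ((μ ^ 2 / (1 - x ^ 2) + E0 d q / x ^ 2 - Ej d q μ j) * (x ^ d * Rj d q μ j x)) x := by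
  have hpos := one_sub_sq_pos hx
  by_cases hd : d = 0
  · subst hd
    have hq := hadm rfl
    have := Flj_hasDerivAt_three hq μ j hpos
    rw [E0_three hq]
    simpa using this
  · have h0 : x ≠ 0 := by
      have := hx.1
      rw [lft_pos hd] at this
      exact this.ne'
    exact Flj_hasDerivAt d q μ j h0 hpos

end Crest.Agent.R202
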