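import Mathlib
import Crest.Agent.R202.SpinOde

-- ▼ part R202/TriBound
section

/-!
# Row 202, TIP (T1): uniform pointwise bounds for the spindle functions
-/

set_option autoImplicit false

open Polynomial Set

noncomputable section

namespace Crest.Agent.R202.Tri

open Crest.Agent.R202

theorem continuous_kap (d q i : ℕ) : Continuous fun μ : ℝ => kap d q μ i := by
  unfold kap; fun_prop

theorem continuous_jc (d q j : ℕ) : ∀ i, Continuous fun μ : ℝ => jc d q μ j i := by
  intro i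
  induction i with
  | zero => simpa [jc_zero] using continuous_const
  | succ i ih =>
    have : (fun μ : ℝ => jc d q μ j (i + 1)) = fun μ : ℝ =>
        jc d q μ j i * (kap d q μ i - kap d q μ j) / (2 * (i + 1) * (2 * i + d + 2 * q + 1)) := by
      funext μ; rw [jc_succ]
    rw [this]
    exact (ih.mul ((continuous_kap d q i).sub (continuous_kap d q j))).div_const _

theorem jQ_eval_sum (d q : ℕ) (μ : ℝ) (j : ℕ) (x : ℝ) :
    (jQ d q μ j).eval x = x ^ q * ∑ i ∈ Finset.range (j + 1), jc d q μ j i * (x ^ 2) ^ i := by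
  unfold jQ jp
  simp [eval_finsetSum]

/-- the polynomial factor without `x^q` -/
def rQ (d q : ℕ) (μ : ℝ) (j : ℕ) (x : ℝ) : ℝ :=
  ∑ i ∈ Finset.range (j + 1), jc d q μ j i * (x ^ 2) ^ i

/-- the derivative of `rQ` in `x` -/
def drQ (d q : ℕ) (μ : ℝ) (j : ℕ) (x : ℝ) : ℝ :=
  ∑ i ∈ Finset.range (j + 1), jc d q μ j i * (i * (x ^ 2) ^ (i - 1) * (2 * x))

theorem rQ_hasDerivAt (d q : ℕ) (μ : ℝ) (j : ℕ) (x : ℝ) :
    HasDerivAt (rQ d q μ j) (drQ d q μ j x) x := by
  unfold drQ
  have : HasDerivAt (fun x => ∑ i ∈ Finset.range (j + 1), jc d q μ j i * (x ^ 2) ^ i)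
      (∑ i ∈ Finset.range (j + 1), jc d q μ j i * (i * (x ^ 2) ^ (i - 1) * (2 * x))) x := by
    apply HasDerivAt.fun_sum
    intro i _
    have h1 : HasDerivAt (fun x : ℝ => x ^ 2) (2 * x) x := by simpa using hasDerivAt_pow 2 x
    exact (h1.pow i).const_mul _
  exact this

theorem continuous_rQ (d q j : ℕ) : Continuous fun z : ℝ × ℝ => rQ d q z.1 j z.2 := by
  unfold rQ
  refine continuous_finsetSum _ fun i _ => ?_
  exact ((continuous_jc d q j i).comp continuous_fst).mul (by fun_prop)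

theorem continuous_drQ (d q j : ℕ) : Continuous fun z : ℝ × ℝ => drQ d q z.1 j z.2 := by
  unfold drQ
  refine continuous_finsetSum _ fun i _ => ?_
  exact ((continuous_jc d q j i).comp continuous_fst).mul (by fun_prop)

theorem jQ_eval_eq (d q : ℕ) (μ : ℝ) (j : ℕ) (x : ℝ) :
    (jQ d q μ j).eval x = x ^ q * rQ d q μ j x := jQ_eval_sum d q μ j x


/-- a common bound for the polynomial factors -/
theorem exists_rQ_bound (d q j : ℕ) (M : ℝ) : ∃ C : ℝ, 0 ≤ C ∧ ∀ μ ∈ Icc 0 M, ∀ x ∈ Icc (-1 : ℝ) 1,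
    |rQ d q μ j x| ≤ C ∧ |drQ d q μ j x| ≤ C := by
  obtain ⟨C1, h1⟩ := (isCompact_Icc.prod isCompact_Icc : IsCompact (Icc (0:ℝ) M ×ˢ Icc (-1:ℝ) 1)).exists_bound_of_continuousOn
    (continuous_rQ d q j).continuousOn
  obtain ⟨C2, h2⟩ := (isCompact_Icc.prod isCompact_Icc : IsCompact (Icc (0:ℝ) M ×ˢ Icc (-1:ℝ) 1)).exists_bound_of_continuousOn
    (continuous_drQ d q j).continuousOn
  refine ⟨max 0 (max C1 C2), le_max_left _ _, fun μ hμ x hx => ⟨?_, ?_⟩⟩
  · exact (h1 (μ, x) ⟨hμ, hx⟩).trans ((le_max_left _ _).trans (le_max_right _ _))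
  · exact (h2 (μ, x) ⟨hμ, hx⟩).trans ((le_max_right _ _).trans (le_max_right _ _))


end Crest.Agent.R202.Tri
end
end

-- ▼ part R202/Model
section

/-!
# Row 202: the two-variable model of a symmetry sector

`Om = (0,1) × (0,π)`, measure `x^d dx dφ`, `ρ = √(1-x²)`.  The core space `VS q par` consists of
finite Fourier sums `∑ v_m(x) trig(mφ)`, it contains all sector polynomials and all spindle
functions.  `formW W` is the bilinear form with (diagonal) coefficients `W` in the four components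
`u, ρ u_x, u_φ/ρ, √E0 u/x`.
-/

set_option autoImplicit false
set_option linter.unusedSimpArgs false

open MeasureTheory Set Filter Topology
open Crest.Agent.R202

noncomputable section

namespace Crest.Agent.R202.Mod

/-- the rectangle -/
def Om : Set (ℝ × ℝ) := Ioo (0 : ℝ) 1 ×ˢ Ioo (0 : ℝ) Real.pi

theorem isOpen_Om : IsOpen Om := isOpen_Ioo.prod isOpen_Ioo

theorem measurableSet_Om : MeasurableSet Om := isOpen_Om.measurableSet

/-- the measure `x^d dx dφ` on `Om` -/
def mu (d : ℕ) : Measure (ℝ × ℝ) :=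
  (volume.restrict Om).withDensity fun z => ENNReal.ofReal (z.1 ^ d)

theorem mu_ac (d : ℕ) : mu d ≪ volume.restrict Om := withDensity_absolutelyContinuous _ _

theorem ae_mem_Om (d : ℕ) : ∀ᵐ z ∂(mu d), z ∈ Om :=
  (mu_ac d).ae_le (ae_restrict_mem measurableSet_Om)

instance isFiniteMeasure_mu (d : ℕ) : IsFiniteMeasure (mu d) := by
  refine ⟨?_⟩
  unfold mu
  rw [withDensity_apply _ MeasurableSet.univ, Measure.restrict_univ]
  have h1 : ∫⁻ z in Om, ENNReal.ofReal (z.1 ^ d) ≤ ∫⁻ _ in Om, 1 := by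
    refine setLIntegral_mono_ae (by fun_prop) (Filter.Eventually.of_forall fun z hz => ?_)
    rw [← ENNReal.ofReal_one]
    apply ENNReal.ofReal_le_ofReal
    exact pow_le_one₀ hz.1.1.le hz.1.2.le
  refine lt_of_le_of_lt h1 ?_
  rw [setLIntegral_const, one_mul]
  unfold Om
  rw [Measure.volume_eq_prod, Measure.prod_prod]
  simp [Real.volume_Ioo]

/-- the trigonometric factor: `cos (mφ)` for `par = 0`, `sin (mφ)` otherwise -/
def trig (par m : ℕ) (φ : ℝ) : ℝ := if par = 0 then Real.cos (m * φ) else Real.sin (m * φ)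

/-- its derivative -/
def trigD (par m : ℕ) (φ : ℝ) : ℝ :=
  if par = 0 then -(m * Real.sin (m * φ)) else m * Real.cos (m * φ)

theorem hasDerivAt_trig (par m : ℕ) (φ : ℝ) : HasDerivAt (trig par m) (trigD par m φ) φ := by
  unfold trig trigD
  have h0 : HasDerivAt (fun φ : ℝ => (m : ℝ) * φ) m φ := by
    simpa using (hasDerivAt_id φ).const_mul (m : ℝ)
  by_cases h : par = 0
  · simp only [h, if_true]
    have := h0.cos
    convert this using 1; ring
  · simp only [h, if_false]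
    have := h0.sin
    convert this using 1; ring

theorem abs_trig_le (par m : ℕ) (φ : ℝ) : |trig par m φ| ≤ 1 := by
  unfold trig; split_ifs
  · exact Real.abs_cos_le_one _
  · exact Real.abs_sin_le_one _

theorem abs_trigD_le (par m : ℕ) (φ : ℝ) : |trigD par m φ| ≤ m := by
  unfold trigD
  split_ifs
  · rw [abs_neg, abs_mul, Nat.abs_cast]
    calc (m : ℝ) * |Real.sin (m * φ)| ≤ m * 1 := by gcongr; exact Real.abs_sin_le_one _
      _ = m := mul_one _
  · rw [abs_mul, Nat.abs_cast]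
    calc (m : ℝ) * |Real.cos (m * φ)| ≤ m * 1 := by gcongr; exact Real.abs_cos_le_one _
      _ = m := mul_one _

theorem continuous_trig (par m : ℕ) : Continuous (trig par m) := by
  unfold trig; split_ifs <;> fun_prop

theorem continuous_trigD (par m : ℕ) : Continuous (trigD par m) := by
  unfold trigD; split_ifs <;> fun_prop

/-- `ρ = √(1-x²)` -/
def rh (x : ℝ) : ℝ := Real.sqrt (1 - x ^ 2)

theorem rh_pos {x : ℝ} (hx : x ^ 2 < 1) : 0 < rh x := Real.sqrt_pos.2 (by linarith)

theorem rh_nonneg (x : ℝ) : 0 ≤ rh x := Real.sqrt_nonneg _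

theorem rh_le_one (x : ℝ) : rh x ≤ 1 := Real.sqrt_le_one.2 (by nlinarith [sq_nonneg x])

theorem rh_sq {x : ℝ} (hx : x ^ 2 < 1) : rh x ^ 2 = 1 - x ^ 2 := Real.sq_sqrt (by linarith)

theorem continuous_rh : Continuous rh := by unfold rh; fun_prop

theorem sq_lt_one_of_mem {x : ℝ} (hx : x ∈ Ioo (0 : ℝ) 1) : x ^ 2 < 1 := by
  have := hx.1; have := hx.2; nlinarith

/-- radial functions at frequency `m` -/
structure IsRad (q m : ℕ) (R : ℝ → ℝ) : Prop where
  off : ∀ x, 1 ≤ x ^ 2 → R x = 0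
  diff : ∀ x, x ^ 2 < 1 → DifferentiableAt ℝ R x
  cont : ContinuousOn (deriv R) (Ioo (-1) 1)
  par : ∀ x, R (-x) = (-1) ^ q * R x
  bd : ∃ C : ℝ, ∀ x, x ^ 2 < 1 → |R x| ≤ C ∧ (1 ≤ m → |R x| ≤ C * rh x) ∧
    rh x * |deriv R x| ≤ C ∧ (1 ≤ q → |R x| ≤ C * |x|)

/-- the space of radial functions -/
def RadS (q m : ℕ) : Submodule ℝ (ℝ → ℝ) where
  carrier := {R | IsRad q m R}
  zero_mem' := by
    refine ⟨fun _ _ => rfl, fun x _ => differentiableAt_const 0, ?_, fun x => by simp, 0, ?_⟩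
    · have : deriv (0 : ℝ → ℝ) = 0 := by funext x; exact deriv_const x 0
      rw [this]; exact continuousOn_const
    · intro x _
      have : deriv (0 : ℝ → ℝ) x = 0 := deriv_const x 0
      rw [this]; simp
  add_mem' := by
    rintro R S hR hS
    obtain ⟨C, hC⟩ := hR.bd
    obtain ⟨D, hD⟩ := hS.bd
    have hder : ∀ x, x ^ 2 < 1 → deriv (R + S) x = deriv R x + deriv S x := fun x hx =>
      ((hR.diff x hx).hasDerivAt.add (hS.diff x hx).hasDerivAt).deriv
    refine ⟨fun x hx => by simp [hR.off x hx, hS.off x hx],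
      fun x hx => (hR.diff x hx).add (hS.diff x hx), ?_,
      fun x => by simp only [Pi.add_apply, hR.par, hS.par]; ring, C + D, fun x hx => ?_⟩
    · refine (hR.cont.add hS.cont).congr fun x hx => hder x ?_
      have h1 := hx.1; have h2 := hx.2; nlinarith
    · obtain ⟨a1, a2, a3, a4⟩ := hC x hx
      obtain ⟨b1, b2, b3, b4⟩ := hD x hx
      refine ⟨(abs_add_le _ _).trans (add_le_add a1 b1),
        fun h => (abs_add_le _ _).trans ((add_le_add (a2 h) (b2 h)).trans_eq (by ring)), ?_,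
        fun h => (abs_add_le _ _).trans ((add_le_add (a4 h) (b4 h)).trans_eq (by ring))⟩
      rw [hder x hx]
      calc rh x * |deriv R x + deriv S x| ≤ rh x * (|deriv R x| + |deriv S x|) := by
            have := rh_nonneg x
            gcongr; exact abs_add_le _ _
        _ = rh x * |deriv R x| + rh x * |deriv S x| := by ring
        _ ≤ C + D := add_le_add a3 b3
  smul_mem' := by
    rintro c R hR
    obtain ⟨C, hC⟩ := hR.bd
    have hder : ∀ x, x ^ 2 < 1 → deriv (c • R) x = c * deriv R x := fun x hx => by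
      have := ((hR.diff x hx).hasDerivAt.const_smul c).deriv
      simpa using this
    refine ⟨fun x hx => by simp [hR.off x hx], fun x hx => (hR.diff x hx).const_smul c, ?_,
      fun x => by simp only [Pi.smul_apply, hR.par, smul_eq_mul]; ring, |c| * C, fun x hx => ?_⟩
    · refine (hR.cont.const_smul c).congr fun x hx => ?_
      rw [hder x (by have h1 := hx.1; have h2 := hx.2; nlinarith)]; rfl
    · obtain ⟨a1, a2, a3, a4⟩ := hC x hx
      have hc := abs_nonneg c
      refine ⟨?_, fun h => ?_, ?_, fun h => ?_⟩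
      · simp only [Pi.smul_apply, smul_eq_mul, abs_mul]; gcongr
      · simp only [Pi.smul_apply, smul_eq_mul, abs_mul, mul_assoc]; gcongr; exact a2 h
      · rw [hder x hx, abs_mul]
        calc rh x * (|c| * |deriv R x|) = |c| * (rh x * |deriv R x|) := by ring
          _ ≤ |c| * C := by gcongr
      · simp only [Pi.smul_apply, smul_eq_mul, abs_mul, mul_assoc]; gcongr; exact a4 h


/-- the core space of the sector `(q, par)` -/
def VS (q par : ℕ) : Submodule ℝ (ℕ →₀ (ℝ → ℝ)) where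
  carrier := {v | ∀ m, v m ∈ RadS q m ∧ (m < par → v m = 0)}
  zero_mem' := fun m => ⟨Submodule.zero_mem _, fun _ => rfl⟩
  add_mem' := fun {u v} hu hv m => ⟨by
    rw [Finsupp.add_apply]; exact Submodule.add_mem _ (hu m).1 (hv m).1, fun h => by
    rw [Finsupp.add_apply, (hu m).2 h, (hv m).2 h, add_zero]⟩
  smul_mem' := fun c {v} hv m => ⟨by
    rw [Finsupp.smul_apply]; exact Submodule.smul_mem _ c (hv m).1, fun h => by
    rw [Finsupp.smul_apply, (hv m).2 h, smul_zero]⟩

theorem isRad_coe {q par : ℕ} (v : VS q par) (m : ℕ) : IsRad q m ((v : ℕ →₀ (ℝ → ℝ)) m) := (v.2 m).1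

/-- the function `u(x,φ)` -/
def ev (par : ℕ) (v : ℕ →₀ (ℝ → ℝ)) (z : ℝ × ℝ) : ℝ := v.sum fun m R => R z.1 * trig par m z.2

/-- the four components -/
def comp (d q par : ℕ) (v : ℕ →₀ (ℝ → ℝ)) (i : Fin 4) (z : ℝ × ℝ) : ℝ :=
  match i with
  | 0 => v.sum fun m R => R z.1 * trig par m z.2
  | 1 => v.sum fun m R => rh z.1 * deriv R z.1 * trig par m z.2
  | 2 => v.sum fun m R => R z.1 / rh z.1 * trigD par m z.2
  | 3 => v.sum fun m R => Real.sqrt (E0 d q) * (R z.1 / z.1) * trig par m z.2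

/-- radial part of a component -/
def rcomp (d q : ℕ) (R : ℝ → ℝ) (i : Fin 4) (x : ℝ) : ℝ :=
  match i with
  | 0 => R x
  | 1 => rh x * deriv R x
  | 2 => R x / rh x
  | 3 => Real.sqrt (E0 d q) * (R x / x)

/-- angular part of a component -/
def acomp (par m : ℕ) (i : Fin 4) (φ : ℝ) : ℝ := if i = 2 then trigD par m φ else trig par m φ

theorem comp_eq (d q par : ℕ) (v : ℕ →₀ (ℝ → ℝ)) (i : Fin 4) (z : ℝ × ℝ) :
    comp d q par v i z = v.sum fun m R => rcomp d q R i z.1 * acomp par m i z.2 := by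
  fin_cases i <;> simp [comp, rcomp, acomp]

theorem rcomp_zero (d q : ℕ) (i : Fin 4) (x : ℝ) : rcomp d q 0 i x = 0 := by
  fin_cases i <;> simp [rcomp]

theorem rcomp_add {q m : ℕ} (d : ℕ) {R S : ℝ → ℝ} (hR : IsRad q m R) (hS : IsRad q m S)
    (i : Fin 4) {x : ℝ} (hx : x ^ 2 < 1) :
    rcomp d q (R + S) i x = rcomp d q R i x + rcomp d q S i x := by
  have hder : deriv (R + S) x = deriv R x + deriv S x :=
    ((hR.diff x hx).hasDerivAt.add (hS.diff x hx).hasDerivAt).deriv
  fin_cases i <;> simp only [rcomp, Fin.zero_eta, Fin.mk_one, Fin.reduceFinMk]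
  · rfl
  · rw [hder]; ring
  · simp only [Pi.add_apply]; ring
  · simp only [Pi.add_apply]; ring

theorem rcomp_smul {q m : ℕ} (d : ℕ) (c : ℝ) {R : ℝ → ℝ} (hR : IsRad q m R)
    (i : Fin 4) {x : ℝ} (hx : x ^ 2 < 1) :
    rcomp d q (c • R) i x = c * rcomp d q R i x := by
  have hder : deriv (c • R) x = c * deriv R x := by
    have := ((hR.diff x hx).hasDerivAt.const_smul c).deriv
    simpa using this
  fin_cases i <;> simp only [rcomp, Fin.zero_eta, Fin.mk_one, Fin.reduceFinMk]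
  · simp
  · rw [hder]; ring
  · simp only [Pi.smul_apply, smul_eq_mul]; ring
  · simp only [Pi.smul_apply, smul_eq_mul]; ring

theorem comp_add {q par : ℕ} (d : ℕ) (u v : VS q par) (i : Fin 4) {z : ℝ × ℝ} (hz : z ∈ Om) :
    comp d q par (u + v : VS q par) i z = comp d q par u i z + comp d q par v i z := by
  classical
  have hx : z.1 ^ 2 < 1 := sq_lt_one_of_mem hz.1
  rw [comp_eq, comp_eq, comp_eq, Submodule.coe_add]
  have hs1 := Finsupp.sum_of_support_subset (f := (u : ℕ →₀ (ℝ → ℝ)))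
    (s := (u : ℕ →₀ (ℝ → ℝ)).support ∪ (v : ℕ →₀ (ℝ → ℝ)).support) (Finset.subset_union_left)
    (fun m R => rcomp d q R i z.1 * acomp par m i z.2) (fun m _ => by simp [rcomp_zero])
  have hs2 := Finsupp.sum_of_support_subset (f := (v : ℕ →₀ (ℝ → ℝ)))
    (s := (u : ℕ →₀ (ℝ → ℝ)).support ∪ (v : ℕ →₀ (ℝ → ℝ)).support) (Finset.subset_union_right)
    (fun m R => rcomp d q R i z.1 * acomp par m i z.2) (fun m _ => by simp [rcomp_zero])
  have hs3 := Finsupp.sum_of_support_subset (f := (u + v : ℕ →₀ (ℝ → ℝ)))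
    (s := (u : ℕ →₀ (ℝ → ℝ)).support ∪ (v : ℕ →₀ (ℝ → ℝ)).support) (Finsupp.support_add)
    (fun m R => rcomp d q R i z.1 * acomp par m i z.2) (fun m _ => by simp [rcomp_zero])
  rw [hs1, hs2, hs3, ← Finset.sum_add_distrib]
  refine Finset.sum_congr rfl fun m _ => ?_
  rw [Finsupp.add_apply, rcomp_add d (isRad_coe u m) (isRad_coe v m) i hx]
  ring

theorem comp_smul {q par : ℕ} (d : ℕ) (c : ℝ) (v : VS q par) (i : Fin 4) {z : ℝ × ℝ}
    (hz : z ∈ Om) : comp d q par (c • v : VS q par) i z = c * comp d q par v i z := by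
  classical
  have hx : z.1 ^ 2 < 1 := sq_lt_one_of_mem hz.1
  rw [comp_eq, comp_eq, Submodule.coe_smul]
  have hs3 := Finsupp.sum_of_support_subset (f := (c • (v : ℕ →₀ (ℝ → ℝ))))
    (s := (v : ℕ →₀ (ℝ → ℝ)).support) (Finsupp.support_smul)
    (fun m R => rcomp d q R i z.1 * acomp par m i z.2) (fun m _ => by simp [rcomp_zero])
  rw [hs3, Finsupp.sum, Finset.mul_sum]
  refine Finset.sum_congr rfl fun m _ => ?_
  rw [Finsupp.smul_apply, rcomp_smul d c (isRad_coe v m) i hx]
  ring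

theorem continuousOn_rcomp {q m : ℕ} (d : ℕ) {R : ℝ → ℝ} (hR : IsRad q m R) (i : Fin 4) :
    ContinuousOn (rcomp d q R i) (Ioo 0 1) := by
  have hsub : Ioo (0:ℝ) 1 ⊆ Ioo (-1) 1 := Ioo_subset_Ioo (by norm_num) le_rfl
  have hRc : ContinuousOn R (Ioo 0 1) := fun x hx =>
    (hR.diff x (sq_lt_one_of_mem hx)).continuousAt.continuousWithinAt
  have hrh : ∀ x ∈ Ioo (0:ℝ) 1, rh x ≠ 0 := fun x hx => (rh_pos (sq_lt_one_of_mem hx)).ne'
  fin_cases i <;> simp only [rcomp, Fin.zero_eta, Fin.mk_one, Fin.reduceFinMk]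
  · exact hRc
  · exact continuous_rh.continuousOn.mul (hR.cont.mono hsub)
  · exact hRc.div continuous_rh.continuousOn hrh
  · exact continuousOn_const.mul (hRc.div continuousOn_id fun x hx => hx.1.ne')

theorem continuous_acomp (par m : ℕ) (i : Fin 4) : Continuous (acomp par m i) := by
  unfold acomp; split_ifs
  · exact continuous_trigD par m
  · exact continuous_trig par m

theorem continuousOn_comp {q par : ℕ} (d : ℕ) (v : VS q par) (i : Fin 4) :
    ContinuousOn (comp d q par v i) Om := by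
  have : comp d q par (v : ℕ →₀ (ℝ → ℝ)) i = fun z =>
      ∑ m ∈ (v : ℕ →₀ (ℝ → ℝ)).support, rcomp d q ((v : ℕ →₀ (ℝ → ℝ)) m) i z.1 * acomp par m i z.2 := by
    funext z; rw [comp_eq]; rfl
  rw [this]
  refine continuousOn_finsetSum _ fun m _ => ?_
  refine ((continuousOn_rcomp d (isRad_coe v m) i).comp continuousOn_fst fun z hz => hz.1).mul ?_
  exact ((continuous_acomp par m i).comp continuous_snd).continuousOn

/-- a bound for the radial components -/
theorem rcomp_bdd {q m : ℕ} (d : ℕ) {R : ℝ → ℝ} (hR : IsRad q m R) (i : Fin 4) :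
    ∃ C : ℝ, 0 ≤ C ∧ ∀ x ∈ Ioo (0:ℝ) 1, (i = 2 → 1 ≤ m) → |rcomp d q R i x| ≤ C := by
  obtain ⟨C, hC⟩ := hR.bd
  have hC0 : 0 ≤ C := (abs_nonneg _).trans (hC 0 (by norm_num)).1
  refine ⟨(1 + Real.sqrt (E0 d q)) * C, by positivity, fun x hx hm => ?_⟩
  have hx2 := sq_lt_one_of_mem hx
  obtain ⟨a1, a2, a3, a4⟩ := hC x hx2
  have hrh := rh_pos hx2
  have hs := Real.sqrt_nonneg (E0 d q)
  have hbig : C ≤ (1 + Real.sqrt (E0 d q)) * C := by nlinarith
  fin_cases i
  · exact a1.trans hbig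
  · simp only [rcomp, Fin.mk_one]
    rw [abs_mul, abs_of_pos hrh]
    exact a3.trans hbig
  · simp only [rcomp, Fin.reduceFinMk] at hm ⊢
    rw [abs_div, abs_of_pos hrh, div_le_iff₀ hrh]
    exact (a2 (hm trivial)).trans (by gcongr)
  · simp only [rcomp, Fin.reduceFinMk]
    rcases Nat.eq_zero_or_pos q with hq | hq
    · subst hq
      simp only [E0, Nat.cast_zero, zero_mul, Real.sqrt_zero, abs_zero, add_zero, one_mul]
      exact hC0
    · have h4 := a4 hq
      rw [abs_mul, abs_of_nonneg hs, abs_div]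
      have h5 : |R x| / |x| ≤ C := by
        rw [div_le_iff₀ (abs_pos.2 hx.1.ne')]; exact h4
      nlinarith

theorem comp_bdd {q par : ℕ} (d : ℕ) (v : VS q par) (i : Fin 4) :
    ∃ C : ℝ, 0 ≤ C ∧ ∀ z ∈ Om, |comp d q par v i z| ≤ C := by
  have h := fun m => rcomp_bdd d (isRad_coe v m) i
  choose C hC0 hC using h
  refine ⟨∑ m ∈ (v : ℕ →₀ (ℝ → ℝ)).support, C m * (m + 1), Finset.sum_nonneg fun m _ =>
    mul_nonneg (hC0 m) (by positivity), fun z hz => ?_⟩
  rw [comp_eq]
  refine (Finset.abs_sum_le_sum_abs _ _).trans (Finset.sum_le_sum fun m _ => ?_)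
  rw [abs_mul]
  by_cases hi : i = 2 ∧ m = 0
  · obtain ⟨hi, hm⟩ := hi
    have : acomp par m i z.2 = 0 := by
      subst hm; subst hi; simp [acomp, trigD]
    rw [this, abs_zero, mul_zero]
    exact mul_nonneg (hC0 m) (by positivity)
  · have h1 := hC m z.1 hz.1 (fun h => by
      rcases Nat.eq_zero_or_pos m with h0 | h0
      · exact absurd ⟨h, h0⟩ hi
      · exact h0)
    have h2 : |acomp par m i z.2| ≤ m + 1 := by
      unfold acomp; split_ifs
      · exact (abs_trigD_le _ _ _).trans (by linarith)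
      · exact (abs_trig_le _ _ _).trans (by have : (0:ℝ) ≤ m := by positivity
                                            linarith)
    have h3 := hC0 m
    gcongr

theorem aesm_comp {q par : ℕ} (d : ℕ) (v : VS q par) (i : Fin 4) :
    AEStronglyMeasurable (comp d q par v i) (mu d) :=
  ((continuousOn_comp d v i).aestronglyMeasurable measurableSet_Om).mono_ac (mu_ac d)

/-- admissible coefficient functions -/
structure Coef (d : ℕ) (W : Fin 4 → ℝ × ℝ → ℝ) : Prop where
  meas : ∀ i, AEStronglyMeasurable (W i) (mu d)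
  bdd : ∃ C : ℝ, ∀ i, ∀ z ∈ Om, |W i z| ≤ C

theorem integrable_term {q par d : ℕ} {W : Fin 4 → ℝ × ℝ → ℝ} (hW : Coef d W)
    (u v : VS q par) (i : Fin 4) :
    Integrable (fun z => W i z * comp d q par u i z * comp d q par v i z) (mu d) := by
  obtain ⟨C, hC⟩ := hW.bdd
  obtain ⟨A, hA0, hA⟩ := comp_bdd d u i
  obtain ⟨B, hB0, hB⟩ := comp_bdd d v i
  refine Integrable.mono' (integrable_const (|C| * A * B))
    (((hW.meas i).mul (aesm_comp d u i)).mul (aesm_comp d v i)) ?_
  filter_upwards [ae_mem_Om d] with z hz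
  rw [norm_mul, norm_mul, Real.norm_eq_abs, Real.norm_eq_abs, Real.norm_eq_abs]
  have h1 := (hC i z hz).trans (le_abs_self C)
  have h2 := hA z hz
  have h3 := hB z hz
  gcongr

/-- the form with coefficients `W` as a function -/
def fW (d q par : ℕ) (W : Fin 4 → ℝ × ℝ → ℝ) (u v : ℕ →₀ (ℝ → ℝ)) : ℝ :=
  ∫ z, ∑ i, W i z * comp d q par u i z * comp d q par v i z ∂(mu d)

theorem fW_eq_sum {q par d : ℕ} {W : Fin 4 → ℝ × ℝ → ℝ} (hW : Coef d W) (u v : VS q par) :
    fW d q par W u v = ∑ i, ∫ z, W i z * comp d q par u i z * comp d q par v i z ∂(mu d) :=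
  integral_finsetSum _ fun i _ => integrable_term hW u v i

theorem fW_symm (d q par : ℕ) (W : Fin 4 → ℝ × ℝ → ℝ) (u v : ℕ →₀ (ℝ → ℝ)) :
    fW d q par W u v = fW d q par W v u := by
  unfold fW
  congr 1; funext z
  exact Finset.sum_congr rfl fun i _ => by ring

theorem integrable_sum {q par d : ℕ} {W : Fin 4 → ℝ × ℝ → ℝ} (hW : Coef d W)
    (u v : VS q par) :
    Integrable (fun z => ∑ i, W i z * comp d q par u i z * comp d q par v i z) (mu d) :=
  integrable_finsetSum _ fun i _ => integrable_term hW u v i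

/-- **the bilinear form with coefficients `W`** -/
def formW (q par : ℕ) {d : ℕ} {W : Fin 4 → ℝ × ℝ → ℝ} (hW : Coef d W) :
    LinearMap.BilinForm ℝ (VS q par) :=
  LinearMap.mk₂ ℝ (fun u v => fW d q par W u v)
    (fun u u' v => by
      show fW d q par W (u + u' : VS q par) v = _
      unfold fW
      rw [← integral_add (integrable_sum hW u v) (integrable_sum hW u' v)]
      refine integral_congr_ae ?_
      filter_upwards [ae_mem_Om d] with z hz
      rw [← Finset.sum_add_distrib]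
      refine Finset.sum_congr rfl fun i _ => ?_
      rw [comp_add d u u' i hz]; ring)
    (fun c u v => by
      show fW d q par W (c • u : VS q par) v = _
      unfold fW
      rw [smul_eq_mul, ← integral_const_mul]
      refine integral_congr_ae ?_
      filter_upwards [ae_mem_Om d] with z hz
      rw [Finset.mul_sum]
      refine Finset.sum_congr rfl fun i _ => ?_
      rw [comp_smul d c u i hz]; ring)
    (fun u v v' => by
      show fW d q par W u (v + v' : VS q par) = _
      unfold fW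
      rw [← integral_add (integrable_sum hW u v) (integrable_sum hW u v')]
      refine integral_congr_ae ?_
      filter_upwards [ae_mem_Om d] with z hz
      rw [← Finset.sum_add_distrib]
      refine Finset.sum_congr rfl fun i _ => ?_
      rw [comp_add d v v' i hz]; ring)
    (fun c u v => by
      show fW d q par W u (c • v : VS q par) = _
      unfold fW
      rw [smul_eq_mul, ← integral_const_mul]
      refine integral_congr_ae ?_
      filter_upwards [ae_mem_Om d] with z hz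
      rw [Finset.mul_sum]
      refine Finset.sum_congr rfl fun i _ => ?_
      rw [comp_smul d c v i hz]; ring)

theorem formW_apply {q par d : ℕ} {W : Fin 4 → ℝ × ℝ → ℝ} (hW : Coef d W) (u v : VS q par) :
    formW q par hW u v
      = ∫ z, ∑ i, W i z * comp d q par u i z * comp d q par v i z ∂(mu d) := rfl

end Crest.Agent.R202.Mod
end
private theorem rz_78c747312c : type_of% @_root_.Crest.Agent.R202.Mod.comp.eq_1 := @_root_.Crest.Agent.R202.Mod.comp.eq_1 -- L191
private theorem rz_650f9c8a8f : type_of% @_root_.Crest.Agent.R202.Mod.rcomp.eq_1 := @_root_.Crest.Agent.R202.Mod.rcomp.eq_1 -- L199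
end

-- ▼ part R202/Model2

/-!
# Row 202: the two-variable model, elements `psi`, `pol`, and the forms `g`, `Q`
-/

set_option autoImplicit false
set_option linter.unusedSimpArgs false

open MeasureTheory Set Filter Topology
open Crest.Agent.R202

noncomputable section

namespace Crest.Agent.R202.Mod

/-- cut a function off outside `(-1,1)` -/
def trunc (R : ℝ → ℝ) : ℝ → ℝ := fun x => if x ^ 2 < 1 then R x else 0

theorem trunc_of_lt {R : ℝ → ℝ} {x : ℝ} (hx : x ^ 2 < 1) : trunc R x = R x := if_pos hx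

theorem trunc_eventuallyEq {R : ℝ → ℝ} {x : ℝ} (hx : x ^ 2 < 1) : trunc R =ᶠ[𝓝 x] R := by
  have : {y : ℝ | y ^ 2 < 1} ∈ 𝓝 x :=
    (isOpen_lt (by fun_prop) continuous_const).mem_nhds hx
  filter_upwards [this] with y hy
  exact trunc_of_lt hy

/-- functions `(1-x²)^(s/2) r(x)` are radial functions -/
theorem isRad_of {q m : ℕ} {s : ℝ} {r r' : ℝ → ℝ} (hr : ∀ x, HasDerivAt r (r' x) x)
    (hr' : Continuous r') (hpar : ∀ x, r (-x) = (-1) ^ q * r x)
    (hq : 1 ≤ q → ∃ C : ℝ, ∀ x, x ^ 2 < 1 → |r x| ≤ C * |x|)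
    (hs : s = 0 ∨ 1 ≤ s) (hm : 1 ≤ m → 1 ≤ s) :
    IsRad q m (trunc fun x => (1 - x ^ 2) ^ (s / 2) * r x) := by
  have hs0 : 0 ≤ s := by rcases hs with h | h <;> linarith
  have hder : ∀ x, x ^ 2 < 1 → HasDerivAt (fun x : ℝ => (1 - x ^ 2) ^ (s / 2) * r x)
      (-(s * x / (1 - x ^ 2)) * (1 - x ^ 2) ^ (s / 2) * r x + (1 - x ^ 2) ^ (s / 2) * r' x) x :=
    fun x hx => (w_hasDerivAt s (by linarith)).mul (hr x)
  have hder' : ∀ x, x ^ 2 < 1 →
      HasDerivAt (trunc fun x => (1 - x ^ 2) ^ (s / 2) * r x)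
      (-(s * x / (1 - x ^ 2)) * (1 - x ^ 2) ^ (s / 2) * r x + (1 - x ^ 2) ^ (s / 2) * r' x) x :=
    fun x hx => (hder x hx).congr_of_eventuallyEq (trunc_eventuallyEq hx)
  refine ⟨fun x hx => if_neg (by linarith), fun x hx => (hder' x hx).differentiableAt, ?_,
    fun x => ?_, ?_⟩
  · have hI : ∀ x ∈ Ioo (-1 : ℝ) 1, x ^ 2 < 1 := fun x hx => by
      have h1 := hx.1; have h2 := hx.2; nlinarith
    have : ContinuousOn (fun x : ℝ => -(s * x / (1 - x ^ 2)) * (1 - x ^ 2) ^ (s / 2) * r x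
        + (1 - x ^ 2) ^ (s / 2) * r' x) (Ioo (-1 : ℝ) 1) := by
      have hrc : Continuous r := continuous_iff_continuousAt.2 fun x => (hr x).continuousAt
      have h1 : ContinuousOn (fun x : ℝ => (1 - x ^ 2) ^ (s / 2)) (Ioo (-1 : ℝ) 1) := by
        refine ContinuousOn.rpow_const (by fun_prop) fun x hx => Or.inl ?_
        have := hI x hx; linarith
      have h2 : ContinuousOn (fun x : ℝ => -(s * x / (1 - x ^ 2))) (Ioo (-1 : ℝ) 1) := by
        refine (ContinuousOn.div (by fun_prop) (by fun_prop) fun x hx => ?_).neg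
        have := hI x hx; linarith
      exact ((h2.mul h1).mul hrc.continuousOn).add (h1.mul hr'.continuousOn)
    exact this.congr fun x hx => (hder' x (hI x hx)).deriv
  · unfold trunc
    have : (-x) ^ 2 = x ^ 2 := by ring
    rw [this]
    split_ifs
    · show (1 - (-x) ^ 2) ^ (s / 2) * r (-x) = (-1) ^ q * ((1 - x ^ 2) ^ (s / 2) * r x)
      rw [hpar, this]; ring
    · simp
  · obtain ⟨C1, h1⟩ := (isCompact_Icc (a := (-1:ℝ)) (b := 1)).exists_bound_of_continuousOn
      (f := r) (continuous_iff_continuousAt.2 fun x => (hr x).continuousAt).continuousOn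
    obtain ⟨C2, h2⟩ := (isCompact_Icc (a := (-1:ℝ)) (b := 1)).exists_bound_of_continuousOn
      (f := r') hr'.continuousOn
    obtain ⟨C3, h3⟩ : ∃ C3 : ℝ, ∀ x, x ^ 2 < 1 → 1 ≤ q → |r x| ≤ C3 * |x| := by
      by_cases hq1 : 1 ≤ q
      · obtain ⟨C, hC⟩ := hq hq1
        exact ⟨C, fun x hx _ => hC x hx⟩
      · exact ⟨0, fun x _ h => absurd h hq1⟩
    refine ⟨(1 + s) * (|C1| + |C2| + |C3|), fun x hx => ?_⟩
    have hxabs : |x| < 1 := (sq_lt_one_iff_abs_lt_one x).1 hx
    have hxI : x ∈ Icc (-1:ℝ) 1 := abs_le.1 hxabs.le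
    have hpos : 0 < 1 - x ^ 2 := by linarith
    have hle1 : 1 - x ^ 2 ≤ 1 := by nlinarith [sq_nonneg x]
    have hρ0 : 0 < rh x := rh_pos hx
    have hρ1 : rh x ≤ 1 := rh_le_one x
    have hρ2 : rh x ^ 2 = 1 - x ^ 2 := rh_sq hx
    have e1 : |r x| ≤ |C1| := (h1 x hxI).trans (le_abs_self _)
    have e2 : |r' x| ≤ |C2| := (h2 x hxI).trans (le_abs_self _)
    set w := (1 - x ^ 2) ^ (s / 2 : ℝ) with hw
    have hw0 : 0 ≤ w := Real.rpow_nonneg hpos.le _
    have hw1 : w ≤ 1 := Real.rpow_le_one hpos.le hle1 (by positivity)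
    have hws : 1 ≤ s → w ≤ rh x := by
      intro h
      rw [hw, rh, Real.sqrt_eq_rpow]
      exact Real.rpow_le_rpow_of_exponent_ge hpos hle1 (by linarith)
    have a1 := abs_nonneg C1
    have a2 := abs_nonneg C2
    have a3 := abs_nonneg C3
    have hT : 0 ≤ s * (|C1| + |C2| + |C3|) := by positivity
    have hCC1 : |C1| ≤ (1 + s) * (|C1| + |C2| + |C3|) := by nlinarith
    rw [trunc_of_lt hx]
    refine ⟨?_, fun h => ?_, ?_, fun h => ?_⟩
    · rw [abs_mul, abs_of_nonneg hw0]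
      calc w * |r x| ≤ 1 * |C1| := by gcongr
        _ ≤ _ := by rw [one_mul]; exact hCC1
    · rw [abs_mul, abs_of_nonneg hw0]
      calc w * |r x| ≤ rh x * |C1| := by gcongr; exact hws (hm h)
        _ = |C1| * rh x := mul_comm _ _
        _ ≤ _ := by gcongr
    · rw [(hder' x hx).deriv]
      have h5 : rh x * (w * |r' x|) ≤ |C2| := by
        calc rh x * (w * |r' x|) ≤ 1 * (1 * |C2|) := by gcongr
          _ = |C2| := by ring
      have h6 : rh x * (s * |x| / (1 - x ^ 2) * w * |r x|) ≤ s * |C1| := by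
        rcases hs with h | h
        · rw [h]; simp
        · have h7 := hws h
          have h8 : rh x * (s * |x| / (1 - x ^ 2) * w * |r x|)
              = (w / rh x) * (s * |x| * |r x|) := by
            rw [← hρ2]; field_simp
          rw [h8]
          calc (w / rh x) * (s * |x| * |r x|) ≤ 1 * (s * 1 * |C1|) := by
                gcongr
                exact (div_le_one hρ0).2 h7
            _ = s * |C1| := by ring
      calc rh x * |-(s * x / (1 - x ^ 2)) * w * r x + w * r' x|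
          ≤ rh x * (|-(s * x / (1 - x ^ 2)) * w * r x| + |w * r' x|) := by
            gcongr; exact abs_add_le _ _
        _ = rh x * (s * |x| / (1 - x ^ 2) * w * |r x|) + rh x * (w * |r' x|) := by
            rw [abs_mul, abs_mul, abs_mul, abs_neg, abs_div, abs_mul, abs_of_nonneg hs0,
              abs_of_nonneg hw0, abs_of_pos hpos]; ring
        _ ≤ s * |C1| + |C2| := add_le_add h6 h5
        _ ≤ _ := by nlinarith
    · rw [abs_mul, abs_of_nonneg hw0]
      have h9 := h3 x hx h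
      have h10 : C3 * |x| ≤ |C3| * |x| := by gcongr; exact le_abs_self _
      have h11 : |C3| ≤ (1 + s) * (|C1| + |C2| + |C3|) := by nlinarith
      calc w * |r x| ≤ 1 * (|C3| * |x|) := by gcongr; exact h9.trans h10
        _ = |C3| * |x| := one_mul _
        _ ≤ _ := by gcongr


theorem single_mem_VS {q par m : ℕ} (hm : par ≤ m) {R : ℝ → ℝ} (hR : IsRad q m R) :
    Finsupp.single m R ∈ VS q par := by
  classical
  intro k
  by_cases hk : m = k
  · subst hk
    rw [Finsupp.single_eq_same]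
    exact ⟨hR, fun h => absurd hm (by omega)⟩
  · rw [Finsupp.single_eq_of_ne' hk]
    exact ⟨Submodule.zero_mem _, fun _ => rfl⟩

/-! ### spindle functions -/

theorem rQ_neg (d q : ℕ) (μ : ℝ) (j : ℕ) (x : ℝ) : Tri.rQ d q μ j (-x) = Tri.rQ d q μ j x := by
  unfold Tri.rQ; simp

theorem isRad_Rj (d q : ℕ) {m : ℕ} {b : ℝ} (hb : 1 ≤ b) (j : ℕ) :
    IsRad q m (trunc (Rj d q (m * b) j)) := by
  have h0 : Rj d q (m * b) j = fun x =>
      (1 - x ^ 2) ^ ((m * b) / 2 : ℝ) * (jQ d q (m * b) j).eval x := rfl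
  rw [h0]
  refine isRad_of (fun x => (jQ d q (m * b) j).hasDerivAt x)
    (Polynomial.continuous _) (fun x => ?_) (fun hq => ?_) ?_ (fun hm => ?_)
  · rw [Tri.jQ_eval_eq, Tri.jQ_eval_eq, rQ_neg, neg_pow]; ring
  · obtain ⟨C, -, hC⟩ := Tri.exists_rQ_bound d q j (m * b)
    refine ⟨C, fun x hx => ?_⟩
    have hxabs : |x| < 1 := (sq_lt_one_iff_abs_lt_one x).1 hx
    rw [Tri.jQ_eval_eq, abs_mul, abs_pow]
    have h1 := (hC (m * b) ⟨by positivity, le_rfl⟩ x (abs_le.1 hxabs.le)).1
    have h6 : |x| ^ q ≤ |x| := by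
      calc |x| ^ q ≤ |x| ^ 1 := pow_le_pow_of_le_one (abs_nonneg _) hxabs.le hq
        _ = |x| := pow_one _
    calc |x| ^ q * |Tri.rQ d q (m * b) j x| ≤ |x| * C := by gcongr
      _ = C * |x| := mul_comm _ _
  · rcases Nat.eq_zero_or_pos m with h | h
    · left; rw [h]; simp
    · right
      have : (1:ℝ) ≤ m := by exact_mod_cast h
      nlinarith
  · have : (1:ℝ) ≤ m := by exact_mod_cast hm
    nlinarith

open Classical in
/-- the (unnormalised) spindle function with label `(m, j)` at `b = 1/θ` -/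
def psi (d q par : ℕ) (b : ℝ) (m j : ℕ) : VS q par :=
  if h : 1 ≤ b ∧ par ≤ m then
    ⟨Finsupp.single m (trunc (Rj d q (m * b) j)), single_mem_VS h.2 (isRad_Rj d q h.1 j)⟩
  else 0

theorem coe_psi (d q : ℕ) {par : ℕ} {b : ℝ} {m : ℕ} (hb : 1 ≤ b) (hm : par ≤ m) (j : ℕ) :
    (psi d q par b m j : ℕ →₀ (ℝ → ℝ)) = Finsupp.single m (trunc (Rj d q (m * b) j)) := by
  unfold psi; rw [dif_pos ⟨hb, hm⟩]

/-! ### polynomial elements -/

theorem isRad_pol (q m i : ℕ) :
    IsRad q m (trunc fun x => (1 - x ^ 2) ^ ((m : ℝ) / 2) * x ^ (q + 2 * i)) := by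
  refine isRad_of (r' := fun x => ((q + 2 * i : ℕ) : ℝ) * x ^ (q + 2 * i - 1))
    (fun x => hasDerivAt_pow _ x) (by fun_prop) (fun x => ?_) (fun hq => ⟨1, fun x hx => ?_⟩) ?_
    (fun hm => by exact_mod_cast hm)
  · rw [neg_pow, pow_add, pow_mul]; simp
  · have hxabs : |x| < 1 := (sq_lt_one_iff_abs_lt_one x).1 hx
    rw [abs_pow, one_mul]
    calc |x| ^ (q + 2 * i) ≤ |x| ^ 1 := pow_le_pow_of_le_one (abs_nonneg _) hxabs.le (by omega)
      _ = |x| := pow_one _
  · rcases Nat.eq_zero_or_pos m with h | h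
    · left; rw [h]; simp
    · right; exact_mod_cast h

open Classical in
/-- the sector polynomial `x^(q+2i) ρ^m trig(mφ)` -/
def pol (q par m i : ℕ) : VS q par :=
  if h : par ≤ m then
    ⟨Finsupp.single m (trunc fun x => (1 - x ^ 2) ^ ((m : ℝ) / 2) * x ^ (q + 2 * i)),
      single_mem_VS h (isRad_pol q m i)⟩
  else 0

theorem coe_pol (q : ℕ) {par m : ℕ} (hm : par ≤ m) (i : ℕ) :
    (pol q par m i : ℕ →₀ (ℝ → ℝ))
      = Finsupp.single m (trunc fun x => (1 - x ^ 2) ^ ((m : ℝ) / 2) * x ^ (q + 2 * i)) := by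
  unfold pol; rw [dif_pos hm]

/-- sector polynomials of degree `≤ D` -/
def PolD (q par D : ℕ) : Submodule ℝ (VS q par) :=
  Submodule.span ℝ {v | ∃ m i, par ≤ m ∧ q + m + 2 * i ≤ D ∧ v = pol q par m i}

/-- all sector polynomials -/
def Pol (q par : ℕ) : Submodule ℝ (VS q par) :=
  Submodule.span ℝ {v | ∃ m i, par ≤ m ∧ v = pol q par m i}

theorem PolD_le_Pol (q par D : ℕ) : PolD q par D ≤ Pol q par :=
  Submodule.span_mono fun _ ⟨m, i, hm, _, hv⟩ => ⟨m, i, hm, hv⟩

theorem PolD_mono (q par : ℕ) {D E : ℕ} (h : D ≤ E) : PolD q par D ≤ PolD q par E :=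
  Submodule.span_mono fun _ ⟨m, i, hm, hd, hv⟩ => ⟨m, i, hm, hd.trans h, hv⟩

theorem mem_Pol_iff {q par : ℕ} {v : VS q par} : v ∈ Pol q par ↔ ∃ D, v ∈ PolD q par D := by
  constructor
  · intro hv
    induction hv using Submodule.span_induction with
    | mem x hx =>
      obtain ⟨m, i, hm, rfl⟩ := hx
      exact ⟨q + m + 2 * i, Submodule.subset_span ⟨m, i, hm, le_rfl, rfl⟩⟩
    | zero => exact ⟨0, Submodule.zero_mem _⟩
    | add x y _ _ hx hy =>
      obtain ⟨D, hD⟩ := hx
      obtain ⟨E, hE⟩ := hy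
      exact ⟨max D E, Submodule.add_mem _ (PolD_mono q par (le_max_left _ _) hD)
        (PolD_mono q par (le_max_right _ _) hE)⟩
    | smul c x _ hx =>
      obtain ⟨D, hD⟩ := hx
      exact ⟨D, Submodule.smul_mem _ c hD⟩
  · rintro ⟨D, hD⟩
    exact PolD_le_Pol q par D hD

/-! ### the forms -/

/-- coefficients of the `L²` form -/
def Wg : Fin 4 → ℝ × ℝ → ℝ := fun i _ => if i = 0 then 1 else 0

theorem coef_Wg (d : ℕ) : Coef d Wg := by
  refine ⟨fun i => aestronglyMeasurable_const, 1, fun i z _ => ?_⟩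
  unfold Wg; split_ifs <;> simp

/-- the `L²` inner product of the model -/
def g (d q par : ℕ) : LinearMap.BilinForm ℝ (VS q par) := formW q par (coef_Wg d)

theorem g_apply (d : ℕ) {q par : ℕ} (u v : VS q par) :
    g d q par u v = ∫ z, comp d q par u 0 z * comp d q par v 0 z ∂(mu d) := by
  unfold g
  rw [formW_apply]
  congr 1; funext z
  simp [Wg, Fin.sum_univ_four]

/-- admissible conductivity profiles: measurable, `K⁻¹ ≤ P ≤ K` on `Om` -/
structure Adm (d : ℕ) (K : ℝ) (P : ℝ × ℝ → ℝ) : Prop where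
  meas : AEStronglyMeasurable P (mu d)
  K_ge : 1 ≤ K
  low : ∀ z ∈ Om, K⁻¹ ≤ P z
  up : ∀ z ∈ Om, P z ≤ K

theorem adm_one (d : ℕ) : Adm d 1 (fun _ => 1) :=
  ⟨aestronglyMeasurable_const, le_rfl, fun _ _ => by simp, fun _ _ => le_rfl⟩

/-- coefficients of the Dirichlet form of the metric `(b, P)`, `b = 1/θ` -/
def WQ (b : ℝ) (P : ℝ × ℝ → ℝ) : Fin 4 → ℝ × ℝ → ℝ := fun i z =>
  match i with
  | 0 => 0
  | 1 => P z
  | 2 => b ^ 2 / P z
  | 3 => 1

theorem coef_WQ {d : ℕ} {K : ℝ} {P : ℝ × ℝ → ℝ} (hP : Adm d K P) (b : ℝ) :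
    Coef d (WQ b P) := by
  have hK : 0 < K := lt_of_lt_of_le one_pos hP.K_ge
  refine ⟨fun i => ?_, (b ^ 2 + 1) * K, fun i z hz => ?_⟩
  · fin_cases i
    · exact aestronglyMeasurable_const
    · exact hP.meas
    · have := (aestronglyMeasurable_const (b := b ^ 2) (μ := mu d)).mul
        (hP.meas.aemeasurable.inv.aestronglyMeasurable)
      refine this.congr (Filter.Eventually.of_forall fun z => ?_)
      simp [WQ, div_eq_mul_inv]
    · exact aestronglyMeasurable_const
  · have h1 := hP.low z hz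
    have h2 := hP.up z hz
    have h3 : 0 < P z := lt_of_lt_of_le (by positivity) h1
    have hb : 0 ≤ b ^ 2 := sq_nonneg b
    have hK1 := hP.K_ge
    fin_cases i
    · simp only [WQ, Fin.zero_eta, abs_zero]; positivity
    · simp only [WQ, Fin.mk_one]
      rw [abs_of_pos h3]; nlinarith
    · simp only [WQ, Fin.reduceFinMk]
      rw [abs_of_nonneg (by positivity), div_le_iff₀ h3]
      have h4 : 1 ≤ K * P z := by
        calc 1 = K * K⁻¹ := (mul_inv_cancel₀ hK.ne').symm
          _ ≤ K * P z := by gcongr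
      nlinarith
    · simp only [WQ, Fin.reduceFinMk, abs_one]; nlinarith

/-- the Dirichlet form of the metric `(b, P)` -/
def Q {d : ℕ} (q par : ℕ) {K : ℝ} {P : ℝ × ℝ → ℝ} (hP : Adm d K P) (b : ℝ) :
    LinearMap.BilinForm ℝ (VS q par) := formW q par (coef_WQ hP b)

theorem Q_apply {d : ℕ} {q par : ℕ} {K : ℝ} {P : ℝ × ℝ → ℝ} (hP : Adm d K P) (b : ℝ)
    (u v : VS q par) :
    Q q par hP b u v = ∫ z, (P z * comp d q par u 1 z * comp d q par v 1 z
      + b ^ 2 / P z * comp d q par u 2 z * comp d q par v 2 z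
      + comp d q par u 3 z * comp d q par v 3 z) ∂(mu d) := by
  unfold Q
  rw [formW_apply]
  congr 1; funext z
  simp [WQ, Fin.sum_univ_four]

/-- reference form `h = Q 1 1 + g` -/
def href (d q par : ℕ) : LinearMap.BilinForm ℝ (VS q par) := Q q par (adm_one d) 1 + g d q par

end Crest.Agent.R202.Mod
end
private theorem rz_76962fa078 : type_of% @_root_.Crest.Agent.R202.Mod.WQ.eq_1 := @_root_.Crest.Agent.R202.Mod.WQ.eq_1 -- L291
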