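import Mathlib
import Crest.Agent.R202.SpinOps

/-! Row 202, PART C1-2D (helper206): the trigonometric bases of `L²(0,π)` and Parseval. -/

set_option autoImplicit false

namespace Crest.Agent.R202.Fou

open MeasureTheory Set Polynomial Filter Topology Real

/-- `par = false`: `cos (m φ)`; `par = true`: `sin (m φ)`. -/
noncomputable def trg (par : Bool) (m : ℕ) (φ : ℝ) : ℝ :=
  match par with
  | false => Real.cos (m * φ)
  | true => Real.sin (m * φ)








/-- index of the first harmonic -/
def m0 (par : Bool) : ℕ := if par then 1 else 0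





theorem integral_cos_int {k : ℤ} (hk : k ≠ 0) : ∫ φ in Ioo (0 : ℝ) π, Real.cos (k * φ) = 0 := by
  have hk' : (k : ℝ) ≠ 0 := by exact_mod_cast hk
  rw [← integral_Ioc_eq_integral_Ioo, ← intervalIntegral.integral_of_le Real.pi_pos.le,
    intervalIntegral.integral_comp_mul_left (fun x => Real.cos x) hk', integral_cos]
  simp [Real.sin_int_mul_pi]

theorem integrableOn_cont {f : ℝ → ℝ} (hf : Continuous f) (a b : ℝ) :
    IntegrableOn f (Ioo a b) :=
  (hf.continuousOn.integrableOn_Icc (a := a) (b := b)).mono_set Ioo_subset_Icc_self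

theorem integral_trg_mul {par : Bool} {m n : ℕ} :
    ∫ φ in Ioo (0 : ℝ) π, trg par m φ * trg par n φ =
      (∫ φ in Ioo (0 : ℝ) π, Real.cos (((m : ℤ) - n : ℤ) * φ)) / 2 +
      (if par then -1 else 1) * ((∫ φ in Ioo (0 : ℝ) π, Real.cos (((m : ℤ) + n : ℤ) * φ)) / 2) := by
  have i1 : IntegrableOn (fun φ : ℝ => Real.cos (((m : ℤ) - n : ℤ) * φ)) (Ioo 0 π) :=
    integrableOn_cont (by fun_prop) _ _
  have i2 : IntegrableOn (fun φ : ℝ => Real.cos (((m : ℤ) + n : ℤ) * φ)) (Ioo 0 π) :=
    integrableOn_cont (by fun_prop) _ _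
  have e : ∀ φ : ℝ, trg par m φ * trg par n φ =
      Real.cos (((m : ℤ) - n : ℤ) * φ) / 2 +
      (if par then -1 else 1) * (Real.cos (((m : ℤ) + n : ℤ) * φ) / 2) := by
    intro φ
    push_cast
    rw [sub_mul, add_mul, Real.cos_sub, Real.cos_add]
    cases par
    · simp only [trg]; norm_num; ring
    · simp only [trg]; norm_num; ring
  simp_rw [e]
  rw [integral_add (i1.div_const 2) ((i2.div_const 2).const_mul _), integral_div,
    integral_const_mul, integral_div]

/-- `∫₀^π trg²` -/
noncomputable def ntrg (m : ℕ) : ℝ := if m = 0 then π else π / 2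

theorem ntrg_pos (m : ℕ) : 0 < ntrg m := by
  unfold ntrg
  have := Real.pi_pos
  split_ifs <;> positivity

theorem integral_one_pi : ∫ _ in Ioo (0 : ℝ) π, (1 : ℝ) = π := by
  rw [integral_const]
  simp [Real.pi_pos.le]

theorem integral_trg_sq {par : Bool} {m : ℕ} (hm : m0 par ≤ m) :
    ∫ φ in Ioo (0 : ℝ) π, trg par m φ ^ 2 = ntrg m := by
  have e : ∀ φ, trg par m φ ^ 2 = trg par m φ * trg par m φ := fun φ => by ring
  simp_rw [e]
  rw [integral_trg_mul]
  have h0 : ∫ φ in Ioo (0 : ℝ) π, Real.cos (((m : ℤ) - m : ℤ) * φ) = π := by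
    simp only [sub_self, Int.cast_zero, zero_mul, Real.cos_zero]
    exact integral_one_pi
  rw [h0]
  by_cases hm0 : m = 0
  · subst hm0
    cases par
    · simp only [Nat.cast_zero, add_zero, Int.cast_zero, zero_mul, Real.cos_zero]
      rw [integral_one_pi]
      simp [ntrg]
    · simp [m0] at hm
  · rw [integral_cos_int (by omega)]
    simp [ntrg, hm0]

theorem integral_trg_orth {par : Bool} {m n : ℕ} (hmn : m ≠ n) :
    ∫ φ in Ioo (0 : ℝ) π, trg par m φ * trg par n φ = 0 := by
  rw [integral_trg_mul, integral_cos_int (by omega), integral_cos_int (by omega)]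
  simp



end Crest.Agent.R202.Fou
private theorem rz_4054c35de8 : type_of% @_root_.Crest.Agent.R202.Fou.trg.eq_1 := @_root_.Crest.Agent.R202.Fou.trg.eq_1 -- L13
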