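import Mathlib
import Crest.Agent.R202.Model2
import Crest.Agent.R202.SecGrade
import Crest.Agent.R202.Fou1

/-!
# Row 202 (T4, helper248): sector polynomials `V(s, x0, x1)` and the space `Pol q par`

`uV q V (x, φ) = x^q V(x², ρ cos φ, ρ sin φ)`, `ρ = √(1-x²)`.
* `exists_pol_of_V`: for `V` of weight `e` and parity `(-1)^par` in `x1` there is
  `w ∈ PolD q par (q + e)` with `ev par w = uV q V` on `x² < 1`.
* `exists_V_of_pol`: the converse.
* `ev_injective`: `w ∈ VS q par` is determined by its values on `Om`.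
* components `1, 2, 3` of `comp` are `ρ u_x`, `u_φ / ρ`, `√E0 u / x` of the function `u = ev par w`.
-/

set_option autoImplicit false
set_option linter.unusedSimpArgs false

open MeasureTheory Set Filter Topology
open Crest.Agent.R202

noncomputable section

namespace Crest.Agent.R202.Mod

/-! ### linearity of `ev` -/

theorem ev_add (par : ℕ) (u v : ℕ →₀ (ℝ → ℝ)) (z : ℝ × ℝ) :
    ev par (u + v) z = ev par u z + ev par v z := by
  unfold ev
  exact Finsupp.sum_add_index' (fun m => by simp) fun m R S => by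
    simp only [Pi.add_apply]; ring

theorem ev_zero (par : ℕ) (z : ℝ × ℝ) : ev par 0 z = 0 := by
  unfold ev; simp

theorem ev_smul (par : ℕ) (c : ℝ) (v : ℕ →₀ (ℝ → ℝ)) (z : ℝ × ℝ) :
    ev par (c • v) z = c * ev par v z := by
  unfold ev
  rw [Finsupp.sum_smul_index' (fun m => by simp), Finsupp.sum, Finsupp.sum, Finset.mul_sum]
  refine Finset.sum_congr rfl fun m _ => ?_
  simp only [Pi.smul_apply, smul_eq_mul]; ring

theorem ev_sum (par : ℕ) {ι : Type*} (s : Finset ι) (f : ι → (ℕ →₀ (ℝ → ℝ))) (z : ℝ × ℝ) :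
    ev par (∑ i ∈ s, f i) z = ∑ i ∈ s, ev par (f i) z := by
  classical
  induction s using Finset.induction_on with
  | empty => simp [ev_zero]
  | insert a s ha ih => rw [Finset.sum_insert ha, Finset.sum_insert ha, ev_add, ih]


theorem ev_single (par m : ℕ) (R : ℝ → ℝ) (z : ℝ × ℝ) :
    ev par (Finsupp.single m R) z = R z.1 * trig par m z.2 := by
  unfold ev; rw [Finsupp.sum_single_index]; simp

theorem trig_one_zero (φ : ℝ) : trig 1 0 φ = 0 := by simp [trig]
theorem trig_zero_zero (φ : ℝ) : trig 0 0 φ = 1 := by simp [trig]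
theorem trig_zero_eq (m : ℕ) (φ : ℝ) : trig 0 m φ = Real.cos (m * φ) := by simp [trig]
theorem trig_one_eq (m : ℕ) (φ : ℝ) : trig 1 m φ = Real.sin (m * φ) := by simp [trig]

theorem rh_rpow {x : ℝ} (hx : x ^ 2 < 1) (m : ℕ) : (1 - x ^ 2) ^ ((m : ℝ) / 2) = rh x ^ m := by
  unfold rh
  have h0 : (0 : ℝ) ≤ 1 - x ^ 2 := by linarith
  rw [Real.sqrt_eq_rpow, ← Real.rpow_natCast ((1 - x ^ 2) ^ (1 / 2 : ℝ)) m, ← Real.rpow_mul h0]
  congr 1; ring

theorem ev_pol {q par : ℕ} (hpar : par ≤ 1) (m i : ℕ) {z : ℝ × ℝ} (hz : z.1 ^ 2 < 1) :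
    ev par (pol q par m i : ℕ →₀ (ℝ → ℝ)) z
      = z.1 ^ (q + 2 * i) * rh z.1 ^ m * trig par m z.2 := by
  by_cases h : par ≤ m
  · rw [coe_pol q h, ev_single, trunc_of_lt hz, rh_rpow hz]; ring
  · have hp : par = 1 := by omega
    have hm : m = 0 := by omega
    subst hp; subst hm
    unfold pol
    rw [dif_neg (by omega)]
    simp [ev_zero, trig_one_zero]

/-! ### the class of functions coming from `PolD` -/

/-- `u` agrees on `x² < 1` with an element of `PolD q par D` -/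
def IsPolFn (q par D : ℕ) (u : ℝ × ℝ → ℝ) : Prop :=
  ∃ w ∈ PolD q par D, ∀ z : ℝ × ℝ, z.1 ^ 2 < 1 → ev par (w : ℕ →₀ (ℝ → ℝ)) z = u z

theorem IsPolFn.congr {q par D : ℕ} {u v : ℝ × ℝ → ℝ} (h : IsPolFn q par D u)
    (huv : ∀ z : ℝ × ℝ, z.1 ^ 2 < 1 → u z = v z) : IsPolFn q par D v := by
  obtain ⟨w, hw, hu⟩ := h
  exact ⟨w, hw, fun z hz => (hu z hz).trans (huv z hz)⟩

theorem IsPolFn.mono {q par D E : ℕ} {u : ℝ × ℝ → ℝ} (h : IsPolFn q par D u) (hDE : D ≤ E) :
    IsPolFn q par E u := by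
  obtain ⟨w, hw, hu⟩ := h
  exact ⟨w, PolD_mono q par hDE hw, hu⟩

theorem IsPolFn.add {q par D : ℕ} {u v : ℝ × ℝ → ℝ} (hu : IsPolFn q par D u)
    (hv : IsPolFn q par D v) : IsPolFn q par D (fun z => u z + v z) := by
  obtain ⟨w, hw, h1⟩ := hu
  obtain ⟨w', hw', h2⟩ := hv
  refine ⟨w + w', Submodule.add_mem _ hw hw', fun z hz => ?_⟩
  rw [Submodule.coe_add, ev_add, h1 z hz, h2 z hz]

theorem IsPolFn.smul {q par D : ℕ} {u : ℝ × ℝ → ℝ} (c : ℝ) (hu : IsPolFn q par D u) :
    IsPolFn q par D (fun z => c * u z) := by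
  obtain ⟨w, hw, h1⟩ := hu
  refine ⟨c • w, Submodule.smul_mem _ c hw, fun z hz => ?_⟩
  rw [Submodule.coe_smul, ev_smul, h1 z hz]

theorem IsPolFn.zero (q par D : ℕ) : IsPolFn q par D (fun _ => 0) :=
  ⟨0, Submodule.zero_mem _, fun z _ => by rw [Submodule.coe_zero, ev_zero]⟩

theorem IsPolFn.sum {q par D : ℕ} {ι : Type*} (s : Finset ι) {f : ι → ℝ × ℝ → ℝ}
    (hf : ∀ i ∈ s, IsPolFn q par D (f i)) : IsPolFn q par D (fun z => ∑ i ∈ s, f i z) := by
  classical
  induction s using Finset.induction_on with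
  | empty => simpa using IsPolFn.zero q par D
  | insert a s ha ih =>
    have := (hf a (Finset.mem_insert_self a s)).add
      (ih fun i hi => hf i (Finset.mem_insert_of_mem hi))
    refine this.congr fun z _ => ?_
    rw [Finset.sum_insert ha]

theorem pol_mem_PolD {q par m i D : ℕ} (hm : par ≤ m) (hD : q + m + 2 * i ≤ D) :
    pol q par m i ∈ PolD q par D := Submodule.subset_span ⟨m, i, hm, hD, rfl⟩

theorem isPolFn_gen {q par : ℕ} (hpar : par ≤ 1) {m i D : ℕ} (hD : q + m + 2 * i ≤ D) :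
    IsPolFn q par D (fun z => z.1 ^ (q + 2 * i) * rh z.1 ^ m * trig par m z.2) := by
  by_cases h : par ≤ m
  · exact ⟨pol q par m i, pol_mem_PolD h hD, fun z hz => ev_pol hpar m i hz⟩
  · have hp : par = 1 := by omega
    have hm : m = 0 := by omega
    subst hp; subst hm
    refine (IsPolFn.zero q 1 D).congr fun z _ => ?_
    simp [trig_one_zero]

/-- transfer principle: an operation that sends generators to polynomial functions does so with
every polynomial function -/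
theorem IsPolFn.of_gen {q par par' D E : ℕ} (hpar : par ≤ 1) (a : ℝ × ℝ → ℝ)
    (hgen : ∀ m i : ℕ, par ≤ m → q + m + 2 * i ≤ D → IsPolFn q par' E
      (fun z => a z * (z.1 ^ (q + 2 * i) * rh z.1 ^ m * trig par m z.2)))
    {u : ℝ × ℝ → ℝ} (hu : IsPolFn q par D u) : IsPolFn q par' E (fun z => a z * u z) := by
  obtain ⟨w, hw, h1⟩ := hu
  have key : IsPolFn q par' E (fun z => a z * ev par (w : ℕ →₀ (ℝ → ℝ)) z) := by
    clear h1
    unfold PolD at hw
    induction hw using Submodule.span_induction with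
    | mem x hx =>
      obtain ⟨m, i, hm, hd, rfl⟩ := hx
      refine (hgen m i hm hd).congr fun z hz => ?_
      rw [ev_pol hpar m i hz]
    | zero =>
      refine (IsPolFn.zero q par' E).congr fun z _ => ?_
      rw [Submodule.coe_zero, ev_zero, mul_zero]
    | add x y _ _ hx hy =>
      refine (hx.add hy).congr fun z _ => ?_
      rw [Submodule.coe_add, ev_add, mul_add]
    | smul c x _ hx =>
      refine (hx.smul c).congr fun z _ => ?_
      rw [Submodule.coe_smul, ev_smul]; ring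
  exact key.congr fun z hz => by rw [h1 z hz]

/-- multiplication by `x²` -/
theorem IsPolFn.mul_sq {q par D : ℕ} (hpar : par ≤ 1) {u : ℝ × ℝ → ℝ} (hu : IsPolFn q par D u) :
    IsPolFn q par (D + 2) (fun z => z.1 ^ 2 * u z) := by
  refine IsPolFn.of_gen hpar (fun z => z.1 ^ 2) (fun m i _ hd => ?_) hu
  refine (isPolFn_gen hpar (m := m) (i := i + 1) (D := D + 2) (by omega)).congr fun z _ => ?_
  rw [show q + 2 * (i + 1) = (q + 2 * i) + 2 by ring, pow_add]; ring

/-- multiplication by `ρ cos φ` -/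
theorem IsPolFn.mul_cos {q par D : ℕ} (hpar : par ≤ 1) {u : ℝ × ℝ → ℝ} (hu : IsPolFn q par D u) :
    IsPolFn q par (D + 1) (fun z => rh z.1 * Real.cos z.2 * u z) := by
  refine IsPolFn.of_gen hpar (fun z => rh z.1 * Real.cos z.2) (fun m i hm hd => ?_) hu
  rcases Nat.eq_zero_or_pos m with h0 | h0
  · subst h0
    have hp : par = 0 := by omega
    subst hp
    refine (isPolFn_gen hpar (m := 1) (i := i) (D := D + 1) (by omega)).congr fun z _ => ?_
    rw [trig_zero_zero, trig_zero_eq, Nat.cast_one, one_mul, pow_one, pow_zero, mul_one]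
    ring
  · obtain ⟨k, rfl⟩ : ∃ k, m = k + 1 := ⟨m - 1, by omega⟩
    have e1 := isPolFn_gen (q := q) hpar (m := k + 2) (i := i) (D := D + 1) (by omega)
    have e2 := isPolFn_gen (q := q) hpar (m := k) (i := i) (D := D + 1) (by omega)
    have e3 := isPolFn_gen (q := q) hpar (m := k) (i := i + 1) (D := D + 1) (by omega)
    refine (((e1.add e2).add (e3.smul (-1))).smul (1 / 2)).congr fun z hz => ?_
    have hrh := rh_sq hz
    have hx : z.1 ^ 2 = 1 - rh z.1 ^ 2 := by rw [hrh]; ring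
    have hp2 : z.1 ^ (q + 2 * (i + 1)) = z.1 ^ (q + 2 * i) * (1 - rh z.1 ^ 2) := by
      rw [show q + 2 * (i + 1) = (q + 2 * i) + 2 by ring, pow_add, hx]
    have htr : Real.cos z.2 * trig par (k + 1) z.2
        = (trig par (k + 2) z.2 + trig par k z.2) / 2 := by
      have ha : (((k + 2 : ℕ) : ℝ)) * z.2 = ((k + 1 : ℕ) : ℝ) * z.2 + z.2 := by push_cast; ring
      have hb : (((k : ℕ) : ℝ)) * z.2 = ((k + 1 : ℕ) : ℝ) * z.2 - z.2 := by push_cast; ring
      unfold trig
      split_ifs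
      · rw [ha, hb, Real.cos_add, Real.cos_sub]; ring
      · rw [ha, hb, Real.sin_add, Real.sin_sub]; ring
    rw [hp2]
    calc 1 / 2 * (z.1 ^ (q + 2 * i) * rh z.1 ^ (k + 2) * trig par (k + 2) z.2
          + z.1 ^ (q + 2 * i) * rh z.1 ^ k * trig par k z.2
          + -1 * (z.1 ^ (q + 2 * i) * (1 - rh z.1 ^ 2) * rh z.1 ^ k * trig par k z.2))
        = rh z.1 * (z.1 ^ (q + 2 * i) * rh z.1 ^ (k + 1))
            * ((trig par (k + 2) z.2 + trig par k z.2) / 2) := by ring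
      _ = rh z.1 * (z.1 ^ (q + 2 * i) * rh z.1 ^ (k + 1))
            * (Real.cos z.2 * trig par (k + 1) z.2) := by rw [htr]
      _ = _ := by ring

/-- multiplication by `ρ sin φ`, from cosine to sine sectors -/
theorem IsPolFn.mul_sin0 {q D : ℕ} {u : ℝ × ℝ → ℝ} (hu : IsPolFn q 0 D u) :
    IsPolFn q 1 (D + 1) (fun z => rh z.1 * Real.sin z.2 * u z) := by
  refine IsPolFn.of_gen (by norm_num) (fun z => rh z.1 * Real.sin z.2) (fun m i hm hd => ?_) hu
  rcases Nat.eq_zero_or_pos m with h0 | h0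
  · subst h0
    refine (isPolFn_gen (par := 1) le_rfl (m := 1) (i := i) (D := D + 1) (by omega)).congr
      fun z _ => ?_
    rw [trig_zero_zero, trig_one_eq, Nat.cast_one, one_mul, pow_one, pow_zero, mul_one]
    ring
  · obtain ⟨k, rfl⟩ : ∃ k, m = k + 1 := ⟨m - 1, by omega⟩
    have e1 := isPolFn_gen (q := q) (par := 1) le_rfl (m := k + 2) (i := i) (D := D + 1) (by omega)
    have e2 := isPolFn_gen (q := q) (par := 1) le_rfl (m := k) (i := i) (D := D + 1) (by omega)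
    have e3 := isPolFn_gen (q := q) (par := 1) le_rfl (m := k) (i := i + 1) (D := D + 1)
      (by omega)
    refine (((e1.add (e2.smul (-1))).add e3).smul (1 / 2)).congr fun z hz => ?_
    have hrh := rh_sq hz
    have hx : z.1 ^ 2 = 1 - rh z.1 ^ 2 := by rw [hrh]; ring
    have hp2 : z.1 ^ (q + 2 * (i + 1)) = z.1 ^ (q + 2 * i) * (1 - rh z.1 ^ 2) := by
      rw [show q + 2 * (i + 1) = (q + 2 * i) + 2 by ring, pow_add, hx]
    have htr : Real.sin z.2 * trig 0 (k + 1) z.2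
        = (trig 1 (k + 2) z.2 - trig 1 k z.2) / 2 := by
      have ha : (((k + 2 : ℕ) : ℝ)) * z.2 = ((k + 1 : ℕ) : ℝ) * z.2 + z.2 := by push_cast; ring
      have hb : (((k : ℕ) : ℝ)) * z.2 = ((k + 1 : ℕ) : ℝ) * z.2 - z.2 := by push_cast; ring
      rw [trig_zero_eq, trig_one_eq, trig_one_eq, ha, hb, Real.sin_add, Real.sin_sub]; ring
    rw [hp2]
    calc 1 / 2 * (z.1 ^ (q + 2 * i) * rh z.1 ^ (k + 2) * trig 1 (k + 2) z.2
          + -1 * (z.1 ^ (q + 2 * i) * rh z.1 ^ k * trig 1 k z.2)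
          + z.1 ^ (q + 2 * i) * (1 - rh z.1 ^ 2) * rh z.1 ^ k * trig 1 k z.2)
        = rh z.1 * (z.1 ^ (q + 2 * i) * rh z.1 ^ (k + 1))
            * ((trig 1 (k + 2) z.2 - trig 1 k z.2) / 2) := by ring
      _ = rh z.1 * (z.1 ^ (q + 2 * i) * rh z.1 ^ (k + 1))
            * (Real.sin z.2 * trig 0 (k + 1) z.2) := by rw [htr]
      _ = _ := by ring

/-- multiplication by `ρ sin φ`, from sine to cosine sectors -/
theorem IsPolFn.mul_sin1 {q D : ℕ} {u : ℝ × ℝ → ℝ} (hu : IsPolFn q 1 D u) :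
    IsPolFn q 0 (D + 1) (fun z => rh z.1 * Real.sin z.2 * u z) := by
  refine IsPolFn.of_gen le_rfl (fun z => rh z.1 * Real.sin z.2) (fun m i hm hd => ?_) hu
  obtain ⟨k, rfl⟩ : ∃ k, m = k + 1 := ⟨m - 1, by omega⟩
  have h01 : (0 : ℕ) ≤ 1 := by norm_num
  have e1 := isPolFn_gen (q := q) (par := 0) h01 (m := k + 2) (i := i) (D := D + 1) (by omega)
  have e2 := isPolFn_gen (q := q) (par := 0) h01 (m := k) (i := i) (D := D + 1) (by omega)
  have e3 := isPolFn_gen (q := q) (par := 0) h01 (m := k) (i := i + 1) (D := D + 1) (by omega)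
  refine (((e2.add (e3.smul (-1))).add (e1.smul (-1))).smul (1 / 2)).congr fun z hz => ?_
  have hrh := rh_sq hz
  have hx : z.1 ^ 2 = 1 - rh z.1 ^ 2 := by rw [hrh]; ring
  have hp2 : z.1 ^ (q + 2 * (i + 1)) = z.1 ^ (q + 2 * i) * (1 - rh z.1 ^ 2) := by
    rw [show q + 2 * (i + 1) = (q + 2 * i) + 2 by ring, pow_add, hx]
  have htr : Real.sin z.2 * trig 1 (k + 1) z.2
      = (trig 0 k z.2 - trig 0 (k + 2) z.2) / 2 := by
    have ha : (((k + 2 : ℕ) : ℝ)) * z.2 = ((k + 1 : ℕ) : ℝ) * z.2 + z.2 := by push_cast; ring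
    have hb : (((k : ℕ) : ℝ)) * z.2 = ((k + 1 : ℕ) : ℝ) * z.2 - z.2 := by push_cast; ring
    rw [trig_zero_eq, trig_one_eq, trig_zero_eq, ha, hb, Real.cos_add, Real.cos_sub]; ring
  rw [hp2]
  calc 1 / 2 * (z.1 ^ (q + 2 * i) * rh z.1 ^ k * trig 0 k z.2
        + -1 * (z.1 ^ (q + 2 * i) * (1 - rh z.1 ^ 2) * rh z.1 ^ k * trig 0 k z.2)
        + -1 * (z.1 ^ (q + 2 * i) * rh z.1 ^ (k + 2) * trig 0 (k + 2) z.2))
      = rh z.1 * (z.1 ^ (q + 2 * i) * rh z.1 ^ (k + 1))
          * ((trig 0 k z.2 - trig 0 (k + 2) z.2) / 2) := by ring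
    _ = rh z.1 * (z.1 ^ (q + 2 * i) * rh z.1 ^ (k + 1))
          * (Real.sin z.2 * trig 1 (k + 1) z.2) := by rw [htr]
    _ = _ := by ring

/-- base function `x^q` -/
theorem isPolFn_base (q : ℕ) : IsPolFn q 0 q (fun z => z.1 ^ q) := by
  refine (isPolFn_gen (q := q) (par := 0) (by norm_num) (m := 0) (i := 0) (D := q)
    (by omega)).congr fun z _ => ?_
  simp [trig_zero_zero]

/-- monomials -/
theorem isPolFn_mon (q i j : ℕ) : ∀ k : ℕ, IsPolFn q (k % 2) (q + 2 * i + j + k)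
    (fun z => z.1 ^ q * (z.1 ^ 2) ^ i * (rh z.1 * Real.cos z.2) ^ j
      * (rh z.1 * Real.sin z.2) ^ k) := by
  have h1 : ∀ i : ℕ, IsPolFn q 0 (q + 2 * i) (fun z => z.1 ^ q * (z.1 ^ 2) ^ i) := by
    intro i
    induction i with
    | zero => exact ((isPolFn_base q).mono (by omega)).congr fun z _ => by simp
    | succ i ih =>
      refine ((ih.mul_sq (by norm_num)).mono (by omega)).congr fun z _ => ?_
      rw [pow_succ (z.1 ^ 2) i]; ring
  have h2 : ∀ j : ℕ, IsPolFn q 0 (q + 2 * i + j)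
      (fun z => z.1 ^ q * (z.1 ^ 2) ^ i * (rh z.1 * Real.cos z.2) ^ j) := by
    intro j
    induction j with
    | zero => exact ((h1 i).mono (by omega)).congr fun z _ => by simp
    | succ j ih =>
      refine ((ih.mul_cos (by norm_num)).mono (by omega)).congr fun z _ => ?_
      rw [pow_succ (rh z.1 * Real.cos z.2) j]; ring
  intro k
  induction k with
  | zero => exact ((h2 j).mono (by omega)).congr fun z _ => by simp
  | succ k ih =>
    rcases Nat.mod_two_eq_zero_or_one k with hk | hk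
    · have hk' : (k + 1) % 2 = 1 := by omega
      rw [hk] at ih
      rw [hk']
      refine (ih.mul_sin0.mono (by omega)).congr fun z _ => ?_
      rw [pow_succ (rh z.1 * Real.sin z.2) k]; ring
    · have hk' : (k + 1) % 2 = 0 := by omega
      rw [hk] at ih
      rw [hk']
      refine (ih.mul_sin1.mono (by omega)).congr fun z _ => ?_
      rw [pow_succ (rh z.1 * Real.sin z.2) k]; ring


/-! ### polynomials in `(s, x0, x1)` -/

/-- the function `x^q V(x², ρ cos φ, ρ sin φ)` -/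
def uV (q : ℕ) (V : MvPolynomial (Fin 3) ℝ) (z : ℝ × ℝ) : ℝ :=
  z.1 ^ q * MvPolynomial.eval ![z.1 ^ 2, rh z.1 * Real.cos z.2, rh z.1 * Real.sin z.2] V

theorem uV_add (q : ℕ) (V W : MvPolynomial (Fin 3) ℝ) (z : ℝ × ℝ) :
    uV q (V + W) z = uV q V z + uV q W z := by
  unfold uV; rw [map_add]; ring

theorem uV_C_mul (q : ℕ) (c : ℝ) (V : MvPolynomial (Fin 3) ℝ) (z : ℝ × ℝ) :
    uV q (MvPolynomial.C c * V) z = c * uV q V z := by
  unfold uV; rw [map_mul, MvPolynomial.eval_C]; ring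

theorem uV_zero (q : ℕ) (z : ℝ × ℝ) : uV q 0 z = 0 := by unfold uV; simp

theorem uV_eq_sum (q : ℕ) (V : MvPolynomial (Fin 3) ℝ) (z : ℝ × ℝ) :
    uV q V z = ∑ s ∈ V.support, MvPolynomial.coeff s V * (z.1 ^ q * (z.1 ^ 2) ^ (s 0)
      * (rh z.1 * Real.cos z.2) ^ (s 1) * (rh z.1 * Real.sin z.2) ^ (s 2)) := by
  unfold uV
  rw [MvPolynomial.eval_eq', Finset.mul_sum]
  refine Finset.sum_congr rfl fun s _ => ?_
  rw [Fin.prod_univ_three]
  simp only [Matrix.cons_val_zero, Matrix.cons_val_one, Matrix.cons_val]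
  ring

theorem coeff_refl3 (V : MvPolynomial (Fin 3) ℝ) (s : Fin 3 →₀ ℕ) :
    MvPolynomial.coeff s (Sph.refl3 V) = (-1) ^ (s 2) * MvPolynomial.coeff s V := by
  classical
  induction V using MvPolynomial.induction_on' with
  | monomial t a =>
    have h1 : Sph.refl3 (MvPolynomial.monomial t a)
        = MvPolynomial.monomial t ((-1) ^ (t 2) * a) := by
      rw [MvPolynomial.monomial_eq, MvPolynomial.monomial_eq,
        Finsupp.prod_fintype _ _ (fun i => pow_zero _),
        Fin.prod_univ_three, map_mul, map_mul, map_mul, map_pow, map_pow, map_pow,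
        Sph.refl3_X0, Sph.refl3_X1, Sph.refl3_X2]
      have hC : Sph.refl3 (MvPolynomial.C a) = MvPolynomial.C a := by simp [Sph.refl3]
      have hc2 : (MvPolynomial.C ((-1 : ℝ) ^ (t 2) * a) : MvPolynomial (Fin 3) ℝ)
          = (-1) ^ (t 2) * MvPolynomial.C a := by simp
      rw [hC, hc2, neg_pow (MvPolynomial.X 2 : MvPolynomial (Fin 3) ℝ)]
      ring
    rw [h1, MvPolynomial.coeff_monomial, MvPolynomial.coeff_monomial]
    split_ifs with h
    · rw [h]
    · rw [mul_zero]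
  | add p q hp hq => rw [map_add, MvPolynomial.coeff_add, hp, hq, MvPolynomial.coeff_add]; ring

theorem parity_of_refl3 {par : ℕ} (hpar : par ≤ 1) {V : MvPolynomial (Fin 3) ℝ}
    (hV : Sph.refl3 V = MvPolynomial.C ((-1) ^ par) * V) {s : Fin 3 →₀ ℕ} (hs : s ∈ V.support) :
    s 2 % 2 = par := by
  have h0 : MvPolynomial.coeff s V ≠ 0 := MvPolynomial.mem_support_iff.1 hs
  have h1 := congrArg (MvPolynomial.coeff s) hV
  rw [coeff_refl3, MvPolynomial.coeff_C_mul] at h1
  have h2 : ((-1 : ℝ)) ^ (s 2) = (-1) ^ par := mul_right_cancel₀ h0 h1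
  rcases Nat.even_or_odd (s 2) with he | ho
  · rw [he.neg_one_pow] at h2
    have : par = 0 := by
      by_contra h
      have : par = 1 := by omega
      rw [this] at h2; norm_num at h2
    rw [this]; exact Nat.even_iff.1 he
  · rw [ho.neg_one_pow] at h2
    have : par = 1 := by
      by_contra h
      have : par = 0 := by omega
      rw [this] at h2; norm_num at h2
    rw [this]; exact Nat.odd_iff.1 ho

theorem isPolFn_uV (q : ℕ) {par : ℕ} (hpar : par ≤ 1) {V : MvPolynomial (Fin 3) ℝ}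
    (hV : Sph.refl3 V = MvPolynomial.C ((-1) ^ par) * V) {D : ℕ}
    (hD : ∀ s ∈ V.support, q + 2 * s 0 + s 1 + s 2 ≤ D) : IsPolFn q par D (uV q V) := by
  have : IsPolFn q par D (fun z => ∑ s ∈ V.support, MvPolynomial.coeff s V *
      (z.1 ^ q * (z.1 ^ 2) ^ (s 0)
      * (rh z.1 * Real.cos z.2) ^ (s 1) * (rh z.1 * Real.sin z.2) ^ (s 2))) := by
    refine IsPolFn.sum _ fun s hs => ?_
    have h1 := isPolFn_mon q (s 0) (s 1) (s 2)
    rw [parity_of_refl3 hpar hV hs] at h1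
    exact (h1.mono (hD s hs)).smul _
  exact this.congr fun z _ => (uV_eq_sum q V z).symm

/-- **sector polynomials give elements of `PolD`** -/
theorem exists_pol_of_V (q : ℕ) {par : ℕ} (hpar : par ≤ 1) {V : MvPolynomial (Fin 3) ℝ} {e : ℕ}
    (hw : V.IsWeightedHomogeneous Sph.w3 e)
    (hV : Sph.refl3 V = MvPolynomial.C ((-1) ^ par) * V) :
    ∃ w ∈ PolD q par (q + e), ∀ z : ℝ × ℝ, z.1 ^ 2 < 1 →
      ev par (w : ℕ →₀ (ℝ → ℝ)) z = uV q V z := by
  refine isPolFn_uV q hpar hV fun s hs => ?_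
  have h1 := hw (MvPolynomial.mem_support_iff.1 hs)
  rw [Finsupp.weight_apply, Finsupp.sum_fintype _ _ (by simp), Fin.sum_univ_three] at h1
  simp only [Sph.w3, Matrix.cons_val_zero, Matrix.cons_val_one, Matrix.cons_val,
    smul_eq_mul, mul_one] at h1
  omega

/-! ### the converse -/

/-- real and imaginary parts of `(x0 + i x1)^m` -/
def reP : ℕ → MvPolynomial (Fin 3) ℝ × MvPolynomial (Fin 3) ℝ
  | 0 => (1, 0)
  | m + 1 => (MvPolynomial.X 1 * (reP m).1 - MvPolynomial.X 2 * (reP m).2,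
      MvPolynomial.X 1 * (reP m).2 + MvPolynomial.X 2 * (reP m).1)

theorem eval_reP (r φ s : ℝ) (m : ℕ) :
    MvPolynomial.eval ![s, r * Real.cos φ, r * Real.sin φ] (reP m).1 = r ^ m * Real.cos (m * φ) ∧
    MvPolynomial.eval ![s, r * Real.cos φ, r * Real.sin φ] (reP m).2
      = r ^ m * Real.sin (m * φ) := by
  induction m with
  | zero => simp [reP]
  | succ m ih =>
    obtain ⟨h1, h2⟩ := ih
    have ha : (((m + 1 : ℕ) : ℝ)) * φ = φ + (m : ℝ) * φ := by push_cast; ring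
    constructor
    · rw [reP, map_sub, map_mul, map_mul, h1, h2, MvPolynomial.eval_X, MvPolynomial.eval_X, ha,
        Real.cos_add]
      simp only [Matrix.cons_val_one, Matrix.cons_val]
      ring
    · rw [reP, map_add, map_mul, map_mul, h1, h2, MvPolynomial.eval_X, MvPolynomial.eval_X, ha,
        Real.sin_add]
      simp only [Matrix.cons_val_one, Matrix.cons_val]
      ring

theorem refl3_reP (m : ℕ) :
    Sph.refl3 (reP m).1 = (reP m).1 ∧ Sph.refl3 (reP m).2 = -(reP m).2 := by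
  induction m with
  | zero => simp [reP]
  | succ m ih =>
    obtain ⟨h1, h2⟩ := ih
    constructor
    · rw [reP, map_sub, map_mul, map_mul, h1, h2, Sph.refl3_X1, Sph.refl3_X2]; ring
    · rw [reP, map_add, map_mul, map_mul, h1, h2, Sph.refl3_X1, Sph.refl3_X2]; ring

theorem reP_wh (m : ℕ) : (reP m).1.IsWeightedHomogeneous Sph.w3 m ∧
    (reP m).2.IsWeightedHomogeneous Sph.w3 m := by
  induction m with
  | zero =>
    exact ⟨MvPolynomial.isWeightedHomogeneous_one ℝ Sph.w3,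
      MvPolynomial.isWeightedHomogeneous_zero ℝ Sph.w3 _⟩
  | succ m ih =>
    obtain ⟨h1, h2⟩ := ih
    have e1 : (MvPolynomial.X 1 : MvPolynomial (Fin 3) ℝ).IsWeightedHomogeneous Sph.w3 1 :=
      MvPolynomial.isWeightedHomogeneous_X ℝ Sph.w3 1
    have e2 : (MvPolynomial.X 2 : MvPolynomial (Fin 3) ℝ).IsWeightedHomogeneous Sph.w3 1 :=
      MvPolynomial.isWeightedHomogeneous_X ℝ Sph.w3 2
    rw [show m + 1 = 1 + m by ring]
    refine ⟨?_, ?_⟩
    · rw [show 1 + m = m + 1 by ring, reP, show m + 1 = 1 + m by ring]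
      exact (e1.mul h1).sub (e2.mul h2)
    · rw [show 1 + m = m + 1 by ring, reP, show m + 1 = 1 + m by ring]
      exact (e1.mul h2).add (e2.mul h1)


/-- `∃ V` of parity `(-1)^par` and of weights `≤ E` with `uV q V = ev par w` on `x² < 1` -/
theorem exists_V_of_pol (q : ℕ) {par : ℕ} (hpar : par ≤ 1) {D : ℕ} {w : VS q par}
    (hw : w ∈ PolD q par D) :
    ∃ V : MvPolynomial (Fin 3) ℝ, Sph.refl3 V = MvPolynomial.C ((-1) ^ par) * V ∧
      (∀ s ∈ V.support, q + Finsupp.weight Sph.w3 s ≤ D) ∧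
      ∀ z : ℝ × ℝ, z.1 ^ 2 < 1 → ev par (w : ℕ →₀ (ℝ → ℝ)) z = uV q V z := by
  classical
  unfold PolD at hw
  induction hw using Submodule.span_induction with
  | mem x hx =>
    obtain ⟨m, i, hm, hd, rfl⟩ := hx
    have hX0 : (MvPolynomial.X 0 : MvPolynomial (Fin 3) ℝ).IsWeightedHomogeneous Sph.w3 2 :=
      MvPolynomial.isWeightedHomogeneous_X ℝ Sph.w3 0
    have hX : ((MvPolynomial.X 0 : MvPolynomial (Fin 3) ℝ) ^ i).IsWeightedHomogeneous
        Sph.w3 (i • 2) := hX0.pow i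
    have hsupp : ∀ W : MvPolynomial (Fin 3) ℝ, W.IsWeightedHomogeneous Sph.w3 m →
        ∀ s ∈ (MvPolynomial.X 0 ^ i * W).support, q + Finsupp.weight Sph.w3 s ≤ D := by
      intro W hW s hs
      have := (hX.mul hW) (MvPolynomial.mem_support_iff.1 hs)
      rw [this, smul_eq_mul]; omega
    rcases Nat.eq_zero_or_pos par with h0 | h0
    · subst h0
      refine ⟨MvPolynomial.X 0 ^ i * (reP m).1, ?_, hsupp _ (reP_wh m).1, fun z hz => ?_⟩
      · rw [map_mul, map_pow, Sph.refl3_X0, (refl3_reP m).1]; simp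
      · rw [ev_pol hpar m i hz, uV, map_mul, map_pow, MvPolynomial.eval_X, (eval_reP _ _ _ m).1,
          trig_zero_eq, pow_add, pow_mul]
        simp only [Matrix.cons_val_zero]
        ring
    · have h1 : par = 1 := by omega
      subst h1
      refine ⟨MvPolynomial.X 0 ^ i * (reP m).2, ?_, hsupp _ (reP_wh m).2, fun z hz => ?_⟩
      · rw [map_mul, map_pow, Sph.refl3_X0, (refl3_reP m).2]; simp
      · rw [ev_pol hpar m i hz, uV, map_mul, map_pow, MvPolynomial.eval_X, (eval_reP _ _ _ m).2,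
          trig_one_eq, pow_add, pow_mul]
        simp only [Matrix.cons_val_zero]
        ring
  | zero =>
    refine ⟨0, by simp, fun s hs => by simp at hs, fun z _ => ?_⟩
    rw [Submodule.coe_zero, ev_zero, uV_zero]
  | add x y _ _ hx hy =>
    obtain ⟨V, h1, h2, h3⟩ := hx
    obtain ⟨W, g1, g2, g3⟩ := hy
    refine ⟨V + W, by rw [map_add, h1, g1]; ring, fun s hs => ?_, fun z hz => ?_⟩
    · rcases Finset.mem_union.1 (MvPolynomial.support_add hs) with h | h
      · exact h2 s h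
      · exact g2 s h
    · rw [Submodule.coe_add, ev_add, h3 z hz, g3 z hz, uV_add]
  | smul c x _ hx =>
    obtain ⟨V, h1, h2, h3⟩ := hx
    refine ⟨MvPolynomial.C c * V, ?_, fun s hs => h2 s ?_, fun z hz => ?_⟩
    · have hC : Sph.refl3 (MvPolynomial.C c) = MvPolynomial.C c := by simp [Sph.refl3]
      rw [map_mul, hC, h1]; ring
    · rw [MvPolynomial.mem_support_iff, MvPolynomial.coeff_C_mul] at hs
      rw [MvPolynomial.mem_support_iff]
      exact right_ne_zero_of_mul hs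
    · rw [Submodule.coe_smul, ev_smul, h3 z hz, uV_C_mul]

/-! ### `ev` determines the element -/

/-- components of `comp` as derivatives of `ev` -/
theorem hasDerivAt_ev_fst {q par : ℕ} (d : ℕ) (v : VS q par) {x φ : ℝ} (hx : x ^ 2 < 1) :
    HasDerivAt (fun s => ev par (v : ℕ →₀ (ℝ → ℝ)) (s, φ))
      (comp d q par v 1 (x, φ) / rh x) x := by
  have hrh : rh x ≠ 0 := (rh_pos hx).ne'
  have h1 : ∀ m ∈ (v : ℕ →₀ (ℝ → ℝ)).support, HasDerivAt
      (fun s => (v : ℕ →₀ (ℝ → ℝ)) m s * trig par m φ)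
      (deriv ((v : ℕ →₀ (ℝ → ℝ)) m) x * trig par m φ) x := fun m _ =>
    ((isRad_coe v m).diff x hx).hasDerivAt.mul_const _
  have h2 := HasDerivAt.fun_sum h1
  have e : comp d q par v 1 (x, φ) / rh x = ∑ m ∈ (v : ℕ →₀ (ℝ → ℝ)).support,
      deriv ((v : ℕ →₀ (ℝ → ℝ)) m) x * trig par m φ := by
    unfold comp
    simp only [Finsupp.sum]
    rw [Finset.sum_div]
    refine Finset.sum_congr rfl fun m _ => ?_
    field_simp
  rw [e]
  exact h2

theorem hasDerivAt_ev_snd {q par : ℕ} (d : ℕ) (v : VS q par) {x φ : ℝ} (hx : x ^ 2 < 1) :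
    HasDerivAt (fun t => ev par (v : ℕ →₀ (ℝ → ℝ)) (x, t))
      (rh x * comp d q par v 2 (x, φ)) φ := by
  have hrh : rh x ≠ 0 := (rh_pos hx).ne'
  have h1 : ∀ m ∈ (v : ℕ →₀ (ℝ → ℝ)).support, HasDerivAt
      (fun t => (v : ℕ →₀ (ℝ → ℝ)) m x * trig par m t)
      ((v : ℕ →₀ (ℝ → ℝ)) m x * trigD par m φ) φ := fun m _ =>
    (hasDerivAt_trig par m φ).const_mul _
  have h2 := HasDerivAt.fun_sum h1
  have e : rh x * comp d q par v 2 (x, φ) = ∑ m ∈ (v : ℕ →₀ (ℝ → ℝ)).support,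
      (v : ℕ →₀ (ℝ → ℝ)) m x * trigD par m φ := by
    unfold comp
    simp only [Finsupp.sum]
    rw [Finset.mul_sum]
    refine Finset.sum_congr rfl fun m _ => ?_
    field_simp
  rw [e]
  exact h2

theorem comp_three_eq {q par : ℕ} (d : ℕ) (v : VS q par) (z : ℝ × ℝ) :
    comp d q par v 3 z = Real.sqrt (E0 d q) * (ev par (v : ℕ →₀ (ℝ → ℝ)) z / z.1) := by
  unfold comp ev
  simp only [Finsupp.sum]
  rw [Finset.sum_div, Finset.mul_sum]
  refine Finset.sum_congr rfl fun m _ => ?_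
  ring

/-- components `1` and `2` only depend on the values -/
theorem comp_one_eq_deriv {q par : ℕ} (d : ℕ) (v : VS q par) {z : ℝ × ℝ} (hz : z.1 ^ 2 < 1) :
    comp d q par v 1 z
      = rh z.1 * deriv (fun s => ev par (v : ℕ →₀ (ℝ → ℝ)) (s, z.2)) z.1 := by
  rw [(hasDerivAt_ev_fst d v hz).deriv]
  have hrh : rh z.1 ≠ 0 := (rh_pos hz).ne'
  field_simp

theorem comp_two_eq_deriv {q par : ℕ} (d : ℕ) (v : VS q par) {z : ℝ × ℝ} (hz : z.1 ^ 2 < 1) :
    comp d q par v 2 z
      = deriv (fun t => ev par (v : ℕ →₀ (ℝ → ℝ)) (z.1, t)) z.2 / rh z.1 := by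
  rw [(hasDerivAt_ev_snd d v hz).deriv]
  have hrh : rh z.1 ≠ 0 := (rh_pos hz).ne'
  field_simp


/-! ### injectivity -/

theorem trig_eq_trg {par : ℕ} (hpar : par ≤ 1) (m : ℕ) (φ : ℝ) :
    trig par m φ = Fou.trg (decide (par = 1)) m φ := by
  rcases Nat.eq_zero_or_pos par with h | h
  · subst h; simp [trig, Fou.trg]
  · have : par = 1 := by omega
    subst this; simp [trig, Fou.trg]

theorem integral_trig_orth {par m k : ℕ} (hpar : par ≤ 1) (hmk : m ≠ k) :
    ∫ φ in Ioo (0 : ℝ) Real.pi, trig par m φ * trig par k φ = 0 := by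
  simp_rw [trig_eq_trg hpar]
  exact Fou.integral_trg_orth hmk

theorem integral_trig_sq_pos {par m : ℕ} (hpar : par ≤ 1) (hm : par ≤ m) :
    0 < ∫ φ in Ioo (0 : ℝ) Real.pi, trig par m φ * trig par m φ := by
  simp_rw [trig_eq_trg hpar, ← pow_two]
  rw [Fou.integral_trg_sq (by
    rcases Nat.eq_zero_or_pos par with h | h
    · subst h; simp [Fou.m0]
    · have : par = 1 := by omega
      subst this; simpa [Fou.m0] using hm)]
  exact Fou.ntrg_pos m

/-- `ev` at fixed `x` determines the radial functions on `(0,1)` -/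
theorem rad_eq_zero_of_ev {q par : ℕ} (hpar : par ≤ 1) (v : VS q par) {x : ℝ}
    (h : ∀ φ ∈ Ioo (0 : ℝ) Real.pi, ev par (v : ℕ →₀ (ℝ → ℝ)) (x, φ) = 0) (k : ℕ) :
    (v : ℕ →₀ (ℝ → ℝ)) k x = 0 := by
  classical
  by_cases hk : par ≤ k
  · have h1 : ∫ φ in Ioo (0 : ℝ) Real.pi, ev par (v : ℕ →₀ (ℝ → ℝ)) (x, φ) * trig par k φ = 0 := by
      rw [setIntegral_congr_fun measurableSet_Ioo (g := fun _ => (0 : ℝ))
        (fun φ hφ => by rw [h φ hφ, zero_mul])]
      simp
    have h2 : ∀ φ, ev par (v : ℕ →₀ (ℝ → ℝ)) (x, φ) * trig par k φ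
        = ∑ m ∈ (v : ℕ →₀ (ℝ → ℝ)).support,
          (v : ℕ →₀ (ℝ → ℝ)) m x * (trig par m φ * trig par k φ) := by
      intro φ
      unfold ev
      rw [Finsupp.sum, Finset.sum_mul]
      exact Finset.sum_congr rfl fun m _ => by ring
    simp_rw [h2] at h1
    have hint : ∀ m ∈ (v : ℕ →₀ (ℝ → ℝ)).support,
        Integrable (fun φ : ℝ => (v : ℕ →₀ (ℝ → ℝ)) m x * (trig par m φ * trig par k φ))
          (volume.restrict (Ioo (0 : ℝ) Real.pi)) := fun m _ =>
      Integrable.const_mul (Fou.integrableOn_cont (f := fun φ => trig par m φ * trig par k φ)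
        ((continuous_trig par m).mul (continuous_trig par k)) _ _) _
    rw [integral_finsetSum _ hint] at h1
    simp_rw [integral_const_mul] at h1
    by_cases hks : k ∈ (v : ℕ →₀ (ℝ → ℝ)).support
    · rw [Finset.sum_eq_single k (fun m _ hmk => by rw [integral_trig_orth hpar hmk, mul_zero])
        (fun hn => absurd hks hn)] at h1
      exact (mul_eq_zero.1 h1).resolve_right (integral_trig_sq_pos hpar hk).ne'
    · rw [Finsupp.notMem_support_iff] at hks
      rw [hks]; rfl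
  · rw [(v.2 k).2 (by omega)]; rfl

/-- **an element of `VS q par` is determined by its values on `Om`** -/
theorem eq_zero_of_ev {q par : ℕ} (hpar : par ≤ 1) (v : VS q par)
    (h : ∀ z ∈ Om, ev par (v : ℕ →₀ (ℝ → ℝ)) z = 0) : v = 0 := by
  have h1 : ∀ k : ℕ, ∀ x ∈ Ioo (0 : ℝ) 1, (v : ℕ →₀ (ℝ → ℝ)) k x = 0 := fun k x hx =>
    rad_eq_zero_of_ev hpar v (fun φ hφ => h (x, φ) ⟨hx, hφ⟩) k
  apply Subtype.ext
  apply Finsupp.ext
  intro k
  funext x
  show (v : ℕ →₀ (ℝ → ℝ)) k x = 0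
  have hR := isRad_coe v k
  rcases le_or_gt 1 (x ^ 2) with hx | hx
  · exact hR.off x hx
  rcases lt_trichotomy x 0 with h0 | h0 | h0
  · have h2 : (v : ℕ →₀ (ℝ → ℝ)) k (-x) = 0 := h1 k (-x) ⟨by linarith, by nlinarith⟩
    have h3 := hR.par (-x)
    rw [neg_neg, h2, mul_zero] at h3
    exact h3
  · subst h0
    have hc : ContinuousAt ((v : ℕ →₀ (ℝ → ℝ)) k) 0 := (hR.diff 0 (by norm_num)).continuousAt
    have h2 : Tendsto ((v : ℕ →₀ (ℝ → ℝ)) k) (𝓝[>] 0) (𝓝 ((v : ℕ →₀ (ℝ → ℝ)) k 0)) :=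
      hc.tendsto.mono_left nhdsWithin_le_nhds
    have h3 : (v : ℕ →₀ (ℝ → ℝ)) k =ᶠ[𝓝[>] 0] fun _ => 0 := by
      filter_upwards [Ioo_mem_nhdsGT (show (0:ℝ) < 1 by norm_num)] with y hy
      exact h1 k y hy
    exact tendsto_nhds_unique (h2.congr' h3) tendsto_const_nhds
  · exact h1 k x ⟨h0, by nlinarith⟩

theorem eq_of_ev {q par : ℕ} (hpar : par ≤ 1) {v w : VS q par}
    (h : ∀ z ∈ Om, ev par (v : ℕ →₀ (ℝ → ℝ)) z = ev par (w : ℕ →₀ (ℝ → ℝ)) z) : v = w := by
  rw [← sub_eq_zero]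
  refine eq_zero_of_ev hpar _ fun z hz => ?_
  have e : v - w = v + (-1 : ℝ) • w := by rw [neg_one_smul ℝ w]; exact sub_eq_add_neg v w
  rw [e, Submodule.coe_add, Submodule.coe_smul, ev_add, ev_smul, h z hz]; ring

/-- converse map, split into weighted homogeneous pieces -/
theorem exists_V_of_pol_graded (q : ℕ) {par : ℕ} (hpar : par ≤ 1) {D : ℕ} {w : VS q par}
    (hw : w ∈ PolD q par D) :
    ∃ V : ℕ → MvPolynomial (Fin 3) ℝ, (∀ e, (V e).IsWeightedHomogeneous Sph.w3 e) ∧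
      (∀ e, Sph.refl3 (V e) = MvPolynomial.C ((-1) ^ par) * V e) ∧
      (∀ e, D < q + e → V e = 0) ∧
      ∀ z : ℝ × ℝ, z.1 ^ 2 < 1 → ev par (w : ℕ →₀ (ℝ → ℝ)) z
        = ∑ e ∈ Finset.range (D + 1), uV q (V e) z := by
  classical
  unfold PolD at hw
  induction hw using Submodule.span_induction with
  | mem x hx =>
    obtain ⟨m, i, hm, hd, rfl⟩ := hx
    have hX0 : (MvPolynomial.X 0 : MvPolynomial (Fin 3) ℝ).IsWeightedHomogeneous Sph.w3 2 :=
      MvPolynomial.isWeightedHomogeneous_X ℝ Sph.w3 0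
    have hX : ((MvPolynomial.X 0 : MvPolynomial (Fin 3) ℝ) ^ i).IsWeightedHomogeneous
        Sph.w3 (i • 2) := hX0.pow i
    have hX2 : i • 2 + m = 2 * i + m := by rw [smul_eq_mul]; ring
    -- the polynomial of the generator
    obtain ⟨W, hW1, hW2, hW3⟩ : ∃ W : MvPolynomial (Fin 3) ℝ,
        W.IsWeightedHomogeneous Sph.w3 (2 * i + m) ∧
        Sph.refl3 W = MvPolynomial.C ((-1) ^ par) * W ∧
        ∀ z : ℝ × ℝ, z.1 ^ 2 < 1 → ev par (pol q par m i : ℕ →₀ (ℝ → ℝ)) z = uV q W z := by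
      rcases Nat.eq_zero_or_pos par with h0 | h0
      · subst h0
        refine ⟨MvPolynomial.X 0 ^ i * (reP m).1, hX2 ▸ hX.mul (reP_wh m).1, ?_, fun z hz => ?_⟩
        · rw [map_mul, map_pow, Sph.refl3_X0, (refl3_reP m).1]; simp
        · rw [ev_pol hpar m i hz, uV, map_mul, map_pow, MvPolynomial.eval_X, (eval_reP _ _ _ m).1,
            trig_zero_eq, pow_add, pow_mul]
          simp only [Matrix.cons_val_zero]
          ring
      · have h1 : par = 1 := by omega
        subst h1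
        refine ⟨MvPolynomial.X 0 ^ i * (reP m).2, hX2 ▸ hX.mul (reP_wh m).2, ?_, fun z hz => ?_⟩
        · rw [map_mul, map_pow, Sph.refl3_X0, (refl3_reP m).2]; simp
        · rw [ev_pol hpar m i hz, uV, map_mul, map_pow, MvPolynomial.eval_X, (eval_reP _ _ _ m).2,
            trig_one_eq, pow_add, pow_mul]
          simp only [Matrix.cons_val_zero]
          ring
    refine ⟨fun e => if e = 2 * i + m then W else 0, fun e => ?_, fun e => ?_, fun e he => ?_,
      fun z hz => ?_⟩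
    · by_cases h : e = 2 * i + m
      · simp only [h, if_true]; exact hW1
      · simp only [h, if_false]; exact MvPolynomial.isWeightedHomogeneous_zero ℝ Sph.w3 _
    · by_cases h : e = 2 * i + m
      · simp only [h, if_true]; exact hW2
      · simp only [h, if_false]; simp
    · have hne : e ≠ 2 * i + m := by omega
      simp only [hne, if_false]
    · rw [hW3 z hz, Finset.sum_eq_single (2 * i + m)]
      · simp
      · intro b _ hb
        simp only [hb, if_false]; exact uV_zero q z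
      · intro h
        exact absurd (Finset.mem_range.2 (by omega)) h
  | zero =>
    refine ⟨fun _ => 0, fun e => MvPolynomial.isWeightedHomogeneous_zero ℝ Sph.w3 _,
      fun e => by simp, fun e _ => rfl, fun z _ => ?_⟩
    rw [Submodule.coe_zero, ev_zero]
    simp [uV_zero]
  | add x y _ _ hx hy =>
    obtain ⟨V, h1, h2, h3, h4⟩ := hx
    obtain ⟨W, g1, g2, g3, g4⟩ := hy
    refine ⟨fun e => V e + W e, fun e => (h1 e).add (g1 e), fun e => by
      rw [map_add, h2, g2]; ring, fun e he => by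
        simp only [h3 e he, g3 e he, add_zero], fun z hz => ?_⟩
    rw [Submodule.coe_add, ev_add, h4 z hz, g4 z hz, ← Finset.sum_add_distrib]
    exact Finset.sum_congr rfl fun e _ => (uV_add q _ _ z).symm
  | smul c x _ hx =>
    obtain ⟨V, h1, h2, h3, h4⟩ := hx
    refine ⟨fun e => MvPolynomial.C c * V e, fun e => (h1 e).C_mul c, fun e => ?_, fun e he => by
      simp only [h3 e he, mul_zero], fun z hz => ?_⟩
    · have hC : Sph.refl3 (MvPolynomial.C c) = MvPolynomial.C c := by simp [Sph.refl3]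
      rw [map_mul, hC, h2]; ring
    · rw [Submodule.coe_smul, ev_smul, h4 z hz, Finset.mul_sum]
      exact Finset.sum_congr rfl fun e _ => (uV_C_mul q c _ z).symm

end Crest.Agent.R202.Mod
end
private theorem rz_e518853793 : type_of% @_root_.Crest.Agent.R202.Mod.reP.eq_def := @_root_.Crest.Agent.R202.Mod.reP.eq_def -- L412
private theorem rz_78524c28d3 : type_of% @_root_.Crest.Agent.R202.Mod.reP.eq_1 := @_root_.Crest.Agent.R202.Mod.reP.eq_1 -- L412
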