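import Mathlib
import Crest.Agent.R202.SecQB
import Crest.Agent.R202.GeoFam

/-! # Row 202, B4a (helper862): the frozen tangential inverse of the family is a `SecForm` -/

set_option autoImplicit false

open MvPolynomial MeasureTheory MeasureTheory.Measure Set Metric Filter Topology
open scoped Matrix
open Crest.Agent.R202.Geo

namespace Crest.Agent.R202.Sph

variable {m : ℕ}

/-- frozen data `(θ, P)` -/
structure Frz (θ : ℝ) (P : ℝ → ℂ → ℝ) : Prop where
  θ_pos : 0 < θ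
  cont : Continuous (fun q : ℝ × ℂ => P q.1 q.2)
  pos : ∀ X u, 0 < P X u
  low : ∃ X0 > 0, ∀ X u, X ≤ X0 → P X u = 1
  high : ∃ X1 < 1, ∀ X u, X1 ≤ X → P X u = θ⁻¹

/-- the exponent -/
noncomputable def kp (m : ℕ) (θ : ℝ) : ℝ := θ ^ (-(2 : ℝ) / ((m : ℝ) + 2))

theorem kp_pos {θ : ℝ} (h : 0 < θ) : 0 < kp m θ := Real.rpow_pos_of_pos h _

theorem kp_inv {θ : ℝ} (h : 0 < θ) : (kp m θ)⁻¹ = θ ^ ((2 : ℝ) / ((m : ℝ) + 2)) := by
  unfold kp
  rw [neg_div, Real.rpow_neg h.le, inv_inv]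

section
variable {θ : ℝ} {P : ℝ → ℂ → ℝ}

theorem Afam_off {x : EuclideanSpace ℝ (Fin (m + 3))} (hr : rho x ≠ 0) :
    Afam (fun _ => θ) (fun _ => P) x = frameM (kp m θ) (P (XX x) (uu x))⁻¹
      (θ ^ 2 * P (XX x) (uu x)) (nu x) (e1 x) (e2 x) := by
  rw [Fam.Afam_mid (fun _ => θ) (fun _ => P) hr, frameM]
  show _ = outer (nu x) + kp m θ • _
  congr 2
  abel

/-- frame at a point with `sig = 0` -/
theorem tri_low {x : EuclideanSpace ℝ (Fin (m + 3))} (hx : x ≠ 0) (hr : rho x ≠ 0)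
    (hs : sig x = 0) : Tri (nu x) (bvec (Fin.succ (Fin.succ 0))) (e2 x) := by
  refine ⟨sum_nu_nu hx, ?_, ?_, ?_, ?_, ?_⟩
  · rw [sum_mul_bv, bvec_apply, if_pos rfl]
  · rw [fsum3, e2c_zero, e2c_one]
    simp only [e2c_succ, mul_zero, Finset.sum_const_zero, add_zero]
    have := rho_sq x
    field_simp
    linarith
  · rw [sum_mul_bv, nu_apply, sig_zero_coord hs, mul_zero]
  · rw [fsum3, e2c_zero, e2c_one, nu_apply, nu_apply]
    simp only [e2c_succ, mul_zero, Finset.sum_const_zero, add_zero]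
    ring
  · have : ∑ i, bvec (Fin.succ (Fin.succ (0 : Fin (m + 1)))) i * e2 x i
        = e2 x (Fin.succ (Fin.succ 0)) := by
      rw [← sum_mul_bv (e2 x)]
      exact Finset.sum_congr rfl fun i _ => mul_comm _ _
    rw [this, e2c_succ]

/-- frame at a point with `rho = 0` -/
theorem tri_high {x : EuclideanSpace ℝ (Fin (m + 3))} (hx : x ≠ 0) (hr : rho x = 0) :
    Tri (nu x) (bvec 0) (bvec 1) := by
  obtain ⟨h0, h1⟩ := rho_zero_coord hr
  refine ⟨sum_nu_nu hx, ?_, ?_, ?_, ?_, ?_⟩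
  · rw [sum_mul_bv, bvec_apply, if_pos rfl]
  · rw [sum_mul_bv, bvec_apply, if_pos rfl]
  · rw [sum_mul_bv, nu_apply, h0, mul_zero]
  · rw [sum_mul_bv, nu_apply, h1, mul_zero]
  · rw [sum_mul_bv, bvec_apply, if_neg one_ne_zero_fin3]

theorem inv_frameM {n : ℕ} {κ p q : ℝ} (hκ : κ ≠ 0) (hp : p ≠ 0) (hq : q ≠ 0)
    {v a b : En n} (h : Tri v a b) : (frameM κ p q v a b)⁻¹ = frameM κ⁻¹ p⁻¹ q⁻¹ v a b :=
  Matrix.inv_eq_right_inv (frameM_mul_inv hκ hp hq h)

theorem inv_mid (h : Frz θ P) {x : EuclideanSpace ℝ (Fin (m + 3))} (hx : x ≠ 0)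
    (hr : rho x ≠ 0) (hs : sig x ≠ 0) :
    (Afam (fun _ => θ) (fun _ => P) x)⁻¹ = frameM (kp m θ)⁻¹ (P (XX x) (uu x))
      (θ ^ 2 * P (XX x) (uu x))⁻¹ (nu x) (e1 x) (e2 x) := by
  have h1 := h.pos (XX x) (uu x)
  have h2 := h.θ_pos
  rw [Afam_off hr, inv_frameM (kp_pos h2).ne' (inv_ne_zero h1.ne') (by positivity)
    (tri_e1_e2 hx hr hs), inv_inv]

theorem Afam_low' {x : EuclideanSpace ℝ (Fin (m + 3))}
    (hr : rho x ≠ 0) (hP : P (XX x) (uu x) = 1) (a : En (m + 3)) :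
    Afam (fun _ => θ) (fun _ => P) x = frameM (kp m θ) 1 (θ ^ 2) (nu x) a (e2 x) := by
  rw [Afam_off hr, hP, frameM, frameM]
  simp

theorem inv_low (h : Frz θ P) {x : EuclideanSpace ℝ (Fin (m + 3))} (hx : x ≠ 0)
    (hr : rho x ≠ 0) (hP : P (XX x) (uu x) = 1) :
    (∃ a, Tri (nu x) a (e2 x) ∧ (Afam (fun _ => θ) (fun _ => P) x)⁻¹
      = frameM (kp m θ)⁻¹ 1 (θ ^ 2)⁻¹ (nu x) a (e2 x)) ∧
    (Afam (fun _ => θ) (fun _ => P) x)⁻¹ = outer (nu x) + (kp m θ)⁻¹ •
      (1 - outer (nu x) + ((θ ^ 2)⁻¹ - 1) • outer (e2 x)) := by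
  obtain ⟨a, ha⟩ : ∃ a, Tri (nu x) a (e2 x) := by
    by_cases hs : sig x = 0
    · exact ⟨_, tri_low hx hr hs⟩
    · exact ⟨_, tri_e1_e2 hx hr hs⟩
  have h2 := h.θ_pos
  have h3 : (Afam (fun _ => θ) (fun _ => P) x)⁻¹
      = frameM (kp m θ)⁻¹ 1 (θ ^ 2)⁻¹ (nu x) a (e2 x) := by
    rw [Afam_low' hr hP a, inv_frameM (kp_pos h2).ne' one_ne_zero (by positivity) ha, inv_one]
  refine ⟨⟨a, ha, h3⟩, ?_⟩
  rw [h3, frameM]
  simp

theorem TT_frame {x : EuclideanSpace ℝ (Fin (m + 3))} (hx : x ≠ 0) (hs : sig x ≠ 0) :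
    ∃ a b, Tri (nu x) a b ∧ TT x = outer a + outer b := by
  by_cases hr : rho x = 0
  · exact ⟨_, _, tri_high hx hr, TT_rho_zero hx hr⟩
  · exact ⟨_, _, tri_e1_e2 hx hr hs, TT_eq hx hr hs⟩

theorem Afam_high' (h : Frz θ P) {x : EuclideanSpace ℝ (Fin (m + 3))} (hx : x ≠ 0)
    (hs : sig x ≠ 0) (hP : P (XX x) (uu x) = θ⁻¹) :
    Afam (fun _ => θ) (fun _ => P) x = outer (nu x) + kp m θ •
      (1 - outer (nu x) + (θ - 1) • TT x) := by
  by_cases hr : rho x = 0
  · unfold Afam kp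
    simp only [hr, if_true]
  · have h2 := h.θ_pos.ne'
    rw [Afam_off hr, hP, inv_inv, TT_eq hx hr hs, frameM]
    have h3 : θ ^ 2 * θ⁻¹ = θ := by field_simp
    rw [h3, smul_add (θ - 1)]
    congr 2
    abel

theorem inv_high (h : Frz θ P) {x : EuclideanSpace ℝ (Fin (m + 3))} (hx : x ≠ 0)
    (hs : sig x ≠ 0) (hP : P (XX x) (uu x) = θ⁻¹) :
    (∃ a b, Tri (nu x) a b ∧ (Afam (fun _ => θ) (fun _ => P) x)⁻¹
      = frameM (kp m θ)⁻¹ θ⁻¹ θ⁻¹ (nu x) a b) ∧
    (Afam (fun _ => θ) (fun _ => P) x)⁻¹ = outer (nu x) + (kp m θ)⁻¹ •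
      (1 - outer (nu x) + (θ⁻¹ - 1) • TT x) := by
  obtain ⟨a, b, hT, hTT⟩ := TT_frame hx hs
  have h2 := h.θ_pos
  have h3 : (Afam (fun _ => θ) (fun _ => P) x)⁻¹
      = frameM (kp m θ)⁻¹ θ⁻¹ θ⁻¹ (nu x) a b := by
    rw [← inv_frameM (kp_pos h2).ne' h2.ne' h2.ne' hT, Afam_high' h hx hs hP, hTT, frameM,
      smul_add (θ - 1)]
    congr 3
    abel
  refine ⟨⟨a, b, hT, h3⟩, ?_⟩
  rw [h3, frameM, hTT, smul_add (θ⁻¹ - 1)]
  congr 2
  abel

/-- a frame for the inverse at every point -/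
theorem inv_frame (h : Frz θ P) {x : EuclideanSpace ℝ (Fin (m + 3))} (hx : x ≠ 0) :
    ∃ p q : ℝ, 0 < p ∧ 0 < q ∧ ∃ a b, Tri (nu x) a b ∧
      (Afam (fun _ => θ) (fun _ => P) x)⁻¹ = frameM (kp m θ)⁻¹ p q (nu x) a b := by
  have h2 := h.θ_pos
  by_cases hr : rho x = 0
  · obtain ⟨X1, hX1, hh⟩ := h.high
    have hs : sig x ≠ 0 := (rho_or_sig hx).resolve_left (not_not.2 hr)
    obtain ⟨⟨a, b, hT, hA⟩, -⟩ := inv_high h hx hs (hh _ (uu x) (by rw [Fam.XX_one hx hr]; exact hX1.le))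
    exact ⟨_, _, inv_pos.2 h2, inv_pos.2 h2, a, b, hT, hA⟩
  · by_cases hs : sig x = 0
    · obtain ⟨X0, hX0, hl⟩ := h.low
      obtain ⟨⟨a, hT, hA⟩, -⟩ := inv_low h hx hr (hl _ (uu x) (by rw [Fam.XX_zero hs]; exact hX0.le))
      exact ⟨_, _, one_pos, by positivity, a, _, hT, hA⟩
    · have h3 := h.pos (XX x) (uu x)
      exact ⟨_, _, h3, by positivity, _, _, tri_e1_e2 hx hr hs, inv_mid h hx hr hs⟩

theorem continuousAt_inv (h : Frz θ P) {x : EuclideanSpace ℝ (Fin (m + 3))} (hx : x ≠ 0)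
    (i j : Fin (m + 3)) :
    ContinuousAt (fun x => (Afam (fun _ => θ) (fun _ => P) x)⁻¹ i j) x := by
  have hne : ∀ᶠ y in 𝓝 x, y ≠ 0 := isOpen_compl_singleton.mem_nhds hx
  by_cases hr : rho x = 0
  · obtain ⟨X1, hX1, hh⟩ := h.high
    have hs : sig x ≠ 0 := (rho_or_sig hx).resolve_left (not_not.2 hr)
    have hX : ∀ᶠ y in 𝓝 x, X1 ≤ XX y := by
      have := (Fam.continuousAt_XX hx).eventually (lt_mem_nhds (by rw [Fam.XX_one hx hr]; exact hX1 :
        X1 < XX x))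
      exact this.mono fun y hy => hy.le
    have hs' : ∀ᶠ y in 𝓝 x, sig y ≠ 0 :=
      continuous_sig.continuousAt.eventually (isOpen_compl_singleton.mem_nhds hs)
    refine ContinuousAt.congr (f := fun y => outer (nu y) i j +
      (kp m θ)⁻¹ * ((1 : Matrix (Fin (m + 3)) (Fin (m + 3)) ℝ) i j - outer (nu y) i j
        + (θ⁻¹ - 1) * TT y i j)) ?_ ?_
    · exact (cd_outer_nu hx i j).continuousAt.add (continuousAt_const.mul
        ((continuousAt_const.sub (cd_outer_nu hx i j).continuousAt).add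
        (continuousAt_const.mul (cd_TT hx hs i j).continuousAt)))
    · filter_upwards [hX, hne, hs'] with y hy hy0 hys
      rw [(inv_high h hy0 hys (hh _ _ hy)).2]
      simp only [Matrix.add_apply, Matrix.smul_apply, Matrix.sub_apply, smul_eq_mul]
  · have hr' : ∀ᶠ y in 𝓝 x, rho y ≠ 0 :=
      continuous_rho.continuousAt.eventually (isOpen_compl_singleton.mem_nhds hr)
    by_cases hs : sig x = 0
    · obtain ⟨X0, hX0, hl⟩ := h.low
      have hX : ∀ᶠ y in 𝓝 x, XX y ≤ X0 := by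
        have := (Fam.continuousAt_XX hx).eventually (gt_mem_nhds (by rw [Fam.XX_zero hs]; exact hX0 :
          XX x < X0))
        exact this.mono fun y hy => hy.le
      refine ContinuousAt.congr (f := fun y => outer (nu y) i j +
        (kp m θ)⁻¹ * ((1 : Matrix (Fin (m + 3)) (Fin (m + 3)) ℝ) i j
          - outer (nu y) i j + ((θ ^ 2)⁻¹ - 1) * (e2 y i * e2 y j))) ?_ ?_
      · exact (cd_outer_nu hx i j).continuousAt.add (continuousAt_const.mul
          ((continuousAt_const.sub (cd_outer_nu hx i j).continuousAt).add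
          (continuousAt_const.mul ((cd_e2 hr i).continuousAt.mul (cd_e2 hr j).continuousAt))))
      · filter_upwards [hX, hne, hr'] with y hy hy0 hyr
        rw [(inv_low h hy0 hyr (hl _ _ hy)).2]
        simp only [Matrix.add_apply, Matrix.smul_apply, Matrix.sub_apply, smul_eq_mul, outer]
    · have hs' : ∀ᶠ y in 𝓝 x, sig y ≠ 0 :=
        continuous_sig.continuousAt.eventually (isOpen_compl_singleton.mem_nhds hs)
      have hP0 : P (XX x) (uu x) ≠ 0 := (h.pos _ _).ne'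
      have hθ := h.θ_pos.ne'
      have hP : ContinuousAt (fun y : EuclideanSpace ℝ (Fin (m + 3)) => P (XX y) (uu y)) x :=
        (h.cont.continuousAt (x := (XX x, uu x))).comp (f := fun y => (XX y, uu y))
          ((Fam.continuousAt_XX hx).prodMk (cd_uu hr).continuousAt)
      refine ContinuousAt.congr (f := fun y => outer (nu y) i j +
        (kp m θ)⁻¹ * ((1 : Matrix (Fin (m + 3)) (Fin (m + 3)) ℝ) i j
          - outer (nu y) i j + (P (XX y) (uu y) - 1) * (e1 y i * e1 y j)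
          + ((θ ^ 2 * P (XX y) (uu y))⁻¹ - 1) * (e2 y i * e2 y j))) ?_ ?_
      · exact (cd_outer_nu hx i j).continuousAt.add (continuousAt_const.mul
          (((continuousAt_const.sub (cd_outer_nu hx i j).continuousAt).add
          ((hP.sub continuousAt_const).mul ((cd_e1 hx hr hs i).continuousAt.mul
            (cd_e1 hx hr hs j).continuousAt))).add
          ((((continuousAt_const.mul hP).inv₀
            (mul_ne_zero (pow_ne_zero 2 hθ) hP0)).sub continuousAt_const).mul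
            ((cd_e2 hr i).continuousAt.mul (cd_e2 hr j).continuousAt))))
      · filter_upwards [hne, hr', hs'] with y hy0 hyr hys
        rw [inv_mid h hy0 hyr hys, frameM]
        simp only [Matrix.add_apply, Matrix.smul_apply, Matrix.sub_apply, smul_eq_mul, outer]

/-- the frozen tangential inverse -/
noncomputable def SBf (θ : ℝ) (P : ℝ → ℂ → ℝ) (z : EuclideanSpace ℝ (Fin (m + 3))) :
    Matrix (Fin (m + 3)) (Fin (m + 3)) ℝ :=
  (Afam (fun _ => θ) (fun _ => P) z)⁻¹ - outer z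

theorem nu_of_norm {z : EuclideanSpace ℝ (Fin (m + 3))} (hz : ‖z‖ = 1) : nu z = z := by
  unfold nu
  rw [hz, inv_one, one_smul]

theorem SBf_off (h : Frz θ P) {z : EuclideanSpace ℝ (Fin (m + 3))} (hz : ‖z‖ = 1)
    (hr : rho z ≠ 0) (hs : sig z ≠ 0) (i j : Fin (m + 3)) :
    SBf θ P z i j = θ ^ ((2 : ℝ) / ((m : ℝ) + 2)) * (P (sig z) (uu z) * outer (e1 z) i j
      + (θ ^ 2 * P (sig z) (uu z))⁻¹ * outer (e2 z) i j + WW z i j) := by
  have hz0 : z ≠ 0 := by
    rintro rfl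
    simp at hz
  have hX : XX z = sig z := by unfold XX; rw [hz, div_one]
  have hT := congrFun (congrFun (TT_eq hz0 hr hs) i) j
  unfold SBf
  rw [Matrix.sub_apply, inv_mid h hz0 hr hs, frameM, hX, ← kp_inv h.θ_pos]
  simp only [TT, nu_of_norm hz, Matrix.add_apply, Matrix.smul_apply, Matrix.sub_apply,
    smul_eq_mul] at hT ⊢
  linear_combination (kp m θ)⁻¹ * hT

/-- angle of `(a, b)` -/
noncomputable def uab (a b : ℝ) : ℂ := ((a : ℂ) + (b : ℂ) * Complex.I) / (Real.sqrt (a ^ 2 + b ^ 2) : ℂ)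

theorem uab_conj (a b : ℝ) : uab a (-b) = (starRingEnd ℂ) (uab a b) := by
  unfold uab
  simp [map_div₀, Complex.conj_ofReal]

/-- **The frozen tangential inverse of the family is an admissible sphere form.** -/
theorem secForm_SB (h : Frz θ P) (heven : ∀ X u, P X ((starRingEnd ℂ) u) = P X u) :
    SecForm (m := m) (fun z => (Afam (fun _ => θ) (fun _ => P) z)⁻¹ - outer z) := by
  have hz0 : ∀ z ∈ sphere (0 : EuclideanSpace ℝ (Fin (m + 3))) 1, ‖z‖ = 1 ∧ z ≠ 0 := by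
    intro z hz
    rw [mem_sphere_zero_iff_norm] at hz
    refine ⟨hz, ?_⟩
    rintro rfl
    simp at hz
  refine ⟨?_, ?_, ?_, ?_⟩
  · intro i j z hz
    refine ContinuousAt.continuousWithinAt ?_
    have h1 : ContinuousAt (fun z : EuclideanSpace ℝ (Fin (m + 3)) => outer z i j) z := by
      unfold outer
      exact ((cd_coord i).continuous.mul (cd_coord j).continuous).continuousAt
    exact (continuousAt_inv h (hz0 z hz).2 i j).sub h1
  · intro z hz i j
    obtain ⟨p, q, -, -, a, b, hT, hA⟩ := inv_frame h (hz0 z hz).2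
    have h1 := congrFun (congrFun (frameM_transpose (kp m θ)⁻¹ p q (nu z) a b) j) i
    rw [Matrix.sub_apply, Matrix.sub_apply, hA]
    rw [Matrix.transpose_apply] at h1
    rw [h1]
    unfold outer
    ring
  · intro z hz i
    obtain ⟨p, q, -, -, a, b, hT, hA⟩ := inv_frame h (hz0 z hz).2
    have h1 := frameM_radial (κ := (kp m θ)⁻¹) (p := p) (q := q) hT i
    have h2 : ∑ j, outer z i j * z j = z i := by
      have h3 : ∑ j, z j * z j = 1 := by
        have := sum_nu_nu (hz0 z hz).2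
        rwa [nu_of_norm (hz0 z hz).1] at this
      calc ∑ j, outer z i j * z j = z i * ∑ j, z j * z j := by
            rw [Finset.mul_sum]
            exact Finset.sum_congr rfl fun j _ => by unfold outer; ring
        _ = z i := by rw [h3, mul_one]
    rw [nu_of_norm (hz0 z hz).1] at h1 hA
    have h4 : ∀ j, ((Afam (fun _ => θ) (fun _ => P) z)⁻¹ - outer z) i j * z j
        = frameM (kp m θ)⁻¹ p q z a b i j * z j - outer z i j * z j := by
      intro j
      rw [Matrix.sub_apply, hA]; ring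
    simp only [h4, Finset.sum_sub_distrib]
    rw [h1, h2, sub_self]
  · refine ⟨fun σ a b => θ ^ ((2 : ℝ) / ((m : ℝ) + 2)) * P σ (uab a b),
      fun σ a b => θ ^ ((2 : ℝ) / ((m : ℝ) + 2)) * (θ ^ 2 * P σ (uab a b))⁻¹,
      fun _ _ _ => θ ^ ((2 : ℝ) / ((m : ℝ) + 2)), ?_, ?_, fun _ _ _ => rfl, ?_⟩
    · intro σ a b
      dsimp only
      rw [uab_conj, heven]
    · intro σ a b
      dsimp only
      rw [uab_conj, heven]
    · intro z hz h0 hs i j
      have hr : rho z ≠ 0 := by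
        intro hr
        exact h0 (rho_zero_coord hr).1
      have h1 := SBf_off h (hz0 z hz).1 hr hs i j
      have h2 : uu z = uab (z 0) (z 1) := rfl
      rw [h2] at h1
      exact h1.trans (by ring)

end


end Crest.Agent.R202.Sph
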