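import Mathlib
import Crest.Agent.R202.WgtGate
import Crest.Agent.R202.SecUnif
import Crest.Agent.R202.SecAfam
import Crest.Agent.R202.PolMap
import Crest.Agent.R202.CThmDef
import Crest.Agent.R202.LowSign
import Crest.Agent.R202.Model3

/-! # Row 202, part B4b (helper728): transfer of separating polynomial frames (`CT.SepP`) to the
Galerkin spaces `EuclideanSpace ℝ (Fin N)`.

`T4g`, `T4Q` are the two integral identities sphere <-> two-variable model (helper362). -/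

set_option autoImplicit false
set_option linter.unusedSectionVars false
set_option linter.deprecated false

open MeasureTheory Filter Topology Set Metric MvPolynomial
open scoped InnerProductSpace ContDiff

namespace Crest.Agent.R202.Wgt

open Crest.Agent.R202.Geo Crest.Agent.R202.Sph Crest.Agent.R202.Sch Crest.Agent.R202.Mod
open Crest.Agent.R202.CT

noncomputable section

variable {m : ℕ}

/-- `w` is the model element of the polynomial `V` -/
def IsMdl {q par : ℕ} (V : MvPolynomial (Fin 3) ℝ) (w : VS q par) : Prop :=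
  ∀ z ∈ Mod.Om, Mod.ev par (w : ℕ →₀ (ℝ → ℝ)) z = uV q V z

/-- first integral identity -/
def T4g (m : ℕ) : Prop := ∀ (q par : ℕ), par ≤ 1 → ∀ Y ∈ harm (m + 1) q, sph (Sph.ev (Y * Y)) = 1 →
  ∀ V V' : MvPolynomial (Fin 3) ℝ, refl3 V = C ((-1) ^ par) * V → refl3 V' = C ((-1) ^ par) * V' →
  ∀ w w' : VS q par, IsMdl V w → IsMdl V' w' →
    ip (yI m Y * vI m V) (yI m Y * vI m V') = 2 * g m q par w w'

/-- second integral identity -/
def T4Q (m : ℕ) : Prop := ∀ (q par : ℕ), par ≤ 1 → ∀ Y ∈ harm (m + 1) q, sph (Sph.ev (Y * Y)) = 1 →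
  ∀ V V' : MvPolynomial (Fin 3) ℝ, refl3 V = C ((-1) ^ par) * V → refl3 V' = C ((-1) ^ par) * V' →
  ∀ w w' : VS q par, IsMdl V w → IsMdl V' w' →
  ∀ (θ : ℝ) (P : ℝ → ℂ → ℝ), Frz θ P → (∀ X u, P X ((starRingEnd ℂ) u) = P X u) →
  ∀ (K : ℝ) (hP : Adm m K fun z => P z.1 (ee z.2)),
    QB (SB θ P) (yI m Y * vI m V) (yI m Y * vI m V')
      = 2 * θ ^ ((2 : ℝ) / ((m : ℝ) + 2)) * Q q par hP θ⁻¹ w w'

/-- 862's uniform sector basis together with the model elements -/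
structure MB (m q par D N : ℕ) (e : Fin N → ℕ) (V : Fin N → MvPolynomial (Fin 3) ℝ)
    (w : Fin N → VS q par) : Prop where
  par_le : par ≤ 1
  wh : ∀ i, (V i).IsWeightedHomogeneous w3 (e i)
  refl : ∀ i, refl3 (V i) = C ((-1) ^ par) * V i
  deg : ∀ i, 1 ≤ q + e i ∧ q + e i ≤ D
  homog : ∀ Y ∈ harm (m + 1) q, sph (Sph.ev (Y * Y)) = 1 →
    ∀ i, (yI m Y * vI m (V i)).IsHomogeneous (q + e i)
  lap0 : ∀ Y ∈ harm (m + 1) q, sph (Sph.ev (Y * Y)) = 1 →
    ∀ i, lap (m + 3) (yI m Y * vI m (V i)) = 0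
  orth : ∀ Y ∈ harm (m + 1) q, sph (Sph.ev (Y * Y)) = 1 →
    ∀ i j, ip (yI m Y * vI m (V i)) (yI m Y * vI m (V j)) = if i = j then 1 else 0
  compl : ∀ Y ∈ harm (m + 1) q, sph (Sph.ev (Y * Y)) = 1 →
    ∀ B : EuclideanSpace ℝ (Fin (m + 3)) → Matrix (Fin (m + 3)) (Fin (m + 3)) ℝ, SecForm B →
        ∀ i, ∀ h : MvPolynomial (Fin (m + 3)) ℝ, h.totalDegree ≤ D →
          QB B (yI m Y * vI m (V i)) h = ∑ j, ip (yI m Y * vI m (V j)) h *
            QB B (yI m Y * vI m (V i)) (yI m Y * vI m (V j))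
  sector : ∀ Y ∈ harm (m + 1) q, sph (Sph.ev (Y * Y)) = 1 →
      ∀ e', q + e' ≤ D → ∀ V' : MvPolynomial (Fin 3) ℝ, V'.IsWeightedHomogeneous w3 e' →
        refl3 V' = C ((-1) ^ par) * V' → ∃ c0 : ℝ, (0 < q ∨ par = 1 → c0 = 0) ∧
        ∀ z : EuclideanSpace ℝ (Fin (m + 3)), ‖z‖ = 1 →
          Sph.ev (yI m Y * vI m V') z = ∑ j, ip (yI m Y * vI m (V j)) (yI m Y * vI m V') *
            Sph.ev (yI m Y * vI m (V j)) z + c0
  mdl : ∀ i, IsMdl (V i) (w i)

theorem exists_MB (m q : ℕ) {par : ℕ} (hpar : par ≤ 1) (D : ℕ) :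
    ∃ (N : ℕ) (e : Fin N → ℕ) (V : Fin N → MvPolynomial (Fin 3) ℝ) (w : Fin N → VS q par),
      MB m q par D N e V w := by
  have hε : ((-1 : ℝ) ^ par = 1 ∨ (-1 : ℝ) ^ par = -1) := by
    rcases Nat.le_one_iff_eq_zero_or_eq_one.1 hpar with h | h <;> subst h <;> simp
  obtain ⟨N, e, V, h1, h2, h3, h4⟩ := sector_basis_unif m q hε D
  have h5 : ∀ i, ∃ w : VS q par, IsMdl (V i) w := fun i => by
    obtain ⟨w, -, hw⟩ := exists_pol_of_V q hpar (h1 i) (h2 i)
    exact ⟨w, fun z hz => hw z (sq_lt_one_of_mem hz.1)⟩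
  choose w hw using h5
  refine ⟨N, e, V, w, hpar, h1, h2, h3, fun Y hY hY1 => (h4 Y hY hY1).1,
    fun Y hY hY1 => (h4 Y hY hY1).2.1, fun Y hY hY1 => (h4 Y hY hY1).2.2.1,
    fun Y hY hY1 => (h4 Y hY hY1).2.2.2.1, fun Y hY hY1 e' he' V' hV' hr => ?_, hw⟩
  obtain ⟨c0, hc0, hc⟩ := (h4 Y hY hY1).2.2.2.2 e' he' V' hV' hr
  refine ⟨c0, fun h => hc0 ?_, hc⟩
  rcases h with h | h
  · exact Or.inl h
  · right; rw [h]; norm_num

/-! ### the isometry `vec` and its adjoint `crd` -/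

section Vec

variable {q par N : ℕ}

/-- `x ↦ ∑ x_i w_i` -/
def vec (w : Fin N → VS q par) : EuclideanSpace ℝ (Fin N) →ₗ[ℝ] VS q par where
  toFun x := ∑ i, x i • w i
  map_add' x y := by
    rw [← Finset.sum_add_distrib]
    exact Finset.sum_congr rfl fun i _ => by rw [PiLp.add_apply, add_smul]
  map_smul' c x := by
    rw [RingHom.id_apply, Finset.smul_sum]
    exact Finset.sum_congr rfl fun i _ => by rw [PiLp.smul_apply, smul_eq_mul, mul_smul]

theorem vec_apply (w : Fin N → VS q par) (x : EuclideanSpace ℝ (Fin N)) :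
    vec w x = ∑ i, x i • w i := rfl

/-- `v ↦ (2 g(w_i, v))_i` -/
def crd (m : ℕ) (w : Fin N → VS q par) : VS q par →ₗ[ℝ] EuclideanSpace ℝ (Fin N) where
  toFun v := WithLp.toLp 2 fun i => 2 * g m q par (w i) v
  map_add' x y := by
    refine PiLp.ext fun i => ?_
    show 2 * g m q par (w i) (x + y) = 2 * g m q par (w i) x + 2 * g m q par (w i) y
    rw [map_add]; ring
  map_smul' c x := by
    refine PiLp.ext fun i => ?_
    show 2 * g m q par (w i) (c • x) = c * (2 * g m q par (w i) x)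
    rw [map_smul, smul_eq_mul]; ring

theorem crd_apply (w : Fin N → VS q par) (v : VS q par) (i : Fin N) :
    crd m w v i = 2 * g m q par (w i) v := rfl

theorem inner_crd (w : Fin N → VS q par) (v : VS q par) (x : EuclideanSpace ℝ (Fin N)) :
    ⟪crd m w v, x⟫_ℝ = 2 * g m q par v (vec w x) := by
  rw [PiLp.inner_apply, vec_apply, map_sum, Finset.mul_sum]
  refine Finset.sum_congr rfl fun i _ => ?_
  rw [map_smul, crd_apply, g_symm v (w i), smul_eq_mul]
  simp only [RCLike.inner_apply, conj_trivial]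
  ring

variable {w : Fin N → VS q par}

theorem crd_vec (h : ∀ i j, 2 * g m q par (w i) (w j) = if i = j then 1 else 0)
    (x : EuclideanSpace ℝ (Fin N)) : crd m w (vec w x) = x := by
  refine PiLp.ext fun i => ?_
  rw [crd_apply, vec_apply, map_sum, Finset.mul_sum]
  have : ∀ j ∈ Finset.univ, 2 * g m q par (w i) (x j • w j) = if i = j then x j else 0 := by
    intro j _
    rw [map_smul, smul_eq_mul]
    have := h i j
    split_ifs at this ⊢ <;> linear_combination x j * this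
  rw [Finset.sum_congr rfl this]
  simp

theorem inner_eq_g (h : ∀ i j, 2 * g m q par (w i) (w j) = if i = j then 1 else 0)
    (x y : EuclideanSpace ℝ (Fin N)) : ⟪x, y⟫_ℝ = 2 * g m q par (vec w x) (vec w y) := by
  have := inner_crd (m := m) w (vec w x) y
  rwa [crd_vec h] at this

theorem norm_sq_eq_g (h : ∀ i j, 2 * g m q par (w i) (w j) = if i = j then 1 else 0)
    (x : EuclideanSpace ℝ (Fin N)) : ‖x‖ ^ 2 = 2 * g m q par (vec w x) (vec w x) := by
  rw [← inner_eq_g h, real_inner_self_eq_norm_sq]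

end Vec

/-! ### the transfer -/

section Transfer

variable {q par D N : ℕ} {e : Fin N → ℕ} {V : Fin N → MvPolynomial (Fin 3) ℝ}
  {w : Fin N → VS q par}

/-- the sector polynomials on `ℝ^{m+3}` -/
def pY (m : ℕ) (V : Fin N → MvPolynomial (Fin 3) ℝ) (Y : MvPolynomial (Fin (m + 1)) ℝ) :
    Fin N → MvPolynomial (Fin (m + 3)) ℝ := fun i => yI m Y * vI m (V i)

theorem MB.sbasis (hb : MB m q par D N e V w) {Y : MvPolynomial (Fin (m + 1)) ℝ}
    (hY : Y ∈ harm (m + 1) q) (hY1 : sph (Sph.ev (Y * Y)) = 1) :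
    SBasis (pY m V Y) (fun i => q + e i) where
  mem i := mem_harm.2 ⟨hb.homog Y hY hY1 i, hb.lap0 Y hY hY1 i⟩
  orth := hb.orth Y hY hY1

theorem MB.gorth (hb : MB m q par D N e V w) (hg : T4g m) {Y : MvPolynomial (Fin (m + 1)) ℝ}
    (hY : Y ∈ harm (m + 1) q) (hY1 : sph (Sph.ev (Y * Y)) = 1) (i j : Fin N) :
    2 * g m q par (w i) (w j) = if i = j then 1 else 0 := by
  rw [← hg q par hb.par_le Y hY hY1 _ _ (hb.refl i) (hb.refl j) _ _ (hb.mdl i) (hb.mdl j)]
  exact hb.orth Y hY hY1 i j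

/-- the model form of the Galerkin operator -/
theorem MB.inner_Sop (hb : MB m q par D N e V w) (hQ : T4Q m)
    {Y : MvPolynomial (Fin (m + 1)) ℝ} (hY : Y ∈ harm (m + 1) q)
    (hY1 : sph (Sph.ev (Y * Y)) = 1) {θ : ℝ} {P : ℝ → ℂ → ℝ} (hF : Frz θ P)
    (hev : ∀ X u, P X ((starRingEnd ℂ) u) = P X u) {K : ℝ}
    (hP : Adm m K fun z => P z.1 (ee z.2)) (x y : EuclideanSpace ℝ (Fin N)) :
    ⟪Sop (pY m V Y) θ P x, y⟫_ℝ
      = 2 * θ ^ ((2 : ℝ) / ((m : ℝ) + 2)) * Q q par hP θ⁻¹ (vec w x) (vec w y) := by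
  unfold Sop
  rw [inner_opM]
  have h1 : ∀ i j, QB (SB θ P) (pY m V Y i) (pY m V Y j)
      = 2 * θ ^ ((2 : ℝ) / ((m : ℝ) + 2)) * Q q par hP θ⁻¹ (w i) (w j) := fun i j =>
    hQ q par hb.par_le Y hY hY1 _ _ (hb.refl i) (hb.refl j) _ _ (hb.mdl i) (hb.mdl j) θ P hF hev K hP
  simp only [h1, vec_apply, map_sum, map_smul, LinearMap.sum_apply, LinearMap.smul_apply,
    smul_eq_mul, Finset.mul_sum]
  refine Finset.sum_congr rfl fun i _ => Finset.sum_congr rfl fun j _ => ?_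
  rw [Q_symm hP θ⁻¹ (w i) (w j)]
  ring


end Transfer

end

end Crest.Agent.R202.Wgt
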