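import Crest.Agent.R202.SchScal
import Crest.Agent.R202.Mixing
import Crest.Agent.R202.CThmDef
import Crest.Agent.R202.MixAsym
import Mathlib
import Crest.Agent.R202.LowSign
import Crest.Agent.R202.WgtGate
import Crest.Agent.R202.WgtSepC
import Crest.Agent.R202.BFinHome
import Crest.Agent.R202.BFinSeg
import Crest.Agent.R202.TopChoice

-- ▼ part R202/SchGrow
section

/-! # Row 202, module SCH, part 6: arithmetic of the time table (helper821)

`sched`: the `Mix.Sched` with `T q = Th A q - 2 Lc`, `ε q = log 4`,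
`Γ q = CΓ exp((M+2)(Tg A q + 2 Lc))`; and the comparison of `∑_{i ≤ q} T i` with the time. -/

set_option autoImplicit false

open Set Filter Finset
open scoped Topology

namespace Crest.Agent.R202.Sch

noncomputable section

variable {A Lc : ℝ}

/-- length of home `q` between the collars -/
def Tc (A Lc : ℝ) (q : ℕ) : ℝ := Th A q - 2 * Lc

theorem Tc_ge (hA : 0 < A) (hL : 4 * Lc ≤ A) (q : ℕ) : A / 2 * ((q : ℝ) + 1) ^ 4 ≤ Tc A Lc q := by
  unfold Tc Th
  have h1 : (1 : ℝ) ≤ ((q : ℝ) + 1) ^ 4 := one_le_pow₀ (by linarith [Nat.cast_nonneg (α := ℝ) q])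
  nlinarith

theorem Tc_pos (hA : 0 < A) (hL : 4 * Lc ≤ A) (q : ℕ) : 0 < Tc A Lc q :=
  lt_of_lt_of_le (by positivity) (Tc_ge hA hL q)

theorem Tc_sub (A Lc : ℝ) (q : ℕ) :
    Tc A Lc (q + 1) - Tc A Lc q = A * (((q : ℝ) + 2) ^ 4 - ((q : ℝ) + 1) ^ 4) := by
  unfold Tc Th
  push_cast
  ring

theorem Tc_mono (hA : 0 < A) : Monotone (Tc A Lc) := by
  refine monotone_nat_of_le_succ fun q => ?_
  have h := Tc_sub A Lc q
  have h1 : ((q : ℝ) + 1) ^ 4 ≤ ((q : ℝ) + 2) ^ 4 := by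
    apply pow_le_pow_left₀ (by positivity); linarith
  nlinarith

theorem tendsto_cast_succ : Tendsto (fun q : ℕ => (q : ℝ) + 1) atTop atTop :=
  tendsto_atTop_add_const_right _ _ tendsto_natCast_atTop_atTop

theorem Tc_inf (hA : 0 < A) (hL : 4 * Lc ≤ A) : Tendsto (Tc A Lc) atTop atTop := by
  refine tendsto_atTop_mono (Tc_ge hA hL) ?_
  exact ((tendsto_pow_atTop (by norm_num)).comp tendsto_cast_succ).const_mul_atTop (by positivity)

theorem tendsto_const_div_succ (c : ℝ) : Tendsto (fun q : ℕ => c / ((q : ℝ) + 1)) atTop (𝓝 0) :=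
  tendsto_const_nhds.div_atTop tendsto_cast_succ

theorem Tc_rel (hA : 0 < A) (hL : 4 * Lc ≤ A) :
    Tendsto (fun q => (Tc A Lc (q + 1) - Tc A Lc q) / Tc A Lc q) atTop (𝓝 0) := by
  refine squeeze_zero (fun q => div_nonneg (sub_nonneg.2 (Tc_mono hA (Nat.le_succ q)))
    (Tc_pos hA hL q).le) (fun q => ?_) (tendsto_const_div_succ 30)
  rw [div_le_div_iff₀ (Tc_pos hA hL q) (by positivity), Tc_sub]
  have h1 := Tc_ge hA hL q
  have hx : (1 : ℝ) ≤ (q : ℝ) + 1 := by linarith [Nat.cast_nonneg (α := ℝ) q]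
  have h2 : ((q : ℝ) + 2) ^ 4 - ((q : ℝ) + 1) ^ 4 ≤ 15 * ((q : ℝ) + 1) ^ 3 := by
    have e : ((q : ℝ) + 2) ^ 4 = (((q : ℝ) + 1) + 1) ^ 4 := by ring
    rw [e]
    set x := (q : ℝ) + 1
    have h3 : 1 ≤ x ^ 2 := one_le_pow₀ hx
    have h4 : x ^ 2 ≤ x ^ 3 := pow_le_pow_right₀ hx (by norm_num)
    have h5 : x ≤ x ^ 3 := le_self_pow₀ hx (by norm_num)
    nlinarith
  have h3 : A * (((q : ℝ) + 2) ^ 4 - ((q : ℝ) + 1) ^ 4) * ((q : ℝ) + 1)
      ≤ A * (15 * ((q : ℝ) + 1) ^ 3) * ((q : ℝ) + 1) := by gcongr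
  nlinarith

/-- lower order: `c0 + c1 Tg` is small against the homes -/
theorem g_rel (hA : 0 < A) (hL : 4 * Lc ≤ A) (c0 c1 : ℝ) :
    Tendsto (fun q => (c0 + c1 * Tg A q) / Tc A Lc q) atTop (𝓝 0) := by
  rw [tendsto_zero_iff_abs_tendsto_zero]
  refine squeeze_zero (fun q => abs_nonneg _) (fun q => ?_)
    (tendsto_const_div_succ (2 * (|c0| / A + |c1|)))
  have hT := Tc_pos hA hL q
  have h1 := Tc_ge hA hL q
  have hx : (1 : ℝ) ≤ (q : ℝ) + 1 := by linarith [Nat.cast_nonneg (α := ℝ) q]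
  have hg : |c0 + c1 * Tg A q| ≤ (|c0| / A + |c1|) * (A * ((q : ℝ) + 1) ^ 3) := by
    have h2 : |c0 + c1 * Tg A q| ≤ |c0| + |c1| * Tg A q := by
      refine (abs_add_le _ _).trans ?_
      rw [abs_mul, abs_of_pos (Tg_pos hA q)]
    have h3 : (1 : ℝ) ≤ ((q : ℝ) + 1) ^ 3 := one_le_pow₀ hx
    have h4 : |c0| ≤ |c0| * ((q : ℝ) + 1) ^ 3 := le_mul_of_one_le_right (abs_nonneg _) h3
    calc |c0 + c1 * Tg A q| ≤ |c0| + |c1| * Tg A q := h2
      _ ≤ |c0| * ((q : ℝ) + 1) ^ 3 + |c1| * Tg A q := by linarith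
      _ = (|c0| / A + |c1|) * (A * ((q : ℝ) + 1) ^ 3) := by
          unfold Tg; field_simp
  simp only [Function.comp_def]
  rw [abs_div, abs_of_pos hT, div_le_div_iff₀ hT (by positivity)]
  calc |c0 + c1 * Tg A q| * ((q : ℝ) + 1)
      ≤ (|c0| / A + |c1|) * (A * ((q : ℝ) + 1) ^ 3) * ((q : ℝ) + 1) := by gcongr
    _ = 2 * (|c0| / A + |c1|) * (A / 2 * ((q : ℝ) + 1) ^ 4) := by ring
    _ ≤ _ := mul_le_mul_of_nonneg_left h1 (by positivity)

/-- The schedule for the mixing theorem. -/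
def sched {CΓ M : ℝ} {Ms : ℕ} (hA : 0 < A) (hL0 : 0 ≤ Lc) (hL : 4 * Lc ≤ A) (hC : 1 ≤ CΓ)
    (hM : 0 ≤ M) (hMs : 1 ≤ Ms) : Mix.Sched where
  T := Tc A Lc
  ε _ := Real.log 4
  Γ q := CΓ * Real.exp ((M + 2) * (Tg A q + 2 * Lc))
  δ := 0
  g q := (Real.log CΓ + Real.log 4 + (M + 2) * (2 * Lc)) + (M + 2) * Tg A q
  M := Ms
  M_pos := hMs
  T_pos := Tc_pos hA hL
  T_inf := Tc_inf hA hL
  T_rel := Tc_rel hA hL
  g_rel := g_rel hA hL _ _
  Γ_ge q := by
    have h1 : 1 ≤ Real.exp ((M + 2) * (Tg A q + 2 * Lc)) := by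
      have := (Tg_pos hA q).le
      exact Real.one_le_exp (by positivity)
    nlinarith
  rate q := by
    have hC0 : 0 < CΓ := by linarith
    rw [show (0 : ℝ) * Tc A Lc q + ((Real.log CΓ + Real.log 4 + (M + 2) * (2 * Lc)) +
      (M + 2) * Tg A q) = Real.log CΓ + (M + 2) * (Tg A q + 2 * Lc) + Real.log 4 by ring,
      Real.exp_add, Real.exp_add, Real.exp_log hC0]

/-! ### Comparison with the time -/





end

end Crest.Agent.R202.Sch
end

-- ▼ part R202/NumExp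
section

/-!
# Row 202: the numerics of `BExport` (helper225)

Growth exponents of the cuts at home: `aH`, the form levels `LamH`, the inequality needed by
`BFin.exists_mixData` (`lam_le`), the sector data `secD` and the bound of the means (`exists_c`).
-/

set_option autoImplicit false

open Finset Set

noncomputable section

namespace Crest.Agent.R202.Num

open Crest.Agent.R202.Main Crest.Agent.R202.Lab Crest.Agent.R202.CT
open Crest.Agent.R202.Mix (SecData)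

theorem expo_nonneg {D ρ x : ℝ} (hD : 0 ≤ D) (hx : 0 ≤ x) : 0 ≤ expo D ρ x := by
  unfold expo
  have h1 : D / 2 ≤ Real.sqrt (D ^ 2 / 4 + x * (x + D) / ρ ^ 2) := by
    apply Real.le_sqrt_of_sq_le
    have : 0 ≤ x * (x + D) / ρ ^ 2 := by positivity
    nlinarith
  linarith

/-- the quadratic equation of the exponent -/
theorem expo_eq {D ρ x : ℝ} (hD : 0 ≤ D) (hx : 0 ≤ x) :
    expo D ρ x ^ 2 + D * expo D ρ x = x * (x + D) / ρ ^ 2 := by
  unfold expo
  have h0 : 0 ≤ D ^ 2 / 4 + x * (x + D) / ρ ^ 2 := by positivity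
  have h1 := Real.sq_sqrt h0
  linear_combination h1

theorem expo_mono {D ρ x y : ℝ} (hD : 0 ≤ D) (hx : 0 ≤ x) (hxy : x ≤ y) :
    expo D ρ x ≤ expo D ρ y := by
  unfold expo
  have h1 : x * (x + D) ≤ y * (y + D) := by nlinarith
  have h2 : x * (x + D) / ρ ^ 2 ≤ y * (y + D) / ρ ^ 2 :=
    div_le_div_of_nonneg_right h1 (sq_nonneg _)
  have h3 := Real.sqrt_le_sqrt (add_le_add_right h2 (D ^ 2 / 4))
  linarith

variable {m : ℕ} {v : ℝ} {k : ℕ}

/-- exponent of the cut `l` (`1 ≤ l`) of the sector `σ` at home -/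
def aH (D : CountData m v k) (σ : ℕ × ℕ) (l : ℕ) : ℝ := homeExp m v D.b0 D.e σ (l - 1)

/-- level of the form `θ^{2/(m+2)} Q` of the cut `l` at home -/
def LamH (D : CountData m v k) (σ : ℕ × ℕ) (εh : ℝ) (l : ℕ) : ℝ :=
  (D.b0⁻¹) ^ ((2 : ℝ) / ((m : ℝ) + 2)) * (homeLev D σ (l - 1) + εh)

/-- the form margin belonging to the margin `ε` of the exponents -/
def epsH (D : CountData m v k) (ε : ℝ) : ℝ :=
  ε * ((m : ℝ) + 1) * (v * D.b0) ^ ((2 : ℝ) / ((m : ℝ) + 2))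

theorem epsH_pos (D : CountData m v k) {ε : ℝ} (hε : 0 < ε) : 0 < epsH D ε := by
  have h1 := D.v_pos
  have h2 : 0 < D.b0 := by linarith [D.b0_gt]
  unfold epsH
  have : 0 < (v * D.b0) ^ ((2 : ℝ) / ((m : ℝ) + 2)) := Real.rpow_pos_of_pos (by positivity) _
  positivity

theorem lab_nonneg (D : CountData m v k) (σ : ℕ × ℕ) (c : ℕ) :
    0 ≤ mu D.b0 (D.e σ.2 (c + sh σ)) + (σ.1 : ℝ) := by
  have h2 : 0 ≤ D.b0 := by linarith [D.b0_gt]
  have := mu_nonneg h2 (D.e σ.2 (c + sh σ))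
  positivity

theorem aH_nonneg (D : CountData m v k) (σ : ℕ × ℕ) (l : ℕ) : 0 ≤ aH D σ l :=
  expo_nonneg (by positivity) (lab_nonneg D σ _)

theorem aH_mono (D : CountData m v k) {σ : ℕ × ℕ} (hσ : σ ∈ D.S) {l l' : ℕ} (h : l ≤ l') :
    aH D σ l ≤ aH D σ l' := by
  refine expo_mono (by positivity) (lab_nonneg D σ _) ?_
  have h1 := (D.enum σ.2 (D.secOK σ hσ).1).2.1
  have h2 := h1.monotone (show l - 1 + sh σ ≤ l' - 1 + sh σ by omega)
  linarith

/-- `exp (2 s_∞) θ₀^{2/(m+2)} = (v b₀)^{-2/(m+2)}` -/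
theorem exp_mul (D : CountData m v k) :
    Real.exp (2 * (-Real.log v / ((m : ℝ) + 2))) * (D.b0⁻¹) ^ ((2 : ℝ) / ((m : ℝ) + 2)) =
      ((v * D.b0) ^ ((2 : ℝ) / ((m : ℝ) + 2)))⁻¹ := by
  have hv := D.v_pos
  have hb : 0 < D.b0 := by linarith [D.b0_gt]
  have h1 : Real.exp (2 * (-Real.log v / ((m : ℝ) + 2))) = (v ^ ((2 : ℝ) / ((m : ℝ) + 2)))⁻¹ := by
    rw [Real.rpow_def_of_pos hv, ← Real.exp_neg]
    congr 1
    ring
  rw [h1, Real.inv_rpow hb.le, Real.mul_rpow hv.le hb.le, mul_inv]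

theorem aH_eq (D : CountData m v k) (σ : ℕ × ℕ) (l : ℕ) :
    aH D σ l ^ 2 + ((m : ℝ) + 1) * aH D σ l =
      ((v * D.b0) ^ ((2 : ℝ) / ((m : ℝ) + 2)))⁻¹ * homeLev D σ (l - 1) := by
  have hv := D.v_pos
  have hb : 0 < D.b0 := by linarith [D.b0_gt]
  have h1 := expo_eq (D := (m : ℝ) + 1) (ρ := (v * D.b0) ^ ((1 : ℝ) / ((m : ℝ) + 2)))
    (by positivity) (lab_nonneg D σ (l - 1))
  have h2 : ((v * D.b0) ^ ((1 : ℝ) / ((m : ℝ) + 2))) ^ 2 =
      (v * D.b0) ^ ((2 : ℝ) / ((m : ℝ) + 2)) := by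
    rw [← Real.rpow_natCast, ← Real.rpow_mul (by positivity)]
    congr 1
    push_cast
    ring
  unfold aH homeExp
  rw [h1, h2]
  unfold homeLev
  rw [div_eq_inv_mul]
  ring

/-- the hypothesis `ha` of `exists_mixData` -/
theorem lam_le (D : CountData m v k) (σ : ℕ × ℕ) (l : ℕ) {ε : ℝ} (hε : 0 ≤ ε) :
    0 ≤ aH D σ l + ε ∧
      Real.exp (2 * (-Real.log v / ((m : ℝ) + 2))) * LamH D σ (epsH D ε) l ≤
        (aH D σ l + ε) ^ 2 + ((m : ℝ) + 1) * (aH D σ l + ε) := by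
  have ha := aH_nonneg D σ l
  refine ⟨by linarith, ?_⟩
  have hv := D.v_pos
  have hb : 0 < D.b0 := by linarith [D.b0_gt]
  have hr : 0 < (v * D.b0) ^ ((2 : ℝ) / ((m : ℝ) + 2)) := Real.rpow_pos_of_pos (by positivity) _
  unfold LamH
  rw [← mul_assoc, exp_mul, mul_add, ← aH_eq]
  have h1 : ((v * D.b0) ^ ((2 : ℝ) / ((m : ℝ) + 2)))⁻¹ * epsH D ε = ε * ((m : ℝ) + 1) := by
    unfold epsH
    field_simp
  rw [h1]
  nlinarith [mul_nonneg ha hε, sq_nonneg ε]


/-- sector data with the exponents `aH + c` -/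
def secD (D : CountData m v k) (σ : ℕ × ℕ) (hσ : σ ∈ D.S) (c : ℝ) (off : ℕ) : SecData where
  N := D.N σ
  i0 := D.i0 σ
  a := fun l => aH D σ l + c
  off := off
  i0_pos := D.i0_pos σ hσ
  i0_le := (D.i0_lt σ hσ).le
  mono := fun _ _ _ hij _ => by
    have := aH_mono D hσ hij
    linarith

theorem secD_mean (D : CountData m v k) {σ : ℕ × ℕ} (hσ : σ ∈ D.S) (c : ℝ) (off : ℕ) :
    (secD D σ hσ c off).mean =
      (∑ c ∈ Finset.Icc (D.i0 σ - 1) (D.N σ - 1), homeExp m v D.b0 D.e σ c) /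
        ((D.N σ : ℝ) - (D.i0 σ : ℝ) + 1) + c := by
  have h1 := D.i0_pos σ hσ
  have h2 := D.i0_lt σ hσ
  have hc : ((D.N σ - D.i0 σ : ℕ) : ℝ) = (D.N σ : ℝ) - (D.i0 σ : ℝ) := by
    rw [Nat.cast_sub h2.le]
  have hpos : 0 < (D.N σ : ℝ) - (D.i0 σ : ℝ) + 1 := by
    rw [← hc]; positivity
  unfold SecData.mean
  simp only [secD]
  rw [hc, Finset.sum_add_distrib, Finset.sum_const, Finset.card_range, nsmul_eq_mul, add_div]
  congr 1
  · congr 1
    refine Finset.sum_nbij (fun i => D.i0 σ - 1 + i) ?_ ?_ ?_ ?_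
    · intro i hi
      rw [Finset.mem_range] at hi
      rw [Finset.mem_Icc]
      omega
    · intro i _ j _ hij
      simp only at hij
      omega
    · intro j hj
      simp only [Finset.coe_Icc, Set.mem_Icc] at hj
      refine ⟨j - (D.i0 σ - 1), ?_, ?_⟩
      · simp only [Finset.coe_range, Set.mem_Iio]
        omega
      · simp only
        omega
    · intro i _
      unfold aH
      congr 1
      omega
  · push_cast
    rw [hc]
    field_simp

/-- for small `c` all means are `< k` -/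
theorem exists_c (D : CountData m v k) : ∃ c0 : ℝ, 0 < c0 ∧ ∀ c ≤ c0, ∀ σ, ∀ hσ : σ ∈ D.S,
    ∀ off, (secD D σ hσ c off).mean < k := by
  classical
  set gap : ℕ × ℕ → ℝ := fun σ => (k : ℝ) -
    (∑ c ∈ Finset.Icc (D.i0 σ - 1) (D.N σ - 1), homeExp m v D.b0 D.e σ c) /
        ((D.N σ : ℝ) - (D.i0 σ : ℝ) + 1) with hgap
  have hg : ∀ σ ∈ D.S, 0 < gap σ := by
    intro σ hσ
    have h2 := D.i0_lt σ hσ
    have hpos : 0 < (D.N σ : ℝ) - (D.i0 σ : ℝ) + 1 := by
      have : (D.i0 σ : ℝ) < D.N σ := by exact_mod_cast h2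
      linarith
    have h3 := D.mean σ hσ
    have h4 : (∑ c ∈ Finset.Icc (D.i0 σ - 1) (D.N σ - 1), homeExp m v D.b0 D.e σ c) /
        ((D.N σ : ℝ) - (D.i0 σ : ℝ) + 1) < k := by
      rw [div_lt_iff₀ hpos]; exact h3
    simp only [hgap]
    linarith
  obtain ⟨σ0, hσ0, hmin⟩ := D.S.exists_min_image gap D.S_ne
  refine ⟨gap σ0 / 2, by linarith [hg σ0 hσ0], fun c hc σ hσ off => ?_⟩
  rw [secD_mean]
  have h1 := hmin σ hσ
  have h2 := hg σ0 hσ0
  have h3 : gap σ = (k : ℝ) -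
    (∑ c ∈ Finset.Icc (D.i0 σ - 1) (D.N σ - 1), homeExp m v D.b0 D.e σ c) /
        ((D.N σ : ℝ) - (D.i0 σ : ℝ) + 1) := rfl
  linarith

end Crest.Agent.R202.Num
end
end

-- ▼ part R202/BNum
section

/-!
# Row 202: `exists_num`, the numerics of `BExport` in the captain's form (helper225)
-/

set_option autoImplicit false

noncomputable section

namespace Crest.Agent.R202.Num

open Crest.Agent.R202.Main Crest.Agent.R202.Lab Crest.Agent.R202.CT
open Crest.Agent.R202.Mix (SecData)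

variable {m : ℕ} {v : ℝ} {k : ℕ}

theorem b0_rpow (D : CountData m v k) :
    D.b0 ^ (-(2 : ℝ) / ((m : ℝ) + 2)) = (D.b0⁻¹) ^ ((2 : ℝ) / ((m : ℝ) + 2)) := by
  have hb : 0 < D.b0 := by linarith [D.b0_gt]
  rw [Real.inv_rpow hb.le, ← Real.rpow_neg hb.le]
  congr 1
  ring

/-- **the numerics of `BExport`**: form margin `εh`, margin `ε` of the exponents, exponents
`a σ l` of the cuts. -/
theorem exists_num (D : CountData m v k) : ∃ εh : ℝ, 0 < εh ∧ ∃ ε : ℝ, 0 < ε ∧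
    ∃ a : ℕ × ℕ → ℕ → ℝ, ∀ σ ∈ D.S,
      (∀ l, D.i0 σ ≤ l → l ≤ D.N σ → 0 ≤ a σ l ∧
        Real.exp (2 * (-Real.log v / ((m : ℝ) + 2))) *
          (D.b0 ^ (-(2 : ℝ) / ((m : ℝ) + 2)) * (homeLev D σ (l - 1) + εh)) ≤
          a σ l ^ 2 + ((m : ℝ) + 1) * a σ l) ∧
      (∀ i j, D.i0 σ ≤ i → i ≤ j → j ≤ D.N σ → a σ i ≤ a σ j) ∧
      (∑ c ∈ Finset.range (D.N σ - D.i0 σ + 1), (a σ (D.i0 σ + c) + ε)) /
        ((D.N σ - D.i0 σ : ℕ) + 1) < (k : ℝ) := by
  obtain ⟨c0, hc0, hc⟩ := exists_c D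
  refine ⟨epsH D (c0 / 2), epsH_pos D (by linarith), c0 / 2, by linarith,
    fun σ l => aH D σ l + c0 / 2, fun σ hσ => ⟨fun l _ _ => ?_, fun i j _ hij _ => ?_, ?_⟩⟩
  · rw [b0_rpow]
    exact lam_le D σ l (by linarith)
  · have := aH_mono D hσ hij
    simp only
    linarith
  · have h1 := hc c0 le_rfl σ hσ 0
    have h2 : (secD D σ hσ c0 0).mean =
        (∑ c ∈ Finset.range (D.N σ - D.i0 σ + 1), (aH D σ (D.i0 σ + c) + c0)) /
          ((D.N σ - D.i0 σ : ℕ) + 1) := rfl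
    rw [h2] at h1
    have h3 : ∀ c, aH D σ (D.i0 σ + c) + c0 / 2 + c0 / 2 = aH D σ (D.i0 σ + c) + c0 := fun c => by
      ring
    simp only [h3]
    exact h1

end Crest.Agent.R202.Num
end
end

-- ▼ part R202/LowPath
section

set_option autoImplicit false

open Set
open scoped InnerProductSpace

namespace Crest.Agent.R202.LowF

variable {G : Type*} [NormedAddCommGroup G] [InnerProductSpace ℝ G] [FiniteDimensional ℝ G]
  {l : ℕ}

section Point

variable {T : G →L[ℝ] G} {p q : Fin l → G} {A B A' B' a b : ℝ} {V : Submodule ℝ G}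

/-- an exact low space of dimension `l` inherits the levels of every separating frame -/
theorem Exact.of_sep (hE : Exact T V a b) (hab : a < b) (hV : Module.finrank ℝ V = l)
    (h : Sep T p A B) (hAB : A < B) : Exact T V A B := by
  obtain ⟨V', hV', hE'⟩ := h.exists_exact hE.symm hAB
  have := hE.unique hE' hab hAB (by rw [hV, hV'])
  rw [this]
  exact hE'

omit [FiniteDimensional ℝ G] in
theorem finrank_span_frame {f : Fin l → G} (hf : LinearIndependent ℝ f) :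
    Module.finrank ℝ (Submodule.span ℝ (range f)) = l := by
  rw [finrank_span_eq_card hf, Fintype.card_fin]

/-- **sign cocycle**, arbitrary levels -/
theorem Sep.cocycle' (h : Sep T p A B) (h' : Sep T q A' B') (hlt : A < B) (hlt' : A' < B')
    {f : Fin l → G} (hf : LinearIndependent ℝ f)
    (hE : Exact T (Submodule.span ℝ (range f)) a b) (hab : a < b) :
    0 < (gm f p).det * (gm p q).det * (gm q f).det :=
  h.cocycle h' hf (hE.of_sep hab (finrank_span_frame hf) h hlt)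
    (hE.of_sep hab (finrank_span_frame hf) h' hlt') hlt hlt'

theorem Sep.det_exact_ne_zero (h : Sep T p A B) (hlt : A < B)
    {f : Fin l → G} (hf : LinearIndependent ℝ f)
    (hE : Exact T (Submodule.span ℝ (range f)) a b) (hab : a < b) : (gm f p).det ≠ 0 := by
  have hE' := hE.of_sep hab (finrank_span_frame hf) h hlt
  exact det_gm_ne_zero hf fun x hx hx' => eq_zero_of_levels hlt (hE'.low x hx) (h.high x hx')

end Point

/-- transport of a frame of the exact low space along an interval with a constant separating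
frame -/
theorem exists_step {S : ℝ → G →L[ℝ] G} {α β A B : ℝ} {p e : Fin l → G} (hαβ : α ≤ β)
    (hS : ContinuousOn S (Icc α β)) (hs : ∀ τ ∈ Icc α β, ∀ x y, ⟪S τ x, y⟫_ℝ = ⟪x, S τ y⟫_ℝ)
    (hAB : A < B) (hp : ∀ τ ∈ Icc α β, Sep (S τ) p A B) (he : LinearIndependent ℝ e)
    (hE : Exact (S α) (Submodule.span ℝ (range e)) A B) :
    ∃ f : ℝ → Fin l → G, ContinuousOn f (Icc α β) ∧ f α = e ∧
      ∀ τ ∈ Icc α β, LinearIndependent ℝ (f τ) ∧
        Exact (S τ) (Submodule.span ℝ (range (f τ))) A B := by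
  have hex : ∀ τ, ∃ V : Submodule ℝ G, τ ∈ Icc α β → Module.finrank ℝ V = l ∧ Exact (S τ) V A B := by
    intro τ
    by_cases hτ : τ ∈ Icc α β
    · obtain ⟨V, hV⟩ := (hp τ hτ).exists_exact (hs τ hτ) hAB
      exact ⟨V, fun _ => hV⟩
    · exact ⟨⊥, fun h => absurd h hτ⟩
  choose V hV using hex
  have hα : α ∈ Icc α β := ⟨le_rfl, hαβ⟩
  -- projected frame
  set F : ℝ → Fin l → G := fun τ i => (V τ).starProjection (p i) with hF
  have hFli : ∀ τ ∈ Icc α β, LinearIndependent ℝ (F τ) := fun τ hτ =>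
    (hp τ hτ).proj_li (hV τ hτ).2 hAB
  have hFspan : ∀ τ ∈ Icc α β, Submodule.span ℝ (range (F τ)) = V τ := fun τ hτ =>
    (hp τ hτ).proj_span (hV τ hτ).2 hAB (hV τ hτ).1
  have hVe : V α = Submodule.span ℝ (range e) :=
    (hV α hα).2.unique hE hAB hAB (by rw [(hV α hα).1, finrank_span_frame he])
  have hproj : ∀ x, ContinuousOn (fun τ => (V τ).starProjection x) (Icc α β) := by
    intro x τ hτ
    rw [ContinuousWithinAt, tendsto_iff_norm_sub_tendsto_zero]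
    have h1 : Filter.Tendsto (fun t => (l / (B - A) + l / (B - A)) * ‖S τ - S t‖ * ‖x‖)
        (nhdsWithin τ (Icc α β)) (nhds 0) := by
      have h2 : Filter.Tendsto (fun t => ‖S τ - S t‖) (nhdsWithin τ (Icc α β)) (nhds 0) := by
        have h3 := (hS τ hτ)
        have h4 : Filter.Tendsto (fun t => ‖S t - S τ‖) (nhdsWithin τ (Icc α β)) (nhds 0) :=
          tendsto_iff_norm_sub_tendsto_zero.1 h3
        refine h4.congr fun t => norm_sub_rev _ _
      have h5 := (h2.const_mul ((l : ℝ) / (B - A) + l / (B - A))).mul_const ‖x‖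
      simpa using h5
    refine squeeze_zero' (Filter.Eventually.of_forall fun t => norm_nonneg _) ?_ h1
    filter_upwards [self_mem_nhdsWithin] with t ht
    have h6 := (hV t ht).2.proj_dist (hV τ hτ).2 hAB hAB x
    rwa [(hV t ht).1, (hV τ hτ).1] at h6
  obtain ⟨N, hN, hNe⟩ := exists_act (p := F α) he fun i => by
    rw [hFspan α hα, hVe]; exact Submodule.subset_span (mem_range_self i)
  refine ⟨fun τ => act N (F τ), ?_, hNe.symm, fun τ hτ => ⟨?_, ?_⟩⟩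
  · refine continuousOn_pi.2 fun i => ?_
    simp only [act, hF]
    exact continuousOn_finsetSum _ fun j _ => (hproj (p j)).const_smul (N i j)
  · exact linearIndependent_act hN (hFli τ hτ)
  · rw [span_act hN (hFli τ hτ), hFspan τ hτ]
    exact (hV τ hτ).2

/-- Patches on the uniform subdivision of `[0, 1]`, with one cell of overlap. -/
structure Patches (S : ℝ → G →L[ℝ] G) (r : ℕ) (p : ℕ → Fin l → G) (A B : ℕ → ℝ) (η : ℝ) :
    Prop where
  r_pos : 0 < r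
  η_pos : 0 < η
  gap : ∀ i < r, A i + 2 * η ≤ B i
  sep : ∀ i < r, ∀ τ ∈ Icc (0 : ℝ) 1, (i : ℝ) / r ≤ τ → τ ≤ ((i : ℝ) + 2) / r →
    Sep (S τ) (p i) (A i) (B i)

omit [FiniteDimensional ℝ G] in
theorem Patches.lt {S : ℝ → G →L[ℝ] G} {r : ℕ} {p : ℕ → Fin l → G} {A B : ℕ → ℝ} {η : ℝ}
    (h : Patches S r p A B η) {i : ℕ} (hi : i < r) : A i < B i := by
  have := h.gap i hi
  have := h.η_pos
  linarith

/-- continuous frame of the exact low space over `[0, 1]` -/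
theorem Patches.exists_frame {S : ℝ → G →L[ℝ] G} {r : ℕ} {p : ℕ → Fin l → G} {A B : ℕ → ℝ}
    {η : ℝ} (h : Patches S r p A B η) (hS : ContinuousOn S (Icc 0 1))
    (hs : ∀ τ ∈ Icc (0 : ℝ) 1, ∀ x y, ⟪S τ x, y⟫_ℝ = ⟪x, S τ y⟫_ℝ) {e : Fin l → G}
    (he : LinearIndependent ℝ e) {a b : ℝ} (hab : a < b)
    (hE : Exact (S 0) (Submodule.span ℝ (range e)) a b) :
    ∃ f : ℝ → Fin l → G, ContinuousOn f (Icc 0 1) ∧ f 0 = e ∧
      ∀ τ ∈ Icc (0 : ℝ) 1, LinearIndependent ℝ (f τ) ∧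
        ∀ i < r, (i : ℝ) / r ≤ τ → τ ≤ ((i : ℝ) + 2) / r →
          Exact (S τ) (Submodule.span ℝ (range (f τ))) (A i) (B i) := by
  have hr : (0 : ℝ) < r := by exact_mod_cast h.r_pos
  have hr0 : (r : ℝ) ≠ 0 := hr.ne'
  have main : ∀ k : ℕ, k ≤ r → ∃ f : ℝ → Fin l → G, ContinuousOn f (Icc 0 ((k : ℝ) / r)) ∧
      f 0 = e ∧ ∀ τ ∈ Icc (0 : ℝ) ((k : ℝ) / r), LinearIndependent ℝ (f τ) ∧
        ∃ a b, a < b ∧ Exact (S τ) (Submodule.span ℝ (range (f τ))) a b := by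
    intro k
    induction k with
    | zero =>
      intro _
      refine ⟨fun _ => e, continuousOn_const, rfl, fun τ hτ => ⟨he, a, b, hab, ?_⟩⟩
      have : τ = 0 := by
        have h1 := hτ.2
        rw [Nat.cast_zero, zero_div] at h1
        exact le_antisymm h1 hτ.1
      rw [this]; exact hE
    | succ k ih =>
      intro hk
      obtain ⟨f, hf, hf0, hfE⟩ := ih (by omega)
      have hkr : k < r := hk
      have hk0 : (0 : ℝ) ≤ (k : ℝ) / r := by positivity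
      have hk1 : (k : ℝ) / r ≤ ((k + 1 : ℕ) : ℝ) / r := by
        apply div_le_div_of_nonneg_right _ hr.le
        push_cast; linarith
      have hk2 : ((k + 1 : ℕ) : ℝ) / r ≤ 1 := by
        rw [div_le_one hr]; exact_mod_cast hk
      have hk3 : ((k + 1 : ℕ) : ℝ) / r ≤ ((k : ℝ) + 2) / r := by
        apply div_le_div_of_nonneg_right _ hr.le
        push_cast; linarith
      have hsub : Icc ((k : ℝ) / r) (((k + 1 : ℕ) : ℝ) / r) ⊆ Icc (0 : ℝ) 1 := fun τ hτ =>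
        ⟨hk0.trans hτ.1, hτ.2.trans hk2⟩
      have hkk : (k : ℝ) / r ∈ Icc (0 : ℝ) ((k : ℝ) / r) := ⟨hk0, le_rfl⟩
      obtain ⟨a', b', hab', hEk⟩ := (hfE _ hkk).2
      have hsepk := h.sep k hkr ((k : ℝ) / r) ⟨hk0, hk1.trans hk2⟩ le_rfl (hk1.trans hk3)
      have hEk' := hEk.of_sep hab' (finrank_span_frame (hfE _ hkk).1) hsepk (h.lt hkr)
      obtain ⟨f', hf', hf'0, hf'E⟩ := exists_step hk1 (hS.mono hsub)
        (fun τ hτ => hs τ (hsub hτ)) (h.lt hkr)
        (fun τ hτ => h.sep k hkr τ (hsub hτ) hτ.1 (hτ.2.trans hk3)) (hfE _ hkk).1 hEk'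
      have hfr : frontier {a : ℝ | a ≤ (k : ℝ) / r} = {(k : ℝ) / r} := frontier_Iic
      refine ⟨fun τ => if τ ≤ (k : ℝ) / r then f τ else f' τ, ?_, ?_, ?_⟩
      · refine ContinuousOn.if' ?_ ?_ ?_ ?_
        · rintro τ ⟨hτ, hτ'⟩
          rw [hfr] at hτ'
          obtain rfl : τ = (k : ℝ) / r := hτ'
          simp only [le_refl, if_true]
          exact (hf _ hkk).mono fun x hx => ⟨hx.1.1, hx.2⟩
        · rintro τ ⟨hτ, hτ'⟩
          rw [hfr] at hτ'
          obtain rfl : τ = (k : ℝ) / r := hτ'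
          simp only [le_refl, if_true]
          rw [← hf'0]
          exact (hf' _ ⟨le_rfl, hk1⟩).mono fun x hx => ⟨(not_le.1 hx.2).le, hx.1.2⟩
        · exact hf.mono fun x hx => ⟨hx.1.1, hx.2⟩
        · exact hf'.mono fun x hx => ⟨(not_le.1 hx.2).le, hx.1.2⟩
      · simp only [if_pos hk0]; exact hf0
      · intro τ hτ
        by_cases hτk : τ ≤ (k : ℝ) / r
        · simp only [if_pos hτk]; exact hfE τ ⟨hτ.1, hτk⟩
        · simp only [if_neg hτk]
          have := hf'E τ ⟨(not_le.1 hτk).le, hτ.2⟩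
          exact ⟨this.1, A k, B k, h.lt hkr, this.2⟩
  obtain ⟨f, hf, hf0, hfE⟩ := main r le_rfl
  rw [div_self hr0] at hf hfE
  refine ⟨f, hf, hf0, fun τ hτ => ⟨(hfE τ hτ).1, fun i hi h1 h2 => ?_⟩⟩
  obtain ⟨a', b', hab', hEk⟩ := (hfE τ hτ).2
  exact hEk.of_sep hab' (finrank_span_frame (hfE τ hτ).1) (h.sep i hi τ hτ h1 h2) (h.lt hi)

/-- constant sign of a nonvanishing continuous function -/
theorem mul_pos_of_ne_zero' {φ : ℝ → ℝ} {α β : ℝ} (hαβ : α ≤ β) (hc : ContinuousOn φ (Icc α β))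
    (h0 : ∀ t ∈ Icc α β, φ t ≠ 0) : 0 < φ α * φ β := by
  have ha := h0 α ⟨le_rfl, hαβ⟩
  have hb := h0 β ⟨hαβ, le_rfl⟩
  by_contra hcon
  push Not at hcon
  have hneg : φ α * φ β < 0 := lt_of_le_of_ne hcon (mul_ne_zero ha hb)
  have hivt : (0 : ℝ) ∈ φ '' Icc α β := by
    rcases lt_or_gt_of_ne ha with h4 | h4
    · have h5 : 0 < φ β := by nlinarith
      exact intermediate_value_Icc hαβ hc ⟨h4.le, h5.le⟩
    · have h5 : φ β < 0 := by nlinarith
      exact intermediate_value_Icc' hαβ hc ⟨h5.le, h4.le⟩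
  obtain ⟨s, hs, hs0⟩ := hivt
  exact h0 s hs hs0

omit [FiniteDimensional ℝ G] in
theorem continuousOn_det_gm {f : ℝ → Fin l → G} {s : Set ℝ} (hf : ContinuousOn f s)
    (q : Fin l → G) : ContinuousOn (fun τ => (gm (f τ) q).det) s := by
  have h1 : Continuous fun g : Fin l → G => (gm g q).det := by
    refine Continuous.matrix_det (continuous_matrix fun i j => ?_)
    simp only [gm, Matrix.of_apply]
    fun_prop
  exact h1.comp_continuousOn hf

/-- **Sign of the holonomy** from any chain of separating frames. -/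
theorem sign_of_chain {S : ℝ → G →L[ℝ] G} {e : Fin l → G} {f : ℝ → Fin l → G}
    (hf : ContinuousOn f (Icc 0 1)) (hf0 : f 0 = e)
    (hfE : ∀ τ ∈ Icc (0 : ℝ) 1, LinearIndependent ℝ (f τ) ∧
      ∃ a b, a < b ∧ Exact (S τ) (Submodule.span ℝ (range (f τ))) a b)
    (hS01 : S 1 = S 0) {O : Matrix (Fin l) (Fin l) ℝ} (hO : f 1 = act O e)
    {r : ℕ} {t : ℕ → ℝ} {q : ℕ → Fin l → G} {A B : ℕ → ℝ} (hr : 0 < r) (ht : Monotone t)
    (ht0 : t 0 = 0) (htr : t r = 1) (hq : q r = q 0) (hAB : ∀ i < r, A i < B i)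
    (hsep : ∀ i < r, ∀ τ ∈ Icc (t i) (t (i + 1)), Sep (S τ) (q i) (A i) (B i)) :
    0 < O.det * ∏ i ∈ Finset.range r, (gm (q i) (q (i + 1))).det := by
  have htI : ∀ i ≤ r, t i ∈ Icc (0 : ℝ) 1 := fun i hi =>
    ⟨by rw [← ht0]; exact ht (Nat.zero_le i), by rw [← htr]; exact ht hi⟩
  have hsub : ∀ i < r, Icc (t i) (t (i + 1)) ⊆ Icc (0 : ℝ) 1 := fun i hi τ hτ =>
    ⟨(htI i hi.le).1.trans hτ.1, hτ.2.trans (htI (i + 1) hi).2⟩
  have hne : ∀ i < r, ∀ τ ∈ Icc (t i) (t (i + 1)), (gm (f τ) (q i)).det ≠ 0 := by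
    intro i hi τ hτ
    obtain ⟨hli, a, b, hab, hE⟩ := hfE τ (hsub i hi hτ)
    exact (hsep i hi τ hτ).det_exact_ne_zero (hAB i hi) hli hE hab
  have hpatch : ∀ i < r, 0 < (gm (f (t i)) (q i)).det * (gm (f (t (i + 1))) (q i)).det := by
    intro i hi
    exact mul_pos_of_ne_zero' (ht (Nat.le_succ i)) (continuousOn_det_gm (hf.mono (hsub i hi)) _)
      (hne i hi)
  -- sign at the times `t k`
  have main : ∀ k < r, 0 < (gm e (q 0)).det * (∏ i ∈ Finset.range k, (gm (q i) (q (i + 1))).det) *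
      (gm (f (t k)) (q k)).det := by
    intro k
    induction k with
    | zero =>
      intro _
      rw [Finset.range_zero, Finset.prod_empty, mul_one, ht0, hf0]
      have h1 := hne 0 hr (t 0) ⟨le_rfl, ht (Nat.le_succ 0)⟩
      rw [ht0, hf0] at h1
      exact mul_self_pos.2 h1
    | succ k ih =>
      intro hk
      have h1 := ih (by omega)
      have h2 := hpatch k (by omega)
      obtain ⟨hli, a, b, hab, hE⟩ := hfE (t (k + 1)) (htI _ hk.le)
      have h3 := (hsep k (by omega) (t (k + 1)) ⟨ht (Nat.le_succ k), le_rfl⟩).cocycle'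
        (hsep (k + 1) hk (t (k + 1)) ⟨le_rfl, ht (Nat.le_succ _)⟩)
        (hAB k (by omega)) (hAB (k + 1) hk) hli hE hab
      rw [det_gm_comm (q (k + 1)) (f (t (k + 1)))] at h3
      rw [Finset.prod_range_succ]
      have h4 := mul_pos (mul_pos h1 h2) h3
      have h5 : 0 < ((gm (f (t k)) (q k)).det * (gm (f (t (k + 1))) (q k)).det) ^ 2 := by positivity
      have e1 : (gm e (q 0)).det * (∏ i ∈ Finset.range k, (gm (q i) (q (i + 1))).det) *
          (gm (f (t k)) (q k)).det * ((gm (f (t k)) (q k)).det * (gm (f (t (k + 1))) (q k)).det) *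
          ((gm (f (t (k + 1))) (q k)).det * (gm (q k) (q (k + 1))).det *
            (gm (f (t (k + 1))) (q (k + 1))).det) =
          ((gm (f (t k)) (q k)).det * (gm (f (t (k + 1))) (q k)).det) ^ 2 *
          ((gm e (q 0)).det * ((∏ i ∈ Finset.range k, (gm (q i) (q (i + 1))).det) *
            (gm (q k) (q (k + 1))).det) * (gm (f (t (k + 1))) (q (k + 1))).det) := by ring
      rw [e1] at h4
      exact (pos_iff_pos_of_mul_pos h4).1 h5
  obtain ⟨k, rfl⟩ : ∃ k, r = k + 1 := ⟨r - 1, by omega⟩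
  have h1 := main k (Nat.lt_succ_self k)
  have h2 := hpatch k (Nat.lt_succ_self k)
  rw [htr, hO, det_gm_act] at h2
  obtain ⟨hli, a, b, hab, hE⟩ := hfE 0 ⟨le_rfl, zero_le_one⟩
  rw [hf0] at hli hE
  have h3 := hsep k (Nat.lt_succ_self k) (t (k + 1)) ⟨ht (Nat.le_succ k), le_rfl⟩
  rw [htr, hS01] at h3
  have h4 := hsep 0 hr (t 0) ⟨le_rfl, ht (Nat.le_succ 0)⟩
  rw [ht0] at h4
  have h5 := h3.cocycle' h4 (hAB k (Nat.lt_succ_self k)) (hAB 0 hr) hli hE hab
  rw [det_gm_comm (q 0) e] at h5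
  rw [Finset.prod_range_succ, hq]
  have h6 := mul_pos (mul_pos h1 h2) h5
  have h7 : 0 < ((gm (f (t k)) (q k)).det * (gm e (q k)).det * (gm e (q 0)).det) ^ 2 := by
    have n1 : (gm (f (t k)) (q k)).det ≠ 0 := fun h0 => by
      rw [h0] at h1; simp at h1
    have n2 : (gm e (q k)).det ≠ 0 := fun h0 => by
      rw [h0] at h5; simp at h5
    have n3 : (gm e (q 0)).det ≠ 0 := fun h0 => by
      rw [h0] at h5; simp at h5
    positivity
  have e1 : (gm e (q 0)).det * (∏ i ∈ Finset.range k, (gm (q i) (q (i + 1))).det) *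
      (gm (f (t k)) (q k)).det * ((gm (f (t k)) (q k)).det * (O.det * (gm e (q k)).det)) *
      ((gm e (q k)).det * (gm (q k) (q 0)).det * (gm e (q 0)).det) =
      ((gm (f (t k)) (q k)).det * (gm e (q k)).det * (gm e (q 0)).det) ^ 2 *
      (O.det * ((∏ i ∈ Finset.range k, (gm (q i) (q (i + 1))).det) *
        (gm (q k) (q 0)).det)) := by ring
  rw [e1] at h6
  exact (pos_iff_pos_of_mul_pos h6).1 h7

/-- holonomy matrix -/
theorem exists_holonomy {S : ℝ → G →L[ℝ] G} {e : Fin l → G} {f : ℝ → Fin l → G}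
    (hf0 : f 0 = e) (hfE : ∀ τ ∈ Icc (0 : ℝ) 1, LinearIndependent ℝ (f τ) ∧
      ∃ a b, a < b ∧ Exact (S τ) (Submodule.span ℝ (range (f τ))) a b)
    (hS01 : S 1 = S 0) : ∃ O : Matrix (Fin l) (Fin l) ℝ, O.det ≠ 0 ∧ f 1 = act O e := by
  obtain ⟨hli0, a, b, hab, hE⟩ := hfE 0 ⟨le_rfl, zero_le_one⟩
  obtain ⟨hli1, a', b', hab', hE'⟩ := hfE 1 ⟨zero_le_one, le_rfl⟩
  rw [hS01] at hE'
  have h1 := hE.unique hE' hab hab' (by rw [finrank_span_frame hli0, finrank_span_frame hli1])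
  rw [hf0] at h1
  exact exists_act hli1 fun i => by rw [h1]; exact Submodule.subset_span (mem_range_self i)

end Crest.Agent.R202.LowF
end

-- ▼ part R202/LowFrame
section

set_option autoImplicit false

open Set
open scoped InnerProductSpace Topology

namespace Crest.Agent.R202.LowF

section Mid

theorem exists_st_bound : ∃ C : ℝ, 0 < C ∧ ∀ x, |deriv Real.smoothTransition x| ≤ C := by
  have hc : Continuous (deriv Real.smoothTransition) :=
    (Real.smoothTransition.contDiff (n := 1)).continuous_deriv le_rfl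
  obtain ⟨C, hC⟩ := (isCompact_Icc (a := (0 : ℝ)) (b := 1)).exists_bound_of_continuousOn
    hc.continuousOn
  refine ⟨|C| + 1, by positivity, fun x => ?_⟩
  by_cases hx : x ∈ Icc (0 : ℝ) 1
  · have := hC x hx
    rw [Real.norm_eq_abs] at this
    linarith [le_abs_self C]
  · have h0 : deriv Real.smoothTransition x = 0 := by
      rcases lt_or_ge x 0 with h | h
      · have h1 : Real.smoothTransition =ᶠ[𝓝 x] fun _ => 0 := by
          filter_upwards [Iio_mem_nhds h] with y hy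
          exact Real.smoothTransition.zero_of_nonpos (le_of_lt hy)
        rw [h1.deriv_eq, deriv_const]
      · have h2 : 1 < x := by
          by_contra hcon
          exact hx ⟨h, not_lt.1 hcon⟩
        have h1 : Real.smoothTransition =ᶠ[𝓝 x] fun _ => 1 := by
          filter_upwards [Ioi_mem_nhds h2] with y hy
          exact Real.smoothTransition.one_of_one_le (le_of_lt hy)
        rw [h1.deriv_eq, deriv_const]
    rw [h0, abs_zero]; positivity

/-- bound for the derivative of `Real.smoothTransition` -/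
noncomputable def stC : ℝ := Classical.choose exists_st_bound

theorem stC_pos : 0 < stC := (Classical.choose_spec exists_st_bound).1
theorem stC_bound (x : ℝ) : |deriv Real.smoothTransition x| ≤ stC :=
  (Classical.choose_spec exists_st_bound).2 x

/-- interpolation of the levels `m 0, m 1, …` -/
noncomputable def mid (m : ℕ → ℝ) (r : ℝ) : ℕ → ℝ → ℝ
  | 0, _ => m 0
  | n + 1, τ => mid m r n τ + (m (n + 1) - m n) * Real.smoothTransition (r * τ - (n + 1))

/-- its derivative -/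
noncomputable def mid' (m : ℕ → ℝ) (r : ℝ) : ℕ → ℝ → ℝ
  | 0, _ => 0
  | n + 1, τ => mid' m r n τ +
      (m (n + 1) - m n) * (deriv Real.smoothTransition (r * τ - (n + 1)) * r)

theorem hasDerivAt_mid (m : ℕ → ℝ) (r : ℝ) (n : ℕ) (τ : ℝ) :
    HasDerivAt (mid m r n) (mid' m r n τ) τ := by
  induction n with
  | zero => exact hasDerivAt_const _ _
  | succ n ih =>
    have h1 : HasDerivAt (fun τ : ℝ => r * τ - (n + 1)) r τ := by
      simpa using ((hasDerivAt_id τ).const_mul r).sub_const ((n : ℝ) + 1)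
    have h2 : HasDerivAt Real.smoothTransition
        (deriv Real.smoothTransition (r * τ - (n + 1))) (r * τ - (n + 1)) :=
      ((Real.smoothTransition.contDiff (n := 1)).differentiable (by norm_num) _).hasDerivAt
    exact ih.add ((h2.comp τ h1).const_mul (m (n + 1) - m n))

theorem abs_mid'_le {m : ℕ → ℝ} {r M : ℝ} (hr : 0 ≤ r) {n : ℕ} (hm : ∀ i ≤ n, |m i| ≤ M) (τ : ℝ) :
    |mid' m r n τ| ≤ n * (2 * M * (stC * r)) := by
  induction n with
  | zero => simp [mid']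
  | succ n ih =>
    have h1 := ih fun i hi => hm i (by omega)
    have hMn := hm n (by omega)
    have hMn1 := hm (n + 1) le_rfl
    have h2 : |m (n + 1) - m n| ≤ 2 * M := by
      have := abs_sub (m (n + 1)) (m n)
      linarith
    have h3 : |(m (n + 1) - m n) * (deriv Real.smoothTransition (r * τ - (n + 1)) * r)| ≤
        2 * M * (stC * r) := by
      rw [abs_mul, abs_mul, abs_of_nonneg hr]
      refine mul_le_mul h2 (mul_le_mul_of_nonneg_right (stC_bound _) hr)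
        (mul_nonneg (abs_nonneg _) hr) ((abs_nonneg _).trans h2)
    have h4 : |mid' m r (n + 1) τ| ≤ |mid' m r n τ| +
        |(m (n + 1) - m n) * (deriv Real.smoothTransition (r * τ - (n + 1)) * r)| := abs_add_le _ _
    push_cast
    linarith

theorem mid_of_ge (m : ℕ → ℝ) {r : ℝ} {n : ℕ} {τ : ℝ} (h : (n : ℝ) + 1 ≤ r * τ) :
    mid m r n τ = m n := by
  induction n with
  | zero => rfl
  | succ n ih =>
    push_cast at h
    have h1 := ih (by linarith)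
    show mid m r n τ + (m (n + 1) - m n) * Real.smoothTransition (r * τ - (n + 1)) = m (n + 1)
    rw [h1, Real.smoothTransition.one_of_one_le (by linarith)]; ring

theorem mid_of_le (m : ℕ → ℝ) {r : ℝ} {i n : ℕ} {τ : ℝ} (hin : i ≤ n) (h : r * τ ≤ (i : ℝ) + 1) :
    mid m r n τ = mid m r i τ := by
  induction n with
  | zero => rw [Nat.le_zero.1 hin]
  | succ n ih =>
    rcases Nat.lt_or_ge n i with h1 | h1
    · rw [show i = n + 1 by omega]
    · show mid m r n τ + (m (n + 1) - m n) * Real.smoothTransition (r * τ - (n + 1)) = _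
      have h2 : (i : ℝ) ≤ n := by exact_mod_cast h1
      rw [ih h1, Real.smoothTransition.zero_of_nonpos (by linarith)]; ring

theorem mid_zero (m : ℕ → ℝ) {r : ℝ} {n : ℕ} {τ : ℝ} (h : r * τ ≤ 1) :
    mid m r n τ = m 0 := by
  rw [mid_of_le m (Nat.zero_le n) (by simpa using h)]; rfl

theorem mid_between (m : ℕ → ℝ) {r : ℝ} {i n : ℕ} {τ : ℝ} (hin : i + 1 ≤ n)
    (h1 : (i : ℝ) + 1 ≤ r * τ) (h2 : r * τ ≤ (i : ℝ) + 2) :
    ∃ s ∈ Icc (0 : ℝ) 1, mid m r n τ = (1 - s) * m i + s * m (i + 1) := by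
  refine ⟨Real.smoothTransition (r * τ - (i + 1)),
    ⟨Real.smoothTransition.nonneg _, Real.smoothTransition.le_one _⟩, ?_⟩
  rw [mid_of_le m hin (by push_cast; linarith)]
  show mid m r i τ + (m (i + 1) - m i) * Real.smoothTransition (r * τ - (i + 1)) = _
  rw [mid_of_ge m h1]; ring

theorem abs_mid_le {m : ℕ → ℝ} {r M : ℝ} {n : ℕ} (hm : ∀ i ≤ n, |m i| ≤ M) (τ : ℝ) :
    |mid m r n τ| ≤ M := by
  rcases le_or_gt (r * τ) 1 with h | h
  · rw [mid_zero m h]; exact hm 0 (Nat.zero_le n)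
  · -- the cell of `r * τ`
    have h0 : 0 ≤ r * τ := by linarith
    set j := ⌊r * τ⌋₊ with hj
    have hj1 : (j : ℝ) ≤ r * τ := Nat.floor_le h0
    have hj2 : r * τ < (j : ℝ) + 1 := Nat.lt_floor_add_one _
    have hj0 : 1 ≤ j := by rw [hj, Nat.one_le_floor_iff]; exact h.le
    obtain ⟨i, hji⟩ : ∃ i, j = i + 1 := ⟨j - 1, by omega⟩
    rw [hji] at hj1 hj2
    rcases Nat.lt_or_ge n (i + 1) with h3 | h3
    · rw [mid_of_ge m (n := n) (by
        have : ((n : ℝ)) + 1 ≤ ((i + 1 : ℕ) : ℝ) := by exact_mod_cast h3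
        linarith)]
      exact hm n le_rfl
    · push_cast at hj1 hj2
      obtain ⟨s, hs, hs'⟩ := mid_between m (n := n) (i := i) (r := r) (τ := τ) h3 (by linarith)
        (by linarith)
      rw [hs']
      have a1 := abs_le.1 (hm i (by omega))
      have a2 := abs_le.1 (hm (i + 1) h3)
      rw [abs_le]
      constructor <;> nlinarith [hs.1, hs.2]

end Mid

variable {G : Type*} [NormedAddCommGroup G] [InnerProductSpace ℝ G] {l : ℕ}

theorem Sep.mono {T : G →L[ℝ] G} {p : Fin l → G} {A B A' B' : ℝ} (h : Sep T p A B) (hA : A ≤ A')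
    (hB : B' ≤ B) : Sep T p A' B' :=
  ⟨h.li, fun x hx => (h.low x hx).trans (mul_le_mul_of_nonneg_right hA (sq_nonneg _)),
    fun x hx => (mul_le_mul_of_nonneg_right hB (sq_nonneg _)).trans (h.high x hx)⟩

theorem Sep.smul {T : G →L[ℝ] G} {p : Fin l → G} {A B c : ℝ} (hc : 0 ≤ c) (h : Sep T p A B) :
    Sep (c • T) p (c * A) (c * B) := by
  refine ⟨h.li, fun x hx => ?_, fun x hx => ?_⟩
  · have := mul_le_mul_of_nonneg_left (h.low x hx) hc
    rw [smul_apply, real_inner_smul_left, mul_assoc]; exact this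
  · have := mul_le_mul_of_nonneg_left (h.high x hx) hc
    rw [smul_apply, real_inner_smul_left, mul_assoc]; exact this

theorem Exact.toSep {T : G →L[ℝ] G} {f : Fin l → G} {A B : ℝ} (hf : LinearIndependent ℝ f)
    (h : Exact T (Submodule.span ℝ (range f)) A B) : Sep T f A B :=
  ⟨hf, h.low, fun x hx => h.high x (mem_orth_span.2 hx)⟩

theorem Exact.mono {T : G →L[ℝ] G} {V : Submodule ℝ G} {A B A' B' : ℝ} (h : Exact T V A B)
    (hA : A ≤ A') (hB : B' ≤ B) : Exact T V A' B' :=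
  ⟨h.symm, h.inv, fun x hx => (h.low x hx).trans (mul_le_mul_of_nonneg_right hA (sq_nonneg _)),
    fun x hx => (mul_le_mul_of_nonneg_right hB (sq_nonneg _)).trans (h.high x hx)⟩

theorem act_one (e : Fin l → G) : act (1 : Matrix (Fin l) (Fin l) ℝ) e = e := by
  funext i
  simp [act, Matrix.one_apply, ite_smul]

theorem act_act (M N : Matrix (Fin l) (Fin l) ℝ) (e : Fin l → G) :
    act M (act N e) = act (M * N) e := by
  funext i
  simp only [act, Matrix.mul_apply, Finset.smul_sum, Finset.sum_smul, smul_smul]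
  rw [Finset.sum_comm]

/-- The frame of the exact low space over `ℝ`, with the mid level. -/
structure LowFrame (S : ℝ → G →L[ℝ] G) (e : Fin l → G) (η M C : ℝ) where
  f : ℝ → Fin l → G
  μ : ℝ → ℝ
  μ' : ℝ → ℝ
  O : Matrix (Fin l) (Fin l) ℝ
  cont : Continuous f
  li : ∀ τ, LinearIndependent ℝ (f τ)
  left : ∀ τ ≤ 0, f τ = e
  right : ∀ τ, 1 ≤ τ → f τ = act O e
  det_ne : O.det ≠ 0
  deriv : ∀ τ, HasDerivAt μ (μ' τ) τ
  deriv_le : ∀ τ, |μ' τ| ≤ C
  μ_le : ∀ τ, |μ τ| ≤ M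
  μ_left : ∀ τ ≤ 0, μ τ = μ 0
  μ_right : ∀ τ, 1 ≤ τ → μ τ = μ 1
  exact : ∀ τ, Exact (S τ) (Submodule.span ℝ (range (f τ))) (μ τ - η) (μ τ + η)
  /-- sign of the holonomy from any closed chain of separating frames -/
  sign : ∀ (r : ℕ) (t : ℕ → ℝ) (q : ℕ → Fin l → G) (A B : ℕ → ℝ), 0 < r → Monotone t →
    t 0 = 0 → t r = 1 → q r = q 0 → (∀ i < r, A i < B i) →
    (∀ i < r, ∀ τ ∈ Icc (t i) (t (i + 1)), Sep (S τ) (q i) (A i) (B i)) →
    0 < O.det * ∏ i ∈ Finset.range r, (gm (q i) (q (i + 1))).det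

/-- low bound in the form of `OpenCut` -/
theorem LowFrame.sep {S : ℝ → G →L[ℝ] G} {e : Fin l → G} {η M C : ℝ} (F : LowFrame S e η M C)
    (τ : ℝ) : Sep (S τ) (F.f τ) (F.μ τ - η) (F.μ τ + η) := (F.exact τ).toSep (F.li τ)

/-- **LowFrame (LF1-LF3).** -/
theorem Patches.exists_lowFrame [FiniteDimensional ℝ G] {S : ℝ → G →L[ℝ] G} {r : ℕ}
    {p : ℕ → Fin l → G} {A B : ℕ → ℝ} {η M : ℝ} (h : Patches S r p A B η)
    (hS : ContinuousOn S (Icc 0 1)) (hs : ∀ x y, ∀ τ, ⟪S τ x, y⟫_ℝ = ⟪x, S τ y⟫_ℝ)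
    (hout : ∀ τ, τ ≤ 0 ∨ 1 ≤ τ → S τ = S 0)
    (hM : ∀ i < r, |A i| ≤ M ∧ |B i| ≤ M)
    {e : Fin l → G} (he : LinearIndependent ℝ e) {a b : ℝ} (hab : a < b)
    (hE : Exact (S 0) (Submodule.span ℝ (range e)) a b) :
    Nonempty (LowFrame S e η M (r * (2 * M * (stC * r)))) := by
  have hr : (0 : ℝ) < r := by exact_mod_cast h.r_pos
  obtain ⟨f, hf, hf0, hfE⟩ := h.exists_frame hS (fun τ _ x y => hs x y τ) he hab hE
  have hS01 : S 1 = S 0 := hout 1 (Or.inr le_rfl)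
  -- exactness at every time, some levels
  have hfE' : ∀ τ ∈ Icc (0 : ℝ) 1, LinearIndependent ℝ (f τ) ∧
      ∃ a b, a < b ∧ Exact (S τ) (Submodule.span ℝ (range (f τ))) a b := by
    intro τ hτ
    refine ⟨(hfE τ hτ).1, ?_⟩
    rcases hτ.2.eq_or_lt with h1 | h1
    · subst h1
      obtain ⟨k, hk⟩ : ∃ k, r = k + 1 := ⟨r - 1, by have := h.r_pos; omega⟩
      refine ⟨A k, B k, h.lt (by omega), (hfE 1 hτ).2 k (by omega) ?_ ?_⟩
      · rw [div_le_one hr, hk]; push_cast; linarith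
      · rw [one_le_div hr, hk]; push_cast; linarith
    · set i := ⌊(r : ℝ) * τ⌋₊ with hi
      have h0 : 0 ≤ (r : ℝ) * τ := mul_nonneg hr.le hτ.1
      have hi1 : (i : ℝ) ≤ r * τ := Nat.floor_le h0
      have hi2 : r * τ < (i : ℝ) + 1 := Nat.lt_floor_add_one _
      have hir : i < r := by
        have : (i : ℝ) < r := by nlinarith
        exact_mod_cast this
      refine ⟨A i, B i, h.lt hir, (hfE τ hτ).2 i hir ?_ ?_⟩
      · rw [div_le_iff₀ hr]; linarith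
      · rw [le_div_iff₀ hr]; linarith
  obtain ⟨O, hO, hf1⟩ := exists_holonomy hf0 hfE' hS01
  set m : ℕ → ℝ := fun i => (A i + B i) / 2 with hm
  obtain ⟨n, hn⟩ : ∃ n, r = n + 1 := ⟨r - 1, by have := h.r_pos; omega⟩
  have hmM : ∀ i ≤ n, |m i| ≤ M := by
    intro i hi
    obtain ⟨h1, h2⟩ := hM i (by omega)
    rw [abs_le] at h1 h2 ⊢
    simp only [hm]
    constructor <;> linarith
  have hM0 : 0 ≤ M := (abs_nonneg _).trans (hmM 0 (Nat.zero_le n))
  -- clamp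
  set cl : ℝ → ℝ := fun τ => max 0 (min 1 τ) with hcl
  have hclI : ∀ τ, cl τ ∈ Icc (0 : ℝ) 1 := fun τ =>
    ⟨le_max_left _ _, max_le zero_le_one (min_le_left _ _)⟩
  have hclc : Continuous cl := by fun_prop
  have hcl_in : ∀ τ ∈ Icc (0 : ℝ) 1, cl τ = τ := fun τ hτ => by
    simp only [hcl]; rw [min_eq_right hτ.2, max_eq_right hτ.1]
  have hcl0 : ∀ τ ≤ 0, cl τ = 0 := fun τ hτ => by
    simp only [hcl]; rw [min_eq_right (by linarith), max_eq_left hτ]
  have hcl1 : ∀ τ, 1 ≤ τ → cl τ = 1 := fun τ hτ => by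
    simp only [hcl]; rw [min_eq_left hτ, max_eq_right zero_le_one]
  set μ : ℝ → ℝ := mid m r n with hμ
  have hμ0 : ∀ τ ≤ 0, μ τ = m 0 := fun τ hτ => mid_zero m (by nlinarith)
  have hμ1 : ∀ τ, 1 ≤ τ → μ τ = m n := fun τ hτ => by
    refine mid_of_ge m ?_
    rw [hn]; push_cast
    nlinarith [(by positivity : (0 : ℝ) ≤ n)]
  -- exactness with the mid level on `[0, 1]`
  have hex : ∀ τ ∈ Icc (0 : ℝ) 1,
      Exact (S τ) (Submodule.span ℝ (range (f τ))) (μ τ - η) (μ τ + η) := by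
    intro τ hτ
    have hE2 : ∀ i < r, (i : ℝ) / r ≤ τ → τ ≤ ((i : ℝ) + 2) / r →
        Exact (S τ) (Submodule.span ℝ (range (f τ))) (m i - η) (m i + η) := by
      intro i hi h1 h2
      have hg := h.gap i hi
      refine ((hfE τ hτ).2 i hi h1 h2).mono ?_ ?_
      · simp only [hm]; linarith
      · simp only [hm]; linarith
    rcases le_or_gt ((r : ℝ) * τ) 1 with h1 | h1
    · have e1 : μ τ = m 0 := mid_zero m h1
      rw [e1]
      refine hE2 0 h.r_pos ?_ ?_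
      · simpa using hτ.1
      · rw [le_div_iff₀ hr]; push_cast; linarith
    · have h0 : 0 ≤ (r : ℝ) * τ := by linarith
      set j := ⌊(r : ℝ) * τ⌋₊ with hj
      have hj1 : (j : ℝ) ≤ r * τ := Nat.floor_le h0
      have hj2 : r * τ < (j : ℝ) + 1 := Nat.lt_floor_add_one _
      have hj0 : 1 ≤ j := by rw [hj, Nat.one_le_floor_iff]; exact h1.le
      obtain ⟨i, hji⟩ : ∃ i, j = i + 1 := ⟨j - 1, by omega⟩
      rw [hji] at hj1 hj2
      push_cast at hj1 hj2
      rcases Nat.lt_or_ge n (i + 1) with h3 | h3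
      · -- `τ = 1`
        have h4 : (n : ℝ) + 1 ≤ r * τ := by
          have : ((n : ℝ)) + 1 ≤ ((i + 1 : ℕ) : ℝ) := by exact_mod_cast h3
          push_cast at this
          linarith
        have e1 : μ τ = m n := mid_of_ge m h4
        rw [e1]
        refine hE2 n (by omega) ?_ ?_
        · rw [div_le_iff₀ hr]; linarith
        · rw [le_div_iff₀ hr]
          have h5 : τ * r ≤ r := by nlinarith [hτ.2]
          have h6 : (r : ℝ) = n + 1 := by rw [hn]; push_cast; ring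
          linarith
      · obtain ⟨s, hs, hs'⟩ := mid_between m (n := n) (i := i) (r := r) (τ := τ) h3 (by linarith)
          (by linarith)
        have E1 := hE2 i (by omega) (by rw [div_le_iff₀ hr]; linarith)
          (by rw [le_div_iff₀ hr]; linarith)
        have E2 := hE2 (i + 1) (by omega) (by rw [div_le_iff₀ hr]; push_cast; linarith)
          (by rw [le_div_iff₀ hr]; push_cast; linarith)
        have e1 : μ τ = (1 - s) * m i + s * m (i + 1) := hs'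
        rw [e1]
        refine ⟨E1.symm, E1.inv, fun x hx => ?_, fun x hx => ?_⟩
        · have a1 := mul_le_mul_of_nonneg_left (E1.low x hx) (by linarith [hs.2] : 0 ≤ 1 - s)
          have a2 := mul_le_mul_of_nonneg_left (E2.low x hx) hs.1
          nlinarith
        · have a1 := mul_le_mul_of_nonneg_left (E1.high x hx) (by linarith [hs.2] : 0 ≤ 1 - s)
          have a2 := mul_le_mul_of_nonneg_left (E2.high x hx) hs.1
          nlinarith
  have h01 : (0 : ℝ) ∈ Icc (0 : ℝ) 1 := ⟨le_rfl, zero_le_one⟩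
  have h11 : (1 : ℝ) ∈ Icc (0 : ℝ) 1 := ⟨zero_le_one, le_rfl⟩
  refine ⟨{
    f := fun τ => f (cl τ)
    μ := μ
    μ' := mid' m r n
    O := O
    cont := hf.comp_continuous hclc hclI
    li := fun τ => (hfE' _ (hclI τ)).1
    left := fun τ hτ => by simp only [hcl0 τ hτ, hf0]
    right := fun τ hτ => by simp only [hcl1 τ hτ, hf1]
    det_ne := hO
    deriv := fun τ => hasDerivAt_mid m r n τ
    deriv_le := fun τ => ?_
    μ_le := fun τ => abs_mid_le hmM τ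
    μ_left := fun τ hτ => by rw [hμ0 τ hτ, hμ0 0 le_rfl]
    μ_right := fun τ hτ => by rw [hμ1 τ hτ, hμ1 1 le_rfl]
    exact := fun τ => ?_
    sign := fun k t q A' B' hk ht ht0 htr hq hAB hsep =>
      sign_of_chain hf hf0 hfE' hS01 hf1 hk ht ht0 htr hq hAB hsep }⟩
  · refine (abs_mid'_le hr.le hmM τ).trans ?_
    have h5 : (n : ℝ) ≤ r := by rw [hn]; push_cast; linarith
    refine mul_le_mul_of_nonneg_right h5 ?_
    have := stC_pos
    positivity
  · show Exact (S τ) (Submodule.span ℝ (range (f (cl τ)))) (μ τ - η) (μ τ + η)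
    rcases le_or_gt τ 0 with h1 | h1
    · rw [hout τ (Or.inl h1), hcl0 τ h1, hμ0 τ h1]
      have := hex 0 h01
      rwa [hμ0 0 le_rfl] at this
    · rcases le_or_gt 1 τ with h2 | h2
      · rw [hout τ (Or.inr h2), hcl1 τ h2, hμ1 τ h2]
        have := hex 1 h11
        rwa [hμ1 1 le_rfl, hS01] at this
      · rw [hcl_in τ ⟨h1.le, h2.le⟩]
        exact hex τ ⟨h1.le, h2.le⟩

/-- the reversed frame: `e` at `τ = 1`, `O • e` at `τ = 0` -/
theorem LowFrame.reverse {S : ℝ → G →L[ℝ] G} {e : Fin l → G} {η M C : ℝ}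
    [FiniteDimensional ℝ G] (F : LowFrame S e η M C) :
    ∃ (f : ℝ → Fin l → G) (O : Matrix (Fin l) (Fin l) ℝ), Continuous f ∧
      (∀ τ, LinearIndependent ℝ (f τ)) ∧ (∀ τ ≤ 0, f τ = act O e) ∧ (∀ τ, 1 ≤ τ → f τ = e) ∧
      O.det * F.O.det = 1 ∧
      (∀ τ, Exact (S τ) (Submodule.span ℝ (range (f τ))) (F.μ τ - η) (F.μ τ + η)) ∧
      (∀ τ, Sep (S τ) (f τ) (F.μ τ - η) (F.μ τ + η)) := by
  have hu : IsUnit F.O.det := isUnit_iff_ne_zero.2 F.det_ne
  have hO' : (F.O⁻¹).det ≠ 0 := by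
    rw [Matrix.det_nonsing_inv]
    simpa using F.det_ne
  have hE : ∀ τ, Exact (S τ) (Submodule.span ℝ (range (act F.O⁻¹ (F.f τ)))) (F.μ τ - η)
      (F.μ τ + η) := fun τ => by
    rw [span_act hO' (F.li τ)]; exact F.exact τ
  refine ⟨fun τ => act F.O⁻¹ (F.f τ), F.O⁻¹, ?_, fun τ => linearIndependent_act hO' (F.li τ),
    fun τ hτ => by simp only [F.left τ hτ], fun τ hτ => ?_, ?_, hE, fun τ =>
    (hE τ).toSep (linearIndependent_act hO' (F.li τ))⟩
  · refine continuous_pi fun i => ?_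
    simp only [act]
    exact continuous_finsetSum _ fun j _ => ((continuous_apply j).comp F.cont).const_smul _
  · simp only [F.right τ hτ]
    rw [act_act, Matrix.nonsing_inv_mul _ hu, act_one]
  · rw [← Matrix.det_mul, Matrix.nonsing_inv_mul _ hu, Matrix.det_one]

/-- **Compactness**: uniform patches from local separation. -/
theorem exists_patches {α : Type*} {Q : α → ℝ → ℝ → Prop} {K : Set ℝ} (hK : IsCompact K)
    (h : ∀ τ0 ∈ Icc (0 : ℝ) 1, ∀ κ0 ∈ K, ∃ a, ∀ᶠ z : ℝ × ℝ in 𝓝 (τ0, κ0), Q a z.1 z.2) :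
    ∃ (r : ℕ) (F : Finset α), 0 < r ∧ ∀ κ ∈ K, ∀ i < r, ∃ a ∈ F, ∀ τ,
      (i : ℝ) / r ≤ τ → τ ≤ ((i : ℝ) + 2) / r → Q a τ κ := by
  classical
  set X : Set (ℝ × ℝ) := Icc (0 : ℝ) 1 ×ˢ K with hX
  have hXc : IsCompact X := isCompact_Icc.prod hK
  set c : α → Set (ℝ × ℝ) := fun a => interior {z | Q a z.1 z.2} with hc
  have hcover : X ⊆ ⋃ a, c a := by
    rintro ⟨τ, κ⟩ ⟨hτ, hκ⟩
    obtain ⟨a, ha⟩ := h τ hτ κ hκ
    exact mem_iUnion.2 ⟨a, mem_interior_iff_mem_nhds.2 ha⟩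
  obtain ⟨F, hF⟩ := hXc.elim_finite_subcover c (fun a => isOpen_interior) hcover
  have hF' : X ⊆ ⋃ a : F, c a := by
    intro z hz
    obtain ⟨a, ha⟩ := mem_iUnion.1 (hF hz)
    obtain ⟨haF, haz⟩ := mem_iUnion.1 ha
    exact mem_iUnion.2 ⟨⟨a, haF⟩, haz⟩
  obtain ⟨δ, hδ, hball⟩ := lebesgue_number_lemma_of_metric hXc
    (fun a : F => (isOpen_interior : IsOpen (c a))) hF'
  obtain ⟨r, hr⟩ := exists_nat_gt (max 1 (2 / δ))
  have hr1 : (1 : ℝ) < r := lt_of_le_of_lt (le_max_left _ _) hr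
  have hr2 : 2 / δ < r := lt_of_le_of_lt (le_max_right _ _) hr
  have hr0 : (0 : ℝ) < r := by linarith
  refine ⟨r, F, by exact_mod_cast hr0, fun κ hκ i hi => ?_⟩
  have hir : (i : ℝ) / r ∈ Icc (0 : ℝ) 1 := by
    refine ⟨by positivity, ?_⟩
    rw [div_le_one hr0]; exact_mod_cast hi.le
  obtain ⟨a, ha⟩ := hball ((i : ℝ) / r, κ) ⟨hir, hκ⟩
  refine ⟨a, a.2, fun τ h1 h2 => ?_⟩
  have h3 : (τ, κ) ∈ Metric.ball ((i : ℝ) / r, κ) δ := by
    rw [Metric.mem_ball, Prod.dist_eq, dist_self, max_lt_iff]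
    refine ⟨?_, hδ⟩
    rw [Real.dist_eq, abs_of_nonneg (by linarith)]
    have h4 : τ - (i : ℝ) / r ≤ 2 / r := by
      have : ((i : ℝ) + 2) / r = (i : ℝ) / r + 2 / r := by ring
      linarith
    refine lt_of_le_of_lt h4 ?_
    rw [div_lt_iff₀ hr0]
    rw [div_lt_iff₀ hδ] at hr2
    linarith
  have h5 : (τ, κ) ∈ {z : ℝ × ℝ | Q a z.1 z.2} := interior_subset (ha h3)
  exact h5

end Crest.Agent.R202.LowF
private theorem rz_6a043e4ad7 : type_of% @_root_.Crest.Agent.R202.LowF.mid'.eq_def := @_root_.Crest.Agent.R202.LowF.mid'.eq_def -- L55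
private theorem rz_13571e6e72 : type_of% @_root_.Crest.Agent.R202.LowF.mid'.eq_1 := @_root_.Crest.Agent.R202.LowF.mid'.eq_1 -- L55
end

-- ▼ part R202/BFinDefs
section

set_option autoImplicit false

open Set
open scoped InnerProductSpace
open Crest.Agent.R202.Mod Crest.Agent.R202.Sch Crest.Agent.R202.CT

noncomputable section

namespace Crest.Agent.R202.BFin

/-- the power of `θ = 1 / y` in front of the form -/
def wy (m : ℕ) (y : ℝ) : ℝ := (y⁻¹) ^ ((2 : ℝ) / ((m : ℝ) + 2))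

/-- Transfer from the sector model (degree `≤ D`) to the Galerkin space with basis `p`. -/
structure SepTrans (m : ℕ) (σ : ℕ × ℕ) (D : ℕ) {ND : ℕ}
    (p : Fin ND → MvPolynomial (Fin (m + 3)) ℝ) where
  /-- coordinates of (the spherical polynomial of) a model element -/
  Φ : VV σ → EuclideanSpace ℝ (Fin ND)
  inner : ∀ u ∈ PolD σ.1 σ.2 D, Reduced m σ u → ∀ v ∈ PolD σ.1 σ.2 D, Reduced m σ v →
    ⟪Φ u, Φ v⟫_ℝ = 2 * gF m σ u v
  sep : ∀ (l : ℕ) (f : Fin l → VV σ) (A B y : ℝ) (P : ℝ → ℂ → ℝ),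
    (∀ i, f i ∈ PolD σ.1 σ.2 D) → 1 ≤ y → (Continuous fun z : ℝ × ℂ => P z.1 z.2) →
    (∀ X u, 0 < P X u) → SepP m σ l f A B y (fun z => P z.1 (ee z.2)) →
    LowF.Sep (Wgt.Sop p y⁻¹ P) (fun i => Φ (f i)) (wy m y * A) (wy m y * B)

end Crest.Agent.R202.BFin
end
end

-- ▼ part R202/BFinWy
section

set_option autoImplicit false

open Set Filter Topology
open Crest.Agent.R202.Sch

noncomputable section

namespace Crest.Agent.R202.BFin

theorem exists_wy (m : ℕ) {y0 y1 Xa Xb : ℝ} (hy0 : 1 ≤ y0) (L : Sch.YLoop y0 y1 Xa Xb) :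
    ∃ (w' : ℝ → ℝ) (Cw wmin : ℝ), 0 ≤ Cw ∧ 0 < wmin ∧
      (∀ τ, HasDerivAt (fun τ => ((L.y τ)⁻¹) ^ ((2 : ℝ) / ((m : ℝ) + 2))) (w' τ) τ) ∧
      (∀ τ, |w' τ| ≤ Cw) ∧ ∀ τ, wmin ≤ ((L.y τ)⁻¹) ^ ((2 : ℝ) / ((m : ℝ) + 2)) ∧
        ((L.y τ)⁻¹) ^ ((2 : ℝ) / ((m : ℝ) + 2)) ≤ 1 := by
  set W : ℝ → ℝ := fun τ => ((L.y τ)⁻¹) ^ ((2 : ℝ) / ((m : ℝ) + 2)) with hW
  have hy : ∀ τ, 1 ≤ L.y τ := fun τ => hy0.trans (L.y_mem τ).1
  have hypos : ∀ τ, 0 < L.y τ := fun τ => by linarith [hy τ]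
  have hp : 0 ≤ (2 : ℝ) / ((m : ℝ) + 2) := by positivity
  have hWs : ContDiff ℝ 1 W :=
    ((L.y_smooth.of_le (by exact_mod_cast le_top)).inv fun τ => (hypos τ).ne').rpow_const_of_ne
      fun τ => (inv_pos.2 (hypos τ)).ne'
  have hW' : ∀ τ, HasDerivAt W (deriv W τ) τ := fun τ =>
    (hWs.differentiable (by norm_num) τ).hasDerivAt
  have hWc : Continuous (deriv W) := hWs.continuous_deriv le_rfl
  obtain ⟨C, hC⟩ := (isCompact_Icc (a := (0 : ℝ)) (b := 1)).exists_bound_of_continuousOn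
    hWc.continuousOn
  refine ⟨deriv W, |C|, (y1⁻¹) ^ ((2 : ℝ) / ((m : ℝ) + 2)), abs_nonneg _, ?_, hW', fun τ => ?_,
    fun τ => ⟨?_, ?_⟩⟩
  · have h1 : y0 ≤ y1 := (L.y_mem 0).1.trans (L.y_mem 0).2
    exact Real.rpow_pos_of_pos (inv_pos.2 (by linarith)) _
  · by_cases hτ : τ ∈ Icc (0 : ℝ) 1
    · have := hC τ hτ
      rw [Real.norm_eq_abs] at this
      exact this.trans (le_abs_self C)
    · have h0 : deriv W τ = 0 := by
        rcases lt_or_ge τ 0 with h | h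
        · have h1 : W =ᶠ[𝓝 τ] fun _ => W 0 := by
            filter_upwards [Iio_mem_nhds h] with y hy
            simp only [hW]
            rw [L.y_left y (le_of_lt hy), L.y_left 0 le_rfl]
          rw [h1.deriv_eq, deriv_const]
        · have h2 : 1 < τ := by
            by_contra hcon
            exact hτ ⟨h, not_lt.1 hcon⟩
          have h1 : W =ᶠ[𝓝 τ] fun _ => W 1 := by
            filter_upwards [Ioi_mem_nhds h2] with y hy
            simp only [hW]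
            rw [L.y_right y (le_of_lt hy), L.y_right 1 le_rfl]
          rw [h1.deriv_eq, deriv_const]
      rw [h0, abs_zero]; exact abs_nonneg _
  · exact Real.rpow_le_rpow (inv_nonneg.2 (by
      have := (L.y_mem τ).1.trans (L.y_mem τ).2
      linarith)) (inv_anti₀ (hypos τ) (L.y_mem τ).2) hp
  · exact Real.rpow_le_one (inv_nonneg.2 (hypos τ).le) (inv_le_one_of_one_le₀ (hy τ)) hp

end Crest.Agent.R202.BFin
end
end

-- ▼ part R202/BFinLoopA
section

set_option autoImplicit false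

open Set Filter Topology
open scoped InnerProductSpace
open Crest.Agent.R202.Mod Crest.Agent.R202.Sch Crest.Agent.R202.CT Crest.Agent.R202.Main
open Crest.Agent.R202.Wgt

noncomputable section

namespace Crest.Agent.R202.BFin

/-! ### finitely many patches -/

theorem exists_consts {l q par : ℕ} (F : Finset ((Fin l → VV (q, par)) × ℝ × ℝ)) :
    ∃ (η M : ℝ) (D0 : ℕ), 0 < η ∧ 0 ≤ M ∧ ∀ a ∈ F,
      (a.2.1 < a.2.2 → a.2.1 + 2 * η ≤ a.2.2) ∧ (|a.2.1| ≤ M ∧ |a.2.2| ≤ M) ∧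
      ((∀ i, a.1 i ∈ Pol q par) → ∀ i, a.1 i ∈ PolD q par D0) := by
  classical
  induction F using Finset.induction_on with
  | empty => exact ⟨1, 0, 0, one_pos, le_rfl, fun a ha => absurd ha (by simp)⟩
  | insert a F _ ih =>
    obtain ⟨η, M, D0, hη, hM, h⟩ := ih
    obtain ⟨Da, hDa⟩ : ∃ Da, (∀ i, a.1 i ∈ Pol q par) → ∀ i, a.1 i ∈ PolD q par Da := by
      by_cases hp : ∀ i, a.1 i ∈ Pol q par
      · choose d hd using fun i => mem_Pol_iff.1 (hp i)
        exact ⟨Finset.univ.sup d, fun _ i =>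
          PolD_mono q par (Finset.le_sup (f := d) (Finset.mem_univ i)) (hd i)⟩
      · exact ⟨0, fun h => absurd h hp⟩
    obtain ⟨ηa, hηa, hηa'⟩ : ∃ ηa : ℝ, 0 < ηa ∧ (a.2.1 < a.2.2 → a.2.1 + 2 * ηa ≤ a.2.2) := by
      by_cases hp : a.2.1 < a.2.2
      · exact ⟨(a.2.2 - a.2.1) / 2, by linarith, fun _ => by linarith⟩
      · exact ⟨1, one_pos, fun h => absurd h hp⟩
    refine ⟨min η ηa, max M (max |a.2.1| |a.2.2|), max D0 Da, lt_min hη hηa,
      hM.trans (le_max_left _ _), fun b hb => ?_⟩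
    rcases Finset.mem_insert.1 hb with h1 | h1
    · subst h1
      refine ⟨fun h2 => ?_, ⟨(le_max_left _ _).trans (le_max_right _ _),
        (le_max_right _ _).trans (le_max_right _ _)⟩, fun h2 i =>
        PolD_mono q par (le_max_right _ _) (hDa h2 i)⟩
      have h3 := hηa' h2
      have h4 := min_le_right η ηa
      linarith
    · obtain ⟨h2, h3, h4⟩ := h b h1
      refine ⟨fun h5 => ?_, ⟨h3.1.trans (le_max_left _ _), h3.2.trans (le_max_left _ _)⟩,
        fun h5 i => PolD_mono q par (le_max_left _ _) (h4 h5 i)⟩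
      have h6 := h2 h5
      have h7 := min_le_left η ηa
      linarith

theorem exact_smul {G : Type*} [NormedAddCommGroup G] [InnerProductSpace ℝ G] {T : G →L[ℝ] G}
    {V : Submodule ℝ G} {A B c : ℝ} (hc : 0 ≤ c) (h : LowF.Exact T V A B) :
    LowF.Exact (c • T) V (c * A) (c * B) where
  symm x y := by
    rw [smul_apply, smul_apply, real_inner_smul_left, real_inner_smul_right, h.symm]
  inv x hx := by
    rw [smul_apply]
    exact V.smul_mem c (h.inv x hx)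
  low x hx := by
    have := mul_le_mul_of_nonneg_left (h.low x hx) hc
    rw [smul_apply, real_inner_smul_left, mul_assoc]; exact this
  high x hx := by
    have := mul_le_mul_of_nonneg_left (h.high x hx) hc
    rw [smul_apply, real_inner_smul_left, mul_assoc]; exact this

variable {m : ℕ} {v : ℝ} {k : ℕ} {D : CountData m v k} {εh : ℝ}

theorem Kset_compact (P : Prop) : IsCompact {κ : ℝ | κ ∈ Icc (-1 : ℝ) 1 ∧ (P ∨ κ = 1 ∨ κ = -1)} := by
  by_cases hP : P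
  · have : {κ : ℝ | κ ∈ Icc (-1 : ℝ) 1 ∧ (P ∨ κ = 1 ∨ κ = -1)} = Icc (-1 : ℝ) 1 := by
      ext κ; simp [hP]
    rw [this]; exact isCompact_Icc
  · have : {κ : ℝ | κ ∈ Icc (-1 : ℝ) 1 ∧ (P ∨ κ = 1 ∨ κ = -1)} = {1, -1} := by
      ext κ
      simp only [hP, false_or, mem_ofPred_eq, mem_insert_iff, mem_singleton_iff]
      constructor
      · exact fun h => h.2
      · rintro (h | h) <;> subst h <;> simp
    rw [this]
    exact (Set.toFinite _).isCompact

/-- **frames of a cut along a loop**, constants independent of the degree -/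
theorem exists_opn (hg : T4g m) (hQ : T4Q m) (c : Top.Choice D εh) {q par : ℕ}
    (hσ : (q, par) ∈ D.S) (j : Gate D) (l : ℕ) (hl0 : D.i0 (q, par) ≤ l)
    (hl : l ≤ D.N (q, par)) :
    ∃ (η M C : ℝ) (D0 : ℕ), 0 < η ∧ 0 ≤ M ∧ 0 ≤ C ∧ ∀ Deg, D0 ≤ Deg →
    ∀ {N : ℕ} {e : Fin N → ℕ} {V : Fin N → MvPolynomial (Fin 3) ℝ} {w : Fin N → VS q par}
      (_ : MB m q par Deg N e V w) {Y : MvPolynomial (Fin (m + 1)) ℝ}
      (_ : Y ∈ Sph.harm (m + 1) q) (_ : Sph.sph (Sph.ev (Y * Y)) = 1)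
      (f0 : Fin l → EuclideanSpace ℝ (Fin N)) (_ : LinearIndependent ℝ f0) (a b : ℝ) (_ : a < b)
      (_ : LowF.Exact (homeS (pY m V Y) c.h D.b0) (Submodule.span ℝ (range f0)) a b),
    ∀ κ ∈ Icc (-1 : ℝ) 1, (((q, par), l) ≠ j.1 ∨ κ = 1 ∨ κ = -1) →
      ∃ (μ μ' : ℝ → ℝ) (f : ℝ → Fin l → EuclideanSpace ℝ (Fin N))
        (O : Matrix (Fin l) (Fin l) ℝ),
        (∀ τ, HasDerivAt μ (μ' τ) τ) ∧ (∀ τ, |μ' τ| ≤ C) ∧ (∀ τ, |μ τ| ≤ M) ∧
        Continuous f ∧ (∀ τ, LinearIndependent ℝ (f τ)) ∧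
        (∀ τ, LowF.Sep (loopS (pY m V Y) c.h (c.L j) τ κ) (f τ) (μ τ - η) (μ τ + η)) ∧
        (∀ τ, 1 ≤ τ → f τ = f0) ∧ (∀ τ, τ ≤ 0 → f τ = LowF.act O f0) ∧
        (((q, par), l) = j.1 → 0 < κ * O.det) := by
  have hb0 : 1 ≤ D.b0 := D.b0_gt.le
  -- the uniform patches
  set K : Set ℝ := {κ : ℝ | κ ∈ Icc (-1 : ℝ) 1 ∧ (((q, par), l) ≠ j.1 ∨ κ = 1 ∨ κ = -1)} with hK
  have hKc : IsCompact K := Kset_compact _
  obtain ⟨r, F, hr, hF⟩ := LowF.exists_patches (α := (Fin l → VV (q, par)) × ℝ × ℝ)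
    (Q := fun a τ κ => SepP m (q, par) l a.1 a.2.1 a.2.2 ((c.L j).y τ)
      (PF c.h ((c.L j).y τ) ((c.L j).Gh τ κ))) hKc (fun τ0 hτ0 κ0 hκ0 => by
        obtain ⟨p, A, B, h⟩ := c.cout.sep j (q, par) hσ l hl0 hl τ0 hτ0 κ0 hκ0.1 hκ0.2
        exact ⟨(p, A, B), h⟩)
  obtain ⟨η, M, D0, hη, hM, hF2⟩ := exists_consts F
  obtain ⟨w', Cw, wmin, hCw, hwmin, hw', hwC, hwm⟩ := exists_wy m hb0 (c.L j)
  -- the chains
  have hsg : ∃ Ds : ℕ, ∀ κ : ℝ, (κ = 1 ∨ κ = -1) → ((q, par), l) = j.1 →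
      ∃ (rr : ℕ) (t : ℕ → ℝ) (f : ℕ → Fin l → VV (q, par)) (A B : ℕ → ℝ),
      0 < rr ∧ Monotone t ∧ t 0 = 0 ∧ t rr = 1 ∧ f rr = f 0 ∧
      (∀ i < rr, ∀ τ ∈ Icc (t i) (t (i + 1)),
        SepP m (q, par) l (f i) (A i) (B i) ((c.L j).y τ)
          (PF c.h ((c.L j).y τ) ((c.L j).Gh τ κ))) ∧
      (∀ i ≤ rr, ∀ a, f i a ∈ PolD q par Ds ∧ Reduced m (q, par) (f i a)) ∧
      0 < κ * ∏ i ∈ Finset.range rr,
        (Matrix.of fun a b => gF m (q, par) (f i a) (f (i + 1) b)).det := by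
    by_cases hj : ((q, par), l) = j.1
    · obtain ⟨⟨⟨q', par'⟩, l'⟩, hj1, hj2, hj3⟩ := j
      obtain ⟨h1, h2⟩ := Prod.mk.inj hj
      obtain ⟨h3, h4⟩ := Prod.mk.inj h1
      subst h3; subst h4; subst h2
      have key : ∀ κ : ℝ, (κ = 1 ∨ κ = -1) → ∃ Ds : ℕ, 
          ∃ (rr : ℕ) (t : ℕ → ℝ) (f : ℕ → Fin l → VV (q, par)) (A B : ℕ → ℝ),
          0 < rr ∧ Monotone t ∧ t 0 = 0 ∧ t rr = 1 ∧ f rr = f 0 ∧
          (∀ i < rr, ∀ τ ∈ Icc (t i) (t (i + 1)),
            SepP m (q, par) l (f i) (A i) (B i) ((c.L ⟨((q, par), l), hj1, hj2, hj3⟩).y τ)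
              (PF c.h ((c.L ⟨((q, par), l), hj1, hj2, hj3⟩).y τ)
                ((c.L ⟨((q, par), l), hj1, hj2, hj3⟩).Gh τ κ))) ∧
          (∀ i ≤ rr, ∀ a, f i a ∈ PolD q par Ds ∧ Reduced m (q, par) (f i a)) ∧
          0 < κ * ∏ i ∈ Finset.range rr,
            (Matrix.of fun a b => gF m (q, par) (f i a) (f (i + 1) b)).det := by
        intro κ hκ
        obtain ⟨rr, t, f, A, B, h1, h2, h3, h4, h5, h6, h7⟩ :=
          c.cout.sign ⟨((q, par), l), hj1, hj2, hj3⟩ κ hκ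
        have h8 : ∀ i < rr, ∀ a, f i a ∈ Pol q par ∧ Reduced m (q, par) (f i a) := fun i hi a => by
          have h9 := h6 i hi (t i) ⟨le_rfl, h2 (Nat.le_succ i)⟩
          exact ⟨h9.pol a, h9.red a⟩
        have h9 : ∀ i ≤ rr, ∀ a, f i a ∈ Pol q par ∧ Reduced m (q, par) (f i a) := fun i hi a => by
          rcases hi.lt_or_eq with h10 | h10
          · exact h8 i h10 a
          · rw [h10, h5]; exact h8 0 h1 a
        have h10 : ∀ i : Fin (rr + 1), ∀ a : Fin l, ∃ d, f i a ∈ PolD q par d := fun i a =>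
          mem_Pol_iff.1 (h9 i (by omega) a).1
        choose d hd using h10
        refine ⟨Finset.univ.sup fun i => Finset.univ.sup (d i), rr, t, f, A, B, h1, h2, h3, h4, h5,
          h6, fun i hi a => ⟨?_, (h9 i hi a).2⟩, h7⟩
        have h11 : d ⟨i, by omega⟩ a ≤ Finset.univ.sup (d ⟨i, by omega⟩) :=
          Finset.le_sup (f := d ⟨i, by omega⟩) (Finset.mem_univ a)
        have h12 : Finset.univ.sup (d ⟨i, by omega⟩) ≤
            Finset.univ.sup fun i : Fin (rr + 1) => Finset.univ.sup (d i) :=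
          Finset.le_sup (f := fun i : Fin (rr + 1) => Finset.univ.sup (d i))
            (Finset.mem_univ (⟨i, by omega⟩ : Fin (rr + 1)))
        exact PolD_mono q par (h11.trans h12) (hd ⟨i, by omega⟩ a)
      obtain ⟨D1, H1⟩ := key 1 (Or.inl rfl)
      obtain ⟨D2, H2⟩ := key (-1) (Or.inr rfl)
      refine ⟨max D1 D2, fun κ hκ _ => ?_⟩
      rcases hκ with h | h
      · subst h
        obtain ⟨rr, t, f, A, B, h1, h2, h3, h4, h5, h6, h7, h8⟩ := H1
        exact ⟨rr, t, f, A, B, h1, h2, h3, h4, h5, h6, fun i hi a =>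
          ⟨PolD_mono q par (le_max_left _ _) (h7 i hi a).1, (h7 i hi a).2⟩, h8⟩
      · subst h
        obtain ⟨rr, t, f, A, B, h1, h2, h3, h4, h5, h6, h7, h8⟩ := H2
        exact ⟨rr, t, f, A, B, h1, h2, h3, h4, h5, h6, fun i hi a =>
          ⟨PolD_mono q par (le_max_right _ _) (h7 i hi a).1, (h7 i hi a).2⟩, h8⟩
    · exact ⟨0, fun κ _ h => absurd h hj⟩
  obtain ⟨Ds, hDs⟩ := hsg
  set C0 : ℝ := r * (2 * M * (LowF.stC * r)) with hC0
  have hC0n : 0 ≤ C0 := by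
    have := LowF.stC_pos
    rw [hC0]; positivity
  refine ⟨wmin * η, M, Cw * M + C0, max D0 Ds, by positivity, hM, by positivity, ?_⟩
  intro Deg hDeg N e V w hb Y hY hY1 f0 hf0 a b hab hE κ hκ hκ'
  -- the unscaled operators
  set W : ℝ → ℝ := fun τ => ((c.L j).y τ)⁻¹ ^ ((2 : ℝ) / ((m : ℝ) + 2)) with hW
  have hWpos : ∀ τ, 0 < W τ := fun τ => lt_of_lt_of_le hwmin (hwm τ).1
  set S : ℝ → EuclideanSpace ℝ (Fin N) →L[ℝ] EuclideanSpace ℝ (Fin N) := fun τ =>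
    (W τ)⁻¹ • loopS (pY m V Y) c.h (c.L j) τ κ with hS
  have hSl : ∀ τ, W τ • S τ = loopS (pY m V Y) c.h (c.L j) τ κ := fun τ => by
    rw [hS]; dsimp only
    rw [smul_smul, mul_inv_cancel₀ (hWpos τ).ne', one_smul]
  have hSep : ∀ τ {p : Fin l → VV (q, par)} {A B : ℝ}, (∀ i, p i ∈ PolD q par Deg) →
      SepP m (q, par) l p A B ((c.L j).y τ) (PF c.h ((c.L j).y τ) ((c.L j).Gh τ κ)) →
      LowF.Sep (S τ) (fr m w p) A B := by
    intro τ p A B hp hs
    have h1 := hb.sep_loop hg hQ hY hY1 c.prof c.X0_pos c.X0a c.Xb1 c.X1_lt hb0 (c.L j)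
      (c.even j) τ hκ hp hs
    have h2 := h1.smul (inv_nonneg.2 (hWpos τ).le)
    rw [← mul_assoc, ← mul_assoc, inv_mul_cancel₀ (hWpos τ).ne', one_mul, one_mul] at h2
    exact h2
  have hWleft : ∀ τ ≤ 0, W τ = W 0 := fun τ hτ => by
    simp only [hW, (c.L j).y_left τ hτ, (c.L j).y_left 0 le_rfl]
  have hWright : ∀ τ, 1 ≤ τ → W τ = W 0 := fun τ hτ => by
    simp only [hW, (c.L j).y_right τ hτ, (c.L j).y_left 0 le_rfl]
  have hS0 : S 0 = (W 0)⁻¹ • homeS (pY m V Y) c.h D.b0 := by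
    rw [hS]; dsimp only; rw [loopS_left _ (c.L j) le_rfl κ]
  have hSleft : ∀ τ ≤ 0, S τ = S 0 := fun τ hτ => by
    rw [hS0, hS]; dsimp only; rw [loopS_left _ (c.L j) hτ κ, hWleft τ hτ]
  have hSright : ∀ τ, 1 ≤ τ → S τ = S 0 := fun τ hτ => by
    rw [hS0, hS]; dsimp only; rw [loopS_right _ (c.L j) hτ κ, hWright τ hτ]
  have hWc : Continuous W := continuous_iff_continuousAt.2 fun τ => (hw' τ).continuousAt
  have hSc : Continuous S := by
    rw [hS]
    refine (hWc.inv₀ fun τ => (hWpos τ).ne').smul ?_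
    have := (continuous_loopS (p := pY m V Y) c.prof hb0 (c.L j)).comp
      (Continuous.prodMk continuous_id (continuous_const (y := (⟨κ, hκ⟩ : Icc (-1 : ℝ) 1))))
    exact this
  have hSs : ∀ x y, ∀ τ, ⟪S τ x, y⟫_ℝ = ⟪x, S τ y⟫_ℝ := fun x y τ => by
    rw [hS]; dsimp only
    rw [smul_apply, smul_apply, real_inner_smul_left, real_inner_smul_right,
      loopS_symm _ c.prof hb0 (c.L j) τ hκ]
  -- patches
  have hch : ∀ i : ℕ, ∃ a' : (Fin l → VV (q, par)) × ℝ × ℝ, i < r → a' ∈ F ∧ ∀ τ,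
      (i : ℝ) / r ≤ τ → τ ≤ ((i : ℝ) + 2) / r → SepP m (q, par) l a'.1 a'.2.1 a'.2.2
        ((c.L j).y τ) (PF c.h ((c.L j).y τ) ((c.L j).Gh τ κ)) := by
    intro i
    by_cases hi : i < r
    · obtain ⟨a', ha', h⟩ := hF κ ⟨hκ, hκ'⟩ i hi
      exact ⟨a', fun _ => ⟨ha', h⟩⟩
    · exact ⟨(0, 0, 0), fun h => absurd h hi⟩
  choose ap hap using hch
  have hr' : (0 : ℝ) < r := by exact_mod_cast hr
  have hSPi : ∀ i < r, SepP m (q, par) l (ap i).1 (ap i).2.1 (ap i).2.2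
        ((c.L j).y ((i : ℝ) / r)) (PF c.h ((c.L j).y ((i : ℝ) / r))
          ((c.L j).Gh ((i : ℝ) / r) κ)) := fun i hi =>
    (hap i hi).2 _ le_rfl (by gcongr; linarith)
  have hPat : LowF.Patches S r (fun i => fr m w (ap i).1) (fun i => (ap i).2.1)
      (fun i => (ap i).2.2) η := by
    refine ⟨hr, hη, fun i hi => ((hF2 _ (hap i hi).1).1 (hSPi i hi).lt), fun i hi τ _ h1 h2 => ?_⟩
    refine hSep τ (fun i' => ?_) ((hap i hi).2 τ h1 h2)
    exact PolD_mono q par ((le_max_left _ _).trans hDeg)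
      ((hF2 _ (hap i hi).1).2.2 (fun i'' => (hSPi i hi).pol i'') i')
  have hE0 : LowF.Exact (S 0) (Submodule.span ℝ (range f0)) ((W 0)⁻¹ * a) ((W 0)⁻¹ * b) := by
    rw [hS0]; exact exact_smul (inv_nonneg.2 (hWpos 0).le) hE
  obtain ⟨LF⟩ := hPat.exists_lowFrame hSc.continuousOn hSs
    (fun τ hτ => hτ.elim (hSleft τ) (hSright τ)) (fun i hi => (hF2 _ (hap i hi).1).2.1) hf0
    (mul_lt_mul_of_pos_left hab (inv_pos.2 (hWpos 0))) hE0
  obtain ⟨f, O, hf1, hf2, hf3, hf4, hf5, -, hf7⟩ := LF.reverse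
  refine ⟨fun τ => W τ * LF.μ τ, fun τ => w' τ * LF.μ τ + W τ * LF.μ' τ, f, O,
    fun τ => (hw' τ).mul (LF.deriv τ), fun τ => ?_, fun τ => ?_, hf1, hf2, fun τ => ?_, hf4, hf3,
    fun hj => ?_⟩
  · have h1 : |w' τ * LF.μ τ| ≤ Cw * M := by
      rw [abs_mul]
      exact mul_le_mul (hwC τ) (LF.μ_le τ) (abs_nonneg _) hCw
    have h2 : |W τ * LF.μ' τ| ≤ C0 := by
      rw [abs_mul, abs_of_pos (hWpos τ)]
      calc W τ * |LF.μ' τ| ≤ 1 * C0 := mul_le_mul (hwm τ).2 (LF.deriv_le τ) (abs_nonneg _)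
            zero_le_one
        _ = C0 := one_mul _
    exact (abs_add_le _ _).trans (add_le_add h1 h2)
  · rw [abs_mul, abs_of_pos (hWpos τ)]
    calc W τ * |LF.μ τ| ≤ 1 * M := mul_le_mul (hwm τ).2 (LF.μ_le τ) (abs_nonneg _)
            zero_le_one
      _ = M := one_mul _
  · have h1 := (hf7 τ).smul (hWpos τ).le
    rw [hSl] at h1
    have h2 : wmin * η ≤ W τ * η := mul_le_mul_of_nonneg_right (hwm τ).1 hη.le
    refine h1.mono ?_ ?_
    · rw [mul_sub]; linarith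
    · rw [mul_add]; linarith
  · -- the sign
    have hκ1 : κ = 1 ∨ κ = -1 := by
      rcases hκ' with h | h
      · exact absurd hj h
      · exact h
    obtain ⟨rr, t, g, A, B, h1, h2, h3, h4, h5, h6, h7, h8⟩ := hDs κ hκ1 hj
    have hgD : ∀ i ≤ rr, ∀ a, g i a ∈ PolD q par Deg := fun i hi a =>
      PolD_mono q par ((le_max_right _ _).trans hDeg) (h7 i hi a).1
    have h9 := LF.sign rr t (fun i => fr m w (g i)) A B h1 h2 h3 h4 (by simp only [h5])
      (fun i hi => (h6 i hi (t i) ⟨le_rfl, h2 (Nat.le_succ i)⟩).lt)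
      (fun i hi τ hτ => hSep τ (hgD i hi.le) (h6 i hi τ hτ))
    have h10 : ∏ i ∈ Finset.range rr, (LowF.gm (fr m w (g i)) (fr m w (g (i + 1)))).det
        = (2 ^ l) ^ rr * ∏ i ∈ Finset.range rr,
          (Matrix.of fun a b => gF m (q, par) (g i a) (g (i + 1) b)).det := by
      rw [show ((2 : ℝ) ^ l) ^ rr = ∏ _i ∈ Finset.range rr, (2 : ℝ) ^ l by
        rw [Finset.prod_const, Finset.card_range], ← Finset.prod_mul_distrib]
      refine Finset.prod_congr rfl fun i hi => ?_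
      have hi' : i + 1 ≤ rr := Finset.mem_range.1 hi
      exact hb.det_gm_fr hg hY hY1 (hgD (i + 1) hi') fun a => (h7 (i + 1) hi' a).2
    rw [h10] at h9
    set Pi := ∏ i ∈ Finset.range rr,
          (Matrix.of fun a b => gF m (q, par) (g i a) (g (i + 1) b)).det with hPi
    have h2l : (0 : ℝ) < (2 ^ l) ^ rr := by positivity
    have h11 : 0 < LF.O.det * Pi := by
      have : 0 < (2 ^ l) ^ rr * (LF.O.det * Pi) := by
        calc 0 < _ := h9
          _ = _ := by ring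
      exact (mul_pos_iff_of_pos_left h2l).1 this
    have h12 : 0 < κ * LF.O.det := by
      have h13 : 0 < (κ * LF.O.det) * Pi ^ 2 := by
        calc 0 < (κ * Pi) * (LF.O.det * Pi) := mul_pos h8 h11
          _ = _ := by ring
      have h14 : 0 ≤ Pi ^ 2 := sq_nonneg _
      by_contra hcon
      exact absurd h13 (not_lt.2 (mul_nonpos_of_nonpos_of_nonneg (not_lt.1 hcon) h14))
    have h15 : 0 < (κ * O.det) * (κ * LF.O.det) := by
      have : (κ * O.det) * (κ * LF.O.det) = κ ^ 2 * (O.det * LF.O.det) := by ring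
      rw [this, hf5, mul_one]
      rcases hκ1 with h | h <;> subst h <;> norm_num
    exact (mul_pos_iff_of_pos_right h12).1 h15

end Crest.Agent.R202.BFin
end
end

-- ▼ part R202/BFinLoop
section

set_option autoImplicit false

open Set Filter Topology
open scoped InnerProductSpace
open Crest.Agent.R202.Mod Crest.Agent.R202.Sch Crest.Agent.R202.CT Crest.Agent.R202.Main
open Crest.Agent.R202.Wgt

noncomputable section

namespace Crest.Agent.R202.BFin

theorem exists_pos_le_all {X : Type*} [Finite X] (f : X → ℝ) (hf : ∀ x, 0 < f x) :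
    ∃ η : ℝ, 0 < η ∧ η ≤ 1 ∧ ∀ x, η ≤ f x := by
  rcases isEmpty_or_nonempty X with h | h
  · exact ⟨1, one_pos, le_rfl, fun x => (h.false x).elim⟩
  · obtain ⟨x0, hx0⟩ := Finite.exists_min f
    exact ⟨min 1 (f x0), lt_min one_pos (hf x0), min_le_left _ _,
      fun x => (min_le_right _ _).trans (hx0 x)⟩

theorem exists_ge_all {X : Type*} [Finite X] (f : X → ℝ) :
    ∃ M : ℝ, 0 ≤ M ∧ ∀ x, f x ≤ M := by
  rcases isEmpty_or_nonempty X with h | h
  · exact ⟨0, le_rfl, fun x => (h.false x).elim⟩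
  · obtain ⟨x0, hx0⟩ := Finite.exists_max f
    exact ⟨max 0 (f x0), le_max_left _ _, fun x => (hx0 x).trans (le_max_right _ _)⟩

theorem exists_ge_all_nat {X : Type*} [Finite X] (f : X → ℕ) : ∃ M : ℕ, ∀ x, f x ≤ M := by
  rcases isEmpty_or_nonempty X with h | h
  · exact ⟨0, fun x => (h.false x).elim⟩
  · obtain ⟨x0, hx0⟩ := Finite.exists_max f
    exact ⟨f x0, hx0⟩

variable {m : ℕ} {v : ℝ} {k : ℕ} {D : CountData m v k} {εh : ℝ}

theorem finite_gates (D : CountData m v k) : Finite (Gate D) := by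
  have h1 : ({j : (ℕ × ℕ) × ℕ | j.1 ∈ D.S ∧ D.i0 j.1 ≤ j.2 ∧ j.2 < D.N j.1}).Finite := by
    refine Set.Finite.subset
      ((D.S ×ˢ Finset.range ((D.S.sup D.N) + 1) : Finset ((ℕ × ℕ) × ℕ)).finite_toSet) ?_
    rintro ⟨σ, l⟩ ⟨h1, h2, h3⟩
    simp only [Finset.coe_product, Finset.coe_range, mem_prod, Finset.mem_coe, mem_Iio]
    refine ⟨h1, ?_⟩
    have : D.N σ ≤ D.S.sup D.N := Finset.le_sup (f := D.N) h1
    simp only at h3
    omega
  exact h1.to_subtype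

/-- the span of eigenvectors is an exact space -/
theorem exact_of_eig {G : Type*} [NormedAddCommGroup G] [InnerProductSpace ℝ G] {N l : ℕ}
    {H : G →L[ℝ] G} (hs : ∀ x y, ⟪H x, y⟫_ℝ = ⟪x, H y⟫_ℝ) {e : Fin N → G} {lam : Fin N → ℝ}
    (he : ∀ i, H (e i) = lam i • e i) (hl : l ≤ N) {A B : ℝ}
    (h : Jac.SepF H (fun i : Fin l => e (Fin.castLE hl i)) A B) :
    LowF.Exact H (Submodule.span ℝ (range fun i : Fin l => e (Fin.castLE hl i))) A B where
  symm := hs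
  inv x hx := by
    induction hx using Submodule.span_induction with
    | mem x hx =>
      obtain ⟨i, rfl⟩ := hx
      rw [he]
      exact Submodule.smul_mem _ _ (Submodule.subset_span ⟨i, rfl⟩)
    | zero => rw [map_zero]; exact Submodule.zero_mem _
    | add x y _ _ h1 h2 => rw [map_add]; exact Submodule.add_mem _ h1 h2
    | smul c x _ h1 => rw [map_smul]; exact Submodule.smul_mem _ c h1
  low := h.le
  high x hx := h.ge x fun i => by
    exact (Submodule.mem_orthogonal _ x).1 hx _ (Submodule.subset_span ⟨i, rfl⟩)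

/-- **the loops of a choice in the Galerkin spaces**, with the separation of the eigenframe -/
theorem exists_loopSys' (hg : T4g m) (hQ : T4Q m) (c : Top.Choice D εh) {q par : ℕ}
    (hσ : (q, par) ∈ D.S) :
    ∃ (η Cμ Mμ : ℝ) (D0 : ℕ) (F : Fin (D.N (q, par)) → VV (q, par)) (A B : ℝ),
      0 < η ∧ 0 ≤ Cμ ∧ A < B ∧ (∀ i, F i ∈ Pol q par) ∧ (∀ i, Reduced m (q, par) (F i)) ∧
      LinearIndependent ℝ F ∧ ∀ Deg, D0 ≤ Deg → (∀ i, F i ∈ PolD q par Deg) ∧
      ∀ {N : ℕ} {e : Fin N → ℕ} {V : Fin N → MvPolynomial (Fin 3) ℝ} {w : Fin N → VS q par}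
        (_ : MB m q par Deg N e V w) {Y : MvPolynomial (Fin (m + 1)) ℝ}
        (_ : Y ∈ Sph.harm (m + 1) q) (_ : Sph.sph (Sph.ev (Y * Y)) = 1),
      ∃ LS : LoopSys (EuclideanSpace ℝ (Fin N)) (Gate D) (D.N (q, par)) (D.i0 (q, par)) η Cμ Mμ
          (fun l => ((D.b0)⁻¹) ^ ((2 : ℝ) / ((m : ℝ) + 2)) * (homeLev D (q, par) (l - 1) + εh)),
        (∀ j τ κ, LS.S j τ κ = loopS (pY m V Y) c.h (c.L j) τ κ) ∧
        LS.H = homeS (pY m V Y) c.h D.b0 ∧
        (∀ j, LS.des j = if j.1.1 = (q, par) then some j.1.2 else none) ∧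
        (∀ j, LS.sgn j = 1) ∧ Jac.SepF LS.H (fr m w F) A B ∧ Jac.SepF LS.H LS.e A B := by
  classical
  have : Finite (Gate D) := finite_gates D
  have hb0 : 1 ≤ D.b0 := D.b0_gt.le
  set i0 := D.i0 (q, par) with hi0
  set Nσ := D.N (q, par) with hNσ
  have hiN : i0 ≤ Nσ := (D.i0_lt _ hσ).le
  set W0 : ℝ := ((D.b0)⁻¹) ^ ((2 : ℝ) / ((m : ℝ) + 2)) with hW0
  have hW0pos : 0 < W0 := Real.rpow_pos_of_pos (inv_pos.2 (by linarith)) _
  -- homes
  have hhome : ∀ l : ℕ, ∃ (p : Fin l → VV (q, par)) (A B : ℝ), i0 ≤ l → l ≤ Nσ →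
      SepP m (q, par) l p A B D.b0 (PF c.h D.b0 fun _ _ => 0) ∧
        A ≤ homeLev D (q, par) (l - 1) + εh := by
    intro l
    by_cases h : i0 ≤ l ∧ l ≤ Nσ
    · obtain ⟨p, A, B, h1, h2, -⟩ := c.cout.home (q, par) hσ l h.1 h.2
      exact ⟨p, A, B, fun _ _ => ⟨h1, h2⟩⟩
    · exact ⟨0, 0, 0, fun h1 h2 => absurd ⟨h1, h2⟩ h⟩
  choose ph Ah Bh hh using hhome
  have hdh : ∀ l : ℕ, ∃ d : ℕ, i0 ≤ l → l ≤ Nσ → ∀ i, ph l i ∈ PolD q par d := by
    intro l
    by_cases h : i0 ≤ l ∧ l ≤ Nσ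
    · choose d hd using fun i => mem_Pol_iff.1 ((hh l h.1 h.2).1.pol i)
      exact ⟨Finset.univ.sup d, fun _ _ i =>
        PolD_mono q par (Finset.le_sup (f := d) (Finset.mem_univ i)) (hd i)⟩
    · exact ⟨0, fun h1 h2 => absurd ⟨h1, h2⟩ h⟩
  choose dh hdh using hdh
  -- gates
  have hgate : ∀ x : Gate D × Fin (Nσ + 1), ∃ (η M C : ℝ) (D0 : ℕ), 0 < η ∧
      (i0 ≤ x.2.1 → ∀ Deg, D0 ≤ Deg →
    ∀ {N : ℕ} {e : Fin N → ℕ} {V : Fin N → MvPolynomial (Fin 3) ℝ} {w : Fin N → VS q par}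
      (_ : MB m q par Deg N e V w) {Y : MvPolynomial (Fin (m + 1)) ℝ}
      (_ : Y ∈ Sph.harm (m + 1) q) (_ : Sph.sph (Sph.ev (Y * Y)) = 1)
      (f0 : Fin x.2.1 → EuclideanSpace ℝ (Fin N)) (_ : LinearIndependent ℝ f0) (a b : ℝ)
      (_ : a < b)
      (_ : LowF.Exact (homeS (pY m V Y) c.h D.b0) (Submodule.span ℝ (range f0)) a b),
    ∀ κ ∈ Icc (-1 : ℝ) 1, (((q, par), x.2.1) ≠ x.1.1 ∨ κ = 1 ∨ κ = -1) →
      ∃ (μ μ' : ℝ → ℝ) (f : ℝ → Fin x.2.1 → EuclideanSpace ℝ (Fin N))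
        (O : Matrix (Fin x.2.1) (Fin x.2.1) ℝ),
        (∀ τ, HasDerivAt μ (μ' τ) τ) ∧ (∀ τ, |μ' τ| ≤ C) ∧ (∀ τ, |μ τ| ≤ M) ∧
        Continuous f ∧ (∀ τ, LinearIndependent ℝ (f τ)) ∧
        (∀ τ, LowF.Sep (loopS (pY m V Y) c.h (c.L x.1) τ κ) (f τ) (μ τ - η) (μ τ + η)) ∧
        (∀ τ, 1 ≤ τ → f τ = f0) ∧ (∀ τ, τ ≤ 0 → f τ = LowF.act O f0) ∧
        (((q, par), x.2.1) = x.1.1 → 0 < κ * O.det)) := by
    intro x
    by_cases h : i0 ≤ x.2.1
    · obtain ⟨η, M, C, D0, h1, -, -, h2⟩ := exists_opn hg hQ c hσ x.1 x.2.1 h (by omega)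
      exact ⟨η, M, C, D0, h1, fun _ => h2⟩
    · exact ⟨1, 0, 0, 0, one_pos, fun h1 => absurd h1 h⟩
  choose ηg Mg Cg Dg hηg hg2 using hgate
  -- the constants
  have hgap : ∀ l : Fin (Nσ + 1), 0 < if i0 ≤ l.1 then W0 * (Bh l - Ah l) / 2 else 1 := by
    intro l
    split_ifs with h
    · have := (hh l h (by omega)).1.lt
      have h2 : 0 < Bh l - Ah l := by linarith
      positivity
    · exact one_pos
  obtain ⟨η1, hη1, hη1', hη1l⟩ := exists_pos_le_all _ hgap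
  obtain ⟨η2, hη2, hη2', hη2l⟩ := exists_pos_le_all ηg hηg
  obtain ⟨M1, hM1, hM1l⟩ := exists_ge_all fun l : Fin (Nσ + 1) => W0 * (Ah l + Bh l) / 2
  obtain ⟨M2, hM2, hM2l⟩ := exists_ge_all Mg
  obtain ⟨C2, hC2, hC2l⟩ := exists_ge_all Cg
  obtain ⟨Dg', hDg'⟩ := exists_ge_all_nat Dg
  obtain ⟨Dh', hDh'⟩ := exists_ge_all_nat fun l : Fin (Nσ + 1) => dh l
  set η : ℝ := min η1 η2 with hη
  have hηpos : 0 < η := lt_min hη1 hη2
  have hSN := (hh Nσ hiN le_rfl).1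
  refine ⟨η, C2, max M1 M2 + η, max Dg' Dh', ph Nσ, W0 * Ah Nσ, W0 * Bh Nσ, hηpos, hC2,
    mul_lt_mul_of_pos_left hSN.lt hW0pos, hSN.pol, hSN.red, hSN.li, fun Deg hDeg => ⟨?_, ?_⟩⟩
  · intro i
    exact PolD_mono q par ((hDh' ⟨Nσ, by omega⟩).trans ((le_max_right _ _).trans hDeg))
      (hdh Nσ hiN le_rfl i)
  intro N e V w hb Y hY hY1
  set H := homeS (pY m V Y) c.h D.b0 with hH
  have hHs : ∀ x y, ⟪H x, y⟫_ℝ = ⟪x, H y⟫_ℝ := homeS_symm _ c.prof hb0
  have hF : ∀ l, i0 ≤ l → l ≤ Nσ → Jac.SepF H (fr m w (ph l)) (W0 * Ah l) (W0 * Bh l) := by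
    intro l h1 h2
    have h3 := (hh l h1 h2).1
    have h4 := hb.sep_home hg hQ hY hY1 c.prof c.X0_pos c.X1_lt hb0 (p := ph l) (fun i =>
      PolD_mono q par ((hDh' ⟨l, by omega⟩).trans ((le_max_right _ _).trans hDeg))
        (hdh l h1 h2 i)) h3
    exact ⟨h4.li, mul_lt_mul_of_pos_left h3.lt hW0pos, h4.low, h4.high⟩
  obtain ⟨eb, lam, horth, hlam, hsep⟩ := exists_home hiN hHs (A := fun l => W0 * Ah l)
    (B := fun l => W0 * Bh l) (fun l h1 h2 => ⟨_, hF l h1 h2⟩)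
  have hmul : ∀ x : ℝ, ∀ y : EuclideanSpace ℝ (Fin N), 0 ≤ x → 0 ≤ x * ‖y‖ ^ 2 := fun x y hx => by
    positivity
  refine ⟨{
    S := fun j τ κ => loopS (pY m V Y) c.h (c.L j) τ κ
    H := H
    e := eb
    lam := lam
    des := fun j => if j.1.1 = (q, par) then some j.1.2 else none
    sgn := fun _ => 1
    orth := horth
    H_symm := hHs
    H_e := hlam
    S_nonneg := fun j τ κ hκ x => ?_
    H_nonneg := fun x => homeS_nonneg _ c.prof hb0 x
    S_left := fun j τ κ hτ => loopS_left _ (c.L j) hτ κ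
    S_right := fun j τ κ hτ => loopS_right _ (c.L j) hτ κ
    slow := fun l hl hil x hx => ?_
    des_ge := fun j l h => ?_
    des_lt := fun j l h => ?_
    sgn_sq := fun _ => Or.inl rfl
    home_gap := fun l hl hil => ?_
    opn := fun j κ hκ l hl hil hd => ?_ }, fun _ _ _ => rfl, rfl, fun _ => rfl, fun _ => rfl,
    hF Nσ hiN le_rfl, hsep Nσ le_rfl hiN⟩
  · refine Sop_nonneg _ (inv_pos.2 ?_) (continuous_P_loop' c.prof hb0 (c.L j) τ κ)
      (P_loop_pos c.prof hb0 (c.L j) τ hκ) x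
    linarith [((c.L j).y_mem τ).1]
  · refine ((hsep l hl hil).le x hx).trans (mul_le_mul_of_nonneg_right ?_ (by positivity))
    exact mul_le_mul_of_nonneg_left (hh l hil hl).2 hW0pos.le
  · split_ifs at h with h1
    have h2 := j.2.2.1
    rw [h1] at h2
    rw [← Option.some.inj h]; exact h2
  · split_ifs at h with h1
    have h2 := j.2.2.2
    rw [h1] at h2
    rw [← Option.some.inj h]; exact h2
  · have h1 := hη1l ⟨l, by omega⟩
    rw [if_pos hil] at h1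
    have h2 := hM1l ⟨l, by omega⟩
    dsimp only at h1 h2
    have h3 : η ≤ η1 := min_le_left _ _
    have h4 := le_max_left M1 M2
    refine ⟨W0 * (Ah l + Bh l) / 2, by linarith, fun x hx => ?_, fun x hx => ?_⟩
    · refine ((hsep l hl hil).le x hx).trans (mul_le_mul_of_nonneg_right ?_ (by positivity))
      linarith
    · refine le_trans (mul_le_mul_of_nonneg_right ?_ (by positivity)) ((hsep l hl hil).ge x hx)
      linarith
  · have hlf : (⟨l, by omega⟩ : Fin (Nσ + 1)).1 = l := rfl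
    have h1 := hg2 (j, ⟨l, by omega⟩) hil Deg ((hDg' _).trans ((le_max_left _ _).trans hDeg)) hb hY
      hY1 (fun i : Fin l => eb (Fin.castLE hl i))
      (horth.linearIndependent.comp _ (Fin.castLE_injective hl)) _ _ (hsep l hl hil).lt
      (exact_of_eig hHs hlam hl (hsep l hl hil)) κ hκ (by
        rcases hd with h | h
        · left
          intro h2
          apply h
          have h3 : j.1.1 = (q, par) := by rw [← h2]
          have h4 : j.1.2 = l := by rw [← h2]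
          rw [if_pos h3, h4]
        · exact Or.inr h)
    obtain ⟨μ, μ', f, O, a1, a2, a3, a4, a5, a6, a7, a8, a9⟩ := h1
    have h2 : ηg (j, ⟨l, by omega⟩) ≥ η := (min_le_right _ _).trans (hη2l _)
    have h3 := hM2l (j, (⟨l, by omega⟩ : Fin (Nσ + 1)))
    have h4 := hC2l (j, (⟨l, by omega⟩ : Fin (Nσ + 1)))
    have h5 := le_max_right M1 M2
    refine ⟨μ, μ', f, O, a1, fun τ => (a2 τ).trans h4, fun τ => ?_, a4, a5, fun τ x hx => ?_,
      fun τ x hx => ?_, fun τ hτ i => ?_, fun τ hτ i => ?_, fun h => ?_⟩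
    · have := (le_abs_self _).trans (a3 τ)
      linarith
    · refine ((a6 τ).low x hx).trans (mul_le_mul_of_nonneg_right ?_ (by positivity))
      linarith
    · refine le_trans (mul_le_mul_of_nonneg_right ?_ (by positivity)) ((a6 τ).high x hx)
      linarith
    · rw [a7 τ hτ]
    · rw [a8 τ hτ]; rfl
    · split_ifs at h with h6
      have h7 := Option.some.inj h
      rw [one_mul]
      exact a9 (Prod.ext h6.symm h7.symm)

/-- **the loops of a choice in the Galerkin spaces** -/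
theorem exists_loopSys (hg : T4g m) (hQ : T4Q m) (c : Top.Choice D εh) {q par : ℕ}
    (hσ : (q, par) ∈ D.S) :
    ∃ (η Cμ Mμ : ℝ) (D0 : ℕ) (F : Fin (D.N (q, par)) → VV (q, par)) (A B : ℝ),
      0 < η ∧ 0 ≤ Cμ ∧ A < B ∧ (∀ i, F i ∈ Pol q par) ∧ (∀ i, Reduced m (q, par) (F i)) ∧
      LinearIndependent ℝ F ∧ ∀ Deg, D0 ≤ Deg → (∀ i, F i ∈ PolD q par Deg) ∧
      ∀ {N : ℕ} {e : Fin N → ℕ} {V : Fin N → MvPolynomial (Fin 3) ℝ} {w : Fin N → VS q par}
        (_ : MB m q par Deg N e V w) {Y : MvPolynomial (Fin (m + 1)) ℝ}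
        (_ : Y ∈ Sph.harm (m + 1) q) (_ : Sph.sph (Sph.ev (Y * Y)) = 1),
      ∃ LS : LoopSys (EuclideanSpace ℝ (Fin N)) (Gate D) (D.N (q, par)) (D.i0 (q, par)) η Cμ Mμ
          (fun l => ((D.b0)⁻¹) ^ ((2 : ℝ) / ((m : ℝ) + 2)) * (homeLev D (q, par) (l - 1) + εh)),
        (∀ j τ κ, LS.S j τ κ = loopS (pY m V Y) c.h (c.L j) τ κ) ∧
        LS.H = homeS (pY m V Y) c.h D.b0 ∧
        (∀ j, LS.des j = if j.1.1 = (q, par) then some j.1.2 else none) ∧
        (∀ j, LS.sgn j = 1) ∧ Jac.SepF LS.H (fr m w F) A B := by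
  obtain ⟨η, Cμ, Mμ, D0, F, A, B, h1, h2, h3, h4, h5, h6, h7⟩ := exists_loopSys' hg hQ c hσ
  refine ⟨η, Cμ, Mμ, D0, F, A, B, h1, h2, h3, h4, h5, h6, fun Deg hDeg => ⟨(h7 Deg hDeg).1, ?_⟩⟩
  intro N e V w hb Y hY hY1
  obtain ⟨LS, a1, a2, a3, a4, a5, -⟩ := (h7 Deg hDeg).2 hb hY hY1
  exact ⟨LS, a1, a2, a3, a4, a5⟩

end Crest.Agent.R202.BFin
end
end

-- ▼ part R202/WgtSepD

/-! # Row 202, part B4b (helper728): packaged transfer `SepTr` (for BFinLoop). -/

set_option autoImplicit false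
set_option linter.unusedSectionVars false
set_option linter.deprecated false

open MeasureTheory Filter Topology Set Metric MvPolynomial
open scoped InnerProductSpace ContDiff

namespace Crest.Agent.R202.Wgt

open Crest.Agent.R202.Geo Crest.Agent.R202.Sph Crest.Agent.R202.Sch Crest.Agent.R202.Mod
open Crest.Agent.R202.CT

noncomputable section

/-- Transfer from the sector model (degree `≤ D`) to the Galerkin space with basis `p`. -/
structure SepTr (m : ℕ) (σ : ℕ × ℕ) (D : ℕ) {ND : ℕ}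
    (p : Fin ND → MvPolynomial (Fin (m + 3)) ℝ) (Φ : VV σ →ₗ[ℝ] EuclideanSpace ℝ (Fin ND)) :
    Prop where
  inner : ∀ u : VV σ, ∀ v ∈ PolD σ.1 σ.2 D, Reduced m σ v → ⟪Φ u, Φ v⟫_ℝ = 2 * gF m σ u v
  sep : ∀ (l : ℕ) (f : Fin l → VV σ) (A B y : ℝ) (P : ℝ → ℂ → ℝ) (K : ℝ),
    (∀ i, f i ∈ PolD σ.1 σ.2 D) → Frz y⁻¹ P → (∀ X u, P X ((starRingEnd ℂ) u) = P X u) →
    Adm m K (fun z => P z.1 (ee z.2)) → SepP m σ l f A B y (fun z => P z.1 (ee z.2)) →
    LowF.Sep (Sop p y⁻¹ P) (fun i => Φ (f i)) ((y⁻¹) ^ ((2 : ℝ) / ((m : ℝ) + 2)) * A)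
      ((y⁻¹) ^ ((2 : ℝ) / ((m : ℝ) + 2)) * B)

variable {m : ℕ} {q par D N : ℕ} {e : Fin N → ℕ} {V : Fin N → MvPolynomial (Fin 3) ℝ}
  {w : Fin N → VS q par}



end

end Crest.Agent.R202.Wgt
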