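import Crest.Agent.R202.SchScal
import Mathlib
import Crest.Agent.R202.GalSmall
import Crest.Agent.R202.SchConv
import Crest.Agent.R202.MixDefs
import Crest.Agent.R202.BFinSeg
import Crest.Agent.R202.WgtFlow
import Crest.Agent.R202.SchGeo

-- ▼ part R202/SchBar
section

/-! # Row 202, module SCH, part 7: global bounds of `s'`, `s''` (helper821) -/

set_option autoImplicit false

open Set Filter
open scoped Topology ContDiff

namespace Crest.Agent.R202.Sch

noncomputable section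

variable {sI : ℝ}

theorem deriv2_sf_zero {t : ℝ} (ht : t < 0) : deriv (deriv (sf sI)) t = 0 := by
  have e : deriv (sf sI) =ᶠ[𝓝 t] fun _ => (0 : ℝ) := by
    filter_upwards [gt_mem_nhds ht] with x hx
    rw [deriv_sf]
    simp only [fw_zero (le_of_lt hx), mul_zero]
  rw [e.deriv_eq]
  simp

theorem deriv_sf_contDiff (sI : ℝ) : ContDiff ℝ ∞ (deriv (sf sI)) :=
  (contDiff_succ_iff_deriv (n := ∞).1 (by simpa using sf_contDiff sI)).2.2

theorem deriv2_sf_contDiff (sI : ℝ) : ContDiff ℝ ∞ (deriv (deriv (sf sI))) :=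
  (contDiff_succ_iff_deriv (n := ∞).1 (by simpa using deriv_sf_contDiff sI)).2.2

theorem tendsto_deriv2_sf (hs : 0 < sI) : Tendsto (deriv (deriv (sf sI))) atTop (𝓝 0) := by
  rw [tendsto_zero_iff_abs_tendsto_zero]
  refine squeeze_zero' (Eventually.of_forall fun t => abs_nonneg _) ?_
    (by simpa using (tendsto_deriv_sf hs).const_mul (6 / 5))
  filter_upwards [eventually_ge_atTop (1 : ℝ)] with t ht
  refine (abs_deriv2_sf_le hs ht).trans ?_
  have h1 : (6 / 5) / t ≤ 6 / 5 := div_le_self (by norm_num) ht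
  exact mul_le_mul_of_nonneg_right h1 (deriv_sf_nonneg hs t)

/-- `s''` is bounded -/
theorem deriv2_sf_bdd (hs : 0 < sI) : ∃ B : ℝ, 0 ≤ B ∧ ∀ t, |deriv (deriv (sf sI)) t| ≤ B := by
  obtain ⟨B, hB⟩ := isCompact_Icc.exists_bound_of_continuousOn
    (deriv2_sf_contDiff sI).continuous.continuousOn (s := Icc (0 : ℝ) 1)
  refine ⟨|B| + 6 / 5, by positivity, fun t => ?_⟩
  rcases lt_or_ge t 0 with h | h
  · rw [deriv2_sf_zero h, abs_zero]; positivity
  rcases le_or_gt t 1 with h1 | h1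
  · have h2 := hB t ⟨h, h1⟩
    rw [Real.norm_eq_abs] at h2
    linarith [le_abs_self B]
  · have h2 := abs_deriv2_sf_le hs h1.le
    have h3 := deriv_sf_le hs t
    have h4 := deriv_sf_nonneg hs t
    have h5 : (6 / 5) / t ≤ 6 / 5 := div_le_self (by norm_num) h1.le
    have h6 : (6 / 5) / t * deriv (sf sI) t ≤ 6 / 5 * 1 := by
      apply mul_le_mul h5 (by linarith) h4 (by norm_num)
    linarith [abs_nonneg B]

/-- `|s'| ≤ 1/4` -/
theorem abs_deriv_sf_le (hs : 0 < sI) (t : ℝ) : |deriv (sf sI) t| ≤ 1 / 4 := by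
  rw [abs_of_nonneg (deriv_sf_nonneg hs t)]
  exact deriv_sf_le hs t

/-- the rates of `s` are eventually small -/
theorem rates_small (hs : 0 < sI) {η : ℝ} (hη : 0 < η) : ∃ tb : ℝ, 0 ≤ tb ∧ ∀ t, tb ≤ t →
    |deriv (sf sI) t| ≤ η ∧ |deriv (deriv (sf sI)) t| ≤ η := by
  have e1 : ∀ᶠ t in atTop, |deriv (sf sI) t| < η := by
    have := (tendsto_zero_iff_abs_tendsto_zero _).1 (tendsto_deriv_sf hs)
    exact this.eventually (gt_mem_nhds hη)
  have e2 : ∀ᶠ t in atTop, |deriv (deriv (sf sI)) t| < η := by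
    have := (tendsto_zero_iff_abs_tendsto_zero _).1 (tendsto_deriv2_sf hs)
    exact this.eventually (gt_mem_nhds hη)
  obtain ⟨B, hB⟩ := eventually_atTop.1 (e1.and e2)
  exact ⟨max B 0, le_max_right _ _, fun t ht =>
    ⟨(hB t ((le_max_left _ _).trans ht)).1.le, (hB t ((le_max_left _ _).trans ht)).2.le⟩⟩

end

end Crest.Agent.R202.Sch
end

-- ▼ part R202/BFlow
section

/-! # Row 202, PART B: the family of flows, generic part (helper514)

* `exists_flow_late`: compact family of coefficients, bounded rates, small late rates ⇒ family of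
  `Seg.Flow`s with constant `ρ = δ` after an explicit time.
* `extK`: extension of `κ : Cube P` by `1`.
* `ContFam.comp`: pull back of a continuous family of data. -/

set_option autoImplicit false
set_option linter.unusedSectionVars false
set_option linter.unusedVariables false

open Set Filter Topology
open scoped InnerProductSpace ContDiff

namespace Crest.Agent.R202.BFlow

open Crest.Agent.R202.Gal
open Crest.Agent.R202.Mix (Cube)

section Generic

variable {G : Type} [NormedAddCommGroup G] [InnerProductSpace ℝ G] [FiniteDimensional ℝ G]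

/-- compact family of coefficients with bounded rates which are small after `tb` -/
theorem exists_flow_late {X : Type*} [TopologicalSpace X] [CompactSpace X] (C : X → Coef G)
    (t0 : ℝ) (ht0 : ∀ κ, (C κ).t0 = t0)
    (hK : Continuous (Function.uncurry fun κ t => (C κ).K t))
    (hb : Continuous (Function.uncurry fun κ t => (C κ).b t))
    (hL : Continuous fun κ => (C κ).L0) {rm δ tb : ℝ} (hrm : 0 < rm) (hδ : 0 < δ)
    (htb : t0 ≤ tb) (h1 : ∀ κ s, t0 ≤ s → (C κ).Rate rm s)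
    (h2 : ∀ κ s, tb ≤ s → (C κ).Rate (δ / 2) s) :
    ∃ (U V : X → ℝ → G →L[ℝ] G) (F : X → Seg.Flow G), Continuous (Function.uncurry U) ∧
      Continuous (Function.uncurry V) ∧ (∀ κ, Sol (C κ) (U κ) (V κ)) ∧
      (∀ t, Continuous fun κ => U κ t) ∧
      ∀ κ, (F κ).t1 = tb + 4 * rm / δ ∧ (F κ).K = (C κ).K ∧ (F κ).U = U κ ∧
        (F κ).b = (C κ).b ∧ ((F κ).ρ = fun _ => δ) ∧ (F κ).L = dn (U κ) (V κ) := by
  obtain ⟨U, V, hU, hV, hS, H⟩ := exists_flow C t0 ht0 hK hb hL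
  have h3 : 0 < 4 * rm / δ := by positivity
  obtain ⟨F, hF⟩ := H (tb + 4 * rm / δ) (fun _ _ => δ) (by linarith) (fun _ _ _ => hδ.le)
    (fun κ t ht => Coef.small_of_late' hrm hδ (by rw [ht0]; exact htb)
      (fun s hs => h1 κ s (by rw [← ht0 κ]; exact hs)) (h2 κ) ht.le)
  exact ⟨U, V, F, hU, hV, hS, fun t => continuous_param hU t, hF⟩

end Generic

/-- input: family of Galerkin coefficients of the scheduled metrics -/
structure GalFam {G : Type} [NormedAddCommGroup G] [InnerProductSpace ℝ G] (mm : ℕ) (sI A R : ℝ)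
    {X : Type} [TopologicalSpace X] (C : X → Coef G) : Prop where
  t0 : ∀ κ, (C κ).t0 = 0
  cK : Continuous (Function.uncurry fun κ t => (C κ).K t)
  cL : Continuous fun κ => (C κ).L0
  b_eq : ∀ κ t, (C κ).b t = (mm + 1 : ℝ) - (mm + 2) * deriv (Sch.sf sI) t
  rate : ∀ κ t r, 0 ≤ t → |deriv (Sch.sf sI) t| ≤ r → R / A ≤ r → ∀ x,
    |⟪(C κ).K' t x, x⟫_ℝ| ≤ 6 * r * ⟪(C κ).K t x, x⟫_ℝ

section Sched

variable {G : Type} [NormedAddCommGroup G] [InnerProductSpace ℝ G]
variable {mm : ℕ} {sI A R : ℝ} {X : Type} [TopologicalSpace X] {C : X → Coef G}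

theorem GalFam.b'_eq (h : GalFam mm sI A R C) (κ : X) (t : ℝ) :
    (C κ).b' t = -((mm + 2) * deriv (deriv (Sch.sf sI)) t) := by
  have h0 : HasDerivAt (deriv (Sch.sf sI)) (deriv (deriv (Sch.sf sI)) t) t :=
    ((Sch.deriv_sf_contDiff sI).differentiable (by simp) t).hasDerivAt
  have h3 : (C κ).b = fun t => (mm + 1 : ℝ) - (mm + 2) * deriv (Sch.sf sI) t :=
    funext (h.b_eq κ)
  have h4 := (h0.const_mul ((mm : ℝ) + 2)).const_sub (mm + 1 : ℝ)
  have h5 := (C κ).hb t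
  rw [h3] at h5
  exact h5.unique h4

theorem GalFam.cont_b (h : GalFam mm sI A R C) :
    Continuous (Function.uncurry fun κ t => (C κ).b t) := by
  have h1 : (Function.uncurry fun κ t => (C κ).b t) =
      fun p : X × ℝ => (mm + 1 : ℝ) - (mm + 2) * deriv (Sch.sf sI) p.2 := by
    funext p
    exact h.b_eq p.1 p.2
  rw [h1]
  exact continuous_const.sub (continuous_const.mul
    ((Sch.deriv_sf_contDiff sI).continuous.comp continuous_snd))

/-- **Flow family of the scheduled metrics.**  `A1` depends on `sI, R, δ, m` only. -/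
theorem exists_schedFlow {mm : ℕ} {sI R δ : ℝ} (hsI : 0 < sI) (hR : 0 ≤ R) (hδ : 0 < δ) :
    ∃ A1 : ℝ, 1 ≤ A1 ∧ ∀ A : ℝ, A1 ≤ A → ∀ (G : Type) [NormedAddCommGroup G]
      [InnerProductSpace ℝ G] [FiniteDimensional ℝ G] (X : Type) [TopologicalSpace X]
      [CompactSpace X] (C : X → Coef G), GalFam mm sI A R C →
      ∃ (U V : X → ℝ → G →L[ℝ] G) (F : X → Seg.Flow G), Continuous (Function.uncurry U) ∧
        Continuous (Function.uncurry V) ∧ (∀ κ, Sol (C κ) (U κ) (V κ)) ∧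
        (∀ t, Continuous fun κ => U κ t) ∧
        ∀ κ, (F κ).t1 < Sch.hs A 0 ∧ (F κ).K = (C κ).K ∧ (F κ).U = U κ ∧
          (F κ).b = (C κ).b ∧ ((F κ).ρ = fun _ => δ) ∧ (F κ).L = dn (U κ) (V κ) := by
  obtain ⟨B, hB0, hB⟩ := Sch.deriv2_sf_bdd hsI
  set η : ℝ := δ / (2 * ((mm : ℝ) + 8)) with hη
  have hη0 : 0 < η := by positivity
  obtain ⟨tb, htb0, htb⟩ := Sch.rates_small hsI hη0
  set r1 : ℝ := max (1 / 4) R with hr1
  have hr10 : 0 < r1 := lt_of_lt_of_le (by norm_num) (le_max_left _ _)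
  set rm : ℝ := 6 * r1 + ((mm : ℝ) + 2) * B with hrm
  have hrm0 : 0 < rm := by positivity
  refine ⟨max 1 (max (R / η) (tb + 4 * rm / δ)), le_max_left _ _, ?_⟩
  intro A hA G _ _ _ X _ _ C hC
  have hA1 : 1 ≤ A := (le_max_left _ _).trans hA
  have hA2 : R / η ≤ A := ((le_max_left _ _).trans (le_max_right _ _)).trans hA
  have hA3 : tb + 4 * rm / δ ≤ A := ((le_max_right _ _).trans (le_max_right _ _)).trans hA
  have hA0 : 0 < A := by linarith
  have hRA : R / A ≤ R := div_le_self hR hA1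
  have hRη : R / A ≤ η := by
    rw [div_le_iff₀ hη0] at hA2
    rw [div_le_iff₀ hA0]
    linarith
  have hm0 : (0 : ℝ) ≤ (mm : ℝ) := Nat.cast_nonneg mm
  have hb'abs : ∀ κ s, |(C κ).b' s| = ((mm : ℝ) + 2) * |deriv (deriv (Sch.sf sI)) s| := by
    intro κ s
    rw [hC.b'_eq, abs_neg, abs_mul, abs_of_nonneg (by positivity : (0 : ℝ) ≤ (mm : ℝ) + 2)]
  have h1 : ∀ κ s, 0 ≤ s → (C κ).Rate rm s := by
    intro κ s hs
    constructor
    · intro x
      refine (hC.rate κ s r1 hs ((Sch.abs_deriv_sf_le hsI s).trans (le_max_left _ _))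
        (hRA.trans (le_max_right _ _)) x).trans ?_
      refine mul_le_mul_of_nonneg_right ?_ ((C κ).nonneg s x)
      have : 0 ≤ ((mm : ℝ) + 2) * B := by positivity
      linarith
    · rw [hb'abs]
      have := mul_le_mul_of_nonneg_left (hB s) (by positivity : (0 : ℝ) ≤ (mm : ℝ) + 2)
      linarith
  have h2 : ∀ κ s, tb ≤ s → (C κ).Rate (δ / 2) s := by
    intro κ s hs
    obtain ⟨a1, a2⟩ := htb s hs
    have e1 : η * (2 * ((mm : ℝ) + 8)) = δ := by
      rw [hη]; field_simp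
    have e2 : 0 ≤ η * (mm : ℝ) := by positivity
    constructor
    · intro x
      refine (hC.rate κ s η (htb0.trans hs) a1 hRη x).trans ?_
      refine mul_le_mul_of_nonneg_right ?_ ((C κ).nonneg s x)
      linarith
    · rw [hb'abs]
      have := mul_le_mul_of_nonneg_left a2 (by positivity : (0 : ℝ) ≤ (mm : ℝ) + 2)
      have e3 : ((mm : ℝ) + 2) * η ≤ δ / 2 := by linarith
      linarith
  obtain ⟨U, V, F, hU, hV, hS, hc, hF⟩ := exists_flow_late C 0 hC.t0 hC.cK hC.cont_b hC.cL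
    hrm0 hδ htb0 h1 h2
  refine ⟨U, V, F, hU, hV, hS, hc, fun κ => ?_⟩
  obtain ⟨f1, f2⟩ := hF κ
  refine ⟨?_, f2⟩
  rw [f1, Sch.hs_zero]
  linarith

end Sched

/-- extension of `κ : Cube P` by `1` beyond `P` -/
noncomputable def extK {P : ℕ} (κ : Cube P) (q : ℕ) : Icc (-1 : ℝ) 1 :=
  if h : q < P then κ ⟨q, h⟩ else ⟨1, by norm_num, le_rfl⟩

theorem extK_lt {P : ℕ} (κ : Cube P) {q : ℕ} (h : q < P) : extK κ q = κ ⟨q, h⟩ := dif_pos h

theorem extK_val {P : ℕ} (κ : Cube P) (k : Fin P) : (extK κ k.1 : ℝ) = κ k := by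
  rw [extK_lt κ k.2]

theorem extK_ge {P : ℕ} (κ : Cube P) {q : ℕ} (h : P ≤ q) : (extK κ q : ℝ) = 1 := by
  rw [extK, dif_neg (not_lt.2 h)]

theorem extK_mem {P : ℕ} (κ : Cube P) (q : ℕ) : (extK κ q : ℝ) ∈ Icc (-1 : ℝ) 1 := (extK κ q).2

theorem continuous_extK {P : ℕ} : Continuous (extK : Cube P → ℕ → Icc (-1 : ℝ) 1) := by
  refine continuous_pi fun q => ?_
  by_cases h : q < P
  · have : (fun κ : Cube P => extK κ q) = fun κ => κ ⟨q, h⟩ := funext fun κ => extK_lt κ h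
    rw [this]
    exact continuous_apply _
  · have : (fun κ : Cube P => extK κ q) = fun _ => ⟨1, by norm_num, le_rfl⟩ := by
      funext κ
      rw [extK, dif_neg h]
    rw [this]
    exact continuous_const

/-- pull back of a continuous family of data -/
theorem _root_.Crest.Agent.R202.Geo.ContFam.comp {K Y : Type*} [TopologicalSpace K]
    [TopologicalSpace Y] {s : ℝ → ℝ} {θ : K → ℝ → ℝ} {P : K → ℝ → ℝ → ℂ → ℝ} {t0 X0 X1 : ℝ}
    (h : Geo.ContFam K s θ P t0 X0 X1) {f : Y → K} (hf : Continuous f) :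
    Geo.ContFam Y s (fun y => θ (f y)) (fun y => P (f y)) t0 X0 X1 where
  fam y := h.fam (f y)
  cont_θ := h.cont_θ.comp ((hf.comp continuous_fst).prodMk continuous_snd)
  cont_P := h.cont_P.comp ((hf.comp continuous_fst).prodMk continuous_snd)

end Crest.Agent.R202.BFlow
end

-- ▼ part R202/BFlowFam
section

/-! # Row 202, PART B: `FlowFam` from the Galerkin coefficients (helper514) -/

set_option autoImplicit false
set_option linter.unusedSectionVars false
set_option linter.unusedVariables false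

open Set Filter Topology
open scoped InnerProductSpace ContDiff

namespace Crest.Agent.R202.BFlow

open Crest.Agent.R202.Gal
open Crest.Agent.R202.Mix (Cube)
open Crest.Agent.R202.BFin (LoopSys FlowFam)
open Crest.Agent.R202.Sch (hs he Th Tg sf)

/-- **`FlowFam` of the scheduled metrics**, together with the operator solutions `U`, `V`. -/
theorem exists_flowFam {mm : ℕ} {sI R δ : ℝ} (hsI : 0 < sI) (hR : 0 ≤ R) (hδ : 0 < δ) :
    ∃ A1 : ℝ, 1 ≤ A1 ∧ ∀ A : ℝ, A1 ≤ A → ∀ (G : Type) [NormedAddCommGroup G]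
      [InnerProductSpace ℝ G] [FiniteDimensional ℝ G] (ι : Type) (N i0 : ℕ) (η Cμ Mμ : ℝ)
      (Λ : ℕ → ℝ) (LS : LoopSys G ι N i0 η Cμ Mμ Λ) (P : ℕ) (jq : ℕ → ι)
      (C : Cube P → Coef G), GalFam mm sI A R C →
      (∀ κ (k : Fin P) t, hs A k.1 ≤ t → t ≤ he A (k.1 + 1) →
        (C κ).K t = Real.exp (2 * sf sI t) • LS.S (jq k.1) ((t - he A k.1) / Tg A k.1) (κ k)) →
      (∀ κ q, q ≤ P → ∀ t, hs A q ≤ t → t ≤ he A q →
        (C κ).K t = Real.exp (2 * sf sI t) • LS.H) →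
      ∃ (U V : Cube P → ℝ → G →L[ℝ] G) (FF : FlowFam LS mm sI A δ P jq),
        Continuous (Function.uncurry U) ∧ Continuous (Function.uncurry V) ∧
        (∀ κ, Sol (C κ) (U κ) (V κ)) ∧
        ∀ κ, (FF.F κ).K = (C κ).K ∧ (FF.F κ).U = U κ ∧
          (FF.F κ).b = (C κ).b ∧ ((FF.F κ).ρ = fun _ => δ) ∧ (FF.F κ).L = dn (U κ) (V κ) := by
  obtain ⟨A1, hA1, H⟩ := exists_schedFlow (mm := mm) hsI hR hδ
  refine ⟨A1, hA1, ?_⟩
  intro A hA G _ _ _ ι N i0 η Cμ Mμ Λ LS P jq C hC hKg hKh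
  obtain ⟨U, V, F, hU, hV, hS, hc, hF⟩ := H A hA G (Cube P) C hC
  refine ⟨U, V,
    { F := F
      K_gate := fun κ k t h1 h2 => by rw [(hF κ).2.1]; exact hKg κ k t h1 h2
      K_home := fun κ q hq t h1 h2 => by rw [(hF κ).2.1]; exact hKh κ q hq t h1 h2
      b_eq := fun κ t => by rw [(hF κ).2.2.2.1]; exact hC.b_eq κ t
      t1_lt := fun κ => (hF κ).1
      ρ_le := fun κ t _ => by rw [(hF κ).2.2.2.2.1]
      cont := fun t _ => ?_ }, hU, hV, hS, fun κ => (hF κ).2⟩
  have : (fun κ => (F κ).U t) = fun κ => U κ t := funext fun κ => by rw [(hF κ).2.2.1]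
  rw [this]
  exact hc t

end Crest.Agent.R202.BFlow
end

-- ▼ part R202/BFlowW

/-! # Row 202, PART B: the Galerkin coefficients of the scheduled metrics (helper514)

`schedCoef`: 728's `coefOf` for the scheduled data; `GalFam`; `K_gate`, `K_home`; `FlowFam`. -/

set_option autoImplicit false
set_option linter.unusedSectionVars false
set_option linter.unusedVariables false

open Set Filter Topology MvPolynomial
open scoped InnerProductSpace ContDiff

namespace Crest.Agent.R202.BFlow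

open Crest.Agent.R202.Gal
open Crest.Agent.R202.Mix (Cube)
open Crest.Agent.R202.BFin (LoopSys FlowFam)
open Crest.Agent.R202.Sch Crest.Agent.R202.Geo Crest.Agent.R202.Wgt

noncomputable section

variable {m : ℕ} {sI A X0 X1 Xa Xb y0 y1 : ℝ} {h : ℝ → ℝ} {ι : Type} {N : ℕ}
  {p : Fin N → MvPolynomial (Fin (m + 3)) ℝ} {l : Fin N → ℕ}

/-- operator of the loop `L` at `(τ, κ)` -/
def Sloop (p : Fin N → MvPolynomial (Fin (m + 3)) ℝ) (h : ℝ → ℝ) (L : YLoop y0 y1 Xa Xb)
    (τ κ : ℝ) : EuclideanSpace ℝ (Fin N) →L[ℝ] EuclideanSpace ℝ (Fin N) :=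
  Sop p (L.y τ)⁻¹ fun X u => Ptip h (L.y τ) X u + L.Gh τ κ X (ret u)

/-- home operator -/
def Hhome (p : Fin N → MvPolynomial (Fin (m + 3)) ℝ) (h : ℝ → ℝ) (y0 : ℝ) :
    EuclideanSpace ℝ (Fin N) →L[ℝ] EuclideanSpace ℝ (Fin N) := Sop p y0⁻¹ (Ptip h y0)



/-- all members of the scheduled family are admissible -/
def AllFam (sI A : ℝ) (hp : Prof X0 X1 h) (hy0 : 1 ≤ y0) (L : ι → YLoop y0 y1 Xa Xb)
    (j : ℕ → ι) : Prop :=
  ∀ κ : ℕ → ℝ, (∀ q, κ q ∈ Icc (-1 : ℝ) 1) →
    Fam (sf sI) (thY A hp hy0 L j κ) (PY A hp hy0 L j κ) 0 X0 X1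

/-- rates of the scheduled family -/
def AllRate (sI A K ρ : ℝ) (hp : Prof X0 X1 h) (hy0 : 1 ≤ y0) (L : ι → YLoop y0 y1 Xa Xb)
    (j : ℕ → ι) : Prop :=
  ∀ κ : ℕ → ℝ, (∀ q, κ q ∈ Icc (-1 : ℝ) 1) → ∀ t,
    RateAt (sf sI) (thY A hp hy0 L j κ) (PY A hp hy0 L j κ) K ρ t

/-- the Galerkin coefficients of the scheduled metric with `κ` extended by `1` -/
def schedCoef (hb : SBasis p l) (hsI : 0 < sI) (hp : Prof X0 X1 h) (hy0 : 1 ≤ y0)
    (L : ι → YLoop y0 y1 Xa Xb) (j : ℕ → ι) (hF : AllFam sI A hp hy0 L j) {P : ℕ} (κ : Cube P) :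
    Coef (EuclideanSpace ℝ (Fin N)) :=
  coefOf hb (hF (fun q => extK κ q) (extK_mem κ)) (deriv_sf_le hsI)

section

variable (hb : SBasis p l) (hsI : 0 < sI) (hp : Prof X0 X1 h) (hy0 : 1 ≤ y0)
  (L : ι → YLoop y0 y1 Xa Xb) (j : ℕ → ι) (hF : AllFam sI A hp hy0 L j)

theorem schedCoef_K {P : ℕ} (κ : Cube P) : (schedCoef hb hsI hp hy0 L j hF κ).K =
    Kop p (sf sI) (thY A hp hy0 L j fun q => extK κ q) (PY A hp hy0 L j fun q => extK κ q) := rfl




/-- gates -/
theorem schedCoef_gate (hA : 0 < A) {P : ℕ} (κ : Cube P) (k : Fin P) {t : ℝ}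
    (h1 : hs A k.1 ≤ t) (h2 : t ≤ he A (k.1 + 1)) :
    (schedCoef hb hsI hp hy0 L j hF κ).K t =
      Real.exp (2 * sf sI t) • Sloop p h (L (j k.1)) ((t - he A k.1) / Tg A k.1) (κ k) := by
  rw [schedCoef_K]
  unfold Kop Sloop
  congr 1
  have e1 : thY A hp hy0 L j (fun q => (extK κ q : ℝ)) t =
      ((L (j k.1)).y ((t - he A k.1) / Tg A k.1))⁻¹ := by
    rw [thY, thS_gate _ _ _ hA h1 h2]
    rfl
  have e2 : PY A hp hy0 L j (fun q => (extK κ q : ℝ)) t = fun X u =>
      Ptip h ((L (j k.1)).y ((t - he A k.1) / Tg A k.1)) X u +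
        (L (j k.1)).Gh ((t - he A k.1) / Tg A k.1) (κ k) X (ret u) := by
    funext X u
    rw [PY, PS_gate _ _ _ hA h1 h2, extK_val]
    rfl
  rw [e1, e2]

/-- homes -/
theorem schedCoef_home (hA : 0 < A) {P : ℕ} (κ : Cube P) {q : ℕ} {t : ℝ}
    (h1 : hs A q ≤ t) (h2 : t ≤ he A q) :
    (schedCoef hb hsI hp hy0 L j hF κ).K t = Real.exp (2 * sf sI t) • Hhome p h y0 := by
  rw [schedCoef_K]
  unfold Kop Hhome
  congr 1
  have e1 : thY A hp hy0 L j (fun q => (extK κ q : ℝ)) t = y0⁻¹ := by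
    rw [thY, thS_home _ _ _ hA h1 h2]
  have e2 : PY A hp hy0 L j (fun q => (extK κ q : ℝ)) t = Ptip h y0 := by
    funext X u
    rw [PY, PS_home _ _ _ hA h1 h2]
  rw [e1, e2]

/-- the scheduled Galerkin coefficients form a `GalFam` -/
theorem schedCoef_galFam (hA : 0 < A) {K C : ℝ} (hK : 0 < K) (hC : 0 ≤ C)
    (hR : AllRate sI A K (C / A) hp hy0 L j) (P : ℕ) :
    GalFam m sI A (K * C) (fun κ : Cube P => schedCoef hb hsI hp hy0 L j hF κ) where
  t0 κ := rfl
  cK := by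
    have hCF : ContFam (Cube P) (sf sI) (fun κ => thY A hp hy0 L j fun q => extK κ q)
        (fun κ => PY A hp hy0 L j fun q => extK κ q) 0 X0 X1 :=
      (contFam (yInst hp hy0) (fun q => (L (j q)).toLoop hp hy0) hA hF).comp continuous_extK
    exact continuous_Kop_joint p (sf_contDiff sI).continuous hCF.cont_θ hCF.cont_P
      (fun κ t => (hCF.fam κ).θ_pos t) (fun κ t X u => (hCF.fam κ).P_pos t X u)
  cL := continuous_const
  b_eq κ t := rfl
  rate κ t r ht h1 h2 x := by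
    set κ' : ℕ → ℝ := fun q => extK κ q with hκ'
    have hF' := hF κ' (extK_mem κ)
    have hR' := hR κ' (extK_mem κ) t
    have hρ0 : 0 ≤ C / A := by positivity
    have hρ : K * (C / A) ≤ r := by
      rw [← mul_div_assoc]; exact h2
    show |⟪Kop' p (sf sI) (thY A hp hy0 L j κ') (PY A hp hy0 L j κ') t x, x⟫_ℝ| ≤
      6 * r * ⟪Kop p (sf sI) (thY A hp hy0 L j κ') (PY A hp hy0 L j κ') t x, x⟫_ℝ
    refine Kop'_rate p hF' h1 ?_ (fun X hX u hu => ?_) x
    · have h3 : C / A ≤ K * (C / A) * thY A hp hy0 L j κ' t := by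
        have h4 := hR'.θ_low
        calc C / A = K * (C / A) * K⁻¹ := by field_simp
          _ ≤ K * (C / A) * thY A hp hy0 L j κ' t :=
            mul_le_mul_of_nonneg_left h4 (by positivity)
      exact (hR'.θ_t.trans h3).trans (mul_le_mul_of_nonneg_right hρ (hF'.θ_pos t).le)
    · obtain ⟨φ, rfl⟩ := exists_phi hu
      have h5 := hR'.P_low X φ hX.1 hX.2
      have h6 := hR'.P_t X φ hX.1 hX.2
      have h7 : PP (PY A hp hy0 L j κ') t X φ =
        PY A hp hy0 L j κ' t X (Complex.exp ((φ : ℂ) * Complex.I)) := rfl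
      rw [h7] at h5
      have h8 : Pt (PY A hp hy0 L j κ') t X (Complex.exp ((φ : ℂ) * Complex.I)) =
        dT (PP (PY A hp hy0 L j κ')) t X φ := rfl
      rw [h8]
      have h9 : C / A ≤ K * (C / A) *
          PY A hp hy0 L j κ' t X (Complex.exp ((φ : ℂ) * Complex.I)) := by
        calc C / A = K * (C / A) * K⁻¹ := by field_simp
          _ ≤ _ := mul_le_mul_of_nonneg_left h5 (by positivity)
      exact (h6.trans h9).trans (mul_le_mul_of_nonneg_right hρ (hF'.P_pos _ _ _).le)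

end


end

end Crest.Agent.R202.BFlow
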