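import Mathlib
import Crest.Agent.R202.BFlowW
import Crest.Agent.R202.WgtGate
import Crest.Agent.R202.SecUnif
import Crest.Agent.R202.SecAfam
import Crest.Agent.R202.TopDefs

/-! # Row 202, PART B: Galerkin coefficients and flows of a `Top.Choice` (helper514)

* `topCoef`: coefficients of the scheduled metric of a choice `c`, `κ : Cube P` extended by `1`.
* `exists_flowFam_top`: `FlowFam` + operator solutions.
* `topCoef_indep`: the coefficients do not depend on the normalised harmonic `Y`. -/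

set_option autoImplicit false
set_option linter.unusedSectionVars false
set_option linter.unusedVariables false

open Set Filter Topology MvPolynomial
open scoped InnerProductSpace ContDiff

namespace Crest.Agent.R202.BFlow

open Crest.Agent.R202.Gal
open Crest.Agent.R202.Mix (Cube)
open Crest.Agent.R202.BFin (LoopSys FlowFam)
open Crest.Agent.R202.Sch Crest.Agent.R202.Geo Crest.Agent.R202.Wgt
open Crest.Agent.R202.Main Crest.Agent.R202.CT Crest.Agent.R202.Top

noncomputable section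

theorem extκ_eq {P : ℕ} (κ : Cube P) : extκ κ = fun q => (extK κ q : ℝ) := by
  funext q
  unfold extκ
  by_cases h : q < P
  · rw [dif_pos h, extK_lt κ h]
  · rw [dif_neg h, extK_ge κ (not_lt.1 h)]

theorem extκ_mem {P : ℕ} (κ : Cube P) (q : ℕ) : extκ κ q ∈ Icc (-1 : ℝ) 1 := by
  rw [extκ_eq]; exact extK_mem κ q

variable {m : ℕ} {v : ℝ} {k : ℕ} {D : CountData m v k} {εh : ℝ}

/-- all scheduled data of the choice are admissible -/
abbrev CFam (c : Choice D εh) (A : ℝ) (j : ℕ → Gate D) : Prop :=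
  AllFam (-Real.log v / ((m : ℝ) + 2)) A c.prof D.b0_gt.le c.L j

theorem cfam_of_ok {c : Choice D εh} {K C A1 : ℝ} (h : c.SchedOK K C A1) {A : ℝ} (hA : A1 ≤ A)
    (j : ℕ → Gate D) : CFam c A j := fun κ hκ => (h A hA j κ hκ).1

theorem crate_of_ok {c : Choice D εh} {K C A1 : ℝ} (h : c.SchedOK K C A1) {A : ℝ} (hA : A1 ≤ A)
    (j : ℕ → Gate D) :
    AllRate (-Real.log v / ((m : ℝ) + 2)) A K (C / A) c.prof D.b0_gt.le c.L j :=
  fun κ hκ => (h A hA j κ hκ).2

section Coef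

variable {N : ℕ} {p : Fin N → MvPolynomial (Fin (m + 3)) ℝ} {l : Fin N → ℕ}

/-- the Galerkin coefficients of the scheduled metric -/
def topCoef (hb : SBasis p l) (c : Choice D εh) {A : ℝ} {j : ℕ → Gate D} (hF : CFam c A j)
    {P : ℕ} (κ : Cube P) : Coef (EuclideanSpace ℝ (Fin N)) :=
  schedCoef hb c.sI_pos c.prof D.b0_gt.le c.L j hF κ

variable (hb : SBasis p l) (c : Choice D εh) {A : ℝ} {j : ℕ → Gate D} (hF : CFam c A j) {P : ℕ}
  (κ : Cube P)


theorem topCoef_b (t : ℝ) : (topCoef hb c hF κ).b t =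
    ((m : ℝ) + 1) - ((m : ℝ) + 2) * deriv (sfv m v) t := rfl


theorem topCoef_t0 : (topCoef hb c hF κ).t0 = 0 := rfl



end Coef

/-- **`FlowFam` of a choice.** -/
theorem exists_flowFam_top (c : Choice D εh) {K C A1 δ : ℝ} (hK : 1 ≤ K) (hC : 0 ≤ C)
    (hOK : c.SchedOK K C A1) (hδ : 0 < δ) :
    ∃ A2 : ℝ, 1 ≤ A2 ∧ ∀ A : ℝ, A2 ≤ A → ∀ hA : A1 ≤ A, ∀ (j : ℕ → Gate D)
        (n : ℕ) (p : Fin n → MvPolynomial (Fin (m + 3)) ℝ) (l : Fin n → ℕ) (hb : SBasis p l)
        (N i0 : ℕ) (η Cμ Mμ : ℝ) (Λ : ℕ → ℝ)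
        (LS : LoopSys (EuclideanSpace ℝ (Fin n)) (Gate D) N i0 η Cμ Mμ Λ),
        (∀ i τ, ∀ κ ∈ Icc (-1 : ℝ) 1, LS.S i τ κ = loopS p c.h (c.L i) τ κ) →
        LS.H = homeS p c.h D.b0 → ∀ P : ℕ,
        ∃ (U V : Cube P → ℝ → EuclideanSpace ℝ (Fin n) →L[ℝ] EuclideanSpace ℝ (Fin n))
          (FF : FlowFam LS m (-Real.log v / ((m : ℝ) + 2)) A δ P j),
          Continuous (Function.uncurry U) ∧ Continuous (Function.uncurry V) ∧
          (∀ κ, Sol (topCoef hb c (cfam_of_ok hOK hA j) κ) (U κ) (V κ)) ∧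
          ∀ κ, (FF.F κ).K = (topCoef hb c (cfam_of_ok hOK hA j) κ).K ∧ (FF.F κ).U = U κ ∧
            (FF.F κ).b = (topCoef hb c (cfam_of_ok hOK hA j) κ).b ∧
            ((FF.F κ).ρ = fun _ => δ) ∧ (FF.F κ).L = dn (U κ) (V κ) := by
  obtain ⟨A2, hA2, H⟩ := exists_flowFam (mm := m) (R := K * C) c.sI_pos
    (by positivity) hδ
  refine ⟨A2, hA2, ?_⟩
  intro A hA hA1 j n p l hb N i0 η Cμ Mμ Λ LS hS hH P
  have hA0 : 0 < A := by linarith
  refine H A hA _ (Gate D) N i0 η Cμ Mμ Λ LS P j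
    (fun κ => topCoef hb c (cfam_of_ok hOK hA1 j) κ)
    (schedCoef_galFam hb c.sI_pos c.prof D.b0_gt.le c.L j _ hA0 (by linarith) hC
      (crate_of_ok hOK hA1 j) P) ?_ ?_
  · intro κ q t h1 h2
    rw [hS _ _ _ (κ q).2]
    exact schedCoef_gate hb c.sI_pos c.prof D.b0_gt.le c.L j _ hA0 κ q h1 h2
  · intro κ q _ t h1 h2
    rw [hH]
    exact schedCoef_home hb c.sI_pos c.prof D.b0_gt.le c.L j _ hA0 κ h1 h2

/-! ### independence of the harmonic `Y` -/








end

end Crest.Agent.R202.BFlow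
namespace Crest.Agent.R202.Gal.Coef
end Crest.Agent.R202.Gal.Coef
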