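import Crest.Agent.R202.Cnt
import Crest.Agent.R202.SphPoly

-- ▼ part R202/Cnt3
section

/-!
Row 202, part E for `n = 3`: with `ρ² = b v`, all large `k` admit a level bound `J` with mean growth
exponent `≤ (1 - δ) k` in every sector and more than `c (k+1)²` modes.
-/

set_option autoImplicit false

open Set

namespace Crest.Agent.R202.Lab


/-- elementary: a quadratic beats a linear function -/
theorem exists_quad_ge {A : ℝ} (hA : 0 < A) (B E : ℝ) :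
    ∃ x0 : ℝ, 1 ≤ x0 ∧ ∀ x, x0 ≤ x → B * x + E ≤ A * x ^ 2 := by
  refine ⟨max 1 ((|B| + |E|) / A), le_max_left _ _, fun x hx => ?_⟩
  have h1 : 1 ≤ x := (le_max_left _ _).trans hx
  have h2 : (|B| + |E|) / A ≤ x := (le_max_right _ _).trans hx
  rw [div_le_iff₀ hA] at h2
  have h3 : B * x ≤ |B| * x := mul_le_mul_of_nonneg_right (le_abs_self B) (by linarith)
  have h4 : E ≤ |E| * x := (le_abs_self E).trans (by nlinarith [abs_nonneg E])
  nlinarith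

theorem exists_delta {v c : ℝ} (h : c < 9 * v / 4) :
    ∃ δ : ℝ, 0 < δ ∧ δ < 1 ∧ c < 9 * v / 4 * (1 - δ) ^ 2 := by
  have hcont : Filter.Tendsto (fun δ : ℝ => 9 * v / 4 * (1 - δ) ^ 2) (nhds 0)
      (nhds (9 * v / 4 * (1 - 0) ^ 2)) := by
    apply Continuous.tendsto; fun_prop
  have h1 : ∀ᶠ δ in nhds (0 : ℝ), c < 9 * v / 4 * (1 - δ) ^ 2 :=
    hcont.eventually (lt_mem_nhds (by simpa using h))
  have h2 : ∀ᶠ δ in nhdsWithin (0 : ℝ) (Ioi 0), c < 9 * v / 4 * (1 - δ) ^ 2 :=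
    h1.filter_mono nhdsWithin_le_nhds
  have h3 : ∀ᶠ δ in nhdsWithin (0 : ℝ) (Ioi 0), δ ∈ Ioo (0 : ℝ) 1 := Ioo_mem_nhdsGT one_pos
  obtain ⟨δ, h4, h5⟩ := (h2.and h3).exists
  exact ⟨δ, h5.1, h5.2, h4⟩


end Crest.Agent.R202.Lab
end

-- ▼ part R202/Cnt8

/-!
Row 202, part E for `n = 8` (`D = n - 2 = 6`): with `ρ⁷ = b v`, for all large `k` the sectors
`q ≥ 1` carry more modes than the Euclidean count.
-/

set_option autoImplicit false

open Set Filter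

namespace Crest.Agent.R202.Lab

theorem dimH_six (q : ℕ) : (Sph.dimH 6 q : ℝ) = ((q : ℝ) + 1) * (q + 2) ^ 2 * (q + 3) / 12 := by
  have hch : ∀ m : ℕ, ((m + 5).choose 5 : ℝ) =
      ((m : ℝ) + 5) * (m + 4) * (m + 3) * (m + 2) * (m + 1) / 120 := by
    intro m
    rw [Nat.cast_choose_eq_ascPochhammer_div]
    simp only [ascPochhammer_succ_eval, ascPochhammer_zero, Polynomial.eval_one, Nat.factorial]
    push_cast
    ring
  have hP : ∀ m : ℕ, Sph.dimP 6 m = (m + 5).choose 5 := by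
    intro m
    unfold Sph.dimP
    have : 6 + m - 1 = m + 5 := by omega
    rw [this, ← Nat.choose_symm_of_eq_add (by omega : m + 5 = m + 5)]
  rcases Nat.lt_or_ge q 2 with h | h
  · unfold Sph.dimH
    rw [if_neg (by omega), Nat.sub_zero, hP, hch]
    interval_cases q <;> norm_num
  · obtain ⟨m, rfl⟩ : ∃ m, q = m + 2 := ⟨q - 2, by omega⟩
    unfold Sph.dimH
    rw [if_pos (by omega), Nat.add_sub_cancel, hP, hP, Nat.cast_sub
      (Nat.choose_le_choose 5 (by omega)), hch, hch]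
    push_cast
    ring

theorem dimH_six_ge (q : ℕ) : (q : ℝ) ^ 4 / 12 ≤ (Sph.dimH 6 q : ℝ) := by
  rw [dimH_six]
  have hq : (0 : ℝ) ≤ q := Nat.cast_nonneg q
  have h1 : (q : ℝ) ^ 4 ≤ ((q : ℝ) + 1) * (q + 2) ^ 2 * (q + 3) := by
    have : ((q : ℝ) + 1) * (q + 2) ^ 2 * (q + 3) - q ^ 4 = 8 * q ^ 3 + 23 * q ^ 2 + 28 * q + 12 := by
      ring
    have h2 : 0 ≤ 8 * (q : ℝ) ^ 3 + 23 * q ^ 2 + 28 * q + 12 := by positivity
    linarith
  linarith

theorem sum4 (n : ℕ) : ∑ q ∈ Finset.range n, (q : ℝ) ^ 4 =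
    (n : ℝ) ^ 5 / 5 - n ^ 4 / 2 + n ^ 3 / 3 - n / 30 := by
  induction n with
  | zero => simp
  | succ n ih => rw [Finset.sum_range_succ, ih]; push_cast; ring

theorem sum5 (n : ℕ) : ∑ q ∈ Finset.range n, (q : ℝ) ^ 5 =
    (n : ℝ) ^ 6 / 6 - n ^ 5 / 2 + 5 * n ^ 4 / 12 - n ^ 2 / 12 := by
  induction n with
  | zero => simp
  | succ n ih => rw [Finset.sum_range_succ, ih]; push_cast; ring

theorem sum6 (n : ℕ) : ∑ q ∈ Finset.range n, (q : ℝ) ^ 6 =
    (n : ℝ) ^ 7 / 7 - n ^ 6 / 2 + n ^ 5 / 2 - n ^ 3 / 6 + n / 42 := by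
  induction n with
  | zero => simp
  | succ n ih => rw [Finset.sum_range_succ, ih]; push_cast; ring

/-- `∑_{q<K} q⁴ (K-q)² = K⁷/105 - K³/30 + K/42` -/
theorem sum_quartic (K : ℕ) : ∑ q ∈ Finset.range K, (q : ℝ) ^ 4 * ((K : ℝ) - q) ^ 2 =
    (K : ℝ) ^ 7 / 105 - K ^ 3 / 30 + K / 42 := by
  have : ∀ q : ℕ, (q : ℝ) ^ 4 * ((K : ℝ) - q) ^ 2 =
      (K : ℝ) ^ 2 * (q : ℝ) ^ 4 - 2 * K * (q : ℝ) ^ 5 + (q : ℝ) ^ 6 := fun q => by ring
  simp only [this]
  rw [Finset.sum_add_distrib, Finset.sum_sub_distrib, ← Finset.mul_sum, ← Finset.mul_sum, sum4,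
    sum5, sum6]
  ring

/-- lower bound for the total, as a polynomial in `K` -/
theorem sum_total_ge {a β E : ℝ} (ha : 0 ≤ a) (hβ : 0 ≤ β) (hE : 0 ≤ E) (K : ℕ) :
    a * ((K : ℝ) ^ 7 / 105 - K ^ 3 / 30) / 12 - (β * K + E) * K ^ 5 / 12 ≤
      ∑ q ∈ Finset.range K, (q : ℝ) ^ 4 / 12 * (a * ((K : ℝ) - q) ^ 2 - β * (K - q) - E) := by
  have hK : (0 : ℝ) ≤ K := Nat.cast_nonneg K
  have h1 : ∀ q ∈ Finset.range K, a / 12 * ((q : ℝ) ^ 4 * ((K : ℝ) - q) ^ 2) -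
      (β * K + E) * K ^ 4 / 12 ≤
      (q : ℝ) ^ 4 / 12 * (a * ((K : ℝ) - q) ^ 2 - β * (K - q) - E) := by
    intro q hq
    have hqK : (q : ℝ) ≤ K := by exact_mod_cast (Finset.mem_range.1 hq).le
    have hq0 : (0 : ℝ) ≤ q := Nat.cast_nonneg q
    have h2 : (q : ℝ) ^ 4 ≤ (K : ℝ) ^ 4 := pow_le_pow_left₀ hq0 hqK 4
    have h3 : β * ((K : ℝ) - q) + E ≤ β * K + E := by nlinarith
    have h4 : 0 ≤ β * ((K : ℝ) - q) + E := by nlinarith
    have h5 : (q : ℝ) ^ 4 * (β * ((K : ℝ) - q) + E) ≤ (K : ℝ) ^ 4 * (β * K + E) :=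
      mul_le_mul h2 h3 h4 (by positivity)
    nlinarith
  refine le_trans ?_ (Finset.sum_le_sum h1)
  rw [Finset.sum_sub_distrib, ← Finset.mul_sum, sum_quartic, Finset.sum_const, Finset.card_range,
    nsmul_eq_mul]
  have h6 : 0 ≤ a / 12 * ((K : ℝ) / 42) := by positivity
  nlinarith

/-- the Euclidean count is at most `2 (k+7)^7 / 7!` -/
theorem euclid_le (k : ℕ) : (((8 + k - 1).choose k + (8 + k - 2).choose (k - 1) : ℕ) : ℝ) ≤
    ((k : ℝ) + 7) ^ 7 / 2520 := by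
  have h1 : (8 + k - 1).choose k = (k + 7).choose 7 := by
    have : 8 + k - 1 = k + 7 := by omega
    rw [this]; exact Nat.choose_symm_of_eq_add (by omega)
  have h2 : (8 + k - 2).choose (k - 1) ≤ (k + 7).choose 7 := by
    rcases Nat.eq_zero_or_pos k with rfl | hk
    · decide
    · have : (8 + k - 2).choose (k - 1) = (k + 6).choose 7 := by
        have : 8 + k - 2 = k + 6 := by omega
        rw [this]; exact Nat.choose_symm_of_eq_add (by omega)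
      rw [this]; exact Nat.choose_le_choose 7 (by omega)
  have h3 : ((k + 7).choose 7 : ℝ) ≤ ((k : ℝ) + 7) ^ 7 / 5040 := by
    have := Nat.choose_le_pow_div (α := ℝ) 7 (k + 7)
    simpa [Nat.factorial] using this
  have h4 : (((8 + k - 1).choose k + (8 + k - 2).choose (k - 1) : ℕ) : ℝ) ≤
      2 * ((k + 7).choose 7 : ℝ) := by
    have : (8 + k - 1).choose k + (8 + k - 2).choose (k - 1) ≤ 2 * (k + 7).choose 7 := by
      rw [h1]; omega
    exact_mod_cast this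
  linarith

/-- asymptotic comparison -/
theorem eventually_gt {a β E σ D : ℝ} (ha : 0 < a) (hβ : 0 ≤ β) (hE : 0 ≤ E) (hσ : 0 < σ)
    (hmain : 1 / 2 < a * σ ^ 7) :
    ∀ᶠ k : ℕ in atTop, ∀ K : ℕ, (K : ℝ) ≤ σ * k → σ * k - D ≤ K →
      ((k : ℝ) + 7) ^ 7 / 2520 <
        a * ((K : ℝ) ^ 7 / 105 - K ^ 3 / 30) / 12 - (β * K + E) * K ^ 5 / 12 := by
  -- functions of `t = 1/k`
  let F : ℝ → ℝ := fun t => a * ((σ - D * t) ^ 7 / 105 - σ ^ 3 * t ^ 4 / 30) / 12 -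
    (β * σ + E * t) * σ ^ 5 * t / 12
  let G : ℝ → ℝ := fun t => (1 + 7 * t) ^ 7 / 2520
  have hF : Tendsto F (nhds 0) (nhds (F 0)) := by
    apply Continuous.tendsto; fun_prop
  have hG : Tendsto G (nhds 0) (nhds (G 0)) := by
    apply Continuous.tendsto; fun_prop
  have h0 : G 0 < F 0 := by
    simp only [F, G]; ring_nf; nlinarith
  have h1 : ∀ᶠ t in nhds (0 : ℝ), G t < F t := hG.eventually_lt hF h0
  have h2 : Tendsto (fun k : ℕ => (1 : ℝ) / k) atTop (nhds 0) :=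
    tendsto_const_div_atTop_nhds_zero_nat 1
  have h3 : ∀ᶠ k : ℕ in atTop, D < σ * k := by
    have : Tendsto (fun k : ℕ => σ * (k : ℝ)) atTop atTop :=
      Tendsto.const_mul_atTop hσ tendsto_natCast_atTop_atTop
    exact this.eventually_gt_atTop D
  filter_upwards [h2.eventually h1, h3, eventually_gt_atTop 0] with k hk hD hk0 K hK1 hK2
  have hkr : (0 : ℝ) < k := by exact_mod_cast hk0
  have hK0 : (0 : ℝ) ≤ K := Nat.cast_nonneg K
  have e1 : ((k : ℝ) + 7) ^ 7 / 2520 = (k : ℝ) ^ 7 * G (1 / k) := by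
    simp only [G]
    field_simp
  have e2 : (k : ℝ) ^ 7 * F (1 / k) = a * ((σ * k - D) ^ 7 / 105 - (σ * k) ^ 3 / 30) / 12 -
      (β * (σ * k) + E) * (σ * k) ^ 5 / 12 := by
    simp only [F]
    field_simp
  rw [e1]
  refine (mul_lt_mul_of_pos_left hk (by positivity)).trans_le ?_
  rw [e2]
  have k1 : (σ * k - D) ^ 7 ≤ (K : ℝ) ^ 7 := pow_le_pow_left₀ (by linarith) hK2 7
  have k2 : (K : ℝ) ^ 3 ≤ (σ * k) ^ 3 := pow_le_pow_left₀ hK0 hK1 3
  have k3 : (β * K + E) * (K : ℝ) ^ 5 ≤ (β * (σ * k) + E) * (σ * k) ^ 5 := by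
    refine mul_le_mul ?_ (pow_le_pow_left₀ hK0 hK1 5) (by positivity) (by positivity)
    nlinarith
  have k4 : a * ((σ * k - D) ^ 7 / 105 - (σ * k) ^ 3 / 30) ≤
      a * ((K : ℝ) ^ 7 / 105 - K ^ 3 / 30) := mul_le_mul_of_nonneg_left (by linarith) ha.le
  linarith

/-- comparison with the Euclidean count, for any family of mode numbers `Nn q` -/
theorem count8_aux {a β : ℝ} (ha : 0 < a) (hβ : 0 ≤ β) {L K k : ℕ} (hLK : L ≤ K)
    (hk : ((k : ℝ) + 7) ^ 7 / 2520 <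
      a * ((K : ℝ) ^ 7 / 105 - K ^ 3 / 30) / 12 - (β * K + a * (L : ℝ) ^ 2) * K ^ 5 / 12)
    {Nn : ℕ → ℕ} (hN : ∀ q : ℕ, q ≤ K - L → a * ((K : ℝ) - q) ^ 2 - β * (K - q) ≤ Nn q) :
    (8 + k - 1).choose k + (8 + k - 2).choose (k - 1) <
      ∑ q ∈ Finset.Icc 1 (K - L), Sph.dimH 6 q * Nn q := by
  have h1 := sum_total_ge (E := a * (L : ℝ) ^ 2) ha.le hβ (by positivity) K
  have h2 := euclid_le k
  have hsplit : ∑ q ∈ Finset.range K, (q : ℝ) ^ 4 / 12 *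
      (a * ((K : ℝ) - q) ^ 2 - β * (K - q) - a * (L : ℝ) ^ 2) ≤
      ∑ q ∈ Finset.Icc 1 (K - L), ((Sph.dimH 6 q * Nn q : ℕ) : ℝ) := by
    have h3 : ∀ q ∈ Finset.range K, (q : ℝ) ^ 4 / 12 *
        (a * ((K : ℝ) - q) ^ 2 - β * (K - q) - a * (L : ℝ) ^ 2) ≤
        if q ∈ Finset.Icc 1 (K - L) then ((Sph.dimH 6 q * Nn q : ℕ) : ℝ) else 0 := by
      intro q hq
      have hqK : (q : ℝ) < K := by exact_mod_cast Finset.mem_range.1 hq
      have hq0 : (0 : ℝ) ≤ (q : ℝ) ^ 4 / 12 := by positivity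
      have hL2 : 0 ≤ a * (L : ℝ) ^ 2 := by positivity
      have hd : (0 : ℝ) ≤ (Sph.dimH 6 q : ℝ) := Nat.cast_nonneg _
      split_ifs with hmem
      · rw [Finset.mem_Icc] at hmem
        have h4 := hN q hmem.2
        push_cast
        have hn0 : (0 : ℝ) ≤ Nn q := Nat.cast_nonneg _
        calc (q : ℝ) ^ 4 / 12 * (a * ((K : ℝ) - q) ^ 2 - β * (K - q) - a * (L : ℝ) ^ 2)
            ≤ (q : ℝ) ^ 4 / 12 * Nn q := mul_le_mul_of_nonneg_left (by linarith) hq0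
          _ ≤ Sph.dimH 6 q * Nn q := mul_le_mul_of_nonneg_right (dimH_six_ge q) hn0
      · rw [Finset.mem_Icc, not_and_or, not_le, not_le] at hmem
        rcases hmem with h | h
        · have : q = 0 := by omega
          rw [this]; simp
        · have h5 : (K : ℝ) - q ≤ L := by
            have : K ≤ q + L := by omega
            have : (K : ℝ) ≤ q + L := by exact_mod_cast this
            linarith
          have h6 : a * ((K : ℝ) - q) ^ 2 ≤ a * (L : ℝ) ^ 2 :=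
            mul_le_mul_of_nonneg_left (pow_le_pow_left₀ (by linarith) h5 2) ha.le
          have h7 : 0 ≤ β * ((K : ℝ) - q) := mul_nonneg hβ (by linarith)
          exact mul_nonpos_of_nonneg_of_nonpos hq0 (by linarith)
    refine (Finset.sum_le_sum h3).trans ?_
    rw [Finset.sum_ite_mem]
    refine Finset.sum_le_sum_of_subset_of_nonneg Finset.inter_subset_right fun q _ _ => ?_
    positivity
  have h8 : (((8 + k - 1).choose k + (8 + k - 2).choose (k - 1) : ℕ) : ℝ) <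
      ((∑ q ∈ Finset.Icc 1 (K - L), Sph.dimH 6 q * Nn q : ℕ) : ℝ) := by
    rw [Nat.cast_sum]
    linarith
  exact_mod_cast h8

theorem exists_delta8 {v θ : ℝ} (h : θ < v) :
    ∃ δ : ℝ, 0 < δ ∧ δ < 1 ∧ θ < v * (1 - δ) ^ 7 := by
  have hcont : Filter.Tendsto (fun δ : ℝ => v * (1 - δ) ^ 7) (nhds 0)
      (nhds (v * (1 - 0) ^ 7)) := by
    apply Continuous.tendsto; fun_prop
  have h1 : ∀ᶠ δ in nhds (0 : ℝ), θ < v * (1 - δ) ^ 7 :=
    hcont.eventually (lt_mem_nhds (by simpa using h))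
  have h2 : ∀ᶠ δ in nhdsWithin (0 : ℝ) (Ioi 0), θ < v * (1 - δ) ^ 7 :=
    h1.filter_mono nhdsWithin_le_nhds
  have h3 : ∀ᶠ δ in nhdsWithin (0 : ℝ) (Ioi 0), δ ∈ Ioo (0 : ℝ) 1 := Ioo_mem_nhdsGT one_pos
  obtain ⟨δ, h4, h5⟩ := (h2.and h3).exists
  exact ⟨δ, h5.1, h5.2, h4⟩


/-- common part of the two counting theorems for `n = 8` -/
theorem count8_core {b ρ δ : ℝ} (hb : 1 ≤ b) (hρ : 0 < ρ) (hδ1 : δ < 1) (i0 : ℕ) {a : ℝ}
    (ha : 0 < a) (hmain : 1 / 2 < a * (ρ * (1 - δ)) ^ 7) :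
    ∀ᶠ k : ℕ in atTop, ∃ (Q : ℕ) (J : ℕ → ℝ),
      (∀ q ≤ Q, meanC b 1 i0 ≤ J q ∧
        2 / 3 * J q + meanC b 1 i0 + q + 3 = ρ * ((1 - δ) * k)) ∧
      ∀ Nn : ℕ → ℕ, (∀ q ≤ Q, a * (2 / 3 * J q) ^ 2 - 1 / 2 * J q ≤ Nn q) →
        (8 + k - 1).choose k + (8 + k - 2).choose (k - 1) <
          ∑ q ∈ Finset.Icc 1 Q, Sph.dimH 6 q * Nn q := by
  set C := meanC b 1 i0 with hC
  have hC1 : 1 ≤ C := meanC_pos hb 1 i0
  set σ : ℝ := ρ * (1 - δ) with hσd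
  have hσ : 0 < σ := mul_pos hρ (by linarith)
  -- `2/3 J q = σ k - (C+3) - q`, with slack `M` so that the quadratic is monotone
  set L : ℕ := ⌈C + 2 / a⌉₊ with hL
  have hLC : C + 2 / a ≤ (L : ℝ) := Nat.le_ceil _
  have ha2 : 0 < 2 / a := by positivity
  have h0 := eventually_gt (a := a) (β := 3 / 4) (E := a * (L : ℝ) ^ 2) (σ := σ) (D := C + 4) ha
    (by norm_num) (by positivity) hσ hmain
  have h1 : ∀ᶠ k : ℕ in atTop, (L : ℝ) + C + 4 < σ * k := by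
    have : Tendsto (fun k : ℕ => σ * (k : ℝ)) atTop atTop :=
      Tendsto.const_mul_atTop hσ tendsto_natCast_atTop_atTop
    exact this.eventually_gt_atTop _
  filter_upwards [h0, h1] with k hk hk1
  have hfl : 0 ≤ σ * k - (C + 3) := by
    have : (0 : ℝ) ≤ L := Nat.cast_nonneg L
    linarith
  set K : ℕ := ⌊σ * k - (C + 3)⌋₊ with hK
  have hK1 : (K : ℝ) ≤ σ * k - (C + 3) := Nat.floor_le hfl
  have hK2 : σ * k - (C + 3) < K + 1 := Nat.lt_floor_add_one _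
  have hLK : L ≤ K := by
    have : (L : ℝ) < K + 1 := by linarith
    have : L < K + 1 := by exact_mod_cast this
    omega
  have hkK := hk K (by linarith) (by linarith)
  refine ⟨K - L, fun q => 3 / 2 * (σ * k - (C + 3) - q), ?_, ?_⟩
  · intro q hq
    have hqr : (q : ℝ) + L ≤ K := by
      have : q + L ≤ K := by omega
      exact_mod_cast this
    refine ⟨by linarith, ?_⟩
    rw [hσd]; ring
  · intro Nn hN
    refine count8_aux ha (by norm_num : (0 : ℝ) ≤ 3 / 4) hLK hkK fun q hq => ?_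
    refine le_trans ?_ (hN q hq)
    have hqr : (q : ℝ) + L ≤ K := by
      have : q + L ≤ K := by omega
      exact_mod_cast this
    -- `x = σ k - (C+3) - q ≥ y = K - q ≥ L`
    set x : ℝ := σ * k - (C + 3) - q with hx
    have hxy : (K : ℝ) - q ≤ x := by linarith
    have hyL : (L : ℝ) ≤ (K : ℝ) - q := by linarith
    have h5 : 2 ≤ a * ((K : ℝ) - q) := by
      have : 2 / a ≤ (K : ℝ) - q := by linarith
      rwa [div_le_iff₀ ha, mul_comm] at this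
    have e1 : (2 : ℝ) / 3 * (3 / 2 * x) = x := by ring
    rw [e1]
    nlinarith [mul_nonneg (sub_nonneg.2 hxy) (sub_nonneg.2 h5),
      mul_nonneg ha.le (mul_nonneg (sub_nonneg.2 hxy) (sub_nonneg.2 hxy))]



end Crest.Agent.R202.Lab
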