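import Crest.Agent.R202.MainDefs
import Crest.Agent.R202.Cnt8
import Crest.Agent.R202.Chain
import Crest.Agent.R202.SphDiv
import Crest.Agent.R202.SecQB
import Crest.Agent.R202.Lim2
import Crest.Agent.R202.GeoCoef
import Crest.Agent.R202.GalDefs
import Crest.Agent.R202.GalODE
import Crest.Agent.R202.SecAfam

-- ▼ part R202/CntData
section

/-!
Row 202, part E: the counting data `CountData` for `n = 3` and `n = 8`.
-/

set_option autoImplicit false

open Set Filter

namespace Crest.Agent.R202.Lab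

theorem meanC_mono' {b : ℝ} (hb : 1 ≤ b) {s s' i i' : ℕ} (h : s ≤ s') (hi : i ≤ i') :
    meanC b s i ≤ meanC b s' i' := by
  unfold meanC
  have h1 : (s : ℝ) ≤ s' := by exact_mod_cast h
  have h2 : (i : ℝ) ≤ i' := by exact_mod_cast hi
  exact mul_le_mul_of_nonneg_left (by linarith) (by positivity)

/-- `count3` with all lower ends `i ≤ i0` of the active window -/
theorem count3_all {v c b ρ : ℝ} (hv : 0 < v) (hc : c < 9 * v / 4) (hb : 1 ≤ b)
    (hbv : b * v ≤ 1) (hρ : 0 < ρ) (hρ2 : ρ ^ 2 = b * v) (i0 : ℕ) :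
    ∃ δ : ℝ, 0 < δ ∧ δ < 1 ∧ ∃ k0 : ℕ, ∀ k : ℕ, k0 ≤ k → ∃ J : ℝ,
      (∀ s q i : ℕ, s ≤ 1 → q ≤ 1 → i ≤ i0 → ∀ e : ℕ → ℕ × ℕ, (∀ i, e i ∈ lab s) →
        StrictMono (fun i => mu b (e i)) → (∀ p ∈ lab s, ∃ i, e i = p) →
        i < (low b s J).card ∧
        ∑ i ∈ Finset.Ico i (low b s J).card, expo 1 ρ (mu b (e i) + q) ≤
          ((1 - δ) * k) * ((low b s J).card - i)) ∧
      c * ((k : ℝ) + 1) ^ 2 + k ≤ 2 * ((low b 0 J).card + (low b 1 J).card) := by
  obtain ⟨δ, hδ0, hδ1, hδ⟩ := exists_delta hc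
  have hb0 : 0 < b := by linarith
  have hρ1 : ρ ≤ 1 := by
    by_contra h
    rw [not_le] at h
    nlinarith
  set C := meanC b 1 i0 with hC
  have hC1 : 1 ≤ C := meanC_pos hb 1 i0
  set α : ℝ := 3 / 2 * (ρ * (1 - δ)) with hα
  set β : ℝ := 3 / 2 * (C + 3 / 2) with hβ
  have hα0 : 0 < α := by
    have : 0 < 1 - δ := by linarith
    positivity
  have hα2 : α ^ 2 / b = 9 * v / 4 * (1 - δ) ^ 2 := by
    have : α ^ 2 = 9 / 4 * (b * v) * (1 - δ) ^ 2 := by rw [hα, ← hρ2]; ring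
    rw [this]; field_simp
  have hA : 0 < 9 * v / 4 * (1 - δ) ^ 2 - c := by linarith
  obtain ⟨x0, hx0, hquad⟩ := exists_quad_ge hA (2 * α * β / b + α + 2 * c + 1) (c - β ^ 2 / b - β)
  obtain ⟨k1, hk1⟩ := exists_nat_ge (max x0 ((β + C) / α))
  refine ⟨δ, hδ0, hδ1, k1, fun k hk => ?_⟩
  have hkr : max x0 ((β + C) / α) ≤ (k : ℝ) := hk1.trans (by exact_mod_cast hk)
  have hkx : x0 ≤ (k : ℝ) := (le_max_left _ _).trans hkr
  have hkJ : C ≤ α * k - β := by
    have := (le_max_right x0 ((β + C) / α)).trans hkr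
    rw [div_le_iff₀ hα0] at this
    linarith
  refine ⟨α * k - β, ?_, ?_⟩
  · intro s q i hs hq hi e he hm hsur
    have hJ : meanC b s i ≤ α * k - β := (meanC_mono' hb hs hi).trans hkJ
    refine ⟨card_low_gt hb s i hJ, ?_⟩
    have hq0 : (0 : ℝ) ≤ (q : ℝ) := Nat.cast_nonneg q
    have hq1 : (q : ℝ) ≤ 1 := by exact_mod_cast hq
    refine (sum_expo_le hb zero_le_one hρ hρ1 hq0 he hm hsur i hJ).trans ?_
    have hcard : (i : ℝ) ≤ (low b s (α * k - β)).card := by
      exact_mod_cast (card_low_gt hb s i hJ).le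
    refine mul_le_mul_of_nonneg_right ?_ (by linarith)
    rw [div_le_iff₀ hρ]
    have h1 : meanC b s i ≤ C := meanC_mono' hb hs hi
    have h2 : 2 / 3 * (α * k - β) = ρ * (1 - δ) * k - (C + 3 / 2) := by rw [hα, hβ]; ring
    rw [h2]
    nlinarith
  · have hJ0 : 0 ≤ α * k - β := by linarith
    have h1 := card_low_ge hb0 0 hJ0
    have h2 := card_low_ge hb0 1 hJ0
    have h3 := hquad k hkx
    have h4 : 2 * (((α * k - β) ^ 2 / (4 * b) - (0 : ℕ) * (α * k - β) / 2) +
        ((α * k - β) ^ 2 / (4 * b) - (1 : ℕ) * (α * k - β) / 2)) =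
        9 * v / 4 * (1 - δ) ^ 2 * (k : ℝ) ^ 2 - (2 * α * β / b + α) * k + β ^ 2 / b + β := by
      rw [← hα2]; push_cast; field_simp; ring
    nlinarith

/-- `count8` with all lower ends `i ≤ i0` of the active window -/
theorem count8_all {v b ρ : ℝ} (hv : 4 / 9 < v) (hb : 1 ≤ b) (hbv : b * v ≤ 1) (hρ : 0 < ρ)
    (hρ7 : ρ ^ 7 = b * v) (i0 : ℕ) :
    ∃ δ : ℝ, 0 < δ ∧ δ < 1 ∧ ∀ᶠ k : ℕ in atTop, ∃ (Q : ℕ) (J : ℕ → ℝ),
      (∀ q s i : ℕ, q ≤ Q → s ≤ 1 → i ≤ i0 → ∀ e : ℕ → ℕ × ℕ, (∀ i, e i ∈ lab s) →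
        StrictMono (fun i => mu b (e i)) → (∀ p ∈ lab s, ∃ i, e i = p) →
        i < (low b s (J q)).card ∧
        ∑ i ∈ Finset.Ico i (low b s (J q)).card, expo 6 ρ (mu b (e i) + q) ≤
          ((1 - δ) * k) * ((low b s (J q)).card - i)) ∧
      (8 + k - 1).choose k + (8 + k - 2).choose (k - 1) <
        ∑ q ∈ Finset.Icc 1 Q, Sph.dimH 6 q * ((low b 0 (J q)).card + (low b 1 (J q)).card) := by
  obtain ⟨δ, hδ0, hδ1, hδ⟩ := exists_delta8 hv
  have hb0 : 0 < b := by linarith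
  have hρ1 : ρ ≤ 1 := by
    by_contra h
    rw [not_le] at h
    have : 1 < ρ ^ 7 := one_lt_pow₀ h (by norm_num)
    linarith
  refine ⟨δ, hδ0, hδ1, ?_⟩
  have hmain : 1 / 2 < 9 / (8 * b) * (ρ * (1 - δ)) ^ 7 := by
    have e1 : 9 / (8 * b) * (ρ * (1 - δ)) ^ 7 = 9 / 8 * (v * (1 - δ) ^ 7) := by
      rw [mul_pow, hρ7]; field_simp
    rw [e1]; linarith
  filter_upwards [count8_core hb hρ hδ1 i0 (a := 9 / (8 * b)) (by positivity) hmain]
    with k hk
  obtain ⟨Q, J, hJ, hcount⟩ := hk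
  refine ⟨Q, J, ?_, hcount _ ?_⟩
  · intro q s i hq hs hi e he hm hsur
    obtain ⟨h1, h2⟩ := hJ q hq
    have hJs : meanC b s i ≤ J q := (meanC_mono' hb hs hi).trans h1
    refine ⟨card_low_gt hb s i hJs, ?_⟩
    refine (sum_expo_le hb (by norm_num) hρ hρ1 (Nat.cast_nonneg q) he hm hsur i hJs).trans ?_
    have hcard : (i : ℝ) ≤ (low b s (J q)).card := by exact_mod_cast (card_low_gt hb s i hJs).le
    refine mul_le_mul_of_nonneg_right ?_ (by linarith)
    rw [div_le_iff₀ hρ]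
    have h3 : meanC b s i ≤ meanC b 1 i0 := meanC_mono' hb hs hi
    linarith
  · intro q hq
    obtain ⟨h1, h2⟩ := hJ q hq
    have hJ0 : 0 ≤ J q := by linarith [meanC_pos hb 1 i0]
    have h3 := card_low_ge hb0 0 hJ0
    have h4 := card_low_ge hb0 1 hJ0
    push_cast at h3 h4 ⊢
    have e1 : 9 / (8 * b) * (2 / 3 * J q) ^ 2 = 2 * (J q ^ 2 / (4 * b)) := by field_simp; ring
    rw [e1]
    linarith

end Crest.Agent.R202.Lab

namespace Crest.Agent.R202.Main
open Crest.Agent.R202.Lab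

theorem sh_le_one (σ : ℕ × ℕ) : sh σ ≤ 1 := by
  unfold sh; split_ifs <;> omega

/-- common choices: `1 < b0 < b1 < 1/v` irrational, enumerations, uniform `I1 ≥ 1` for the cuts -/
theorem exists_base {v : ℝ} (hv : 0 < v) (hv1 : v < 1) :
    ∃ b0 b1 : ℝ, 1 < b0 ∧ b0 < b1 ∧ v * b1 < 1 ∧ Irrational b0 ∧ Irrational b1 ∧
      (∃ e : ℕ → ℕ → ℕ × ℕ, IsEnum b0 e) ∧
      ∃ I1 : ℕ, 1 ≤ I1 ∧ ∀ s, s ≤ 1 → ∀ l, I1 ≤ l → ∃ b, b0 < b ∧ b < b1 ∧ Closed b s l := by
  have h1 : (1 : ℝ) < 1 / v := by rw [lt_div_iff₀ hv]; linarith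
  obtain ⟨b1, hb1, h11, h12⟩ := exists_irrational_btwn h1
  obtain ⟨b0, hb0, h01, h02⟩ := exists_irrational_btwn h11
  have hb0p : 0 < b0 := by linarith
  have hvb : v * b1 < 1 := by
    rw [lt_div_iff₀ hv] at h12; linarith
  refine ⟨b0, b1, h01, h02, hvb, hb0, hb1, ?_, ?_⟩
  · have hex := fun s => exists_enum hb0p hb0 s
    choose e he using hex
    exact ⟨e, fun s _ => he s⟩
  · obtain ⟨j0, hj0⟩ := exists_closed_large hb0p h02 hb0 hb1 0
    obtain ⟨j1, hj1⟩ := exists_closed_large hb0p h02 hb0 hb1 1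
    refine ⟨max 1 (max j0 j1), le_max_left _ _, fun s hs l hl => ?_⟩
    have h3 : j0 ≤ l := ((le_max_left j0 j1).trans (le_max_right _ _)).trans hl
    have h4 : j1 ≤ l := ((le_max_right j0 j1).trans (le_max_right _ _)).trans hl
    interval_cases s
    · obtain ⟨b, hb, hc⟩ := hj0 l h3; exact ⟨b, hb.1, hb.2, hc⟩
    · obtain ⟨b, hb, hc⟩ := hj1 l h4; exact ⟨b, hb.1, hb.2, hc⟩

/-- the cardinality of the index set -/
theorem card_Idx {m : ℕ} {v : ℝ} {k : ℕ} (D : CountData m v k) :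
    Fintype.card (Idx D) = ∑ σ ∈ D.S, Sph.dimH (m + 1) σ.1 * D.N σ := by
  rw [Fintype.card_sigma]
  simp only [Fintype.card_prod, Fintype.card_fin]
  exact Finset.sum_coe_sort D.S (fun σ => Sph.dimH (m + 1) σ.1 * D.N σ)

/-- shift of the summation index -/
theorem sum_shift {f : ℕ → ℝ} {I1 M s : ℕ} (hs : s ≤ 1) (h1 : 1 ≤ I1) (hM : I1 + 1 < M) :
    ∑ c ∈ Finset.Icc (I1 + 1 - s - 1) (M - s - 1), f (c + s) = ∑ i ∈ Finset.Ico I1 M, f i := by
  refine Finset.sum_bij' (fun c _ => c + s) (fun i _ => i - s) ?_ ?_ ?_ ?_ ?_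
  · intro c hc
    rw [Finset.mem_Icc] at hc
    rw [Finset.mem_Ico]
    omega
  · intro i hi
    rw [Finset.mem_Ico] at hi
    rw [Finset.mem_Icc]
    omega
  · intro c _; omega
  · intro i hi
    rw [Finset.mem_Ico] at hi
    omega
  · intro c _; rfl

/-- **counting data for `n = 3`** -/
theorem exists_countData3 {v c : ℝ} (hv : 0 < v) (hv1 : v < 1) (hc : c < 9 * v / 4) :
    ∃ k0 : ℕ, ∀ k : ℕ, k0 ≤ k → ∃ D : CountData 0 v k,
      c * ((k : ℝ) + 1) ^ 2 ≤ (Fintype.card (Idx D) : ℝ) := by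
  obtain ⟨b0, b1, hb0, h01, hvb, hi0, hi1, ⟨e, he⟩, I1, hI1, hcl⟩ := exists_base hv hv1
  have hvb0 : v * b0 ≤ 1 := by nlinarith
  have hvb0p : 0 < v * b0 := by nlinarith
  set ρ : ℝ := (v * b0) ^ ((1 : ℝ) / (((0 : ℕ) : ℝ) + 2)) with hρd
  have hρ : 0 < ρ := Real.rpow_pos_of_pos hvb0p _
  have hρ2 : ρ ^ 2 = b0 * v := by
    rw [hρd, ← Real.rpow_natCast, ← Real.rpow_mul hvb0p.le]
    norm_num
    ring
  obtain ⟨δ, hδ0, hδ1, k0, hk0⟩ := count3_all hv hc hb0.le (by linarith) hρ hρ2 (I1 + 1)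
  refine ⟨max k0 1, fun k hk => ?_⟩
  have hkk : k0 ≤ k := (le_max_left _ _).trans hk
  have hk1 : 1 ≤ k := (le_max_right _ _).trans hk
  obtain ⟨J, hJ, hcount⟩ := hk0 k hkk
  have hM : ∀ s, s ≤ 1 → I1 + 1 < (low b0 s J).card := fun s hs =>
    (hJ s 0 (I1 + 1) hs (by omega) le_rfl (e s) (he s hs).1 (he s hs).2.1 (he s hs).2.2).1
  have hSmem : ∀ σ : ℕ × ℕ, σ ∈ Finset.range 2 ×ˢ Finset.range 2 → σ.1 ≤ 1 ∧ σ.2 ≤ 1 := by
    intro σ hσ
    rw [Finset.mem_product, Finset.mem_range, Finset.mem_range] at hσ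
    omega
  let D : CountData 0 v k :=
    { b0 := b0
      b1 := b1
      e := e
      S := Finset.range 2 ×ˢ Finset.range 2
      i0 := fun σ => I1 + 1 - sh σ
      N := fun σ => (low b0 σ.2 J).card - sh σ
      v_pos := hv
      v_lt := hv1
      b0_gt := hb0
      b01 := h01
      irr0 := hi0
      irr1 := hi1
      vb1 := hvb
      enum := he
      secOK := fun σ hσ => ⟨(hSmem σ hσ).2, fun _ => (hSmem σ hσ).1, fun h => absurd h (by simp)⟩
      i0_pos := fun σ _ => by have := sh_le_one σ; omega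
      S_ne := ⟨(0, 0), by simp⟩
      i0_lt := fun σ hσ => by
        have := sh_le_one σ
        have := hM σ.2 (hSmem σ hσ).2
        omega
      closed := fun σ hσ l hl _ => by
        have := sh_le_one σ
        exact hcl σ.2 (hSmem σ hσ).2 (l + sh σ) (by omega)
      mean := fun σ hσ => by
        have hs := (hSmem σ hσ).2
        have hq := (hSmem σ hσ).1
        have hsh := sh_le_one σ
        have hMs := hM σ.2 hs
        obtain ⟨-, h2⟩ := hJ σ.2 σ.1 I1 hs hq (by omega) (e σ.2) (he _ hs).1 (he _ hs).2.1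
          (he _ hs).2.2
        have h3 : ∀ c, homeExp 0 v b0 e σ c =
            expo 1 ρ (mu b0 (e σ.2 (c + sh σ)) + (σ.1 : ℝ)) := by
          intro c
          unfold homeExp
          rw [hρd]
          norm_num
        simp only [h3]
        rw [sum_shift (f := fun i => expo 1 ρ (mu b0 (e σ.2 i) + (σ.1 : ℝ))) hsh hI1 hMs]
        refine h2.trans_lt ?_
        have e1 : (((low b0 σ.2 J).card - sh σ : ℕ) : ℝ) - ((I1 + 1 - sh σ : ℕ) : ℝ) + 1 =
            (low b0 σ.2 J).card - I1 := by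
          rw [Nat.cast_sub (by omega), Nat.cast_sub (by omega)]
          push_cast; ring
        rw [e1]
        have h4 : (0 : ℝ) < (low b0 σ.2 J).card - I1 := by
          have : (I1 : ℝ) < (low b0 σ.2 J).card := by exact_mod_cast (by omega :
            I1 < (low b0 σ.2 J).card)
          linarith
        have h5 : (1 : ℝ) ≤ k := by exact_mod_cast hk1
        refine mul_lt_mul_of_pos_right ?_ h4
        nlinarith }
  refine ⟨D, ?_⟩
  rw [card_Idx]
  have hd0 : Sph.dimH (0 + 1) 0 = 1 := by decide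
  have hd1 : Sph.dimH (0 + 1) 1 = 1 := by decide
  have hsum : ∑ σ ∈ D.S, Sph.dimH (0 + 1) σ.1 * D.N σ =
      ((low b0 0 J).card - 1) + (low b0 1 J).card + ((low b0 0 J).card + (low b0 1 J).card) := by
    show ∑ σ ∈ Finset.range 2 ×ˢ Finset.range 2, Sph.dimH (0 + 1) σ.1 *
      ((low b0 σ.2 J).card - sh σ) = _
    rw [Finset.sum_product]
    simp only [Finset.sum_range_succ, Finset.sum_range_zero, zero_add, hd0, hd1, one_mul]
    simp [sh]
  rw [hsum]
  have h0 := hM 0 (by omega)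
  have hk1' : (1 : ℝ) ≤ k := by exact_mod_cast hk1
  push_cast [Nat.cast_sub (by omega : 1 ≤ (low b0 0 J).card)]
  linarith

/-- **counting data for `n = 8`** -/
theorem exists_countData8 {v : ℝ} (hv : 4 / 9 < v) (hv1 : v < 1) :
    ∀ᶠ k : ℕ in atTop, ∃ D : CountData 5 v k,
      (8 + k - 1).choose k + (8 + k - 2).choose (k - 1) < Fintype.card (Idx D) := by
  have hv0 : 0 < v := by linarith
  obtain ⟨b0, b1, hb0, h01, hvb, hi0, hi1, ⟨e, he⟩, I1, hI1, hcl⟩ := exists_base hv0 hv1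
  have hvb0 : v * b0 ≤ 1 := by nlinarith
  have hvb0p : 0 < v * b0 := by nlinarith
  set ρ : ℝ := (v * b0) ^ ((1 : ℝ) / (((5 : ℕ) : ℝ) + 2)) with hρd
  have hρ : 0 < ρ := Real.rpow_pos_of_pos hvb0p _
  have hρ7 : ρ ^ 7 = b0 * v := by
    rw [hρd, ← Real.rpow_natCast, ← Real.rpow_mul hvb0p.le]
    norm_num
    ring
  obtain ⟨δ, hδ0, hδ1, hev⟩ := count8_all hv hb0.le (by linarith) hρ hρ7 (I1 + 1)
  filter_upwards [hev, eventually_ge_atTop 1] with k hk hk1
  obtain ⟨Q, J, hJ, hcount⟩ := hk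
  have hQ : 1 ≤ Q := by
    by_contra hQ
    have : Finset.Icc 1 Q = ∅ := Finset.Icc_eq_empty (by omega)
    rw [this, Finset.sum_empty] at hcount
    omega
  have hM : ∀ q s, q ≤ Q → s ≤ 1 → I1 + 1 < (low b0 s (J q)).card := fun q s hq hs =>
    (hJ q s (I1 + 1) hq hs le_rfl (e s) (he s hs).1 (he s hs).2.1 (he s hs).2.2).1
  have hSmem : ∀ σ : ℕ × ℕ, σ ∈ Finset.Icc 1 Q ×ˢ Finset.range 2 →
      1 ≤ σ.1 ∧ σ.1 ≤ Q ∧ σ.2 ≤ 1 ∧ sh σ = 0 := by
    intro σ hσ
    rw [Finset.mem_product, Finset.mem_Icc, Finset.mem_range] at hσ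
    refine ⟨hσ.1.1, hσ.1.2, by omega, ?_⟩
    unfold sh
    rw [if_neg]
    rintro rfl
    simp at hσ
  let D : CountData 5 v k :=
    { b0 := b0
      b1 := b1
      e := e
      S := Finset.Icc 1 Q ×ˢ Finset.range 2
      i0 := fun σ => I1 + 1 - sh σ
      N := fun σ => (low b0 σ.2 (J σ.1)).card - sh σ
      v_pos := hv0
      v_lt := hv1
      b0_gt := hb0
      b01 := h01
      irr0 := hi0
      irr1 := hi1
      vb1 := hvb
      enum := he
      secOK := fun σ hσ => ⟨(hSmem σ hσ).2.2.1, fun h => absurd h (by simp), fun _ => (hSmem σ hσ).1⟩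
      i0_pos := fun σ _ => by have := sh_le_one σ; omega
      S_ne := ⟨(1, 0), by simp [hQ]⟩
      i0_lt := fun σ hσ => by
        have := sh_le_one σ
        have := hM σ.1 σ.2 (hSmem σ hσ).2.1 (hSmem σ hσ).2.2.1
        omega
      closed := fun σ hσ l hl _ => by
        have := sh_le_one σ
        exact hcl σ.2 (hSmem σ hσ).2.2.1 (l + sh σ) (by omega)
      mean := fun σ hσ => by
        have hs := (hSmem σ hσ).2.2.1
        have hq := (hSmem σ hσ).2.1
        have hsh := sh_le_one σ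
        have hMs := hM σ.1 σ.2 hq hs
        obtain ⟨-, h2⟩ := hJ σ.1 σ.2 I1 hq hs (by omega) (e σ.2) (he _ hs).1 (he _ hs).2.1
          (he _ hs).2.2
        have h3 : ∀ c, homeExp 5 v b0 e σ c =
            expo 6 ρ (mu b0 (e σ.2 (c + sh σ)) + (σ.1 : ℝ)) := by
          intro c
          unfold homeExp
          rw [hρd]
          norm_num
        simp only [h3]
        rw [sum_shift (f := fun i => expo 6 ρ (mu b0 (e σ.2 i) + (σ.1 : ℝ))) hsh hI1 hMs]
        refine h2.trans_lt ?_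
        have e1 : (((low b0 σ.2 (J σ.1)).card - sh σ : ℕ) : ℝ) - ((I1 + 1 - sh σ : ℕ) : ℝ) + 1 =
            (low b0 σ.2 (J σ.1)).card - I1 := by
          rw [Nat.cast_sub (by omega), Nat.cast_sub (by omega)]
          push_cast; ring
        rw [e1]
        have h4 : (0 : ℝ) < (low b0 σ.2 (J σ.1)).card - I1 := by
          have : (I1 : ℝ) < (low b0 σ.2 (J σ.1)).card := by exact_mod_cast (by omega :
            I1 < (low b0 σ.2 (J σ.1)).card)
          linarith
        have h5 : (1 : ℝ) ≤ k := by exact_mod_cast hk1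
        refine mul_lt_mul_of_pos_right ?_ h4
        nlinarith }
  refine ⟨D, ?_⟩
  rw [card_Idx]
  refine hcount.trans_le (le_of_eq ?_)
  show _ = ∑ σ ∈ Finset.Icc 1 Q ×ˢ Finset.range 2, Sph.dimH (5 + 1) σ.1 *
      ((low b0 σ.2 (J σ.1)).card - sh σ)
  rw [Finset.sum_product]
  refine Finset.sum_congr rfl fun q hq => ?_
  have hq1 : 1 ≤ q := (Finset.mem_Icc.1 hq).1
  simp only [Finset.sum_range_succ, Finset.sum_range_zero, zero_add]
  have hsh0 : ∀ s, sh (q, s) = 0 := by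
    intro s
    unfold sh
    rw [if_neg]
    intro h
    have : q = 0 := congrArg Prod.fst h
    omega
  rw [hsh0, hsh0, Nat.sub_zero, Nat.sub_zero]
  ring

end Crest.Agent.R202.Main
end

-- ▼ part R202/AsmTop
section

/-!
Row 202, GLUE (helper632): S0309 and S0310 from `MainThm 0` and `MainThm 5`.
-/

set_option autoImplicit false

open scoped ContDiff
open Crest.GeometryTopology.CoordMetric Crest.GeometryTopology.ChartCurvature
open Crest Crest.GeometryTopology

namespace Crest.Agent.R202.Main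

/-- reindexing the functions of `MainThm` by `Fin` -/
theorem MainThm.fin {m : ℕ} (h : MainThm m) {v : ℝ} {k : ℕ} (D : CountData m v k) :
    ∃ g : MetricField (m + 3), GeoOut m v g ∧
      ∃ f : Fin (Fintype.card (Idx D)) → EuclideanSpace ℝ (Fin (m + 3)) → ℝ,
        LinearIndependent ℝ f ∧ ∀ i, IsHarmonicOn g Set.univ (f i) ∧
          ∃ C : ℝ, ∀ x, |f i x| ≤ C * (1 + riemDist g Set.univ 0 x) ^ k := by
  obtain ⟨g, hg, f, hf, hh⟩ := h v k D
  refine ⟨g, hg, fun i => f ((Fintype.equivFin (Idx D)).symm i), ?_, fun i => hh _⟩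
  exact hf.comp _ (Fintype.equivFin (Idx D)).symm.injective

theorem S0309_of_main (h : MainThm 0)
    (v : ℝ) (hv : 4 / 9 < v) (hv' : v < 1) (c : ℝ) (_hc : 1 < c) (hc' : c < 9 * v / 4) :
    ∃ k₀ : ℕ, ∀ k : ℕ, k₀ ≤ k → ∃ g : MetricField 3,
      IsRiemannianOn g Set.univ ∧ IsCompleteOn g Set.univ ∧
      (∃ r : ℝ, 0 < r ∧ ∀ x : EuclideanSpace ℝ (Fin 3), ‖x‖ < r → g x = 1) ∧
      RicciNonnegOn g Set.univ ∧
      (∃ R : ℝ, ∀ x : EuclideanSpace ℝ (Fin 3), R < ‖x‖ →
        ∀ w : EuclideanSpace ℝ (Fin 3), w ≠ 0 → 0 < ∑ i, ∑ j, ricci g x i j * w i * w j) ∧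
      HasAsymptoticVolumeRatio g v ∧
      (∃ p : ℕ → EuclideanSpace ℝ (Fin 3), Filter.Tendsto (fun j => ‖p j‖) Filter.atTop Filter.atTop ∧
        ∀ j, ∃ w : EuclideanSpace ℝ (Fin 3),
          0 < gramDet g (p j) (p j) w ∧ secNumer g (p j) (p j) w < 0) ∧
      ∃ m : ℕ, c * ((k : ℝ) + 1) ^ 2 ≤ m ∧ ∃ f : Fin m → EuclideanSpace ℝ (Fin 3) → ℝ,
        LinearIndependent ℝ f ∧ ∀ i, IsHarmonicOn g Set.univ (f i) ∧
          ∃ C : ℝ, ∀ x, abs (f i x) ≤ C * (1 + riemDist g Set.univ 0 x) ^ k := by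
  obtain ⟨k0, hk⟩ := exists_countData3 (by linarith) hv' hc'
  refine ⟨k0, fun k hk' => ?_⟩
  obtain ⟨D, hD⟩ := hk k hk'
  obtain ⟨g, hg, f, hf, hh⟩ := h.fin D
  exact ⟨g, hg.riem, hg.complete, hg.near_zero, hg.ric_nonneg, hg.ric_pos, hg.avr, hg.neg,
    _, hD, f, hf, hh⟩

theorem S0310_of_main (h : MainThm 5) :
    ∃ n : ℕ, Even n ∧ 8 ≤ n ∧ ∃ k : ℕ, 2 ≤ k ∧ ∃ g : MetricField n,
      IsRiemannianOn g Set.univ ∧ IsCompleteOn g Set.univ ∧
      (∃ r : ℝ, 0 < r ∧ ∀ x : EuclideanSpace ℝ (Fin n), ‖x‖ < r → g x = 1) ∧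
      RicciNonnegOn g Set.univ ∧
      (∃ v : ℝ, 0 < v ∧ v < 1 ∧ HasAsymptoticVolumeRatio g v) ∧
      ∃ m : ℕ, Nat.choose (n + k - 1) k + Nat.choose (n + k - 2) (k - 1) < m ∧
        ∃ f : Fin m → EuclideanSpace ℝ (Fin n) → ℝ,
          LinearIndependent ℝ f ∧ ∀ i, IsHarmonicOn g Set.univ (f i) ∧
            ∃ C : ℝ, ∀ x, abs (f i x) ≤ C * (1 + riemDist g Set.univ 0 x) ^ k := by
  have h1 := exists_countData8 (v := 1 / 2) (by norm_num) (by norm_num)
  obtain ⟨k, ⟨D, hD⟩, hk2⟩ := (h1.and (Filter.eventually_ge_atTop 2)).exists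
  obtain ⟨g, hg, f, hf, hh⟩ := h.fin D
  exact ⟨8, by decide, le_rfl, k, hk2, g, hg.riem, hg.complete, hg.near_zero, hg.ric_nonneg,
    ⟨1 / 2, by norm_num, by norm_num, hg.avr⟩, _, hD, f, hf, hh⟩

end Crest.Agent.R202.Main
end

-- ▼ part R202/BriA
section

/-!
Row 202, BRIDGE (helper778): functions `x ↦ U(log|x|) p(x/|x|)` on `ℝⁿ`, `p` a homogeneous
polynomial: gradient, pairing with a radial coefficient field.
-/

set_option autoImplicit false

open scoped ContDiff RealInnerProductSpace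
open Set Filter Topology MeasureTheory Metric
open Crest.GeometryTopology.CoordMetric
open Crest.Agent.R202.Sph (ev ip qb QB)

namespace Crest.Agent.R202.Bri

variable {n : ℕ}

local notation "EE" => EuclideanSpace ℝ (Fin n)

/-- `U(log|x|) p(x/|x|)` -/
noncomputable def hr (U : ℝ → ℝ) (p : MvPolynomial (Fin n) ℝ) (x : EE) : ℝ :=
  U (Real.log ‖x‖) * ev p (‖x‖⁻¹ • x)

theorem norm_polar {r : ℝ} (hr0 : 0 < r) {z : EE} (hz : ‖z‖ = 1) : ‖r • z‖ = r := by
  rw [norm_smul, Real.norm_eq_abs, abs_of_pos hr0, hz, mul_one]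

theorem polar_ne {r : ℝ} (hr0 : 0 < r) {z : EE} (hz : ‖z‖ = 1) : r • z ≠ 0 := by
  rw [← norm_ne_zero_iff, norm_polar hr0 hz]; exact hr0.ne'

theorem unit_polar {r : ℝ} (hr0 : 0 < r) {z : EE} (hz : ‖z‖ = 1) :
    ‖r • z‖⁻¹ • (r • z) = z := by
  rw [norm_polar hr0 hz, smul_smul, inv_mul_cancel₀ hr0.ne', one_smul]

theorem hr_polar (U : ℝ → ℝ) (p : MvPolynomial (Fin n) ℝ) {r : ℝ} (hr0 : 0 < r) {z : EE}
    (hz : ‖z‖ = 1) : hr U p (r • z) = U (Real.log r) * ev p z := by
  unfold hr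
  rw [unit_polar hr0 hz, norm_polar hr0 hz]

theorem hasFDerivAt_logNorm {x : EE} (hx : x ≠ 0) :
    HasFDerivAt (fun y : EE => Real.log ‖y‖) ((‖x‖ ^ 2)⁻¹ • innerSL ℝ x) x := by
  have hn : ‖x‖ ≠ 0 := norm_ne_zero_iff.2 hx
  have h3 : HasStrictFDerivAt (fun y : EE => ‖y‖ ^ 2) (2 • (innerSL ℝ x)) x :=
    hasStrictFDerivAt_norm_sq x
  have h4 := (h3.hasFDerivAt.log (pow_ne_zero 2 hn)).const_mul (1 / 2 : ℝ)
  have h5 : (fun y : EE => 1 / 2 * Real.log (‖y‖ ^ 2)) = fun y => Real.log ‖y‖ := by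
    funext y
    rw [Real.log_pow]; push_cast; ring
  rw [h5] at h4
  refine h4.congr_fderiv ?_
  rw [two_nsmul, ← two_smul ℝ, smul_smul, smul_smul]
  congr 1
  ring

/-- for `x ≠ 0`, `hr U p x = (U e^{-l ·})(log|x|) p(x)` -/
theorem hr_eq (U : ℝ → ℝ) {p : MvPolynomial (Fin n) ℝ} {l : ℕ} (hp : p.IsHomogeneous l) {x : EE}
    (hx : x ≠ 0) :
    hr U p x = (U (Real.log ‖x‖) * Real.exp (-(l : ℝ) * Real.log ‖x‖)) * ev p x := by
  have hn : 0 < ‖x‖ := norm_pos_iff.2 hx
  unfold hr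
  rw [Sph.ev_smul_arg hp]
  have : Real.exp (-(l : ℝ) * Real.log ‖x‖) = ‖x‖⁻¹ ^ l := by
    rw [inv_pow, neg_mul, Real.exp_neg, Real.exp_nat_mul, Real.exp_log hn]
  rw [this]; ring

theorem ev_pderiv_smul {p : MvPolynomial (Fin n) ℝ} {l : ℕ} (hp : p.IsHomogeneous l)
    (i : Fin n) {r : ℝ} (z : EE) :
    r * ev (MvPolynomial.pderiv i p) (r • z) = r ^ l * ev (MvPolynomial.pderiv i p) z := by
  rcases Nat.eq_zero_or_pos l with h | h
  · subst h
    rw [Sph.pderiv_eq_zero_of_zero hp]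
    simp
  · rw [Sph.ev_smul_arg hp.pderiv, ← mul_assoc, ← pow_succ']
    congr 2; omega

/-- the gradient -/
theorem pderiv_hr {U : ℝ → ℝ} {U' : ℝ} {p : MvPolynomial (Fin n) ℝ} {l : ℕ}
    (hp : p.IsHomogeneous l) {r : ℝ} (hr0 : 0 < r) {z : EE} (hz : ‖z‖ = 1)
    (hU : HasDerivAt U U' (Real.log r)) (i : Fin n) :
    pderiv i (hr U p) (r • z) = r⁻¹ * (U' * ev p z * z i +
      U (Real.log r) * (ev (MvPolynomial.pderiv i p) z - l * ev p z * z i)) := by
  set x : EE := r • z with hx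
  have hx0 : x ≠ 0 := polar_ne hr0 hz
  have hnx : ‖x‖ = r := norm_polar hr0 hz
  have hev : hr U p =ᶠ[𝓝 x] fun y =>
      (U (Real.log ‖y‖) * Real.exp (-(l : ℝ) * Real.log ‖y‖)) * ev p y := by
    filter_upwards [isOpen_compl_singleton.mem_nhds hx0] with y hy
    exact hr_eq U hp hy
  have hlog : HasFDerivAt (fun y : EE => Real.log ‖y‖) ((r ^ 2)⁻¹ • innerSL ℝ x) x := by
    have := hasFDerivAt_logNorm hx0
    rwa [hnx] at this
  have hU2 : HasDerivAt (fun t => U t * Real.exp (-(l : ℝ) * t))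
      (U' * Real.exp (-(l : ℝ) * Real.log r) +
        U (Real.log r) * (Real.exp (-(l : ℝ) * Real.log r) * (-(l : ℝ)))) (Real.log r) := by
    refine hU.mul ?_
    have := ((hasDerivAt_id (Real.log r)).const_mul (-(l : ℝ))).exp
    simpa using this
  rw [← hnx] at hU2
  have h1 := (hU2.comp_hasFDerivAt x hlog).mul (Sph.differentiable_ev p x).hasFDerivAt
  have h2 : fderiv ℝ (hr U p) x = _ := (h1.congr_of_eventuallyEq hev).fderiv
  have hpd : fderiv ℝ (ev p) x (EuclideanSpace.single i 1) = ev (MvPolynomial.pderiv i p) x :=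
    Sph.pderiv_ev p i x
  have hrl : Real.exp (-(l : ℝ) * Real.log r) * r ^ l = 1 := by
    rw [neg_mul, Real.exp_neg, Real.exp_nat_mul, Real.exp_log hr0]
    exact inv_mul_cancel₀ (by positivity)
  have hpx : ev p x = r ^ l * ev p z := Sph.ev_smul_arg hp r z
  have hdx := ev_pderiv_smul hp i (r := r) z
  rw [← hx] at hdx
  have hdx' : ev (MvPolynomial.pderiv i p) x = r⁻¹ * (r ^ l * ev (MvPolynomial.pderiv i p) z) := by
    rw [← hdx, ← mul_assoc, inv_mul_cancel₀ hr0.ne', one_mul]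
  unfold pderiv
  rw [h2]
  simp only [Function.comp_def, add_apply, smul_apply,
    smul_eq_mul, innerSL_apply_apply, EuclideanSpace.inner_single_right, hpd, hnx]
  have hxi : x i = r * z i := by rw [hx]; simp
  simp only [hxi, hpx, hdx', one_mul, conj_trivial]
  generalize Real.exp (-(l : ℝ) * Real.log r) = E at hrl ⊢
  field_simp
  linear_combination (U' * ev p z * z i + U (Real.log r) * ev (MvPolynomial.pderiv i p) z -
    U (Real.log r) * l * ev p z * z i) * hrl

theorem contDiffOn_hr {U : ℝ → ℝ} {k : ℕ∞} (hU : ContDiff ℝ k U) (p : MvPolynomial (Fin n) ℝ) :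
    ContDiffOn ℝ k (hr U p) ({0}ᶜ : Set EE) := by
  have h1 : ContDiffOn ℝ k (fun x : EE => ‖x‖) {0}ᶜ := fun x hx =>
    (contDiffAt_norm ℝ hx).contDiffWithinAt
  have h0 : ∀ x ∈ ({0}ᶜ : Set EE), ‖x‖ ≠ 0 := fun x hx => norm_ne_zero_iff.2 hx
  have h2 : ContDiffOn ℝ k (fun x : EE => Real.log ‖x‖) {0}ᶜ := h1.log h0
  have h3 : ContDiffOn ℝ k (fun x : EE => ‖x‖⁻¹ • x) {0}ᶜ := (h1.inv h0).smul contDiffOn_id
  exact (hU.comp_contDiffOn h2).mul ((Sph.contDiff_ev p).comp_contDiffOn h3)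

theorem differentiableAt_hr {U : ℝ → ℝ} {p : MvPolynomial (Fin n) ℝ} {r : ℝ} (hr0 : 0 < r) {z : EE}
    (hz : ‖z‖ = 1) (hU : DifferentiableAt ℝ U (Real.log r)) :
    DifferentiableAt ℝ (hr U p) (r • z) := by
  have hx0 : r • z ≠ 0 := polar_ne hr0 hz
  have hn0 : ‖r • z‖ ≠ 0 := norm_ne_zero_iff.2 hx0
  have h1 : DifferentiableAt ℝ (fun x : EE => ‖x‖) (r • z) :=
    (contDiffAt_norm (n := 1) ℝ hx0).differentiableAt (by norm_num)
  have h2 : DifferentiableAt ℝ (fun x : EE => Real.log ‖x‖) (r • z) := h1.log hn0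
  have h3 : DifferentiableAt ℝ (fun x : EE => ‖x‖⁻¹ • x) (r • z) :=
    (h1.inv hn0).smul differentiableAt_id
  have hU' : DifferentiableAt ℝ U ((fun x : EE => Real.log ‖x‖) (r • z)) := by
    simpa [norm_polar hr0 hz] using hU
  exact (hU'.comp (r • z) h2).mul ((Sph.differentiable_ev p _).comp (r • z) h3)

/-- Euler on the sphere -/
theorem euler {p : MvPolynomial (Fin n) ℝ} {l : ℕ} (hp : p.IsHomogeneous l) (z : EE) :
    ∑ i, z i * ev (MvPolynomial.pderiv i p) z = l * ev p z := by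
  have h := congrArg (fun q => ev q z) hp.sum_X_mul_pderiv
  simp only [Sph.ev_sum, Sph.ev_mul, Sph.ev_X] at h
  rw [h]
  simp [ev, nsmul_eq_mul]

theorem sum_sq_one {z : EE} (hz : ‖z‖ = 1) : ∑ i, z i * z i = 1 := by
  have := EuclideanSpace.real_norm_sq_eq z
  rw [hz] at this
  simp only [sq] at this
  rw [← this]; ring

end Crest.Agent.R202.Bri
end

-- ▼ part R202/BriB
section

/-!
Row 202, BRIDGE (helper778): pairing `⟨coefF ∇f, ∇g⟩` of functions `U(log|x|) p(x/|x|)` at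
`x = r z`.
-/

set_option autoImplicit false

open scoped ContDiff RealInnerProductSpace
open Set Filter Topology MeasureTheory Metric
open Crest.GeometryTopology.CoordMetric
open Crest.Agent.R202.Sph (ev ip qb QB)
open Crest.Agent.R202.Geo

namespace Crest.Agent.R202.Bri

variable {n m : ℕ}

/-- the tangential dual cross-section at time `t` -/
noncomputable def Bt (θ : ℝ → ℝ) (P : ℝ → ℝ → ℂ → ℝ) (t : ℝ) (z : EuclideanSpace ℝ (Fin (m + 3))) :
    Matrix (Fin (m + 3)) (Fin (m + 3)) ℝ :=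
  (Afam θ P (Real.exp t • z))⁻¹ - outer z

/-- the coefficient field at `x = r z` -/
theorem coefF_polar (s θ : ℝ → ℝ) (P : ℝ → ℝ → ℂ → ℝ) {r : ℝ} (hr0 : 0 < r)
    {z : EuclideanSpace ℝ (Fin (m + 3))} (hz : ‖z‖ = 1) (i j : Fin (m + 3)) :
    coefF s θ P (r • z) i j = Real.exp (-((m : ℝ) + 2) * s (Real.log r)) *
      (z i * z j + Real.exp (2 * s (Real.log r)) * Bt θ P (Real.log r) z i j) := by
  have hx : r • z ≠ 0 := polar_ne hr0 hz
  have hn : ‖r • z‖ = r := norm_polar hr0 hz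
  have hs : sigOf s (r • z) = s (Real.log r) := by simp [sigOf, hx, hn]
  have hf : fixA (Afam θ P) (r • z) = Afam θ P (r • z) := by simp [fixA, hx]
  have hrad : ∀ i j, radP (r • z) i j = z i * z j := by
    intro i j
    rw [radP_apply, hn]
    simp only [PiLp.smul_apply, smul_eq_mul]
    field_simp
  unfold coefF coefR gRInv Bt
  rw [hs, hf, Real.exp_log hr0]
  simp only [Matrix.smul_apply, Matrix.add_apply, Matrix.sub_apply, smul_eq_mul, hrad, outer]
  have : (-(((m + 3 : ℕ) : ℝ) - 1)) = -((m : ℝ) + 2) := by push_cast; ring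
  rw [this]

/-- `∑ B_{il} w_l v_i` is unchanged when multiples of `z` are added to `w, v` -/
theorem sum_tang {B : Matrix (Fin n) (Fin n) ℝ} {z : Fin n → ℝ} (hs : ∀ i j, B i j = B j i)
    (ht : ∀ i, ∑ j, B i j * z j = 0) (w v : Fin n → ℝ) (α γ : ℝ) :
    ∑ i, ∑ j, B i j * (w j + α * z j) * (v i + γ * z i) = ∑ i, ∑ j, B i j * w j * v i := by
  have h1 : ∀ i, ∑ j, B i j * (w j + α * z j) * (v i + γ * z i)
      = (∑ j, B i j * w j) * (v i + γ * z i) := by
    intro i
    have : ∀ j, B i j * (w j + α * z j) * (v i + γ * z i)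
        = B i j * w j * (v i + γ * z i) + (B i j * z j) * (α * (v i + γ * z i)) := fun j => by ring
    rw [Finset.sum_congr rfl fun j _ => this j, Finset.sum_add_distrib, ← Finset.sum_mul,
      ← Finset.sum_mul, ht i]
    ring
  rw [Finset.sum_congr rfl fun i _ => h1 i]
  have h2 : ∀ i, (∑ j, B i j * w j) * (v i + γ * z i)
      = (∑ j, B i j * w j * v i) + γ * ((∑ j, B i j * w j) * z i) := by
    intro i; rw [← Finset.sum_mul]; ring
  rw [Finset.sum_congr rfl fun i _ => h2 i, Finset.sum_add_distrib, ← Finset.mul_sum]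
  have h3 : ∑ i, (∑ j, B i j * w j) * z i = 0 := by
    simp only [Finset.sum_mul]
    rw [Finset.sum_comm]
    refine Finset.sum_eq_zero fun j _ => ?_
    have : ∀ i, B i j * w j * z i = (B j i * z i) * w j := fun i => by rw [hs]; ring
    rw [Finset.sum_congr rfl fun i _ => this i, ← Finset.sum_mul, ht j, zero_mul]
  rw [h3]; ring

/-- **the pairing at `x = r z`** -/
theorem Q_hr {s θ : ℝ → ℝ} {P : ℝ → ℝ → ℂ → ℝ} {r : ℝ} (hr0 : 0 < r)
    {z : EuclideanSpace ℝ (Fin (m + 3))} (hz : ‖z‖ = 1)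
    (hBs : ∀ i j, Bt θ P (Real.log r) z i j = Bt θ P (Real.log r) z j i)
    (hBt : ∀ i, ∑ j, Bt θ P (Real.log r) z i j * z j = 0)
    {f g : EuclideanSpace ℝ (Fin (m + 3)) → ℝ} {U Ψ : ℝ}
    {wf wg : Fin (m + 3) → ℝ}
    (hf : ∀ i, pderiv i f (r • z) = r⁻¹ * (U * z i + wf i)) (hwf : ∑ i, wf i * z i = 0)
    (hg : ∀ i, pderiv i g (r • z) = r⁻¹ * (Ψ * z i + wg i)) (hwg : ∑ i, wg i * z i = 0) :
    Lim.Q (coefF s θ P) f g (r • z) = Real.exp (-((m : ℝ) + 2) * s (Real.log r)) * r⁻¹ ^ 2 *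
      (U * Ψ + Real.exp (2 * s (Real.log r)) *
        ∑ i, ∑ j, Bt θ P (Real.log r) z i j * wf j * wg i) := by
  unfold Lim.Q
  set c := Real.exp (-((m : ℝ) + 2) * s (Real.log r)) with hc
  set e := Real.exp (2 * s (Real.log r)) with he
  set B := Bt θ P (Real.log r) z with hB
  have h1 : ∀ i l, coefF s θ P (r • z) i l * pderiv l f (r • z) * pderiv i g (r • z)
      = c * r⁻¹ ^ 2 * ((z l * (U * z l + wf l)) * (z i * (Ψ * z i + wg i)) +
        e * (B i l * (wf l + U * z l) * (wg i + Ψ * z i))) := by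
    intro i l
    rw [coefF_polar s θ P hr0 hz, hf, hg]
    ring
  have h2 : ∑ l, z l * (U * z l + wf l) = U := by
    have : ∀ l, z l * (U * z l + wf l) = U * (z l * z l) + wf l * z l := fun l => by ring
    rw [Finset.sum_congr rfl fun l _ => this l, Finset.sum_add_distrib, ← Finset.mul_sum,
      sum_sq_one hz, hwf]; ring
  have h3 : ∑ i, z i * (Ψ * z i + wg i) = Ψ := by
    have : ∀ l, z l * (Ψ * z l + wg l) = Ψ * (z l * z l) + wg l * z l := fun l => by ring
    rw [Finset.sum_congr rfl fun l _ => this l, Finset.sum_add_distrib, ← Finset.mul_sum,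
      sum_sq_one hz, hwg]; ring
  rw [Finset.sum_congr rfl fun i _ => Finset.sum_congr rfl fun l _ => h1 i l]
  simp only [← Finset.mul_sum, Finset.sum_add_distrib]
  rw [sum_tang hBs hBt wf wg U Ψ]
  congr 2
  simp only [← Finset.sum_mul]
  rw [h2, ← Finset.mul_sum, h3]

/-- tangential part of the gradient of `p` -/
noncomputable def tg (p : MvPolynomial (Fin n) ℝ) (l : ℕ) (z : EuclideanSpace ℝ (Fin n))
    (i : Fin n) : ℝ := ev (MvPolynomial.pderiv i p) z - l * ev p z * z i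

theorem tg_tang {p : MvPolynomial (Fin n) ℝ} {l : ℕ} (hp : p.IsHomogeneous l)
    {z : EuclideanSpace ℝ (Fin n)} (hz : ‖z‖ = 1) : ∑ i, tg p l z i * z i = 0 := by
  have h : ∀ i, tg p l z i * z i = z i * ev (MvPolynomial.pderiv i p) z - l * ev p z * (z i * z i) :=
    fun i => by unfold tg; ring
  rw [Finset.sum_congr rfl fun i _ => h i, Finset.sum_sub_distrib, ← Finset.mul_sum, euler hp z,
    sum_sq_one hz]; ring

theorem sum_tg {B : Matrix (Fin n) (Fin n) ℝ} {z : EuclideanSpace ℝ (Fin n)}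
    (hs : ∀ i j, B i j = B j i) (ht : ∀ i, ∑ j, B i j * z j = 0)
    (p h : MvPolynomial (Fin n) ℝ) (l k : ℕ) :
    ∑ i, ∑ j, B i j * tg p l z j * tg h k z i
      = ∑ i, ∑ j, B i j * ev (MvPolynomial.pderiv i p) z * ev (MvPolynomial.pderiv j h) z := by
  have h1 := sum_tang hs ht (fun j => ev (MvPolynomial.pderiv j p) z)
    (fun i => ev (MvPolynomial.pderiv i h) z) (-(l * ev p z)) (-(k * ev h z))
  have h2 : ∑ i, ∑ j, B i j * tg p l z j * tg h k z i
      = ∑ i, ∑ j, B i j * (ev (MvPolynomial.pderiv j p) z + -(l * ev p z) * z j) *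
        (ev (MvPolynomial.pderiv i h) z + -(k * ev h z) * z i) := by
    refine Finset.sum_congr rfl fun i _ => Finset.sum_congr rfl fun j _ => ?_
    unfold tg; ring
  rw [h2, h1, Finset.sum_comm]
  refine Finset.sum_congr rfl fun i _ => Finset.sum_congr rfl fun j _ => ?_
  rw [hs]

end Crest.Agent.R202.Bri
end

-- ▼ part R202/BriC
section

/-!
Row 202, BRIDGE (helper778): the Galerkin function `F(x) = ∑ u_i(log|x|) p_i(x/|x|)` on `ℝ^{m+3}`;
definition of the data, gradient, slices over spheres.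
-/

set_option autoImplicit false

open scoped ContDiff RealInnerProductSpace
open Set Filter Topology MeasureTheory Metric
open Crest.GeometryTopology.CoordMetric
open Crest.Agent.R202.Sph (ev ip qb QB SecForm)
open Crest.Agent.R202.Geo (Fam coefF Afam outer)

namespace Crest.Agent.R202.Bri

variable {n m N D : ℕ}

/-- the function `x ↦ ∑ u_i(log|x|) p_i(x/|x|)` -/
noncomputable def Ff (p : Fin N → MvPolynomial (Fin n) ℝ) (u : ℝ → EuclideanSpace ℝ (Fin N))
    (x : EuclideanSpace ℝ (Fin n)) : ℝ := ∑ i, u (Real.log ‖x‖) i * ev (p i) (‖x‖⁻¹ • x)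

/-- Data: sector basis, Galerkin coefficients. -/
structure BData (m : ℕ) (s θ : ℝ → ℝ) (P : ℝ → ℝ → ℂ → ℝ) (t0 X0 X1 : ℝ) {N : ℕ}
    (p : Fin N → MvPolynomial (Fin (m + 3)) ℝ) (l : Fin N → ℕ) (D : ℕ)
    (C : Gal.Coef (EuclideanSpace ℝ (Fin N))) : Prop where
  fam : Fam s θ P t0 X0 X1
  homog : ∀ i, (p i).IsHomogeneous (l i)
  l_pos : ∀ i, 1 ≤ l i
  harm : ∀ i, Sph.lap (m + 3) (p i) = 0
  secB : ∀ t, SecForm (m := m) (Bt θ P t)
  compl : ∀ h : MvPolynomial (Fin (m + 3)) ℝ, h.totalDegree ≤ D →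
    ∀ B, SecForm (m := m) B → ∀ i, QB B (p i) h = ∑ j, ip (p j) h * QB B (p i) (p j)
  t0_eq : C.t0 = t0
  K_eq : ∀ t x i, C.K t x i = Real.exp (2 * s t) * ∑ j, QB (Bt θ P t) (p i) (p j) * x j
  b_eq : ∀ t, C.b t = ((m : ℝ) + 1) - ((m : ℝ) + 2) * deriv s t
  L_eq : ∀ x i, C.L0 x i = l i * x i

theorem Ff_eq (p : Fin N → MvPolynomial (Fin n) ℝ) (u : ℝ → EuclideanSpace ℝ (Fin N))
    (x : EuclideanSpace ℝ (Fin n)) : Ff p u x = ∑ i, hr (fun t => u t i) (p i) x := rfl

theorem Ff_polar (p : Fin N → MvPolynomial (Fin n) ℝ) (u : ℝ → EuclideanSpace ℝ (Fin N))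
    {r : ℝ} (hr0 : 0 < r) {z : EuclideanSpace ℝ (Fin n)} (hz : ‖z‖ = 1) :
    Ff p u (r • z) = ∑ i, u (Real.log r) i * ev (p i) z := by
  rw [Ff_eq]
  exact Finset.sum_congr rfl fun i _ => hr_polar _ _ hr0 hz

theorem hasDerivAt_coord {u : ℝ → EuclideanSpace ℝ (Fin N)} {v : EuclideanSpace ℝ (Fin N)} {t : ℝ}
    (h : HasDerivAt u v t) (i : Fin N) : HasDerivAt (fun t => u t i) (v i) t :=
  (EuclideanSpace.proj (𝕜 := ℝ) i).hasFDerivAt.comp_hasDerivAt t h

theorem pderiv_Ff {p : Fin N → MvPolynomial (Fin n) ℝ} {l : Fin N → ℕ}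
    (hp : ∀ i, (p i).IsHomogeneous (l i)) {u : ℝ → EuclideanSpace ℝ (Fin N)}
    {v : EuclideanSpace ℝ (Fin N)} {r : ℝ} (hr0 : 0 < r) {z : EuclideanSpace ℝ (Fin n)}
    (hz : ‖z‖ = 1) (hu : HasDerivAt u v (Real.log r)) (i : Fin n) :
    pderiv i (Ff p u) (r • z) = r⁻¹ * ((∑ j, v j * ev (p j) z) * z i +
      ∑ j, u (Real.log r) j * tg (p j) (l j) z i) := by
  have h1 : pderiv i (Ff p u) (r • z) = ∑ j, pderiv i (hr (fun t => u t j) (p j)) (r • z) := by
    unfold pderiv
    have : Ff p u = fun x => ∑ j, hr (fun t => u t j) (p j) x := by funext x; rfl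
    rw [this, fderiv_fun_sum fun j _ => differentiableAt_hr hr0 hz
      (hasDerivAt_coord hu j).differentiableAt]
    simp
  rw [h1, Finset.sum_mul, ← Finset.sum_add_distrib, Finset.mul_sum]
  refine Finset.sum_congr rfl fun j _ => ?_
  rw [pderiv_hr (hp j) hr0 hz (hasDerivAt_coord hu j) i]
  unfold tg; ring

/-- test functions `χ(|x|) h(x)` -/
theorem pderiv_test {χ : ℝ → ℝ} {h : MvPolynomial (Fin n) ℝ} {k : ℕ} (hh : h.IsHomogeneous k)
    {ψ' r : ℝ} (hr0 : 0 < r) {z : EuclideanSpace ℝ (Fin n)} (hz : ‖z‖ = 1)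
    (hψ : HasDerivAt (fun t => χ (Real.exp t) * Real.exp (k * t)) ψ' (Real.log r)) (i : Fin n) :
    pderiv i (fun x => χ ‖x‖ * ev h x) (r • z) = r⁻¹ * ((ψ' * ev h z) * z i +
      (χ r * r ^ k) * tg h k z i) := by
  have hx0 : r • z ≠ 0 := polar_ne hr0 hz
  have he : (fun x => χ ‖x‖ * ev h x) =ᶠ[𝓝 (r • z)]
      hr (fun t => χ (Real.exp t) * Real.exp (k * t)) h := by
    filter_upwards [isOpen_compl_singleton.mem_nhds hx0] with y hy
    have hy0 : 0 < ‖y‖ := norm_pos_iff.2 hy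
    unfold hr
    show _ = χ (Real.exp (Real.log ‖y‖)) * Real.exp (k * Real.log ‖y‖) * ev h (‖y‖⁻¹ • y)
    rw [Sph.ev_smul_arg hh, Real.exp_nat_mul, Real.exp_log hy0, inv_pow]
    field_simp
  have h1 : pderiv i (fun x => χ ‖x‖ * ev h x) (r • z)
      = pderiv i (hr (fun t => χ (Real.exp t) * Real.exp (k * t)) h) (r • z) := by
    unfold pderiv; rw [he.fderiv_eq]
  rw [h1, pderiv_hr hh hr0 hz hψ i]
  have h2 : Real.exp ((k : ℝ) * Real.log r) = r ^ k := by
    rw [Real.exp_nat_mul, Real.exp_log hr0]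
  rw [h2, Real.exp_log hr0]
  unfold tg; ring

theorem QB_symm {B : EuclideanSpace ℝ (Fin (m + 3)) → Matrix (Fin (m + 3)) (Fin (m + 3)) ℝ}
    (hB : SecForm B) (p h : MvPolynomial (Fin (m + 3)) ℝ) : QB B p h = QB B h p := by
  unfold QB
  refine integral_congr_ae (Eventually.of_forall fun z => ?_)
  show qb B p h z = qb B h p z
  unfold qb
  rw [Finset.sum_comm]
  refine Finset.sum_congr rfl fun i _ => Finset.sum_congr rfl fun j _ => ?_
  rw [hB.symm z z.2 j i]; ring

theorem continuous_qb {B : EuclideanSpace ℝ (Fin (m + 3)) → Matrix (Fin (m + 3)) (Fin (m + 3)) ℝ}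
    (hB : SecForm B) (p h : MvPolynomial (Fin (m + 3)) ℝ) :
    Continuous fun z : SphDiv.Sph (m + 3) => qb B p h z := by
  unfold qb
  refine continuous_finsetSum _ fun i _ => continuous_finsetSum _ fun j _ => ?_
  have h1 : Continuous fun z : SphDiv.Sph (m + 3) => B z i j :=
    (continuousOn_iff_continuous_domRestrict.1 (hB.cont i j))
  exact (h1.mul ((Sph.continuous_ev _).comp continuous_subtype_val)).mul
    ((Sph.continuous_ev _).comp continuous_subtype_val)

theorem integrable_qb {B : EuclideanSpace ℝ (Fin (m + 3)) → Matrix (Fin (m + 3)) (Fin (m + 3)) ℝ}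
    (hB : SecForm B) (p h : MvPolynomial (Fin (m + 3)) ℝ) :
    Integrable (fun z : SphDiv.Sph (m + 3) => qb B p h z) (SphDiv.sig (m + 3)) :=
  (continuous_qb hB p h).integrable_of_hasCompactSupport (HasCompactSupport.of_compactSpace _)

theorem integrable_ev2 (p h : MvPolynomial (Fin n) ℝ) :
    Integrable (fun z : SphDiv.Sph n => ev p z * ev h z) (SphDiv.sig n) :=
  (((Sph.continuous_ev p).comp continuous_subtype_val).mul
    ((Sph.continuous_ev h).comp continuous_subtype_val)).integrable_of_hasCompactSupport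
    (HasCompactSupport.of_compactSpace _)

section slice

variable {s θ : ℝ → ℝ} {P : ℝ → ℝ → ℂ → ℝ} {t0 X0 X1 : ℝ}
  {p : Fin N → MvPolynomial (Fin (m + 3)) ℝ} {l : Fin N → ℕ}
  {C : Gal.Coef (EuclideanSpace ℝ (Fin N))}

/-- the integral over the sphere of radius `r` -/
theorem slice (d : BData m s θ P t0 X0 X1 p l D C) {u : ℝ → EuclideanSpace ℝ (Fin N)}
    {v : EuclideanSpace ℝ (Fin N)} {χ : ℝ → ℝ} {h : MvPolynomial (Fin (m + 3)) ℝ} {k : ℕ}
    (hh : h.IsHomogeneous k) (hD : h.totalDegree ≤ D) {ψ' r : ℝ} (hr0 : 0 < r)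
    (hu : HasDerivAt u v (Real.log r))
    (hψ : HasDerivAt (fun t => χ (Real.exp t) * Real.exp (k * t)) ψ' (Real.log r)) :
    ∫ z : SphDiv.Sph (m + 3), Lim.Q (coefF s θ P) (Ff p u) (fun x => χ ‖x‖ * ev h x)
      (r • (z : EuclideanSpace ℝ (Fin (m + 3)))) ∂(SphDiv.sig (m + 3))
      = Real.exp (-((m : ℝ) + 2) * s (Real.log r)) * r⁻¹ ^ 2 *
        (ψ' * (∑ j, v j * ip (p j) h) +
          (χ r * r ^ k) * ∑ j, C.K (Real.log r) (u (Real.log r)) j * ip (p j) h) := by
  set B := Bt (m := m) θ P (Real.log r) with hBdef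
  have hB : SecForm B := d.secB _
  set e := Real.exp (2 * s (Real.log r)) with he
  set c := Real.exp (-((m : ℝ) + 2) * s (Real.log r)) with hc
  have hpt : ∀ z : SphDiv.Sph (m + 3), Lim.Q (coefF s θ P) (Ff p u) (fun x => χ ‖x‖ * ev h x)
      (r • (z : EuclideanSpace ℝ (Fin (m + 3)))) = ∑ j, (c * r⁻¹ ^ 2 * ψ' * v j *
        (ev (p j) z * ev h z) + c * r⁻¹ ^ 2 * e * (χ r * r ^ k) * u (Real.log r) j *
          qb B (p j) h z) := by
    intro z
    have hz : ‖(z : EuclideanSpace ℝ (Fin (m + 3)))‖ = 1 := by simp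
    have hBs : ∀ i j, B z i j = B z j i := hB.symm z z.2
    have hBt : ∀ i, ∑ j, B z i j * (z : EuclideanSpace ℝ (Fin (m + 3))) j = 0 := hB.tang z z.2
    have w1 : ∑ i, (∑ j, u (Real.log r) j * tg (p j) (l j) z i) *
        (z : EuclideanSpace ℝ (Fin (m + 3))) i = 0 := by
      simp only [Finset.sum_mul]
      rw [Finset.sum_comm]
      refine Finset.sum_eq_zero fun j _ => ?_
      have : ∀ i, u (Real.log r) j * tg (p j) (l j) z i * (z : EuclideanSpace ℝ (Fin (m + 3))) i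
          = u (Real.log r) j * (tg (p j) (l j) z i * (z : EuclideanSpace ℝ (Fin (m + 3))) i) :=
        fun i => by ring
      rw [Finset.sum_congr rfl fun i _ => this i, ← Finset.mul_sum, tg_tang (d.homog j) hz, mul_zero]
    have w2 : ∑ i, ((χ r * r ^ k) * tg h k z i) * (z : EuclideanSpace ℝ (Fin (m + 3))) i = 0 := by
      have : ∀ i, ((χ r * r ^ k) * tg h k z i) * (z : EuclideanSpace ℝ (Fin (m + 3))) i
          = (χ r * r ^ k) * (tg h k z i * (z : EuclideanSpace ℝ (Fin (m + 3))) i) :=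
        fun i => by ring
      rw [Finset.sum_congr rfl fun i _ => this i, ← Finset.mul_sum, tg_tang hh hz, mul_zero]
    rw [Q_hr (s := s) hr0 hz hBs hBt (fun i => pderiv_Ff d.homog hr0 hz hu i) w1
      (fun i => pderiv_test hh hr0 hz hψ i) w2]
    have h3 : ∑ i, ∑ i', B z i i' * (∑ j, u (Real.log r) j * tg (p j) (l j) z i') *
        ((χ r * r ^ k) * tg h k z i) = ∑ j, (χ r * r ^ k) * u (Real.log r) j * qb B (p j) h z := by
      have h4 : ∀ i i', B z i i' * (∑ j, u (Real.log r) j * tg (p j) (l j) z i') *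
          ((χ r * r ^ k) * tg h k z i) = ∑ j, (χ r * r ^ k) * u (Real.log r) j *
            (B z i i' * tg (p j) (l j) z i' * tg h k z i) := by
        intro i i'
        rw [Finset.mul_sum, Finset.sum_mul]
        exact Finset.sum_congr rfl fun j _ => by ring
      simp only [h4]
      have h5 : ∀ i, ∑ i', ∑ j, (χ r * r ^ k) * u (Real.log r) j *
            (B z i i' * tg (p j) (l j) z i' * tg h k z i) = ∑ j, ∑ i', (χ r * r ^ k) *
            u (Real.log r) j * (B z i i' * tg (p j) (l j) z i' * tg h k z i) :=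
        fun i => Finset.sum_comm
      simp only [h5]
      rw [Finset.sum_comm]
      refine Finset.sum_congr rfl fun j _ => ?_
      simp only [← Finset.mul_sum]
      rw [sum_tg hBs hBt (p j) h (l j) k]
      rfl
    rw [h3]
    simp only [Finset.sum_mul, Finset.mul_sum, ← Finset.sum_add_distrib, mul_add]
    refine Finset.sum_congr rfl fun j _ => ?_
    ring
  have hi1 : ∀ j ∈ (Finset.univ : Finset (Fin N)), Integrable (fun z : SphDiv.Sph (m + 3) =>
      c * r⁻¹ ^ 2 * ψ' * v j * (ev (p j) z * ev h z) +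
        c * r⁻¹ ^ 2 * e * (χ r * r ^ k) * u (Real.log r) j * qb B (p j) h z)
      (SphDiv.sig (m + 3)) := fun j _ =>
    ((integrable_ev2 (p j) h).const_mul _).add ((integrable_qb hB (p j) h).const_mul _)
  rw [integral_congr_ae (Eventually.of_forall hpt), integral_finsetSum _ hi1]
  have hint : ∀ j, ∫ z : SphDiv.Sph (m + 3), (c * r⁻¹ ^ 2 * ψ' * v j *
        (ev (p j) z * ev h z) + c * r⁻¹ ^ 2 * e * (χ r * r ^ k) * u (Real.log r) j *
          qb B (p j) h z) ∂(SphDiv.sig (m + 3)) = c * r⁻¹ ^ 2 * ψ' * v j * ip (p j) h +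
          c * r⁻¹ ^ 2 * e * (χ r * r ^ k) * u (Real.log r) j * QB B (p j) h := by
    intro j
    rw [integral_add ((integrable_ev2 (p j) h).const_mul _)
      ((integrable_qb hB (p j) h).const_mul _), integral_const_mul, integral_const_mul]
    congr 2
    unfold ip Sph.sph
    refine integral_congr_ae (Eventually.of_forall fun z => ?_)
    show ev (p j) z * ev h z = ev (p j * h) z
    rw [Sph.ev_mul]
  rw [Finset.sum_congr rfl fun j _ => hint j]
  -- completeness
  have hK : ∑ j, C.K (Real.log r) (u (Real.log r)) j * ip (p j) h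
      = ∑ j, e * u (Real.log r) j * QB B (p j) h := by
    have h1 : ∀ j, C.K (Real.log r) (u (Real.log r)) j * ip (p j) h
        = ∑ i, e * u (Real.log r) i * (ip (p j) h * QB B (p i) (p j)) := by
      intro j
      rw [d.K_eq, Finset.mul_sum, Finset.sum_mul]
      refine Finset.sum_congr rfl fun i _ => ?_
      rw [QB_symm hB (p j) (p i)]; ring
    rw [Finset.sum_congr rfl fun j _ => h1 j, Finset.sum_comm]
    refine Finset.sum_congr rfl fun i _ => ?_
    rw [← Finset.mul_sum, d.compl h hD B hB i]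
  rw [hK]
  simp only [Finset.mul_sum, mul_add, ← Finset.sum_add_distrib]
  refine Finset.sum_congr rfl fun j _ => ?_
  ring

end slice

end Crest.Agent.R202.Bri
end

-- ▼ part R202/BriD
section

/-!
Row 202, BRIDGE (helper778): the weak equation of the Galerkin function against the test functions
`χ(|x|) h(x)`, `deg h ≤ D`.
-/

set_option autoImplicit false

open scoped ContDiff RealInnerProductSpace
open Set Filter Topology MeasureTheory Metric
open Crest.GeometryTopology.CoordMetric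
open Crest.Agent.R202.Sph (ev ip qb QB SecForm)
open Crest.Agent.R202.Geo (Fam coefF Afam outer)

namespace Crest.Agent.R202.Bri

variable {n m N D : ℕ} {s θ : ℝ → ℝ} {P : ℝ → ℝ → ℂ → ℝ} {t0 X0 X1 : ℝ}
  {p : Fin N → MvPolynomial (Fin (m + 3)) ℝ} {l : Fin N → ℕ}
  {C : Gal.Coef (EuclideanSpace ℝ (Fin N))} {u v : ℝ → EuclideanSpace ℝ (Fin N)}

/-- the radial integral -/
theorem radial_zero (χ : ℝ → ℝ) (hχ : ContDiff ℝ ∞ χ) (hχc : HasCompactSupport χ)
    (hχs : tsupport χ ⊆ Ioi 0) (k : ℕ) {w L b LK : ℝ → ℝ}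
    (hw : ∀ t, HasDerivAt w (b t * w t) t) (hL : ∀ t, HasDerivAt L (LK t - b t * L t) t)
    (hLK : Continuous LK) :
    ∫ r in Ioi (0 : ℝ), (w (Real.log r) * (deriv (fun t => χ (Real.exp t) * Real.exp (k * t))
      (Real.log r) * L (Real.log r) + χ r * r ^ k * LK (Real.log r))) * r⁻¹ = 0 := by
  set ψ : ℝ → ℝ := fun t => χ (Real.exp t) * Real.exp (k * t) with hψ
  have hψs : ContDiff ℝ ∞ ψ :=
    (hχ.comp Real.contDiff_exp).mul (Real.contDiff_exp.comp (contDiff_const.mul contDiff_id))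
  have hψd : ∀ t, HasDerivAt ψ (deriv ψ t) t := fun t =>
    (hψs.differentiable (by norm_num) t).hasDerivAt
  have hψc : Continuous (deriv ψ) := hψs.continuous_deriv (by norm_num)
  have hψr : ∀ r : ℝ, 0 < r → ψ (Real.log r) = χ r * r ^ k := by
    intro r hr
    show χ (Real.exp (Real.log r)) * Real.exp (k * Real.log r) = _
    rw [Real.exp_log hr, Real.exp_nat_mul, Real.exp_log hr]
  have hwc : Continuous w := continuous_iff_continuousAt.2 fun t => (hw t).continuousAt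
  have hLc : Continuous L := continuous_iff_continuousAt.2 fun t => (hL t).continuousAt
  -- support
  obtain ⟨a, b', ha, hab⟩ : ∃ a b' : ℝ, 0 < a ∧ tsupport χ ⊆ Icc a b' := by
    rcases (tsupport χ).eq_empty_or_nonempty with he | hne
    · exact ⟨1, 1, one_pos, by rw [he]; exact empty_subset _⟩
    · have hc : IsCompact (tsupport χ) := hχc
      refine ⟨sInf (tsupport χ), sSup (tsupport χ), hχs (hc.sInf_mem hne), fun x hx => ?_⟩
      exact ⟨csInf_le hc.bddBelow hx, le_csSup hc.bddAbove hx⟩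
  have hz : ∀ r : ℝ, r ∉ Icc a b' → χ =ᶠ[𝓝 r] fun _ => 0 := fun r hr =>
    notMem_tsupport_iff_eventuallyEq.1 fun h => hr (hab h)
  have hz0 : ∀ r : ℝ, r ∉ Icc a b' → χ r = 0 := fun r hr => (hz r hr).eq_of_nhds
  have hzd : ∀ r : ℝ, 0 < r → r ∉ Icc a b' → deriv ψ (Real.log r) = 0 := by
    intro r hr0 hr
    have h1 : ψ =ᶠ[𝓝 (Real.log r)] fun _ => 0 := by
      have h2 : Tendsto Real.exp (𝓝 (Real.log r)) (𝓝 r) := by
        have := Real.continuous_exp.tendsto (Real.log r)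
        rwa [Real.exp_log hr0] at this
      filter_upwards [h2.eventually (hz r hr)] with t ht
      simp only [hψ]; rw [ht, zero_mul]
    rw [h1.deriv_eq, deriv_const]
  set f : ℝ → ℝ := fun r => (χ r * r ^ k) * (w (Real.log r) * L (Real.log r)) with hf
  set f' : ℝ → ℝ := fun r => (w (Real.log r) * (deriv ψ (Real.log r) * L (Real.log r) +
    χ r * r ^ k * LK (Real.log r))) * r⁻¹ with hf'
  have hderiv : ∀ r ∈ Ioi (0 : ℝ), HasDerivAt f (f' r) r := by
    intro r hr
    have hr0 : (0 : ℝ) < r := hr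
    have h1 : HasDerivAt (fun t => ψ t * (w t * L t))
        (deriv ψ (Real.log r) * (w (Real.log r) * L (Real.log r)) + ψ (Real.log r) *
          ((b (Real.log r) * w (Real.log r)) * L (Real.log r) + w (Real.log r) *
            (LK (Real.log r) - b (Real.log r) * L (Real.log r)))) (Real.log r) :=
      (hψd _).mul ((hw _).mul (hL _))
    have h2 := h1.comp r (Real.hasDerivAt_log hr0.ne')
    have h3 : f =ᶠ[𝓝 r] (fun t => ψ t * (w t * L t)) ∘ Real.log := by
      filter_upwards [Ioi_mem_nhds hr0] with y hy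
      simp only [hf, Function.comp]
      rw [hψr y hy]
    refine (h2.congr_of_eventuallyEq h3).congr_deriv ?_
    simp only [hf']
    rw [hψr r hr0]; ring
  have hcont : ContinuousOn f' (Ioi 0) := by
    have hlog : ContinuousOn Real.log (Ioi (0 : ℝ)) :=
      Real.continuousOn_log.mono fun x hx => (ne_of_gt hx : x ≠ 0)
    have h1 : ∀ {g : ℝ → ℝ}, Continuous g → ContinuousOn (fun r => g (Real.log r)) (Ioi (0 : ℝ)) :=
      fun hg => hg.comp_continuousOn hlog
    have hinv : ContinuousOn (fun r : ℝ => r⁻¹) (Ioi 0) :=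
      continuousOn_inv₀.mono fun x hx => (ne_of_gt hx : x ≠ 0)
    exact ((h1 hwc).mul (((h1 hψc).mul (h1 hLc)).add
      (((hχ.continuous.mul (continuous_pow k)).continuousOn).mul (h1 hLK)))).mul hinv
  have hint : IntegrableOn f' (Ioi 0) := by
    have h1 : IntegrableOn f' (Icc a b') :=
      (hcont.mono fun x hx => lt_of_lt_of_le ha hx.1).integrableOn_Icc
    refine h1.of_forall_sdiff_eq_zero measurableSet_Ioi fun r hr => ?_
    simp only [hf']
    rw [hzd r hr.1 hr.2, hz0 r hr.2]; ring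
  have h0 : ContinuousWithinAt f (Ici 0) 0 := by
    have h1 : f =ᶠ[𝓝 0] fun _ => 0 := by
      have : (0 : ℝ) ∉ Icc a b' := fun h => absurd h.1 (not_le.2 ha)
      filter_upwards [hz 0 this] with r hr
      simp only [hf]; rw [hr]; ring
    exact (continuousAt_const.congr h1.symm).continuousWithinAt
  have htop : Tendsto f atTop (𝓝 0) := by
    have h1 : f =ᶠ[atTop] fun _ => 0 := by
      filter_upwards [eventually_gt_atTop b'] with r hr
      simp only [hf]
      rw [hz0 r fun h => absurd h.2 (not_le.2 hr)]; ring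
    exact tendsto_const_nhds.congr' h1.symm
  rw [integral_Ioi_of_hasDerivAt_of_tendsto h0 hderiv hint htop]
  have : χ 0 = 0 := hz0 0 fun h => absurd h.1 (not_le.2 ha)
  simp only [hf]; rw [this]; ring

theorem hasDerivAt_w (d : BData m s θ P t0 X0 X1 p l D C) (t : ℝ) :
    HasDerivAt (fun t => Real.exp (((m : ℝ) + 1) * t - ((m : ℝ) + 2) * s t))
      (C.b t * Real.exp (((m : ℝ) + 1) * t - ((m : ℝ) + 2) * s t)) t := by
  have hs : HasDerivAt s (deriv s t) t :=
    (d.fam.smooth_s.differentiable (by norm_num) t).hasDerivAt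
  have h1 := (((hasDerivAt_id t).const_mul ((m : ℝ) + 1)).sub (hs.const_mul ((m : ℝ) + 2))).exp
  refine h1.congr_deriv ?_
  rw [d.b_eq]
  simp only [Pi.sub_apply, id]
  ring

/-- homogeneous test polynomials -/
theorem w1_homog (d : BData m s θ P t0 X0 X1 p l D C) (hR : Gal.Reg C u v)
    (hF : ContDiff ℝ 1 (Ff p u)) {χ : ℝ → ℝ} (hχ : ContDiff ℝ ∞ χ) (hχc : HasCompactSupport χ)
    (hχs : tsupport χ ⊆ Ioi 0) {h : MvPolynomial (Fin (m + 3)) ℝ} {k : ℕ}
    (hh : h.IsHomogeneous k) (hD : h.totalDegree ≤ D) :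
    ∫ x, Lim.Q (coefF s θ P) (Ff p u) (fun x => χ ‖x‖ * ev h x) x = 0 := by
  have hg : ContDiff ℝ ∞ fun x : EuclideanSpace ℝ (Fin (m + 3)) => χ ‖x‖ * ev h x :=
    (Lim.contDiff_radial hχ hχs).mul (Sph.contDiff_ev h)
  have hgc : HasCompactSupport fun x : EuclideanSpace ℝ (Fin (m + 3)) => χ ‖x‖ * ev h x :=
    (Lim.hasCompactSupport_radial hχc).mul_right
  have hI := Lim.integrable_Q (A := coefF s θ P) (fun i j => (d.fam.contDiff_coefF i j).continuous)
    hF (hg.of_le (by norm_cast)) hgc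
  rw [SphDiv.polar (by omega) _ hI]
  set c : Fin N → ℝ := fun j => ip (p j) h with hc
  set ψ : ℝ → ℝ := fun t => χ (Real.exp t) * Real.exp (k * t) with hψ
  have hψs : ContDiff ℝ ∞ ψ :=
    (hχ.comp Real.contDiff_exp).mul (Real.contDiff_exp.comp (contDiff_const.mul contDiff_id))
  set w : ℝ → ℝ := fun t => Real.exp (((m : ℝ) + 1) * t - ((m : ℝ) + 2) * s t) with hw
  set L : ℝ → ℝ := fun t => ∑ j, v t j * c j with hL
  set LK : ℝ → ℝ := fun t => ∑ j, C.K t (u t) j * c j with hLK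
  have hLd : ∀ t, HasDerivAt L (LK t - C.b t * L t) t := by
    intro t
    have h1 : ∀ j ∈ (Finset.univ : Finset (Fin N)), HasDerivAt (fun t => v t j * c j)
        ((C.K t (u t) - C.b t • v t) j * c j) t := fun j _ =>
      (hasDerivAt_coord (hR.dv t) j).mul_const _
    refine (HasDerivAt.fun_sum h1).congr_deriv ?_
    simp only [hLK, hL, PiLp.sub_apply, PiLp.smul_apply, smul_eq_mul, sub_mul,
      Finset.sum_sub_distrib, Finset.mul_sum]
    congr 1
    exact Finset.sum_congr rfl fun j _ => by ring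
  have hLKc : Continuous LK := by
    have hK : Continuous fun t => C.K t := continuous_iff_continuousAt.2 fun t =>
      (C.hK t).continuousAt
    have hu : Continuous u := continuous_iff_continuousAt.2 fun t => (hR.du t).continuousAt
    have h1 : Continuous fun t => C.K t (u t) := hK.clm_apply hu
    have h2 : ∀ j : Fin N, Continuous fun t => C.K t (u t) j := fun j =>
      (EuclideanSpace.proj (𝕜 := ℝ) j : EuclideanSpace ℝ (Fin N) →L[ℝ] ℝ).continuous.comp h1
    exact continuous_finsetSum _ fun j _ => (h2 j).mul continuous_const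
  have key := radial_zero χ hχ hχc hχs k (w := w) (L := L) (b := C.b) (LK := LK)
    (fun t => hasDerivAt_w d t) hLd hLKc
  refine Eq.trans ?_ key
  refine setIntegral_congr_fun measurableSet_Ioi fun r hr => ?_
  have hr0 : (0 : ℝ) < r := hr
  have hψd : HasDerivAt (fun t => χ (Real.exp t) * Real.exp (k * t)) (deriv ψ (Real.log r))
      (Real.log r) := (hψs.differentiable (by norm_num) _).hasDerivAt
  show r ^ (m + 3 - 1) * _ = _
  rw [slice d hh hD hr0 (hR.du _) hψd]
  have h1 : r ^ (m + 3 - 1) * (Real.exp (-((m : ℝ) + 2) * s (Real.log r)) * r⁻¹ ^ 2)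
      = w (Real.log r) * r⁻¹ := by
    have h2 : w (Real.log r) = r ^ (m + 1) * Real.exp (-((m : ℝ) + 2) * s (Real.log r)) := by
      simp only [hw]
      rw [sub_eq_add_neg, Real.exp_add]
      congr 1
      · have := Real.exp_nat_mul (Real.log r) (m + 1)
        rw [Real.exp_log hr0] at this
        rw [← this]; push_cast; rfl
      · congr 1; ring
    rw [h2]
    have h3 : m + 3 - 1 = m + 2 := by omega
    rw [h3]
    field_simp
    ring
  rw [← mul_assoc, h1]
  ring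

/-- **(w1)** the weak equation against `χ(|x|) h(x)`, `deg h ≤ D` -/
theorem w1 (d : BData m s θ P t0 X0 X1 p l D C) (hR : Gal.Reg C u v)
    (hF : ContDiff ℝ 1 (Ff p u)) {χ : ℝ → ℝ} (hχ : ContDiff ℝ ∞ χ) (hχc : HasCompactSupport χ)
    (hχs : tsupport χ ⊆ Ioi 0) {h : MvPolynomial (Fin (m + 3)) ℝ} (hD : h.totalDegree ≤ D) :
    ∫ x, Lim.Q (coefF s θ P) (Ff p u) (fun x => χ ‖x‖ * Lim.pe h x) x = 0 := by
  set hk : ℕ → MvPolynomial (Fin (m + 3)) ℝ := fun k => h.homogeneousComponent k with hhk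
  have hsum : h = ∑ k ∈ Finset.range (h.totalDegree + 1), hk k :=
    (MvPolynomial.sum_homogeneousComponent h).symm
  have hg : ∀ q : MvPolynomial (Fin (m + 3)) ℝ,
      ContDiff ℝ ∞ fun x : EuclideanSpace ℝ (Fin (m + 3)) => χ ‖x‖ * ev q x := fun q =>
    (Lim.contDiff_radial hχ hχs).mul (Sph.contDiff_ev q)
  have hgc : ∀ q : MvPolynomial (Fin (m + 3)) ℝ,
      HasCompactSupport fun x : EuclideanSpace ℝ (Fin (m + 3)) => χ ‖x‖ * ev q x := fun q =>
    (Lim.hasCompactSupport_radial hχc).mul_right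
  have hI := fun q => Lim.integrable_Q (A := coefF s θ P)
    (fun i j => (d.fam.contDiff_coefF i j).continuous) hF ((hg q).of_le (by norm_cast)) (hgc q)
  have hpe : (fun x : EuclideanSpace ℝ (Fin (m + 3)) => χ ‖x‖ * Lim.pe h x)
      = fun x => ∑ k ∈ Finset.range (h.totalDegree + 1), χ ‖x‖ * ev (hk k) x := by
    funext x
    rw [← Finset.mul_sum, ← Sph.ev_sum, ← hsum]; rfl
  have hQ : ∀ x, Lim.Q (coefF s θ P) (Ff p u) (fun x => χ ‖x‖ * Lim.pe h x) x
      = ∑ k ∈ Finset.range (h.totalDegree + 1),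
        Lim.Q (coefF s θ P) (Ff p u) (fun x => χ ‖x‖ * ev (hk k) x) x := by
    intro x
    rw [hpe]
    unfold Lim.Q
    have h1 : ∀ i, pderiv i (fun x => ∑ k ∈ Finset.range (h.totalDegree + 1), χ ‖x‖ * ev (hk k) x) x
        = ∑ k ∈ Finset.range (h.totalDegree + 1), pderiv i (fun x => χ ‖x‖ * ev (hk k) x) x := by
      intro i
      unfold pderiv
      rw [fderiv_fun_sum fun k _ => ((hg (hk k)).differentiable (by norm_num)) x]
      simp
    simp only [h1, Finset.mul_sum]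
    have h2 : ∀ i : Fin (m + 3), ∑ l : Fin (m + 3), ∑ k ∈ Finset.range (h.totalDegree + 1),
        coefF s θ P x i l * pderiv l (Ff p u) x * pderiv i (fun x => χ ‖x‖ * ev (hk k) x) x
        = ∑ k ∈ Finset.range (h.totalDegree + 1), ∑ l : Fin (m + 3),
        coefF s θ P x i l * pderiv l (Ff p u) x * pderiv i (fun x => χ ‖x‖ * ev (hk k) x) x :=
      fun i => Finset.sum_comm
    simp only [h2]
    rw [Finset.sum_comm]
  rw [integral_congr_ae (Eventually.of_forall hQ), integral_finsetSum _ fun k _ => hI _]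
  refine Finset.sum_eq_zero fun k hk' => ?_
  refine w1_homog d hR hF hχ hχc hχs (h.homogeneousComponent_isHomogeneous k) ?_
  refine le_trans ?_ ((Finset.mem_range_succ_iff.1 hk').trans hD)
  exact (h.homogeneousComponent_isHomogeneous k).totalDegree_le

end Crest.Agent.R202.Bri
end

-- ▼ part R202/BriE
section

/-!
Row 202, BRIDGE (helper778): the Galerkin function is a harmonic polynomial near the origin;
`C¹` regularity; weak equation against test functions supported near the origin.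
-/

set_option autoImplicit false

open scoped ContDiff RealInnerProductSpace
open Set Filter Topology MeasureTheory Metric
open Crest.GeometryTopology.CoordMetric
open Crest.Agent.R202.Sph (ev ip qb QB SecForm)
open Crest.Agent.R202.Geo (Fam coefF Afam outer sigOf fixA)

namespace Crest.Agent.R202.Bri

variable {n m N D : ℕ} {s θ : ℝ → ℝ} {P : ℝ → ℝ → ℂ → ℝ} {t0 X0 X1 : ℝ}
  {p : Fin N → MvPolynomial (Fin (m + 3)) ℝ} {l : Fin N → ℕ}
  {C : Gal.Coef (EuclideanSpace ℝ (Fin N))} {u v : ℝ → EuclideanSpace ℝ (Fin N)}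

theorem QB_congr {B B' : EuclideanSpace ℝ (Fin n) → Matrix (Fin n) (Fin n) ℝ}
    (h : ∀ z, ‖z‖ = 1 → B z = B' z) (p q : MvPolynomial (Fin n) ℝ) : QB B p q = QB B' p q := by
  unfold QB
  refine integral_congr_ae (Eventually.of_forall fun z => ?_)
  show qb B p q z = qb B' p q z
  unfold qb
  rw [h z (by simp)]

theorem Bt_init (h : Fam s θ P t0 X0 X1) {t : ℝ} (ht : t ≤ t0)
    {z : EuclideanSpace ℝ (Fin (m + 3))} (hz : ‖z‖ = 1) : Bt θ P t z = 1 - outer z := by
  unfold Bt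
  have hx : Real.exp t • z ≠ 0 := polar_ne (Real.exp_pos t) hz
  have hn : ‖Real.exp t • z‖ = Real.exp t := norm_polar (Real.exp_pos t) hz
  rw [h.Afam_init hx (by rw [hn, Real.log_exp]; exact ht)]
  simp

theorem K_init (d : BData m s θ P t0 X0 X1 p l D C) {t : ℝ} (ht : t ≤ t0)
    (x : EuclideanSpace ℝ (Fin N)) : C.K t x = C.K t0 x := by
  ext i
  rw [d.K_eq, d.K_eq, d.fam.s_init t ht, d.fam.s_init t0 le_rfl]
  congr 1
  refine Finset.sum_congr rfl fun j _ => ?_
  rw [QB_congr (B' := fun z => 1 - outer z) fun z hz => Bt_init d.fam ht hz,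
    QB_congr (B := Bt θ P t0) (B' := fun z => 1 - outer z) fun z hz => Bt_init d.fam le_rfl hz]

theorem b_init (d : BData m s θ P t0 X0 X1 p l D C) {t : ℝ} (ht : t ≤ t0) : C.b t = (m : ℝ) + 1 := by
  have h1 : Iio t0 ⊆ {t | C.b t = (m : ℝ) + 1} := by
    intro t ht
    have h2 : s =ᶠ[𝓝 t] fun _ => 0 := by
      filter_upwards [Iio_mem_nhds ht] with y hy
      exact d.fam.s_init y (le_of_lt hy)
    show C.b t = (m : ℝ) + 1
    rw [d.b_eq, h2.deriv_eq, deriv_const]; ring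
  have h2 : IsClosed {t | C.b t = (m : ℝ) + 1} := isClosed_eq C.continuous_b continuous_const
  have h3 : closure (Iio t0) ⊆ {t | C.b t = (m : ℝ) + 1} := closure_minimal h1 h2
  rw [closure_Iio] at h3
  exact h3 ht

theorem K_init' (d : BData m s θ P t0 X0 X1 p l D C) {t : ℝ} (ht : t ≤ t0)
    (x : EuclideanSpace ℝ (Fin N)) (i : Fin N) :
    C.K t x i = ((l i : ℝ) ^ 2 + ((m : ℝ) + 1) * l i) * x i := by
  rw [K_init d ht, ← d.t0_eq, ← C.L0_sq]
  have h1 : C.b C.t0 = (m : ℝ) + 1 := b_init d d.t0_eq.le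
  simp only [PiLp.add_apply, PiLp.smul_apply, smul_eq_mul, d.L_eq, h1]
  ring

theorem const_left {f : ℝ → ℝ} {t0 : ℝ} (hf : Continuous f)
    (hd : ∀ t < t0, HasDerivAt f 0 t) {t : ℝ} (ht : t ≤ t0) : f t = f t0 := by
  have h1 := constant_of_has_deriv_right_zero (f := f) (a := t) (b := t0) hf.continuousOn
    (fun x hx => (hd x hx.2).hasDerivWithinAt)
  exact (h1 t0 ⟨ht, le_rfl⟩).symm

theorem v_init (d : BData m s θ P t0 X0 X1 p l D C) (hR : Gal.Reg C u v) {t : ℝ} (ht : t ≤ t0)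
    (i : Fin N) : v t i = l i * u t i := by
  set b0 : ℝ := (m : ℝ) + 1 with hb0
  set a : ℝ := (l i : ℝ) + b0 with ha
  have hu : ∀ t, HasDerivAt (fun t => u t i) (v t i) t := fun t => hasDerivAt_coord (hR.du t) i
  have hv : ∀ t, HasDerivAt (fun t => v t i) ((C.K t (u t) - C.b t • v t) i) t := fun t =>
    hasDerivAt_coord (hR.dv t) i
  have he : ∀ t, HasDerivAt (fun t => Real.exp (a * t)) (Real.exp (a * t) * a) t := by
    intro t
    have := ((hasDerivAt_id t).const_mul a).exp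
    simpa using this
  have hg : ∀ t, HasDerivAt (fun t => (v t i - l i * u t i) * Real.exp (a * t))
      (((C.K t (u t) - C.b t • v t) i - l i * v t i) * Real.exp (a * t) +
        (v t i - l i * u t i) * (Real.exp (a * t) * a)) t := fun t =>
    ((hv t).sub ((hu t).const_mul _)).mul (he t)
  have h1 := const_left (f := fun t => (v t i - l i * u t i) * Real.exp (a * t)) (t0 := t0)
    (continuous_iff_continuousAt.2 fun t => (hg t).continuousAt) (fun t ht => by
      refine (hg t).congr_deriv ?_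
      simp only [PiLp.sub_apply, PiLp.smul_apply, smul_eq_mul]
      rw [K_init' d ht.le, b_init d ht.le, ha, hb0]
      ring) ht
  have h2 : v t0 i = l i * u t0 i := by
    have := hR.init
    rw [d.t0_eq] at this
    rw [this, d.L_eq]
  dsimp only at h1
  rw [h2, sub_self, zero_mul] at h1
  rcases mul_eq_zero.1 h1 with h3 | h3
  · linarith
  · exact absurd h3 (Real.exp_ne_zero _)

theorem u_init (d : BData m s θ P t0 X0 X1 p l D C) (hR : Gal.Reg C u v) {t : ℝ} (ht : t ≤ t0)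
    (i : Fin N) : u t i = (u t0 i * Real.exp (-(l i : ℝ) * t0)) * Real.exp (l i * t) := by
  have hu : ∀ t, HasDerivAt (fun t => u t i) (v t i) t := fun t => hasDerivAt_coord (hR.du t) i
  have he : ∀ t, HasDerivAt (fun t => Real.exp (-(l i : ℝ) * t)) (Real.exp (-(l i : ℝ) * t) *
      (-(l i : ℝ))) t := by
    intro t
    have := ((hasDerivAt_id t).const_mul (-(l i : ℝ))).exp
    simpa using this
  have h1 := const_left (f := fun t => u t i * Real.exp (-(l i : ℝ) * t)) (t0 := t0)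
    (continuous_iff_continuousAt.2 fun t => ((hu t).mul (he t)).continuousAt) (fun t ht => by
      refine ((hu t).mul (he t)).congr_deriv ?_
      rw [v_init d hR ht.le]
      ring) ht
  dsimp only at h1
  rw [← h1, mul_assoc, ← Real.exp_add]
  have : -(l i : ℝ) * t + l i * t = 0 := by ring
  rw [this, Real.exp_zero, mul_one]

theorem ev_zero_of_pos {q : MvPolynomial (Fin n) ℝ} {k : ℕ} (hq : q.IsHomogeneous k) (hk : 1 ≤ k) :
    ev q 0 = 0 := by
  have := Sph.ev_smul_arg hq 0 (0 : EuclideanSpace ℝ (Fin n))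
  rwa [smul_zero, zero_pow (by omega), zero_mul] at this

/-- the polynomial near the origin -/
noncomputable def poly0 (p : Fin N → MvPolynomial (Fin n) ℝ) (l : Fin N → ℕ) (t0 : ℝ)
    (c : EuclideanSpace ℝ (Fin N)) : MvPolynomial (Fin n) ℝ :=
  ∑ i, (c i * Real.exp (-(l i : ℝ) * t0)) • p i

theorem Ff_near_zero (d : BData m s θ P t0 X0 X1 p l D C) (hR : Gal.Reg C u v)
    {x : EuclideanSpace ℝ (Fin (m + 3))} (hx : ‖x‖ ≤ Real.exp t0) :
    Ff p u x = ev (poly0 p l t0 (u t0)) x := by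
  unfold poly0
  rw [Sph.ev_sum, Ff_eq]
  refine Finset.sum_congr rfl fun i _ => ?_
  rw [Sph.ev_smul]
  by_cases h0 : x = 0
  · subst h0
    rw [ev_zero_of_pos (d.homog i) (d.l_pos i)]
    unfold hr
    rw [smul_zero, ev_zero_of_pos (d.homog i) (d.l_pos i)]
    simp
  · have hn : 0 < ‖x‖ := norm_pos_iff.2 h0
    have ht : Real.log ‖x‖ ≤ t0 := by
      rw [← Real.log_exp t0]; exact Real.log_le_log hn hx
    rw [hr_eq _ (d.homog i) h0, u_init d hR ht i, mul_assoc (u t0 i * _), ← Real.exp_add]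
    have : (l i : ℝ) * Real.log ‖x‖ + -(l i : ℝ) * Real.log ‖x‖ = 0 := by ring
    rw [this, Real.exp_zero, mul_one]

theorem contDiff_coord (hR : Gal.Reg C u v) (i : Fin N) : ContDiff ℝ 1 fun t => u t i := by
  rw [contDiff_one_iff_deriv]
  have h1 : ∀ t, HasDerivAt (fun t => u t i) (v t i) t := fun t => hasDerivAt_coord (hR.du t) i
  refine ⟨fun t => (h1 t).differentiableAt, ?_⟩
  have h2 : deriv (fun t => u t i) = fun t => v t i := funext fun t => (h1 t).deriv
  rw [h2]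
  exact continuous_iff_continuousAt.2 fun t => (hasDerivAt_coord (hR.dv t) i).continuousAt

/-- **(reg)** -/
theorem reg (d : BData m s θ P t0 X0 X1 p l D C) (hR : Gal.Reg C u v) :
    ContDiff ℝ 1 (Ff p u) := by
  rw [contDiff_iff_contDiffAt]
  intro x
  by_cases hx : x = 0
  · subst hx
    have h1 : Ff p u =ᶠ[𝓝 0] ev (poly0 p l t0 (u t0)) := by
      filter_upwards [ball_mem_nhds (0 : EuclideanSpace ℝ (Fin (m + 3))) (Real.exp_pos t0)]
        with y hy
      exact Ff_near_zero d hR (by simpa using (mem_ball_zero_iff.1 hy).le)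
    exact (Sph.contDiff_ev _).contDiffAt.congr_of_eventuallyEq h1
  · have h1 : ContDiffOn ℝ 1 (Ff p u) ({0}ᶜ : Set (EuclideanSpace ℝ (Fin (m + 3)))) := by
      have : Ff p u = fun x => ∑ j, hr (fun t => u t j) (p j) x := by funext x; rfl
      rw [this]
      exact ContDiffOn.sum fun i _ => contDiffOn_hr (k := 1) (contDiff_coord hR i) (p i)
    exact h1.contDiffAt (isOpen_compl_singleton.mem_nhds hx)

theorem coefF_one (h : Fam s θ P t0 X0 X1) {x : EuclideanSpace ℝ (Fin (m + 3))}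
    (hx : ‖x‖ ≤ Real.exp t0) : coefF s θ P x = 1 := by
  by_cases h0 : x = 0
  · subst h0; exact h.coefF_zero
  · have hn : 0 < ‖x‖ := norm_pos_iff.2 h0
    have ht : Real.log ‖x‖ ≤ t0 := by
      rw [← Real.log_exp t0]; exact Real.log_le_log hn hx
    have hs : sigOf s x = 0 := by simp [sigOf, h0, h.s_init _ ht]
    have hf : fixA (Afam θ P) x = 1 := by simp [fixA, h0, h.Afam_init h0 ht]
    unfold coefF Geo.coefR Geo.gRInv
    rw [hs, hf]
    simp

/-- Green's formula for a harmonic polynomial -/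
theorem green_poly {G : MvPolynomial (Fin n) ℝ} (hG : Sph.lap n G = 0)
    {φ : EuclideanSpace ℝ (Fin n) → ℝ} (hφ : ContDiff ℝ 1 φ) (hφc : HasCompactSupport φ) :
    ∫ x, ∑ i, ev (MvPolynomial.pderiv i G) x * pderiv i φ x = 0 := by
  have hC : ∀ i, ContDiff ℝ 1 fun x => ev (MvPolynomial.pderiv i G) x * φ x := fun i =>
    (Sph.contDiff_ev _).mul hφ
  have hcs : ∀ i, HasCompactSupport fun x => ev (MvPolynomial.pderiv i G) x * φ x := fun i =>
    hφc.mul_left
  have h0 : ∀ i, ∫ x, fderiv ℝ (fun x => ev (MvPolynomial.pderiv i G) x * φ x) x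
      (EuclideanSpace.single i 1) = 0 := fun i => SphDiv.integral_fderiv_zero (hC i) (hcs i) _
  have hI : ∀ i ∈ (Finset.univ : Finset (Fin n)), Integrable fun x =>
      fderiv ℝ (fun x => ev (MvPolynomial.pderiv i G) x * φ x) x (EuclideanSpace.single i 1) := by
    intro i _
    refine Continuous.integrable_of_hasCompactSupport ?_ ?_
    · exact ((hC i).continuous_fderiv one_ne_zero).clm_apply continuous_const
    · exact ((hcs i).fderiv (𝕜 := ℝ)).comp_left
        (g := fun L : EuclideanSpace ℝ (Fin n) →L[ℝ] ℝ => L (EuclideanSpace.single i 1)) rfl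
  have h1 : ∀ x, ∑ i, ev (MvPolynomial.pderiv i G) x * pderiv i φ x
      = ∑ i, fderiv ℝ (fun x => ev (MvPolynomial.pderiv i G) x * φ x) x
        (EuclideanSpace.single i 1) := by
    intro x
    have h2 : ∀ i, fderiv ℝ (fun x => ev (MvPolynomial.pderiv i G) x * φ x) x
        (EuclideanSpace.single i 1) = ev (MvPolynomial.pderiv i (MvPolynomial.pderiv i G)) x * φ x +
        ev (MvPolynomial.pderiv i G) x * pderiv i φ x := by
      intro i
      rw [fderiv_fun_mul (Sph.differentiable_ev _ x) ((hφ.differentiable one_ne_zero) x)]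
      have h3 := Sph.pderiv_ev (MvPolynomial.pderiv i G) i x
      unfold pderiv at h3 ⊢
      simp only [add_apply, smul_apply, smul_eq_mul, h3]
      ring
    rw [Finset.sum_congr rfl fun i _ => h2 i, Finset.sum_add_distrib, ← Finset.sum_mul,
      ← Sph.ev_sum, ← Sph.lap_apply, hG]
    simp
  rw [integral_congr_ae (Eventually.of_forall h1), integral_finsetSum _ hI]
  exact Finset.sum_eq_zero fun i _ => h0 i

/-- **(w0)** -/
theorem w0 (d : BData m s θ P t0 X0 X1 p l D C) (hR : Gal.Reg C u v)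
    {φ : EuclideanSpace ℝ (Fin (m + 3)) → ℝ} (hφ : ContDiff ℝ ∞ φ) (hφc : HasCompactSupport φ)
    (hφs : tsupport φ ⊆ ball 0 (Real.exp t0)) :
    ∫ x, Lim.Q (coefF s θ P) (Ff p u) φ x = 0 := by
  set G := poly0 p l t0 (u t0) with hG
  have hlap : Sph.lap (m + 3) G = 0 := by
    rw [hG]; unfold poly0
    rw [map_sum]
    refine Finset.sum_eq_zero fun i _ => ?_
    rw [map_smul, d.harm i, smul_zero]
  rw [← green_poly hlap (hφ.of_le (by norm_cast)) hφc]
  refine integral_congr_ae (Eventually.of_forall fun x => ?_)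
  dsimp only
  by_cases hx : x ∈ tsupport φ
  · have hb := hφs hx
    have hle : ‖x‖ ≤ Real.exp t0 := (mem_ball_zero_iff.1 hb).le
    have h1 : Ff p u =ᶠ[𝓝 x] ev G := by
      filter_upwards [isOpen_ball.mem_nhds hb] with y hy
      exact Ff_near_zero d hR (mem_ball_zero_iff.1 hy).le
    unfold Lim.Q
    rw [coefF_one d.fam hle]
    refine Finset.sum_congr rfl fun i _ => ?_
    have h2 : ∀ j, pderiv j (Ff p u) x = ev (MvPolynomial.pderiv j G) x := by
      intro j
      have := Sph.pderiv_ev G j x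
      rw [← this]
      unfold pderiv; rw [h1.fderiv_eq]
    simp only [h2, Matrix.one_apply, ite_mul, one_mul, zero_mul, Finset.sum_ite_eq,
      Finset.mem_univ, if_true]
  · rw [Lim.Q_eq_zero_of_notMem hx]
    symm
    refine Finset.sum_eq_zero fun i _ => ?_
    rw [Lim.pderiv_eq_zero_of_notMem hx i, mul_zero]

end Crest.Agent.R202.Bri
end

-- ▼ part R202/BriF

/-!
Row 202, BRIDGE (helper778): energy slice (S1); the cross-section on the unit sphere; `SecForm`.
-/

set_option autoImplicit false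

open scoped ContDiff RealInnerProductSpace
open Set Filter Topology MeasureTheory Metric
open Crest.GeometryTopology.CoordMetric
open Crest.Agent.R202.Sph (ev ip qb QB SecForm)
open Crest.Agent.R202.Geo (Fam coefF Afam outer sigOf fixA rho sig XX uu nu e1 e2 TT WW)

namespace Crest.Agent.R202.Bri

variable {n m N D : ℕ} {s θ : ℝ → ℝ} {P : ℝ → ℝ → ℂ → ℝ} {t0 X0 X1 : ℝ}
  {p : Fin N → MvPolynomial (Fin (m + 3)) ℝ} {l : Fin N → ℕ}
  {C : Gal.Coef (EuclideanSpace ℝ (Fin N))} {u v : ℝ → EuclideanSpace ℝ (Fin N)}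

/-! ### (S1) -/

theorem slice_energy (d : BData m s θ P t0 X0 X1 p l D C)
    (ho : ∀ i j, ip (p i) (p j) = if i = j then 1 else 0) {u : ℝ → EuclideanSpace ℝ (Fin N)}
    {v : EuclideanSpace ℝ (Fin N)} {r : ℝ} (hr0 : 0 < r) (hu : HasDerivAt u v (Real.log r)) :
    ∫ z : SphDiv.Sph (m + 3), Lim.Q (coefF s θ P) (Ff p u) (Ff p u)
      (r • (z : EuclideanSpace ℝ (Fin (m + 3)))) ∂(SphDiv.sig (m + 3))
      = Real.exp (-((m : ℝ) + 2) * s (Real.log r)) * r⁻¹ ^ 2 *
        (‖v‖ ^ 2 + ⟪C.K (Real.log r) (u (Real.log r)), u (Real.log r)⟫) := by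
  set B := Bt (m := m) θ P (Real.log r) with hBdef
  have hB : SecForm B := d.secB _
  set e := Real.exp (2 * s (Real.log r)) with he
  set c := Real.exp (-((m : ℝ) + 2) * s (Real.log r)) with hc
  set w := u (Real.log r) with hw
  have hpt : ∀ z : SphDiv.Sph (m + 3), Lim.Q (coefF s θ P) (Ff p u) (Ff p u)
      (r • (z : EuclideanSpace ℝ (Fin (m + 3)))) = ∑ i, ∑ j, (c * r⁻¹ ^ 2 * v i * v j *
        (ev (p i) z * ev (p j) z) + c * r⁻¹ ^ 2 * e * w i * w j * qb B (p i) (p j) z) := by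
    intro z
    have hz : ‖(z : EuclideanSpace ℝ (Fin (m + 3)))‖ = 1 := by simp
    have hBs : ∀ i j, B z i j = B z j i := hB.symm z z.2
    have hBt : ∀ i, ∑ j, B z i j * (z : EuclideanSpace ℝ (Fin (m + 3))) j = 0 := hB.tang z z.2
    have w1 : ∑ i, (∑ j, w j * tg (p j) (l j) z i) *
        (z : EuclideanSpace ℝ (Fin (m + 3))) i = 0 := by
      simp only [Finset.sum_mul]
      rw [Finset.sum_comm]
      refine Finset.sum_eq_zero fun j _ => ?_
      have : ∀ i, w j * tg (p j) (l j) z i * (z : EuclideanSpace ℝ (Fin (m + 3))) i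
          = w j * (tg (p j) (l j) z i * (z : EuclideanSpace ℝ (Fin (m + 3))) i) :=
        fun i => by ring
      rw [Finset.sum_congr rfl fun i _ => this i, ← Finset.mul_sum, tg_tang (d.homog j) hz, mul_zero]
    rw [Q_hr (s := s) hr0 hz hBs hBt (fun i => pderiv_Ff d.homog hr0 hz hu i) w1
      (fun i => pderiv_Ff d.homog hr0 hz hu i) w1]
    have h3 : ∑ a, ∑ b, B z a b * (∑ j, w j * tg (p j) (l j) z b) *
        (∑ i, w i * tg (p i) (l i) z a) = ∑ i, ∑ j, w i * w j * qb B (p i) (p j) z := by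
      have h4 : ∀ a b, B z a b * (∑ j, w j * tg (p j) (l j) z b) *
          (∑ i, w i * tg (p i) (l i) z a) = ∑ j, ∑ i, w j * w i *
            (B z a b * tg (p j) (l j) z b * tg (p i) (l i) z a) := by
        intro a b
        rw [mul_assoc, Finset.sum_mul_sum, Finset.mul_sum]
        refine Finset.sum_congr rfl fun j _ => ?_
        rw [Finset.mul_sum]
        exact Finset.sum_congr rfl fun i _ => by ring
      simp only [h4]
      have h5 : ∀ a, ∑ b, ∑ j, ∑ i, w j * w i *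
            (B z a b * tg (p j) (l j) z b * tg (p i) (l i) z a)
          = ∑ j, ∑ i, ∑ b, w j * w i *
            (B z a b * tg (p j) (l j) z b * tg (p i) (l i) z a) := by
        intro a
        rw [Finset.sum_comm]
        exact Finset.sum_congr rfl fun j _ => Finset.sum_comm
      simp only [h5]
      rw [Finset.sum_comm]
      refine Finset.sum_congr rfl fun j _ => ?_
      rw [Finset.sum_comm]
      refine Finset.sum_congr rfl fun i _ => ?_
      simp only [← Finset.mul_sum]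
      rw [sum_tg hBs hBt (p j) (p i) (l j) (l i)]
      rfl
    have h6 : (∑ j, v j * ev (p j) z) * (∑ j, v j * ev (p j) z)
        = ∑ i, ∑ j, v i * v j * (ev (p i) z * ev (p j) z) := by
      rw [Finset.sum_mul_sum]
      exact Finset.sum_congr rfl fun i _ => Finset.sum_congr rfl fun j _ => by ring
    rw [← hw, h3, h6]
    simp only [Finset.mul_sum, mul_add, ← Finset.sum_add_distrib]
    exact Finset.sum_congr rfl fun i _ => Finset.sum_congr rfl fun j _ => by ring
  have hi0 : ∀ i j, Integrable (fun z : SphDiv.Sph (m + 3) =>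
      c * r⁻¹ ^ 2 * v i * v j * (ev (p i) z * ev (p j) z) +
        c * r⁻¹ ^ 2 * e * w i * w j * qb B (p i) (p j) z) (SphDiv.sig (m + 3)) := fun i j =>
    ((integrable_ev2 (p i) (p j)).const_mul _).add ((integrable_qb hB (p i) (p j)).const_mul _)
  have hi1 : ∀ i ∈ (Finset.univ : Finset (Fin N)), Integrable (fun z : SphDiv.Sph (m + 3) =>
      ∑ j, (c * r⁻¹ ^ 2 * v i * v j * (ev (p i) z * ev (p j) z) +
        c * r⁻¹ ^ 2 * e * w i * w j * qb B (p i) (p j) z)) (SphDiv.sig (m + 3)) := fun i _ =>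
    integrable_finsetSum _ fun j _ => hi0 i j
  rw [integral_congr_ae (Eventually.of_forall hpt), integral_finsetSum _ hi1]
  have hint : ∀ i j, ∫ z : SphDiv.Sph (m + 3), (c * r⁻¹ ^ 2 * v i * v j *
        (ev (p i) z * ev (p j) z) + c * r⁻¹ ^ 2 * e * w i * w j * qb B (p i) (p j) z)
          ∂(SphDiv.sig (m + 3)) = c * r⁻¹ ^ 2 * v i * v j * (if i = j then 1 else 0) +
          c * r⁻¹ ^ 2 * e * w i * w j * QB B (p i) (p j) := by
    intro i j
    rw [integral_add ((integrable_ev2 (p i) (p j)).const_mul _)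
      ((integrable_qb hB (p i) (p j)).const_mul _), integral_const_mul, integral_const_mul,
      ← ho i j]
    congr 2
    unfold ip Sph.sph
    refine integral_congr_ae (Eventually.of_forall fun z => ?_)
    show ev (p i) z * ev (p j) z = ev (p i * p j) z
    rw [Sph.ev_mul]
  have hint2 : ∀ i, ∫ z : SphDiv.Sph (m + 3), ∑ j, (c * r⁻¹ ^ 2 * v i * v j *
        (ev (p i) z * ev (p j) z) + c * r⁻¹ ^ 2 * e * w i * w j * qb B (p i) (p j) z)
          ∂(SphDiv.sig (m + 3)) = ∑ j, (c * r⁻¹ ^ 2 * v i * v j * (if i = j then 1 else 0) +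
          c * r⁻¹ ^ 2 * e * w i * w j * QB B (p i) (p j)) := by
    intro i
    rw [integral_finsetSum _ fun j _ => hi0 i j]
    exact Finset.sum_congr rfl fun j _ => hint i j
  rw [Finset.sum_congr rfl fun i _ => hint2 i]
  have hn : ‖v‖ ^ 2 = ∑ i, v i * v i := by
    rw [EuclideanSpace.real_norm_sq_eq]; exact Finset.sum_congr rfl fun i _ => sq _
  have hK : ⟪C.K (Real.log r) w, w⟫ = ∑ i, ∑ j, e * (w i * w j * QB B (p i) (p j)) := by
    rw [PiLp.inner_apply]
    refine Finset.sum_congr rfl fun i _ => ?_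
    rw [d.K_eq, RCLike.inner_apply, conj_trivial, Finset.mul_sum, Finset.mul_sum]
    exact Finset.sum_congr rfl fun j _ => by ring
  rw [hn, hK]
  simp only [Finset.sum_add_distrib, mul_ite, mul_one, mul_zero, Finset.sum_ite_eq,
    Finset.mem_univ, if_true, mul_add, Finset.mul_sum]
  congr 1
  · exact Finset.sum_congr rfl fun i _ => by ring
  · exact Finset.sum_congr rfl fun i _ => Finset.sum_congr rfl fun j _ => by ring

theorem wt_eq (d : BData m s θ P 0 X0 X1 p l D C) (t : ℝ) :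
    C.wt t = Real.exp (((m : ℝ) + 1) * t - ((m : ℝ) + 2) * s t) := by
  set q : ℝ → ℝ := fun t => Real.exp (((m : ℝ) + 1) * t - ((m : ℝ) + 2) * s t) with hq
  have hq0 : q 0 = 1 := by simp only [hq]; rw [d.fam.s_init 0 le_rfl]; simp
  have h1 : ∀ t, HasDerivAt (fun t => C.wt t * (q t)⁻¹) 0 t := by
    intro t
    have h2 := (hasDerivAt_w d t).inv (Real.exp_ne_zero _)
    have h3 := (C.hasDerivAt_wt t).mul h2
    refine h3.congr_deriv ?_
    have := Real.exp_pos (((m : ℝ) + 1) * t - ((m : ℝ) + 2) * s t)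
    simp only [Pi.inv_apply]
    field_simp
    ring
  have h2 : C.wt t * (q t)⁻¹ = C.wt 0 * (q 0)⁻¹ :=
    is_const_of_deriv_eq_zero (fun t => (h1 t).differentiableAt) (fun t => (h1 t).deriv) t 0
  have h3 : C.wt 0 = 1 := by
    have := C.wt_t0
    rwa [d.t0_eq] at this
  rw [h3, hq0, inv_one, mul_one] at h2
  have h4 : q t ≠ 0 := Real.exp_ne_zero _
  field_simp at h2
  exact h2

/-- **(S1)** in helper684's form -/
theorem S1 (d : BData m s θ P 0 X0 X1 p l D C)
    (ho : ∀ i j, ip (p i) (p j) = if i = j then 1 else 0) (hR : Gal.Reg C u v) (r : ℝ)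
    (hr0 : 0 < r) :
    r ^ (m + 3 - 1) * ∫ z : SphDiv.Sph (m + 3), Lim.Q (coefF s θ P) (Ff p u) (Ff p u)
      (r • (z : EuclideanSpace ℝ (Fin (m + 3)))) ∂(SphDiv.sig (m + 3))
      = r⁻¹ * (C.wt (Real.log r) * (‖v (Real.log r)‖ ^ 2 +
        ⟪C.K (Real.log r) (u (Real.log r)), u (Real.log r)⟫)) := by
  rw [slice_energy d ho hr0 (hR.du _), wt_eq d]
  have h2 : Real.exp (((m : ℝ) + 1) * Real.log r - ((m : ℝ) + 2) * s (Real.log r))
      = r ^ (m + 1) * Real.exp (-((m : ℝ) + 2) * s (Real.log r)) := by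
    rw [sub_eq_add_neg, Real.exp_add]
    congr 1
    · have := Real.exp_nat_mul (Real.log r) (m + 1)
      rw [Real.exp_log hr0] at this
      rw [← this]; push_cast; rfl
    · congr 1; ring
  rw [h2]
  have h3 : m + 3 - 1 = m + 2 := by omega
  rw [h3]
  field_simp
  ring

/-! ### the cross-section on the unit sphere -/

theorem rho_smul' {c : ℝ} (hc : 0 < c) (x : EuclideanSpace ℝ (Fin (m + 3))) :
    rho (c • x) = c * rho x := by
  unfold rho
  rw [← Real.sqrt_sq hc.le, ← Real.sqrt_mul (sq_nonneg c), Real.sqrt_sq hc.le]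
  congr 1
  simp only [PiLp.smul_apply, smul_eq_mul]; ring

theorem sig_smul' {c : ℝ} (hc : 0 < c) (x : EuclideanSpace ℝ (Fin (m + 3))) :
    sig (c • x) = c * sig x := by
  unfold sig
  rw [← Real.sqrt_sq hc.le, ← Real.sqrt_mul (sq_nonneg c), Real.sqrt_sq hc.le]
  congr 1
  rw [Finset.mul_sum]
  exact Finset.sum_congr rfl fun i _ => by simp only [PiLp.smul_apply, smul_eq_mul]; ring

theorem norm_smul' {c : ℝ} (hc : 0 < c) (x : EuclideanSpace ℝ (Fin (m + 3))) :
    ‖c • x‖ = c * ‖x‖ := by rw [norm_smul, Real.norm_eq_abs, abs_of_pos hc]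

theorem Afam_polar (θ : ℝ → ℝ) (P : ℝ → ℝ → ℂ → ℝ) (t : ℝ) {z : EuclideanSpace ℝ (Fin (m + 3))}
    (hz : ‖z‖ = 1) : Afam θ P (Real.exp t • z) = Afam (fun _ => θ t) (fun _ => P t) z := by
  set c := Real.exp t with hc
  have hc0 : 0 < c := Real.exp_pos t
  have hcn : c ≠ 0 := hc0.ne'
  have hn : Real.log ‖c • z‖ = t := by rw [norm_smul' hc0, hz, mul_one, hc, Real.log_exp]
  have hnu : nu (c • z) = nu z := by
    unfold nu
    rw [norm_smul' hc0, smul_smul]
    congr 1
    rw [hz]; field_simp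
  have hxx : XX (c • z) = XX z := by
    unfold XX
    rw [norm_smul' hc0, sig_smul' hc0, mul_div_mul_left _ _ hcn]
  have hrho : rho (c • z) = c * rho z := rho_smul' hc0 z
  have hsig : sig (c • z) = c * sig z := sig_smul' hc0 z
  have huu : uu (c • z) = uu z := by
    unfold uu
    rw [hrho]
    simp only [PiLp.smul_apply, smul_eq_mul]
    push_cast
    have : (c : ℂ) ≠ 0 := by exact_mod_cast hcn
    rw [show (c : ℂ) * (z 0 : ℂ) + (c : ℂ) * (z 1 : ℂ) * Complex.I
      = (c : ℂ) * ((z 0 : ℂ) + (z 1 : ℂ) * Complex.I) by ring, mul_div_mul_left _ _ this]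
  have he2 : e2 (c • z) = e2 z := by
    unfold e2
    rw [hrho]
    simp only [PiLp.smul_apply, smul_eq_mul]
    rw [show -(c * z 1) = c * (-(z 1)) by ring, mul_div_mul_left _ _ hcn,
      mul_div_mul_left _ _ hcn]
  have he1 : e1 (c • z) = e1 z := by
    unfold e1
    rw [hrho, hsig, norm_smul' hc0]
    simp only [PiLp.smul_apply, smul_eq_mul]
    simp only [mul_div_mul_left _ _ hcn]
  have hWW : WW (c • z) = WW z := by
    funext i j
    unfold WW
    rw [hsig]
    simp only [PiLp.smul_apply, smul_eq_mul]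
    have : c * z i * (c * z j) / (c * sig z) ^ 2 = z i * z j / sig z ^ 2 := by
      rw [show c * z i * (c * z j) = c ^ 2 * (z i * z j) by ring, mul_pow,
        mul_div_mul_left _ _ (pow_ne_zero 2 hcn)]
    rw [this]
  have hTT : TT (c • z) = TT z := by unfold TT; rw [hnu, hWW]
  have hrz : rho (c • z) = 0 ↔ rho z = 0 := by
    rw [hrho, mul_eq_zero]; exact or_iff_right hcn
  unfold Afam
  simp only [hn, hnu, hxx, huu, he1, he2, hTT, hrz]

theorem Bt_eq (θ : ℝ → ℝ) (P : ℝ → ℝ → ℂ → ℝ) (t : ℝ) {z : EuclideanSpace ℝ (Fin (m + 3))}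
    (hz : ‖z‖ = 1) :
    Bt θ P t z = (Afam (fun _ => θ t) (fun _ => P t) z)⁻¹ - outer z := by
  unfold Bt
  rw [Afam_polar θ P t hz]

theorem SecForm_congr {B B' : EuclideanSpace ℝ (Fin (m + 3)) → Matrix (Fin (m + 3)) (Fin (m + 3)) ℝ}
    (h : ∀ z, ‖z‖ = 1 → B z = B' z) (hB : SecForm B) : SecForm B' := by
  have h' : ∀ z ∈ sphere (0 : EuclideanSpace ℝ (Fin (m + 3))) 1, B z = B' z := fun z hz =>
    h z (mem_sphere_zero_iff_norm.1 hz)
  refine ⟨fun i j => ?_, fun z hz i j => ?_, fun z hz i => ?_, ?_⟩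
  · refine (hB.cont i j).congr fun z hz => ?_
    show B' z i j = B z i j
    rw [h' z hz]
  · rw [← h' z hz]; exact hB.symm z hz i j
  · rw [← h' z hz]; exact hB.tang z hz i
  · obtain ⟨c1, c2, c3, h1, h2, h3, h4⟩ := hB.repr
    refine ⟨c1, c2, c3, h1, h2, h3, fun z hz h0 hs i j => ?_⟩
    rw [← h' z hz]; exact h4 z hz h0 hs i j

theorem secForm_Bt (h : Fam s θ P t0 X0 X1)
    (heven : ∀ t X u, P t X ((starRingEnd ℂ) u) = P t X u) (t : ℝ) :
    SecForm (m := m) (Bt θ P t) := by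
  have hF : Sph.Frz (θ t) (P t) :=
    { θ_pos := h.θ_pos t
      cont := h.smooth_P.continuous.comp (by fun_prop : Continuous fun q : ℝ × ℂ =>
        ((t, q.1, q.2) : ℝ × ℝ × ℂ))
      pos := h.P_pos t
      low := ⟨X0, h.hX0, fun X u hX => h.P_low t X u hX⟩
      high := ⟨X1, h.hX1, fun X u hX => h.P_high t X u hX⟩ }
  exact SecForm_congr (fun z hz => (Bt_eq θ P t hz).symm) (Sph.secForm_SB hF (heven t))

end Crest.Agent.R202.Bri
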