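import Mathlib
import Crest.Agent.R202.SecQB
import Crest.Agent.R202.Model4
import Crest.Agent.R202.PolMap
import Crest.Agent.R202.SecAfam
import Crest.Agent.R202.WgtSph
import Crest.Agent.R202.WgtSep

-- ▼ part R202/TraSph
section

/-!
# Row 202, T4 (helper362): the sphere `S^{m+2}` in the coordinates `(X, φ, ω)`
-/

set_option autoImplicit false
set_option linter.unusedSimpArgs false

open MeasureTheory MeasureTheory.Measure Set Filter Topology Metric
open Crest.Agent.R202 Crest.Agent.R202.Sph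
open scoped ENNReal

noncomputable section

namespace Crest.Agent.R202.Tra

abbrev En (D : ℕ) : Type := EuclideanSpace ℝ (Fin D)

abbrev S1 (D : ℕ) : Type := sphere (0 : EuclideanSpace ℝ (Fin D)) 1

abbrev muS (D : ℕ) : Measure (S1 D) := (volume : Measure (EuclideanSpace ℝ (Fin D))).toSphere

theorem lintegral_volumeIoiPow (n : ℕ) {h : ℝ → ℝ≥0∞} (hh : Measurable h) :
    ∫⁻ r : Ioi (0 : ℝ), h r ∂(volumeIoiPow n)
      = ∫⁻ r in Ioi (0 : ℝ), ENNReal.ofReal (r ^ n) * h r := by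
  simp only [Measure.volumeIoiPow]
  have h1 : Measurable fun r : Ioi (0 : ℝ) => ENNReal.ofReal ((r : ℝ) ^ n) := by fun_prop
  have h2 : Measurable fun r : Ioi (0 : ℝ) => h r := hh.comp measurable_subtype_coe
  rw [lintegral_withDensity_eq_lintegral_mul _ h1 h2,
    ← lintegral_subtype_comap measurableSet_Ioi (fun r => ENNReal.ofReal (r ^ n) * h r)]
  rfl

/-- polar coordinates for nonnegative functions -/
theorem lintegral_polar {D : ℕ} [NeZero D] {g : En D → ℝ≥0∞} (hg : Measurable g) :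
    ∫⁻ x, g x = ∫⁻ r in Ioi (0 : ℝ), ENNReal.ofReal (r ^ (D - 1)) *
      ∫⁻ ω : S1 D, g (r • (ω : En D)) ∂(muS D) := by
  have hmp := (volume : Measure (En D)).measurePreserving_homeomorphUnitSphereProd
  rw [finrank_euclideanSpace_fin] at hmp
  have e1 : ∫⁻ x, g x = ∫⁻ p : S1 D × Ioi (0 : ℝ), g (p.2.1 • p.1.1)
      ∂((muS D).prod (volumeIoiPow (D - 1))) := by
    calc ∫⁻ x, g x = ∫⁻ x : ({(0)}ᶜ : Set (En D)), g x.1 ∂(volume.comap
            ((↑) : ({(0)}ᶜ : Set (En D)) → En D)) := by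
          rw [lintegral_subtype_comap (measurableSet_singleton _).compl fun x ↦ g x,
            restrict_compl_singleton]
      _ = _ := by
          rw [← hmp.lintegral_comp_emb (Homeomorph.measurableEmbedding _)]
          refine lintegral_congr_ae (Filter.Eventually.of_forall fun x => ?_)
          dsimp only
          congr 1
          have hx : ‖x.1‖ ≠ 0 := norm_ne_zero_iff.2 x.2
          simp [homeomorphUnitSphereProd, smul_smul, hx]
  have hm : Measurable fun p : S1 D × Ioi (0 : ℝ) => g (p.2.1 • p.1.1) :=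
    hg.comp (by fun_prop)
  rw [e1, lintegral_prod_symm' _ hm]
  have hm2 : Measurable fun p : ℝ × S1 D => g (p.1 • (p.2 : En D)) := hg.comp (by fun_prop)
  exact lintegral_volumeIoiPow (D - 1) (h := fun r => ∫⁻ ω : S1 D, g (r • (ω : En D)) ∂(muS D))
    hm2.lintegral_prod_right'

theorem continuous_mkPt' {m : ℕ} :
    Continuous fun t : ℝ × ℝ × En (m + 1) => mkPt t.1 t.2.1 t.2.2 := by
  unfold mkPt
  refine (PiLp.continuous_toLp 2 _).comp ?_
  refine continuous_pi fun i => ?_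
  refine Fin.cases ?_ (fun i => Fin.cases ?_ (fun j => ?_) i) i
  · simpa using continuous_fst
  · have : Continuous fun t : ℝ × ℝ × En (m + 1) => t.2.1 := by fun_prop
    simpa using this
  · have : Continuous fun t : ℝ × ℝ × En (m + 1) => t.2.2 j :=
      (EuclideanSpace.proj j : En (m + 1) →L[ℝ] ℝ).continuous.comp
        (continuous_snd.comp continuous_snd)
    simpa using this

/-- product coordinates and polar coordinates in both factors -/
theorem lintegral_mkPt {m : ℕ} {F : En (m + 3) → ℝ≥0∞} (hF : Measurable F) :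
    ∫⁻ x, F x = ∫⁻ p : ℝ × ℝ, ∫⁻ y : En (m + 1), F (mkPt p.1 p.2 y) := by
  rw [← (measurePreserving_mkE (m := m)).lintegral_comp_emb (mkE m).measurableEmbedding F]
  have h0 : ∀ t : ℝ × ℝ × En (m + 1), F (mkE m t) = F (mkPt t.1 t.2.1 t.2.2) := by
    rintro ⟨a, b, y⟩; rw [mkE_apply]
  simp only [h0]
  have hm : Measurable fun t : ℝ × ℝ × En (m + 1) => F (mkPt t.1 t.2.1 t.2.2) :=
    hF.comp continuous_mkPt'.measurable
  rw [Measure.volume_eq_prod, lintegral_prod _ hm.aemeasurable]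
  have hm2 : ∀ a : ℝ, Measurable fun t : ℝ × En (m + 1) => F (mkPt a t.1 t.2) := fun a =>
    hm.comp (by fun_prop : Measurable fun t : ℝ × En (m + 1) => ((a, t) : ℝ × ℝ × En (m + 1)))
  have h1 : ∀ a : ℝ, ∫⁻ y : ℝ × En (m + 1), F (mkPt a y.1 y.2)
      = ∫⁻ b : ℝ, ∫⁻ y : En (m + 1), F (mkPt a b y) := fun a => by
    rw [Measure.volume_eq_prod, lintegral_prod _ (hm2 a).aemeasurable]
  simp only [h1]
  have hm3 : Measurable fun p : ℝ × ℝ => ∫⁻ y : En (m + 1), F (mkPt p.1 p.2 y) := by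
    have : Measurable fun p : (ℝ × ℝ) × En (m + 1) => F (mkPt p.1.1 p.1.2 p.2) :=
      hm.comp (by fun_prop : Measurable fun p : (ℝ × ℝ) × En (m + 1) =>
        ((p.1.1, p.1.2, p.2) : ℝ × ℝ × En (m + 1)))
    exact this.lintegral_prod_right'
  rw [Measure.volume_eq_prod, lintegral_prod _ hm3.aemeasurable]

/-- polar coordinates in the quadrant, with `X = sin t` -/
theorem lintegral_quadrant {K : ℝ × ℝ → ℝ≥0∞} (hK : Measurable K) :
    ∫⁻ p in Ioi (0 : ℝ) ×ˢ Ioi (0 : ℝ), K p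
      = ∫⁻ R in Ioi (0 : ℝ), ∫⁻ X in Ioo (0 : ℝ) 1,
        ENNReal.ofReal R * (ENNReal.ofReal (Mod.rh X)⁻¹ * K (R * Mod.rh X, R * X)) := by
  have hQ : MeasurableSet (Ioi (0 : ℝ) ×ˢ Ioi (0 : ℝ)) := measurableSet_Ioi.prod measurableSet_Ioi
  rw [← lintegral_indicator hQ, ← lintegral_comp_polarCoord_symm]
  have htar : polarCoord.target = Ioi (0 : ℝ) ×ˢ Ioo (-Real.pi) Real.pi := rfl
  have hsym : ∀ p : ℝ × ℝ, polarCoord.symm p = (p.1 * Real.cos p.2, p.1 * Real.sin p.2) :=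
    fun p => rfl
  rw [htar, Measure.volume_eq_prod, ← Measure.prod_restrict]
  have hmi : Measurable ((Ioi (0 : ℝ) ×ˢ Ioi (0 : ℝ)).indicator K) := hK.indicator hQ
  have hm1 : Measurable fun p : ℝ × ℝ => ENNReal.ofReal p.1 •
      (Ioi (0 : ℝ) ×ˢ Ioi (0 : ℝ)).indicator K (polarCoord.symm p) := by
    simp only [hsym, smul_eq_mul]
    exact (by fun_prop : Measurable fun p : ℝ × ℝ => ENNReal.ofReal p.1).mul
      (hmi.comp (by fun_prop))
  rw [lintegral_prod _ hm1.aemeasurable]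
  refine setLIntegral_congr_fun measurableSet_Ioi fun R hR => ?_
  have hR0 : (0 : ℝ) < R := hR
  -- restrict the angle
  have hpi := Real.pi_pos
  have hsub : Ioo (0 : ℝ) (Real.pi / 2) ⊆ Ioo (-Real.pi) Real.pi :=
    Ioo_subset_Ioo (by linarith) (by linarith)
  have e1 : ∀ t ∈ Ioo (-Real.pi) Real.pi, ENNReal.ofReal R •
      (Ioi (0 : ℝ) ×ˢ Ioi (0 : ℝ)).indicator K (polarCoord.symm (R, t))
      = (Ioo (0 : ℝ) (Real.pi / 2)).indicator
        (fun t => ENNReal.ofReal R * K (R * Real.cos t, R * Real.sin t)) t := by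
    intro t ht
    rw [hsym, smul_eq_mul]
    by_cases h : t ∈ Ioo (0 : ℝ) (Real.pi / 2)
    · rw [indicator_of_mem h, indicator_of_mem]
      refine ⟨?_, ?_⟩
      · exact mul_pos hR0 (Real.cos_pos_of_mem_Ioo ⟨by linarith [h.1], h.2⟩)
      · exact mul_pos hR0 (Real.sin_pos_of_pos_of_lt_pi h.1 (by linarith [h.2]))
    · rw [indicator_of_notMem h, indicator_of_notMem, mul_zero]
      rintro ⟨h1, h2⟩
      have h1' : 0 < R * Real.cos t := h1
      have h2' : 0 < R * Real.sin t := h2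
      have hc : 0 < Real.cos t := (mul_pos_iff_of_pos_left hR0).1 h1'
      have hs : 0 < Real.sin t := (mul_pos_iff_of_pos_left hR0).1 h2'
      apply h
      constructor
      · by_contra hcon
        have := Real.sin_nonpos_of_nonpos_of_neg_pi_le (not_lt.1 hcon) ht.1.le
        linarith
      · by_contra hcon
        have := Real.cos_nonpos_of_pi_div_two_le_of_le (not_lt.1 hcon) (by linarith [ht.2])
        linarith
  dsimp only
  rw [setLIntegral_congr_fun measurableSet_Ioo e1, lintegral_indicator measurableSet_Ioo,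
    Measure.restrict_restrict measurableSet_Ioo, inter_eq_left.2 hsub]
  -- substitution
  have himg : Real.sin '' Ioo (0 : ℝ) (Real.pi / 2) = Ioo (0 : ℝ) 1 := by
    ext y
    constructor
    · rintro ⟨t, ht, rfl⟩
      refine ⟨Real.sin_pos_of_pos_of_lt_pi ht.1 (by linarith [ht.2]), ?_⟩
      rw [← Real.sin_pi_div_two]
      exact Real.sin_lt_sin_of_lt_of_le_pi_div_two (by linarith [ht.1]) le_rfl ht.2
    · intro hy
      refine ⟨Real.arcsin y, ⟨Real.arcsin_pos.2 hy.1, Real.arcsin_lt_pi_div_two.2 hy.2⟩,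
        Real.sin_arcsin (by linarith [hy.1]) hy.2.le⟩
  have hinj : InjOn Real.sin (Ioo (0 : ℝ) (Real.pi / 2)) := by
    refine Real.injOn_sin.mono ?_
    intro t ht
    exact ⟨by linarith [ht.1], ht.2.le⟩
  rw [← himg, lintegral_image_eq_lintegral_abs_deriv_mul measurableSet_Ioo
    (fun t _ => (Real.hasDerivAt_sin t).hasDerivWithinAt) hinj]
  refine setLIntegral_congr_fun measurableSet_Ioo fun t ht => ?_
  have hc : 0 < Real.cos t := Real.cos_pos_of_mem_Ioo ⟨by linarith [ht.1], ht.2⟩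
  have hrh : Mod.rh (Real.sin t) = Real.cos t := by
    unfold Mod.rh
    rw [← Real.cos_sq', Real.sqrt_sq hc.le]
  rw [hrh, abs_of_pos hc, ← mul_assoc (ENNReal.ofReal (Real.cos t)),
    mul_comm (ENNReal.ofReal (Real.cos t)) (ENNReal.ofReal R), mul_assoc,
    ← mul_assoc (ENNReal.ofReal (Real.cos t)), ← ENNReal.ofReal_mul hc.le,
    mul_inv_cancel₀ hc.ne', ENNReal.ofReal_one, one_mul]

/-- the parametrisation `(X, φ, ω) ↦ (ρ cos φ, ρ sin φ, X ω)` -/
def Psi (m : ℕ) (t : (ℝ × ℝ) × S1 (m + 1)) : En (m + 3) :=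
  mkPt (Mod.rh t.1.1 * Real.cos t.1.2) (Mod.rh t.1.1 * Real.sin t.1.2) (t.1.1 • (t.2 : En (m + 1)))

theorem continuous_Psi (m : ℕ) : Continuous (Psi m) := by
  unfold Psi
  have hr : Continuous fun t : (ℝ × ℝ) × S1 (m + 1) => Mod.rh t.1.1 :=
    Mod.continuous_rh.comp (by fun_prop)
  exact continuous_mkPt'.comp ((hr.mul (by fun_prop)).prodMk ((hr.mul (by fun_prop)).prodMk
    (by fun_prop)))

/-- the full rectangle -/
def Omf : Set (ℝ × ℝ) := Ioo (0 : ℝ) 1 ×ˢ Ioo (-Real.pi) Real.pi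


/-- `X^m dX dφ` on `(0,1) × (-π,π)` -/
def nu2 (m : ℕ) : Measure (ℝ × ℝ) :=
  (volume.restrict Omf).withDensity fun z => ENNReal.ofReal (z.1 ^ m)

/-- the Gaussian moment -/
def gE (k : ℕ) : ℝ≥0∞ := ∫⁻ R in Ioi (0 : ℝ), ENNReal.ofReal (R ^ k * Real.exp (-(1 / 2) * R ^ 2))

theorem gE_eq (k : ℕ) : gE k = ENNReal.ofReal (gmom k) := by
  unfold gE gmom
  rw [ofReal_integral_eq_lintegral_ofReal (gmom_integrable k)]
  filter_upwards [self_mem_ae_restrict measurableSet_Ioi] with r hr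
  have hr' : (0 : ℝ) < r := hr
  positivity

theorem gE_ne_zero (k : ℕ) : gE k ≠ 0 := by
  rw [gE_eq]; exact (ENNReal.ofReal_pos.2 (gmom_pos k)).ne'

theorem gE_ne_top (k : ℕ) : gE k ≠ ⊤ := by
  rw [gE_eq]; exact ENNReal.ofReal_ne_top

/-- the Gaussian extension -/
def gext {D : ℕ} (f : En D → ℝ≥0∞) (x : En D) : ℝ≥0∞ :=
  f (‖x‖⁻¹ • x) * ENNReal.ofReal (Real.exp (-(1 / 2) * ‖x‖ ^ 2))

theorem measurable_gext {D : ℕ} {f : En D → ℝ≥0∞} (hf : Measurable f) : Measurable (gext f) := by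
  unfold gext
  exact (hf.comp (by fun_prop)).mul (by fun_prop)

theorem lintegral_gext {D : ℕ} [NeZero D] {f : En D → ℝ≥0∞} (hf : Measurable f) :
    ∫⁻ x, gext f x = gE (D - 1) * ∫⁻ ω : S1 D, f (ω : En D) ∂(muS D) := by
  rw [lintegral_polar (measurable_gext hf)]
  have h1 : ∀ r ∈ Ioi (0 : ℝ), ENNReal.ofReal (r ^ (D - 1)) *
      ∫⁻ ω : S1 D, gext f (r • (ω : En D)) ∂(muS D)
      = ENNReal.ofReal (r ^ (D - 1) * Real.exp (-(1 / 2) * r ^ 2)) *
        ∫⁻ ω : S1 D, f (ω : En D) ∂(muS D) := by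
    intro r hr
    have hr' : (0 : ℝ) < r := hr
    have h2 : ∀ ω : S1 D, gext f (r • (ω : En D))
        = ENNReal.ofReal (Real.exp (-(1 / 2) * r ^ 2)) * f (ω : En D) := by
      intro ω
      have hn : ‖r • (ω : En D)‖ = r := by
        rw [norm_smul, Real.norm_eq_abs, abs_of_pos hr']
        have : ‖(ω : En D)‖ = 1 := by simp
        rw [this, mul_one]
      unfold gext
      rw [hn, smul_smul, inv_mul_cancel₀ hr'.ne', one_smul, mul_comm]
    have hfm : Measurable fun ω : S1 D => f (ω : En D) := hf.comp measurable_subtype_coe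
    simp only [h2]
    rw [lintegral_const_mul _ hfm, ← mul_assoc, ← ENNReal.ofReal_mul (by positivity)]
  rw [setLIntegral_congr_fun measurableSet_Ioi h1, lintegral_mul_const, gE]
  fun_prop

/-- **the sphere in coordinates**, nonnegative functions -/
theorem lintegral_sphere {m : ℕ} {f : En (m + 3) → ℝ≥0∞} (hf : Measurable f) :
    ∫⁻ z : S1 (m + 3), f (z : En (m + 3)) ∂(muS (m + 3))
      = ∫⁻ t, f (Psi m t) ∂((nu2 m).prod (muS (m + 1))) := by
  have hF := measurable_gext hf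
  have key := lintegral_gext hf
  have hk : m + 3 - 1 = m + 2 := rfl
  rw [hk] at key
  -- compute the Gaussian integral in product coordinates
  have c1 : ∫⁻ x, gext f x = ∫⁻ p : ℝ × ℝ, ∫⁻ r in Ioi (0 : ℝ), ENNReal.ofReal (r ^ m) *
      ∫⁻ ω : S1 (m + 1), gext f (mkPt p.1 p.2 (r • (ω : En (m + 1)))) ∂(muS (m + 1)) := by
    rw [lintegral_mkPt hF]
    refine lintegral_congr fun p => ?_
    rw [lintegral_polar (g := fun y => gext f (mkPt p.1 p.2 y))
      (hF.comp (continuous_mkPt'.measurable.comp (by fun_prop :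
        Measurable fun y : En (m + 1) => ((p.1, p.2, y) : ℝ × ℝ × En (m + 1)))))]
    rfl
  -- the function `G`
  set G : ℝ × ℝ × ℝ → ℝ≥0∞ := fun s => ∫⁻ ω : S1 (m + 1),
    gext f (mkPt (s.1 * Real.cos s.2.1) (s.1 * Real.sin s.2.1) (s.2.2 • (ω : En (m + 1))))
      ∂(muS (m + 1)) with hG
  have hGm : Measurable G := by
    have : Measurable fun t : (ℝ × ℝ × ℝ) × S1 (m + 1) => gext f
        (mkPt (t.1.1 * Real.cos t.1.2.1) (t.1.1 * Real.sin t.1.2.1)
          (t.1.2.2 • (t.2 : En (m + 1)))) := by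
      refine hF.comp (continuous_mkPt'.measurable.comp (by fun_prop :
        Measurable fun t : (ℝ × ℝ × ℝ) × S1 (m + 1) => ((t.1.1 * Real.cos t.1.2.1,
          t.1.1 * Real.sin t.1.2.1, t.1.2.2 • (t.2 : En (m + 1))) : ℝ × ℝ × En (m + 1))))
    exact this.lintegral_prod_right'
  have c2 : ∫⁻ x, gext f x = ∫⁻ φ in Ioo (-Real.pi) Real.pi,
      ∫⁻ p in Ioi (0 : ℝ) ×ˢ Ioi (0 : ℝ), ENNReal.ofReal p.1 * (ENNReal.ofReal (p.2 ^ m) *
        G (p.1, φ, p.2)) := by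
    rw [c1, ← lintegral_comp_polarCoord_symm]
    have htar : polarCoord.target = Ioi (0 : ℝ) ×ˢ Ioo (-Real.pi) Real.pi := rfl
    have hsym : ∀ p : ℝ × ℝ, polarCoord.symm p = (p.1 * Real.cos p.2, p.1 * Real.sin p.2) :=
      fun p => rfl
    simp only [hsym, htar, smul_eq_mul]
    have hm1 : Measurable fun q : (ℝ × ℝ) × ℝ => ENNReal.ofReal (q.2 ^ m) *
        G (q.1.1, q.1.2, q.2) := by
      refine (by fun_prop : Measurable fun q : (ℝ × ℝ) × ℝ => ENNReal.ofReal (q.2 ^ m)).mul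
        (hGm.comp (by fun_prop))
    have hm2 : Measurable fun p : ℝ × ℝ => ENNReal.ofReal p.1 * ∫⁻ r in Ioi (0 : ℝ),
        ENNReal.ofReal (r ^ m) * G (p.1, p.2, r) := by
      exact (by fun_prop : Measurable fun p : ℝ × ℝ => ENNReal.ofReal p.1).mul
        hm1.lintegral_prod_right'
    have e1 : (∫⁻ p in Ioi (0 : ℝ) ×ˢ Ioo (-Real.pi) Real.pi, ENNReal.ofReal p.1 *
        ∫⁻ r in Ioi (0 : ℝ), ENNReal.ofReal (r ^ m) * G (p.1, p.2, r))
        = ∫⁻ φ in Ioo (-Real.pi) Real.pi, ∫⁻ s in Ioi (0 : ℝ), ENNReal.ofReal s *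
        ∫⁻ r in Ioi (0 : ℝ), ENNReal.ofReal (r ^ m) * G (s, φ, r) := by
      rw [Measure.volume_eq_prod, ← Measure.prod_restrict, lintegral_prod_symm' _ hm2]
    refine Eq.trans e1 ?_
    refine setLIntegral_congr_fun measurableSet_Ioo fun φ _ => ?_
    have hm3 : Measurable fun p : ℝ × ℝ => ENNReal.ofReal p.1 * (ENNReal.ofReal (p.2 ^ m) *
        G (p.1, φ, p.2)) := by
      refine (by fun_prop : Measurable fun p : ℝ × ℝ => ENNReal.ofReal p.1).mul
        ((by fun_prop : Measurable fun p : ℝ × ℝ => ENNReal.ofReal (p.2 ^ m)).mul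
          (hGm.comp (by fun_prop)))
    rw [Measure.volume_eq_prod, ← Measure.prod_restrict, lintegral_prod _ hm3.aemeasurable]
    refine setLIntegral_congr_fun measurableSet_Ioi fun s _ => ?_
    dsimp only
    rw [lintegral_const_mul]
    exact (by fun_prop : Measurable fun r : ℝ => ENNReal.ofReal (r ^ m)).mul
      (hGm.comp (by fun_prop))
  -- polar coordinates in `(|x'|, |y|)`
  set Hh : ℝ × ℝ → ℝ≥0∞ := fun p => ∫⁻ ω : S1 (m + 1), f (Psi m (p, ω)) ∂(muS (m + 1)) with hHh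
  have hHm : Measurable Hh := by
    have : Measurable fun t : (ℝ × ℝ) × S1 (m + 1) => f (Psi m t) :=
      hf.comp (continuous_Psi m).measurable
    exact this.lintegral_prod_right'
  have c3 : ∀ φ : ℝ, ∫⁻ p in Ioi (0 : ℝ) ×ˢ Ioi (0 : ℝ), ENNReal.ofReal p.1 *
      (ENNReal.ofReal (p.2 ^ m) * G (p.1, φ, p.2))
      = gE (m + 2) * ∫⁻ X in Ioo (0 : ℝ) 1, ENNReal.ofReal (X ^ m) * Hh (X, φ) := by
    intro φ
    have hm3 : Measurable fun p : ℝ × ℝ => ENNReal.ofReal p.1 * (ENNReal.ofReal (p.2 ^ m) *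
        G (p.1, φ, p.2)) := by
      refine (by fun_prop : Measurable fun p : ℝ × ℝ => ENNReal.ofReal p.1).mul
        ((by fun_prop : Measurable fun p : ℝ × ℝ => ENNReal.ofReal (p.2 ^ m)).mul
          (hGm.comp (by fun_prop)))
    rw [lintegral_quadrant hm3]
    have hm4 : Measurable fun X : ℝ => ENNReal.ofReal (X ^ m) * Hh (X, φ) :=
      (by fun_prop : Measurable fun X : ℝ => ENNReal.ofReal (X ^ m)).mul (hHm.comp (by fun_prop))
    have e1 : ∀ R ∈ Ioi (0 : ℝ), ∫⁻ X in Ioo (0 : ℝ) 1, ENNReal.ofReal R *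
        (ENNReal.ofReal (Mod.rh X)⁻¹ * (ENNReal.ofReal (R * Mod.rh X) *
          (ENNReal.ofReal ((R * X) ^ m) * G (R * Mod.rh X, φ, R * X))))
        = ENNReal.ofReal (R ^ (m + 2) * Real.exp (-(1 / 2) * R ^ 2)) *
          ∫⁻ X in Ioo (0 : ℝ) 1, ENNReal.ofReal (X ^ m) * Hh (X, φ) := by
      intro R hR
      have hR0 : (0 : ℝ) < R := hR
      rw [← lintegral_const_mul _ hm4]
      refine setLIntegral_congr_fun measurableSet_Ioo fun X hX => ?_
      have hX2 : X ^ 2 < 1 := Mod.sq_lt_one_of_mem hX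
      have hρ : 0 < Mod.rh X := Mod.rh_pos hX2
      have hX0 : 0 < X := hX.1
      have e2 : G (R * Mod.rh X, φ, R * X)
          = ENNReal.ofReal (Real.exp (-(1 / 2) * R ^ 2)) * Hh (X, φ) := by
        rw [hG, hHh]
        dsimp only
        have hfm : Measurable fun ω : S1 (m + 1) => f (Psi m ((X, φ), ω)) :=
          hf.comp ((continuous_Psi m).measurable.comp
            (by fun_prop : Measurable fun ω : S1 (m + 1) => (((X, φ), ω) : (ℝ × ℝ) × S1 (m + 1))))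
        rw [← lintegral_const_mul _ hfm]
        refine lintegral_congr fun ω => ?_
        have h3 : mkPt (R * Mod.rh X * Real.cos φ) (R * Mod.rh X * Real.sin φ)
            ((R * X) • (ω : En (m + 1))) = R • Psi m ((X, φ), ω) := by
          unfold Psi
          rw [smul_mkPt, smul_smul, mul_assoc, mul_assoc]
        have h4 : ‖Psi m ((X, φ), ω)‖ = 1 := by
          have h5 := norm_sq_mkPt (Mod.rh X * Real.cos φ) (Mod.rh X * Real.sin φ)
            (X • (ω : En (m + 1)))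
          have h6 : ‖X • (ω : En (m + 1))‖ = X := by
            rw [norm_smul, Real.norm_eq_abs, abs_of_pos hX0]
            have : ‖(ω : En (m + 1))‖ = 1 := by simp
            rw [this, mul_one]
          rw [h6] at h5
          have h7 : (Mod.rh X * Real.cos φ) ^ 2 + (Mod.rh X * Real.sin φ) ^ 2 + X ^ 2 = 1 := by
            have h8 := Mod.rh_sq hX2
            have h9 := Real.cos_sq_add_sin_sq φ
            calc _ = Mod.rh X ^ 2 * (Real.cos φ ^ 2 + Real.sin φ ^ 2) + X ^ 2 := by ring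
              _ = 1 := by rw [h8, h9]; ring
          rw [h7] at h5
          have h10 : ‖Psi m ((X, φ), ω)‖ ^ 2 = 1 := h5
          have h11 := norm_nonneg (Psi m ((X, φ), ω))
          nlinarith
        have h5 : ‖R • Psi m ((X, φ), ω)‖ = R := by
          rw [norm_smul, h4, mul_one, Real.norm_eq_abs, abs_of_pos hR0]
        unfold gext
        rw [h3, h5, smul_smul, inv_mul_cancel₀ hR0.ne', one_smul, mul_comm]
      rw [e2]
      have e3 : R ^ (m + 2) * Real.exp (-(1 / 2) * R ^ 2) * X ^ m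
          = R * ((Mod.rh X)⁻¹ * ((R * Mod.rh X) * ((R * X) ^ m * Real.exp (-(1 / 2) * R ^ 2)))) := by
        rw [mul_pow]; field_simp; ring
      have e4 : ENNReal.ofReal (R ^ (m + 2) * Real.exp (-(1 / 2) * R ^ 2) * X ^ m)
          = ENNReal.ofReal R * (ENNReal.ofReal (Mod.rh X)⁻¹ * (ENNReal.ofReal (R * Mod.rh X) *
            (ENNReal.ofReal ((R * X) ^ m) * ENNReal.ofReal (Real.exp (-(1 / 2) * R ^ 2))))) := by
        rw [e3]
        rw [ENNReal.ofReal_mul (q := (Mod.rh X)⁻¹ * ((R * Mod.rh X) * ((R * X) ^ m *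
            Real.exp (-(1 / 2) * R ^ 2)))) hR0.le]
        congr 1
        rw [ENNReal.ofReal_mul (q := (R * Mod.rh X) * ((R * X) ^ m *
            Real.exp (-(1 / 2) * R ^ 2))) (inv_nonneg.2 hρ.le)]
        congr 1
        rw [ENNReal.ofReal_mul (p := R * Mod.rh X) (q := (R * X) ^ m *
            Real.exp (-(1 / 2) * R ^ 2)) (by positivity)]
        congr 1
        rw [ENNReal.ofReal_mul (p := (R * X) ^ m) (by positivity)]
      rw [← mul_assoc (ENNReal.ofReal (R ^ (m + 2) * Real.exp (-(1 / 2) * R ^ 2))),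
        ← ENNReal.ofReal_mul (by positivity), e4]
      simp only [mul_assoc]
    rw [setLIntegral_congr_fun measurableSet_Ioi e1, lintegral_mul_const, gE]
    fun_prop
  have c4 : ∫⁻ x, gext f x = gE (m + 2) * ∫⁻ φ in Ioo (-Real.pi) Real.pi,
      ∫⁻ X in Ioo (0 : ℝ) 1, ENNReal.ofReal (X ^ m) * Hh (X, φ) := by
    rw [c2]
    simp only [c3]
    rw [lintegral_const_mul]
    have : Measurable fun p : ℝ × ℝ => ENNReal.ofReal (p.2 ^ m) * Hh (p.2, p.1) :=
      (by fun_prop : Measurable fun p : ℝ × ℝ => ENNReal.ofReal (p.2 ^ m)).mul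
        (hHm.comp (by fun_prop))
    exact this.lintegral_prod_right'
  -- the right side
  have c5 : ∫⁻ t, f (Psi m t) ∂((nu2 m).prod (muS (m + 1)))
      = ∫⁻ φ in Ioo (-Real.pi) Real.pi, ∫⁻ X in Ioo (0 : ℝ) 1,
        ENNReal.ofReal (X ^ m) * Hh (X, φ) := by
    have hfm : Measurable fun t : (ℝ × ℝ) × S1 (m + 1) => f (Psi m t) :=
      hf.comp (continuous_Psi m).measurable
    rw [lintegral_prod _ hfm.aemeasurable]
    have hd : Measurable fun z : ℝ × ℝ => ENNReal.ofReal (z.1 ^ m) := by fun_prop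
    have e1 : ∫⁻ x : ℝ × ℝ, ∫⁻ y : S1 (m + 1), f (Psi m (x, y)) ∂(muS (m + 1)) ∂(nu2 m)
        = ∫⁻ x in Omf, ENNReal.ofReal (x.1 ^ m) * Hh x := by
      unfold nu2
      rw [lintegral_withDensity_eq_lintegral_mul _ hd hHm]
      rfl
    have hdH : Measurable fun z : ℝ × ℝ => ENNReal.ofReal (z.1 ^ m) * Hh z := hd.mul hHm
    rw [e1, Omf, Measure.volume_eq_prod, ← Measure.prod_restrict, lintegral_prod_symm' _ hdH]
  rw [c5]
  rw [c4] at key
  exact ((ENNReal.mul_right_inj (gE_ne_zero _) (gE_ne_top _)).1 key).symm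

/-! ### functions even in `x1` -/

theorem lintegral_symm_Ioo {k : ℝ → ℝ≥0∞} (hk : ∀ φ, k (-φ) = k φ) :
    ∫⁻ φ in Ioo (-Real.pi) Real.pi, k φ = 2 * ∫⁻ φ in Ioo (0 : ℝ) Real.pi, k φ := by
  have hpi := Real.pi_pos
  have h1 : ∫⁻ φ in Ioo (-Real.pi) Real.pi, k φ
      = ∫⁻ φ in Ioo (-Real.pi) 0 ∪ Ioo (0 : ℝ) Real.pi, k φ := by
    refine setLIntegral_congr ?_
    have h2 : (Ioo (-Real.pi) 0 ∪ Ioo (0 : ℝ) Real.pi : Set ℝ)
        = Ioo (-Real.pi) Real.pi \ {0} := by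
      ext x
      simp only [mem_union, mem_Ioo, Set.mem_sdiff, mem_singleton_iff]
      constructor
      · rintro (h | h)
        · exact ⟨⟨h.1, by linarith [h.2]⟩, h.2.ne⟩
        · exact ⟨⟨by linarith [h.1], h.2⟩, h.1.ne'⟩
      · rintro ⟨h, h0⟩
        rcases lt_or_gt_of_ne h0 with h3 | h3
        · exact Or.inl ⟨h.1, h3⟩
        · exact Or.inr ⟨h3, h.2⟩
    rw [h2]
    exact (sdiff_null_ae_eq_self (by simp)).symm
  have h3 : ∫⁻ φ in Ioo (-Real.pi) 0, k φ = ∫⁻ φ in Ioo (0 : ℝ) Real.pi, k φ := by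
    have h4 := (Measure.measurePreserving_neg (volume : Measure ℝ)).setLIntegral_comp_preimage_emb
      (MeasurableEquiv.neg ℝ).measurableEmbedding k (Ioo (0 : ℝ) Real.pi)
    have h5 : (fun x : ℝ => -x) ⁻¹' Ioo (0 : ℝ) Real.pi = Ioo (-Real.pi) 0 := by
      ext x; simp only [mem_preimage, mem_Ioo]
      constructor
      · rintro ⟨h1, h2⟩; constructor <;> linarith
      · rintro ⟨h1, h2⟩; constructor <;> linarith
    rw [← h4]
    have h6 : (Neg.neg : ℝ → ℝ) ⁻¹' Ioo (0 : ℝ) Real.pi = Ioo (-Real.pi) 0 := h5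
    rw [h6]
    exact (lintegral_congr fun φ => hk φ).symm
  rw [h1, lintegral_union measurableSet_Ioo, h3, two_mul]
  rw [Set.disjoint_left]
  rintro x ⟨_, h⟩ ⟨h', _⟩
  linarith

/-- the sphere in the half coordinates, even nonnegative functions -/
theorem lintegral_sphere_even {m : ℕ} {f : En (m + 3) → ℝ≥0∞} (hf : Measurable f)
    (heven : ∀ a b y, f (mkPt a (-b) y) = f (mkPt a b y)) :
    ∫⁻ z : S1 (m + 3), f (z : En (m + 3)) ∂(muS (m + 3))
      = 2 * ∫⁻ t, f (Psi m t) ∂((Mod.mu m).prod (muS (m + 1))) := by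
  rw [lintegral_sphere hf]
  have hfm : Measurable fun t : (ℝ × ℝ) × S1 (m + 1) => f (Psi m t) :=
    hf.comp (continuous_Psi m).measurable
  set Hh : ℝ × ℝ → ℝ≥0∞ := fun p => ∫⁻ ω : S1 (m + 1), f (Psi m (p, ω)) ∂(muS (m + 1)) with hHh
  have hHm : Measurable Hh := hfm.lintegral_prod_right'
  have hd : Measurable fun z : ℝ × ℝ => ENNReal.ofReal (z.1 ^ m) := by fun_prop
  have hdH : Measurable fun z : ℝ × ℝ => ENNReal.ofReal (z.1 ^ m) * Hh z := hd.mul hHm
  have hev : ∀ X φ : ℝ, Hh (X, -φ) = Hh (X, φ) := by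
    intro X φ
    rw [hHh]
    refine lintegral_congr fun ω => ?_
    unfold Psi
    dsimp only
    rw [Real.cos_neg, Real.sin_neg, mul_neg, heven]
  have hgen : ∀ s : Set ℝ, ∫⁻ t, f (Psi m t)
      ∂(((volume.restrict (Ioo (0 : ℝ) 1 ×ˢ s)).withDensity
        (fun z : ℝ × ℝ => ENNReal.ofReal (z.1 ^ m))).prod (muS (m + 1)))
      = ∫⁻ φ in s, ∫⁻ X in Ioo (0 : ℝ) 1, ENNReal.ofReal (X ^ m) * Hh (X, φ) := by
    intro s
    rw [lintegral_prod _ hfm.aemeasurable]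
    have e1 : ∫⁻ x : ℝ × ℝ, ∫⁻ y : S1 (m + 1), f (Psi m (x, y)) ∂(muS (m + 1))
        ∂((volume.restrict (Ioo (0 : ℝ) 1 ×ˢ s)).withDensity
        (fun z : ℝ × ℝ => ENNReal.ofReal (z.1 ^ m)))
        = ∫⁻ x in Ioo (0 : ℝ) 1 ×ˢ s, ENNReal.ofReal (x.1 ^ m) * Hh x := by
      rw [lintegral_withDensity_eq_lintegral_mul _ hd hHm]
      rfl
    rw [e1, Measure.volume_eq_prod, ← Measure.prod_restrict, lintegral_prod_symm' _ hdH]
  have g1 := hgen (Ioo (-Real.pi) Real.pi)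
  have g2 := hgen (Ioo (0 : ℝ) Real.pi)
  have g1' : ∫⁻ t, f (Psi m t) ∂((nu2 m).prod (muS (m + 1)))
      = ∫⁻ φ in Ioo (-Real.pi) Real.pi, ∫⁻ X in Ioo (0 : ℝ) 1, ENNReal.ofReal (X ^ m) * Hh (X, φ) :=
    g1
  have g2' : ∫⁻ t, f (Psi m t) ∂((Mod.mu m).prod (muS (m + 1)))
      = ∫⁻ φ in Ioo (0 : ℝ) Real.pi, ∫⁻ X in Ioo (0 : ℝ) 1, ENNReal.ofReal (X ^ m) * Hh (X, φ) :=
    g2
  rw [g1', g2']
  exact lintegral_symm_Ioo fun φ => by simp only [hev]

/-- the reflection `x1 ↦ |x1|` -/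
def fold (m : ℕ) (z : En (m + 3)) : En (m + 3) := mkPt (z 0) |z 1| (yPart z)

theorem continuous_fold (m : ℕ) : Continuous (fold m) := by
  unfold fold
  have h0 : ∀ i : Fin (m + 3), Continuous fun z : En (m + 3) => z i := fun i =>
    (EuclideanSpace.proj i : En (m + 3) →L[ℝ] ℝ).continuous
  have hy : Continuous fun z : En (m + 3) => yPart z := by
    unfold yPart
    exact (PiLp.continuous_toLp 2 _).comp (continuous_pi fun i => h0 _)
  exact continuous_mkPt'.comp ((h0 0).prodMk ((h0 1).abs.prodMk hy))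

theorem mkPt_eta {m : ℕ} (z : En (m + 3)) : mkPt (z 0) (z 1) (yPart z) = z := by
  ext i
  refine Fin.cases ?_ (fun i => Fin.cases ?_ (fun j => ?_) i) i
  · simp [mkPt]
  · simp [mkPt]
  · simp [mkPt, yPart]

theorem comp_fold {m : ℕ} {β : Type*} {g : En (m + 3) → β}
    (heven : ∀ a b y, g (mkPt a (-b) y) = g (mkPt a b y)) (z : En (m + 3)) :
    g (fold m z) = g z := by
  unfold fold
  rcases abs_choice (z 1) with h | h
  · rw [h, mkPt_eta]
  · rw [h, heven, mkPt_eta]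

theorem fold_mkPt {m : ℕ} (a b : ℝ) (y : En (m + 1)) :
    fold m (mkPt a (-b) y) = fold m (mkPt a b y) := by
  unfold fold; simp

/-- **the sphere in coordinates**, even functions -/
theorem sph_even {m : ℕ} {g : En (m + 3) → ℝ} (hg : Measurable g)
    (heven : ∀ a b y, g (mkPt a (-b) y) = g (mkPt a b y)) :
    sph g = 2 * ∫ t, g (Psi m t) ∂((Mod.mu m).prod (muS (m + 1))) := by
  have hfold := (continuous_fold m).measurable
  have hPsi := (continuous_Psi m).measurable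
  have hmeas : Measure.map (fun z : S1 (m + 3) => fold m (z : En (m + 3))) (muS (m + 3))
      = (2 : ℝ≥0∞) • Measure.map (fun t => fold m (Psi m t))
        ((Mod.mu m).prod (muS (m + 1))) := by
    ext s hs
    have hm1 : Measurable (fun z : S1 (m + 3) => fold m (z : En (m + 3))) :=
      hfold.comp measurable_subtype_coe
    have hm2 : Measurable (fun t => fold m (Psi m t)) := hfold.comp hPsi
    rw [Measure.smul_apply, Measure.map_apply hm1 hs, Measure.map_apply hm2 hs]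
    have h1 := lintegral_sphere_even (m := m) (f := fun z => s.indicator 1 (fold m z))
      ((measurable_one.indicator hs).comp hfold) (fun a b y => by rw [fold_mkPt])
    have e1 : ∫⁻ z : S1 (m + 3), s.indicator (1 : En (m + 3) → ℝ≥0∞) (fold m (z : En (m + 3)))
        ∂(muS (m + 3)) = muS (m + 3) ((fun z : S1 (m + 3) => fold m (z : En (m + 3))) ⁻¹' s) := by
      rw [← lintegral_indicator_one (hm1 hs)]
      rfl
    have e2 : ∫⁻ t, s.indicator (1 : En (m + 3) → ℝ≥0∞) (fold m (Psi m t))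
        ∂((Mod.mu m).prod (muS (m + 1)))
        = ((Mod.mu m).prod (muS (m + 1))) ((fun t => fold m (Psi m t)) ⁻¹' s) := by
      rw [← lintegral_indicator_one (hm2 hs)]
      rfl
    rw [e1, e2] at h1
    rw [h1, smul_eq_mul]
  have hm1 : Measurable (fun z : S1 (m + 3) => fold m (z : En (m + 3))) :=
    hfold.comp measurable_subtype_coe
  have hm2 : Measurable (fun t => fold m (Psi m t)) := hfold.comp hPsi
  have s1 : sph g = ∫ x, g x ∂(Measure.map (fun z : S1 (m + 3) => fold m (z : En (m + 3)))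
      (muS (m + 3))) := by
    rw [integral_map hm1.aemeasurable hg.aestronglyMeasurable]
    unfold sph
    refine integral_congr_ae (Filter.Eventually.of_forall fun z => ?_)
    exact (comp_fold heven _).symm
  rw [s1, hmeas, integral_smul_measure, integral_map hm2.aemeasurable hg.aestronglyMeasurable]
  simp only [comp_fold heven]
  simp

end Crest.Agent.R202.Tra
end
end

-- ▼ part R202/TraForm
section

/-!
# Row 202, T4 (helper362): the sphere forms `ip`, `QB (SB θ P)` on sector polynomials are the model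
forms `2 g`, `2 θ^{2/(m+2)} Q`
-/

set_option autoImplicit false
set_option linter.unusedSimpArgs false

open MeasureTheory MeasureTheory.Measure Set Filter Topology Metric MvPolynomial
open Crest.Agent.R202 Crest.Agent.R202.Sph Crest.Agent.R202.Geo

noncomputable section

namespace Crest.Agent.R202.Tra

open Crest.Agent.R202.Mod (Om mu VS comp uV rh g Q Adm)

/-- chain rule for polynomials in three functions -/
theorem hasDerivAt_eval3 (V : MvPolynomial (Fin 3) ℝ) {a b c : ℝ → ℝ} {a' b' c' t : ℝ}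
    (ha : HasDerivAt a a' t) (hb : HasDerivAt b b' t) (hc : HasDerivAt c c' t) :
    HasDerivAt (fun s => eval ![a s, b s, c s] V)
      (eval ![a t, b t, c t] (pderiv 0 V) * a' + eval ![a t, b t, c t] (pderiv 1 V) * b'
        + eval ![a t, b t, c t] (pderiv 2 V) * c') t := by
  induction V using MvPolynomial.induction_on with
  | C r => simpa using hasDerivAt_const t r
  | add p q hp hq =>
    simp only [map_add]
    refine (hp.add hq).congr_deriv ?_
    ring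
  | mul_X p i hp =>
    have key : HasDerivAt (fun s => (![a s, b s, c s] : Fin 3 → ℝ) i)
        ((if i = 0 then a' else 0) + (if i = 1 then b' else 0) + (if i = 2 then c' else 0)) t := by
      fin_cases i
      · simpa using ha
      · simpa using hb
      · simpa using hc
    simp only [map_mul, eval_X]
    refine (hp.mul key).congr_deriv ?_
    simp only [pderiv_mul, map_add, map_mul, eval_X, pderiv_X, Pi.single_apply]
    fin_cases i
    · simp; ring
    · simp; ring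
    · simp; ring

/-- the arguments -/
def arg (x φ : ℝ) : Fin 3 → ℝ := ![x ^ 2, rh x * Real.cos φ, rh x * Real.sin φ]

theorem hasDerivAt_rh {x : ℝ} (hx : x ^ 2 < 1) : HasDerivAt rh (-(x / rh x)) x := by
  unfold Mod.rh
  have h1 : HasDerivAt (fun x : ℝ => 1 - x ^ 2) (-(2 * x)) x := by
    simpa using (hasDerivAt_pow 2 x).const_sub 1
  have h2 := h1.sqrt (by have : (0:ℝ) < 1 - x ^ 2 := by linarith
                         exact this.ne')
  refine h2.congr_deriv ?_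
  have h3 : Real.sqrt (1 - x ^ 2) ≠ 0 := (Real.sqrt_pos.2 (by linarith)).ne'
  field_simp

theorem hasDerivAt_uV_fst (q : ℕ) (V : MvPolynomial (Fin 3) ℝ) {x : ℝ} (φ : ℝ) (hx : x ^ 2 < 1) :
    HasDerivAt (fun s => uV q V (s, φ))
      (q * x ^ (q - 1) * eval (arg x φ) V + x ^ q * (eval (arg x φ) (pderiv 0 V) * (2 * x)
        + eval (arg x φ) (pderiv 1 V) * (-(x / rh x) * Real.cos φ)
        + eval (arg x φ) (pderiv 2 V) * (-(x / rh x) * Real.sin φ))) x := by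
  have h1 : HasDerivAt (fun s : ℝ => s ^ 2) (2 * x) x := by simpa using hasDerivAt_pow 2 x
  have h2 := hasDerivAt_eval3 V h1 ((hasDerivAt_rh hx).mul_const (Real.cos φ))
    ((hasDerivAt_rh hx).mul_const (Real.sin φ))
  exact (hasDerivAt_pow q x).mul h2

theorem hasDerivAt_uV_snd (q : ℕ) (V : MvPolynomial (Fin 3) ℝ) (x φ : ℝ) :
    HasDerivAt (fun s => uV q V (x, s))
      (x ^ q * (eval (arg x φ) (pderiv 1 V) * (rh x * -Real.sin φ)
        + eval (arg x φ) (pderiv 2 V) * (rh x * Real.cos φ))) φ := by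
  have h2 := hasDerivAt_eval3 V (hasDerivAt_const φ (x ^ 2))
    ((Real.hasDerivAt_cos φ).const_mul (rh x)) ((Real.hasDerivAt_sin φ).const_mul (rh x))
  refine (h2.const_mul (x ^ q)).congr_deriv ?_
  simp only [arg, mul_zero, zero_add]

theorem sqrt_ab {x : ℝ} (φ : ℝ) :
    Real.sqrt ((rh x * Real.cos φ) ^ 2 + (rh x * Real.sin φ) ^ 2) = rh x := by
  have h : (rh x * Real.cos φ) ^ 2 + (rh x * Real.sin φ) ^ 2 = rh x ^ 2 := by
    have := Real.cos_sq_add_sin_sq φ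
    calc _ = rh x ^ 2 * (Real.cos φ ^ 2 + Real.sin φ ^ 2) := by ring
      _ = rh x ^ 2 := by rw [this, mul_one]
  rw [h, Real.sqrt_sq (Mod.rh_nonneg x)]

theorem evV_arg (V : MvPolynomial (Fin 3) ℝ) (x φ : ℝ) :
    evV V x (rh x * Real.cos φ) (rh x * Real.sin φ) = eval (arg x φ) V := rfl

section comps

variable {m q par : ℕ} {V : MvPolynomial (Fin 3) ℝ} {w : VS q par}

theorem comp0_eq (hw : ∀ z ∈ Om, Mod.ev par (w : ℕ →₀ (ℝ → ℝ)) z = uV q V z) {z : ℝ × ℝ}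
    (hz : z ∈ Om) : comp m q par w 0 z = z.1 ^ q * eval (arg z.1 z.2) V := hw z hz

theorem comp1_eq (hw : ∀ z ∈ Om, Mod.ev par (w : ℕ →₀ (ℝ → ℝ)) z = uV q V z) {z : ℝ × ℝ}
    (hz : z ∈ Om) : comp m q par w 1 z
      = z.1 ^ q * E1 q V 1 z.1 (rh z.1 * Real.cos z.2) (rh z.1 * Real.sin z.2) := by
  obtain ⟨x, φ⟩ := z
  have hx2 : x ^ 2 < 1 := Mod.sq_lt_one_of_mem hz.1
  have hx0 : x ≠ 0 := hz.1.1.ne'
  have hρ : rh x ≠ 0 := (Mod.rh_pos hx2).ne'
  rw [Mod.comp_one_eq_deriv m w hx2]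
  have hev : (fun s => Mod.ev par (w : ℕ →₀ (ℝ → ℝ)) (s, φ)) =ᶠ[𝓝 x] fun s => uV q V (s, φ) := by
    filter_upwards [isOpen_Ioo.mem_nhds hz.1] with s hs
    exact hw (s, φ) ⟨hs, hz.2⟩
  dsimp only
  rw [hev.deriv_eq, (hasDerivAt_uV_fst q V φ hx2).deriv]
  unfold E1
  rw [sqrt_ab, evV_arg, evV_arg, evV_arg, evV_arg]
  rcases Nat.eq_zero_or_pos q with hq | hq
  · subst hq
    simp only [Nat.cast_zero, zero_mul, pow_zero, one_mul, zero_add]
    field_simp
    ring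
  · obtain ⟨k, rfl⟩ : ∃ k, q = k + 1 := ⟨q - 1, by omega⟩
    simp only [Nat.add_sub_cancel]
    field_simp
    ring

theorem comp2_eq (hw : ∀ z ∈ Om, Mod.ev par (w : ℕ →₀ (ℝ → ℝ)) z = uV q V z) {z : ℝ × ℝ}
    (hz : z ∈ Om) : comp m q par w 2 z
      = z.1 ^ q * E2 V z.1 (rh z.1 * Real.cos z.2) (rh z.1 * Real.sin z.2) := by
  obtain ⟨x, φ⟩ := z
  have hx2 : x ^ 2 < 1 := Mod.sq_lt_one_of_mem hz.1
  have hρ : rh x ≠ 0 := (Mod.rh_pos hx2).ne'
  rw [Mod.comp_two_eq_deriv m w hx2]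
  have hev : (fun s => Mod.ev par (w : ℕ →₀ (ℝ → ℝ)) (x, s)) =ᶠ[𝓝 φ] fun s => uV q V (x, s) := by
    filter_upwards [isOpen_Ioo.mem_nhds hz.2] with s hs
    exact hw (x, s) ⟨hz.1, hs⟩
  dsimp only
  rw [hev.deriv_eq, (hasDerivAt_uV_snd q V x φ).deriv]
  unfold E2
  rw [sqrt_ab, evV_arg, evV_arg]
  field_simp

theorem comp3_eq (hw : ∀ z ∈ Om, Mod.ev par (w : ℕ →₀ (ℝ → ℝ)) z = uV q V z) {z : ℝ × ℝ}
    (hz : z ∈ Om) : comp m q par w 3 z
      = Real.sqrt (E0 m q) * (z.1 ^ q * eval (arg z.1 z.2) V / z.1) := by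
  rw [Mod.comp_three_eq, hw z hz]; rfl

end comps

/-! ### points of the sphere -/

theorem Psi_zero {m : ℕ} (t : (ℝ × ℝ) × S1 (m + 1)) : Psi m t 0 = rh t.1.1 * Real.cos t.1.2 :=
  mkPt_zero _ _ _

theorem Psi_one {m : ℕ} (t : (ℝ × ℝ) × S1 (m + 1)) : Psi m t 1 = rh t.1.1 * Real.sin t.1.2 :=
  mkPt_one _ _ _

theorem yPart_Psi {m : ℕ} (t : (ℝ × ℝ) × S1 (m + 1)) : yPart (Psi m t) = t.1.1 • (t.2 : En (m + 1)) :=
  yPart_mkPt _ _ _

theorem sig_Psi {m : ℕ} {t : (ℝ × ℝ) × S1 (m + 1)} (ht : 0 ≤ t.1.1) : sig (Psi m t) = t.1.1 := by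
  unfold Psi
  rw [sig_mkPt, norm_smul, Real.norm_eq_abs, abs_of_nonneg ht]
  have : ‖(t.2 : En (m + 1))‖ = 1 := by simp
  rw [this, mul_one]

theorem uab_Psi {x : ℝ} (φ : ℝ) (hx : x ^ 2 < 1) :
    uab (rh x * Real.cos φ) (rh x * Real.sin φ) = Complex.exp ((φ : ℂ) * Complex.I) := by
  have hρ : rh x ≠ 0 := (Mod.rh_pos hx).ne'
  unfold uab
  rw [sqrt_ab, Complex.exp_mul_I]
  have hρ' : ((rh x : ℝ) : ℂ) ≠ 0 := by exact_mod_cast hρ
  push_cast
  field_simp

theorem ae_prod_mem (m : ℕ) :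
    ∀ᵐ t ∂((mu m).prod (muS (m + 1))), t.1 ∈ Om :=
  Measure.quasiMeasurePreserving_fst.ae (Mod.ae_mem_Om m)

/-! ### `ip = 2 g` -/

theorem ip_eq_g {m q par : ℕ} {Y Y' : MvPolynomial (Fin (m + 1)) ℝ} (hY : Y.IsHomogeneous q)
    (hY' : Y'.IsHomogeneous q) {V V' : MvPolynomial (Fin 3) ℝ} {ε : ℝ} (hε : ε * ε = 1)
    (hV : refl3 V = C ε * V) (hV' : refl3 V' = C ε * V') {w w' : VS q par}
    (hw : ∀ z ∈ Om, Mod.ev par (w : ℕ →₀ (ℝ → ℝ)) z = uV q V z)
    (hw' : ∀ z ∈ Om, Mod.ev par (w' : ℕ →₀ (ℝ → ℝ)) z = uV q V' z) :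
    ip (yI m Y * vI m V) (yI m Y' * vI m V') = 2 * sph (ev (Y * Y')) * g m q par w w' := by
  unfold ip
  rw [sph_even (continuous_ev _).measurable]
  · have e1 : ∫ t, ev (yI m Y * vI m V * (yI m Y' * vI m V')) (Psi m t)
        ∂((mu m).prod (muS (m + 1)))
        = ∫ t, (comp m q par w 0 t.1 * comp m q par w' 0 t.1) * ev (Y * Y') (t.2 : En (m + 1))
          ∂((mu m).prod (muS (m + 1))) := by
      refine integral_congr_ae ?_
      filter_upwards [ae_prod_mem m] with t ht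
      rw [comp0_eq hw ht, comp0_eq hw' ht]
      have hx0 : 0 ≤ t.1.1 := ht.1.1.le
      rw [Sph.ev_mul, Sph.ev_mul, Sph.ev_mul, ev_yI, ev_yI, ev_vI', ev_vI', sig_Psi hx0, Psi_zero,
        Psi_one, yPart_Psi, ev_smul_arg hY, ev_smul_arg hY', evV_arg, evV_arg, Sph.ev_mul]
      ring
    rw [e1, integral_prod_mul (fun z : ℝ × ℝ => comp m q par w 0 z * comp m q par w' 0 z)
      (fun ω : S1 (m + 1) => ev (Y * Y') (ω : En (m + 1))), Mod.g_apply]
    unfold sph
    ring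
  · intro a b y
    rw [Sph.ev_mul, Sph.ev_mul, Sph.ev_mul, Sph.ev_mul, Sph.ev_mul, Sph.ev_mul, ev_yI, ev_yI,
      ev_yI, ev_yI, ev_vI', ev_vI', ev_vI', ev_vI', sig_mkPt, sig_mkPt, yPart_mkPt, yPart_mkPt,
      mkPt_zero, mkPt_zero, mkPt_one, mkPt_one, evV_par hV, evV_par hV']
    linear_combination (ev Y y * evV V ‖y‖ a b * (ev Y' y * evV V' ‖y‖ a b)) * hε

/-! ### `QB = 2 θ^{2/(m+2)} Q` -/

theorem integrable_cont (m : ℕ) {h : ℝ × ℝ → ℝ} (hh : Continuous h) : Integrable h (mu m) := by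
  obtain ⟨C, hC⟩ := ((isCompact_Icc (a := (0:ℝ)) (b := 1)).prod
    (isCompact_Icc (a := (0:ℝ)) (b := Real.pi))).exists_bound_of_continuousOn hh.continuousOn
  refine Integrable.mono' (integrable_const C) hh.aestronglyMeasurable ?_
  filter_upwards [Mod.ae_mem_Om m] with z hz
  exact hC z ⟨⟨hz.1.1.le, hz.1.2.le⟩, ⟨hz.2.1.le, hz.2.2.le⟩⟩

theorem measurable_evV (V : MvPolynomial (Fin 3) ℝ) :
    Measurable fun p : ℝ × ℝ × ℝ => evV V p.1 p.2.1 p.2.2 := by
  unfold evV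
  refine (MvPolynomial.continuous_eval V).measurable.comp ?_
  refine measurable_pi_lambda _ fun i => ?_
  fin_cases i
  · simp; fun_prop
  · simp; fun_prop
  · simp; fun_prop

theorem continuous_arg : Continuous fun z : ℝ × ℝ => arg z.1 z.2 := by
  unfold arg
  refine continuous_pi fun i => ?_
  have hr : Continuous fun z : ℝ × ℝ => rh z.1 := Mod.continuous_rh.comp continuous_fst
  fin_cases i
  · simp; fun_prop
  · simp; exact hr.mul (by fun_prop)
  · simp; exact hr.mul (by fun_prop)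

theorem measurable_uab : Measurable fun p : ℝ × ℝ => uab p.1 p.2 := by
  unfold uab
  refine Measurable.div ?_ (Complex.measurable_ofReal.comp (by fun_prop))
  exact (Complex.measurable_ofReal.comp measurable_fst).add
    ((Complex.measurable_ofReal.comp measurable_snd).mul_const _)

theorem measurable_E1 (q : ℕ) (V : MvPolynomial (Fin 3) ℝ) :
    Measurable fun p : ℝ × ℝ × ℝ => E1 q V 1 p.1 p.2.1 p.2.2 := by
  unfold E1
  have h0 := measurable_evV V
  have h1 := measurable_evV (pderiv 0 V)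
  have h2 := measurable_evV (pderiv 1 V)
  have h3 := measurable_evV (pderiv 2 V)
  fun_prop

theorem measurable_E2 (V : MvPolynomial (Fin 3) ℝ) :
    Measurable fun p : ℝ × ℝ × ℝ => E2 V p.1 p.2.1 p.2.2 := by
  unfold E2
  have h2 := measurable_evV (pderiv 1 V)
  have h3 := measurable_evV (pderiv 2 V)
  fun_prop

/-- the coefficients -/
def k1 (m : ℕ) (θ : ℝ) (P : ℝ → ℂ → ℝ) (σ a b : ℝ) : ℝ :=
  θ ^ ((2 : ℝ) / ((m : ℝ) + 2)) * P σ (uab a b)

def k2 (m : ℕ) (θ : ℝ) (P : ℝ → ℂ → ℝ) (σ a b : ℝ) : ℝ :=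
  θ ^ ((2 : ℝ) / ((m : ℝ) + 2)) * (θ ^ 2 * P σ (uab a b))⁻¹

def k3 (m : ℕ) (θ : ℝ) (_ _ _ : ℝ) : ℝ := θ ^ ((2 : ℝ) / ((m : ℝ) + 2))

/-- the density on the sphere -/
def dens {m : ℕ} (q : ℕ) (θ : ℝ) (P : ℝ → ℂ → ℝ) (Y Y' : MvPolynomial (Fin (m + 1)) ℝ)
    (V V' : MvPolynomial (Fin 3) ℝ) (z : En (m + 3)) : ℝ :=
  ev (Y * Y') (yPart z) * alp (k1 m θ P) (k2 m θ P) (k3 m θ) q q V V' (sig z) (z 0) (z 1)
    + ev (gp Y Y') (yPart z) * bet (k3 m θ) V V' (sig z) (z 0) (z 1)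

theorem QB_eq_sph_dens {m q : ℕ} {θ : ℝ} {P : ℝ → ℂ → ℝ} (h : Frz θ P)
    {Y Y' : MvPolynomial (Fin (m + 1)) ℝ} (hY : Y.IsHomogeneous q) (hY' : Y'.IsHomogeneous q)
    (V V' : MvPolynomial (Fin 3) ℝ) :
    QB (fun z => (Afam (fun _ => θ) (fun _ => P) z)⁻¹ - outer z)
        (yI m Y * vI m V) (yI m Y' * vI m V') = sph (dens q θ P Y Y' V V') := by
  rw [QB_eq]
  unfold sph
  refine integral_congr_ae ?_
  filter_upwards [Wgt.ae_axes (m := m)] with z hz
  have hz1 : ‖(z : En (m + 3))‖ = 1 := by simp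
  refine qb_formula (c1 := k1 m θ P) (c2 := k2 m θ P) (c3 := k3 m θ) hY hY' V V' hz1 hz.2
    fun i j => ?_
  have h1 := SBf_off h hz1 hz.1 hz.2 i j
  have h2 : uu (z : En (m + 3)) = uab ((z : En (m + 3)) 0) ((z : En (m + 3)) 1) := rfl
  rw [h2] at h1
  refine h1.trans ?_
  unfold k1 k2 k3
  ring

theorem continuous_yPart (m : ℕ) : Continuous fun z : En (m + 3) => yPart z := by
  unfold yPart
  refine (PiLp.continuous_toLp 2 _).comp (continuous_pi fun i => ?_)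
  exact (EuclideanSpace.proj (i.succ.succ) : En (m + 3) →L[ℝ] ℝ).continuous

theorem measurable_alp {m q : ℕ} {θ : ℝ} {P : ℝ → ℂ → ℝ}
    (hPc : Measurable (fun q : ℝ × ℂ => P q.1 q.2)) (V V' : MvPolynomial (Fin 3) ℝ) :
    Measurable fun p : ℝ × ℝ × ℝ =>
      alp (k1 m θ P) (k2 m θ P) (k3 m θ) q q V V' p.1 p.2.1 p.2.2 := by
  have hPm : Measurable fun p : ℝ × ℝ × ℝ => P p.1 (uab p.2.1 p.2.2) :=
    hPc.comp (measurable_fst.prodMk (measurable_uab.comp measurable_snd))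
  have hvm := measurable_evV V
  have hvm' := measurable_evV V'
  have he1 := measurable_E1 q V
  have he1' := measurable_E1 q V'
  have he2 := measurable_E2 V
  have he2' := measurable_E2 V'
  have b1 : Measurable fun p : ℝ × ℝ × ℝ => k1 m θ P p.1 p.2.1 p.2.2 := hPm.const_mul _
  have b2 : Measurable fun p : ℝ × ℝ × ℝ => k2 m θ P p.1 p.2.1 p.2.2 :=
    ((hPm.const_mul (θ ^ 2)).inv).const_mul _
  have b3 : Measurable fun p : ℝ × ℝ × ℝ => k3 m θ p.1 p.2.1 p.2.2 := measurable_const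
  have b4 : Measurable fun p : ℝ × ℝ × ℝ => E1 q V 1 p.1 p.2.1 p.2.2 * E1 q V' 1 p.1 p.2.1 p.2.2 :=
    he1.mul he1'
  have b5 : Measurable fun p : ℝ × ℝ × ℝ => E2 V p.1 p.2.1 p.2.2 * E2 V' p.1 p.2.1 p.2.2 :=
    he2.mul he2'
  have b6 : Measurable fun p : ℝ × ℝ × ℝ =>
      (q : ℝ) * q * evV V p.1 p.2.1 p.2.2 * evV V' p.1 p.2.1 p.2.2 / p.1 ^ 2 :=
    ((hvm.const_mul ((q : ℝ) * q)).mul hvm').div (measurable_fst.pow_const 2)
  exact ((b1.mul b4).add (b2.mul b5)).sub (b3.mul b6)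

theorem measurable_bet {m : ℕ} {θ : ℝ} (V V' : MvPolynomial (Fin 3) ℝ) :
    Measurable fun p : ℝ × ℝ × ℝ => bet (k3 m θ) V V' p.1 p.2.1 p.2.2 := by
  have b3 : Measurable fun p : ℝ × ℝ × ℝ => k3 m θ p.1 p.2.1 p.2.2 := measurable_const
  exact b3.mul ((measurable_evV V).mul (measurable_evV V'))

theorem measurable_tr (m : ℕ) :
    Measurable fun z : En (m + 3) => ((sig z, z 0, z 1) : ℝ × ℝ × ℝ) := by
  have hcoord : ∀ i : Fin (m + 3), Measurable fun z : En (m + 3) => z i := fun i =>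
    (EuclideanSpace.proj i : En (m + 3) →L[ℝ] ℝ).continuous.measurable
  exact continuous_sig.measurable.prodMk ((hcoord 0).prodMk (hcoord 1))

theorem measurable_of_tr {m : ℕ} {F : ℝ → ℝ → ℝ → ℝ}
    (hF : Measurable fun p : ℝ × ℝ × ℝ => F p.1 p.2.1 p.2.2) :
    Measurable fun z : En (m + 3) => F (sig z) (z 0) (z 1) := hF.comp (measurable_tr m)

theorem measurable_evy {m : ℕ} (Z : MvPolynomial (Fin (m + 1)) ℝ) :
    Measurable fun z : En (m + 3) => ev Z (yPart z) :=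
  (continuous_ev Z).measurable.comp (continuous_yPart m).measurable

theorem measurable_dens {m q : ℕ} {θ : ℝ} {P : ℝ → ℂ → ℝ}
    (hPc : Measurable (fun q : ℝ × ℂ => P q.1 q.2))
    (Y Y' : MvPolynomial (Fin (m + 1)) ℝ) (V V' : MvPolynomial (Fin 3) ℝ) :
    Measurable (dens q θ P Y Y' V V') := by
  have a1 := measurable_evy (Y * Y')
  have a2 := measurable_evy (gp Y Y')
  have a3 := measurable_of_tr (m := m) (F := alp (k1 m θ P) (k2 m θ P) (k3 m θ) q q V V')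
    (measurable_alp hPc V V')
  have a4 := measurable_of_tr (m := m) (F := bet (k3 m θ) V V') (measurable_bet V V')
  have a5 := (a1.mul a3).add (a2.mul a4)
  unfold dens
  exact a5

theorem dens_even {m q : ℕ} {θ : ℝ} {P : ℝ → ℂ → ℝ}
    (heven : ∀ X u, P X ((starRingEnd ℂ) u) = P X u) (Y Y' : MvPolynomial (Fin (m + 1)) ℝ)
    {V V' : MvPolynomial (Fin 3) ℝ} {ε : ℝ} (hε : ε * ε = 1)
    (hV : refl3 V = C ε * V) (hV' : refl3 V' = C ε * V') (a b : ℝ) (y : En (m + 1)) :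
    dens q θ P Y Y' V V' (mkPt a (-b) y) = dens q θ P Y Y' V V' (mkPt a b y) := by
  unfold dens
  rw [sig_mkPt, sig_mkPt, yPart_mkPt, yPart_mkPt, mkPt_zero, mkPt_one, mkPt_zero, mkPt_one]
  have h1 : k1 m θ P ‖y‖ a (-b) = k1 m θ P ‖y‖ a b := by unfold k1; rw [uab_conj, heven]
  have h2 : k2 m θ P ‖y‖ a (-b) = k2 m θ P ‖y‖ a b := by unfold k2; rw [uab_conj, heven]
  have h3 : k3 m θ ‖y‖ a (-b) = k3 m θ ‖y‖ a b := rfl
  unfold alp bet
  rw [h1, h2, h3, E1_par hV, E1_par hV', E2_par hV, E2_par hV', evV_par hV, evV_par hV']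
  linear_combination (ev (Y * Y') y * (k1 m θ P ‖y‖ a b * (E1 q V 1 ‖y‖ a b * E1 q V' 1 ‖y‖ a b)
    + k2 m θ P ‖y‖ a b * (E2 V ‖y‖ a b * E2 V' ‖y‖ a b)
    - k3 m θ ‖y‖ a b * (q * q * evV V ‖y‖ a b * evV V' ‖y‖ a b / ‖y‖ ^ 2))
    + ev (gp Y Y') y * (k3 m θ ‖y‖ a b * (evV V ‖y‖ a b * evV V' ‖y‖ a b))) * hε

/-- the auxiliary function -/
def Gf (q : ℕ) (V V' : MvPolynomial (Fin 3) ℝ) (z : ℝ × ℝ) : ℝ :=
  z.1 ^ (2 * (q - 1)) * (eval (arg z.1 z.2) V * eval (arg z.1 z.2) V')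

theorem continuous_Gf (q : ℕ) (V V' : MvPolynomial (Fin 3) ℝ) : Continuous (Gf q V V') := by
  have h1 : Continuous fun z : ℝ × ℝ => eval (arg z.1 z.2) V :=
    (MvPolynomial.continuous_eval V).comp continuous_arg
  have h2 : Continuous fun z : ℝ × ℝ => eval (arg z.1 z.2) V' :=
    (MvPolynomial.continuous_eval V').comp continuous_arg
  exact (by fun_prop : Continuous fun z : ℝ × ℝ => z.1 ^ (2 * (q - 1))).mul (h1.mul h2)

theorem ev_gp_smul {D q : ℕ} {Y Y' : MvPolynomial (Fin D) ℝ} (hY : Y.IsHomogeneous q)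
    (hY' : Y'.IsHomogeneous q) (r : ℝ) (y : En D) :
    ev (gp Y Y') (r • y) = r ^ (2 * (q - 1)) * ev (gp Y Y') y := by
  rcases Nat.eq_zero_or_pos q with hq | hq
  · subst hq
    have : gp Y Y' = 0 := by
      unfold gp
      exact Finset.sum_eq_zero fun i _ => by rw [pderiv_eq_zero_of_zero hY, zero_mul]
    rw [this, ev_zero, ev_zero, mul_zero]
  · obtain ⟨k, rfl⟩ : ∃ k, q = k + 1 := ⟨q - 1, by omega⟩
    rw [ev_smul_arg (gp_homog hY hY')]
    congr 2
    omega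

theorem pow_Gf {q : ℕ} (V V' : MvPolynomial (Fin 3) ℝ) {x : ℝ} (φ : ℝ) (hx : x ≠ 0) :
    x ^ q * x ^ q * ((q : ℝ) * q * eval (arg x φ) V * eval (arg x φ) V' / x ^ 2)
        = (q * q) * Gf q V V' (x, φ) := by
  unfold Gf
  rcases Nat.eq_zero_or_pos q with hq | hq
  · subst hq; simp
  · obtain ⟨k, rfl⟩ : ∃ k, q = k + 1 := ⟨q - 1, by omega⟩
    have e1 : x ^ (2 * (k + 1 - 1)) = x ^ k * x ^ k := by
      rw [← pow_add]; congr 1; omega
    dsimp only
    rw [e1, pow_succ]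
    field_simp

/-- the density in coordinates -/
theorem dens_Psi {m q par : ℕ} {θ : ℝ} (hθ : 0 < θ) {P : ℝ → ℂ → ℝ}
    {Y Y' : MvPolynomial (Fin (m + 1)) ℝ} (hY : Y.IsHomogeneous q) (hY' : Y'.IsHomogeneous q)
    {V V' : MvPolynomial (Fin 3) ℝ} {w w' : VS q par}
    (hw : ∀ z ∈ Om, Mod.ev par (w : ℕ →₀ (ℝ → ℝ)) z = uV q V z)
    (hw' : ∀ z ∈ Om, Mod.ev par (w' : ℕ →₀ (ℝ → ℝ)) z = uV q V' z)
    {t : (ℝ × ℝ) × S1 (m + 1)} (ht : t.1 ∈ Om) {p : ℝ} (hp : 0 < p)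
    (hpp : p = P t.1.1 (Complex.exp ((t.1.2 : ℂ) * Complex.I))) :
    dens q θ P Y Y' V V' (Psi m t)
      = (θ ^ ((2 : ℝ) / ((m : ℝ) + 2)) * (p * comp m q par w 1 t.1 * comp m q par w' 1 t.1)
        + θ ^ ((2 : ℝ) / ((m : ℝ) + 2)) *
          (θ⁻¹ ^ 2 / p * comp m q par w 2 t.1 * comp m q par w' 2 t.1)
        - θ ^ ((2 : ℝ) / ((m : ℝ) + 2)) * (q * q) * Gf q V V' t.1) *
          ev (Y * Y') (t.2 : En (m + 1))
        + (θ ^ ((2 : ℝ) / ((m : ℝ) + 2)) * Gf q V V' t.1) * ev (gp Y Y') (t.2 : En (m + 1)) := by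
  have hx0 : 0 < t.1.1 := ht.1.1
  have hx2 : t.1.1 ^ 2 < 1 := Mod.sq_lt_one_of_mem ht.1
  unfold dens
  rw [sig_Psi hx0.le, Psi_zero, Psi_one, yPart_Psi, ev_smul_arg (hY.mul hY'), ev_gp_smul hY hY',
    comp1_eq hw ht, comp1_eq hw' ht, comp2_eq hw ht, comp2_eq hw' ht]
  unfold alp bet k1 k2 k3
  rw [uab_Psi t.1.2 hx2, ← hpp, evV_arg, evV_arg]
  have hq2 := pow_Gf (q := q) V V' t.1.2 hx0.ne'
  have hG2 : t.1.1 ^ (2 * (q - 1)) * (eval (arg t.1.1 t.1.2) V * eval (arg t.1.1 t.1.2) V')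
      = Gf q V V' t.1 := rfl
  have hinv : (θ ^ 2 * p)⁻¹ = θ⁻¹ ^ 2 / p := by field_simp
  have hqq : t.1.1 ^ (q + q) = t.1.1 ^ q * t.1.1 ^ q := pow_add _ _ _
  have hG3 : Gf q V V' (t.1.1, t.1.2) = Gf q V V' t.1 := rfl
  rw [hinv, hqq, ← hG2]
  rw [hG3, ← hG2] at hq2
  generalize θ ^ ((2 : ℝ) / ((m : ℝ) + 2)) = κ at *
  generalize E1 q V 1 t.1.1 (rh t.1.1 * Real.cos t.1.2) (rh t.1.1 * Real.sin t.1.2) = A1 at *
  generalize E1 q V' 1 t.1.1 (rh t.1.1 * Real.cos t.1.2) (rh t.1.1 * Real.sin t.1.2) = A2 at *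
  generalize E2 V t.1.1 (rh t.1.1 * Real.cos t.1.2) (rh t.1.1 * Real.sin t.1.2) = B1 at *
  generalize E2 V' t.1.1 (rh t.1.1 * Real.cos t.1.2) (rh t.1.1 * Real.sin t.1.2) = B2 at *
  generalize eval (arg t.1.1 t.1.2) V = v1 at *
  generalize eval (arg t.1.1 t.1.2) V' = v2 at *
  generalize ev (Y * Y') (t.2 : En (m + 1)) = y1 at *
  generalize ev (gp Y Y') (t.2 : En (m + 1)) = y2 at *
  generalize t.1.1 = x at *
  generalize θ⁻¹ ^ 2 / p = bp at *
  linear_combination (- κ * y1) * hq2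

theorem integral_comp33 {m q par : ℕ} {V V' : MvPolynomial (Fin 3) ℝ} {w w' : VS q par}
    (hw : ∀ z ∈ Om, Mod.ev par (w : ℕ →₀ (ℝ → ℝ)) z = uV q V z)
    (hw' : ∀ z ∈ Om, Mod.ev par (w' : ℕ →₀ (ℝ → ℝ)) z = uV q V' z) :
    ∫ z, 1 * comp m q par w 3 z * comp m q par w' 3 z ∂(mu m)
      = E0 m q * ∫ z, Gf q V V' z ∂(mu m) := by
  rw [← integral_const_mul]
  refine integral_congr_ae ?_
  filter_upwards [Mod.ae_mem_Om m] with z hz
  have hx0 : z.1 ≠ 0 := hz.1.1.ne'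
  rw [comp3_eq hw hz, comp3_eq hw' hz]
  unfold Gf
  have hE := Real.mul_self_sqrt (E0_nonneg m q)
  rcases Nat.eq_zero_or_pos q with hq | hq
  · subst hq
    simp [E0]
  · obtain ⟨k, rfl⟩ : ∃ k, q = k + 1 := ⟨q - 1, by omega⟩
    have e1 : z.1 ^ (2 * (k + 1 - 1)) = z.1 ^ k * z.1 ^ k := by
      rw [← pow_add]; congr 1; omega
    have e2 : z.1 ^ (k + 1) * eval (arg z.1 z.2) V / z.1 = z.1 ^ k * eval (arg z.1 z.2) V := by
      rw [pow_succ]; field_simp
    have e3 : z.1 ^ (k + 1) * eval (arg z.1 z.2) V' / z.1 = z.1 ^ k * eval (arg z.1 z.2) V' := by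
      rw [pow_succ]; field_simp
    rw [e1, e2, e3]
    linear_combination (z.1 ^ k * eval (arg z.1 z.2) V * (z.1 ^ k * eval (arg z.1 z.2) V')) * hE

/-- **T4: the frozen tangential form on a sector is the model form** -/
theorem QB_eq_Q {m q par : ℕ} {θ : ℝ} {P : ℝ → ℂ → ℝ} (h : Frz θ P)
    (heven : ∀ X u, P X ((starRingEnd ℂ) u) = P X u) {K : ℝ} {P' : ℝ × ℝ → ℝ} (hP : Adm m K P')
    (hPP : ∀ z ∈ Om, P' z = P z.1 (Complex.exp ((z.2 : ℂ) * Complex.I)))
    {Y Y' : MvPolynomial (Fin (m + 1)) ℝ} (hY : Y ∈ harm (m + 1) q) (hY' : Y' ∈ harm (m + 1) q)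
    {V V' : MvPolynomial (Fin 3) ℝ} {ε : ℝ} (hε : ε * ε = 1)
    (hV : refl3 V = C ε * V) (hV' : refl3 V' = C ε * V') {w w' : VS q par}
    (hw : ∀ z ∈ Om, Mod.ev par (w : ℕ →₀ (ℝ → ℝ)) z = uV q V z)
    (hw' : ∀ z ∈ Om, Mod.ev par (w' : ℕ →₀ (ℝ → ℝ)) z = uV q V' z) :
    QB (fun z => (Afam (fun _ => θ) (fun _ => P) z)⁻¹ - outer z)
        (yI m Y * vI m V) (yI m Y' * vI m V')
      = 2 * θ ^ ((2 : ℝ) / ((m : ℝ) + 2)) * sph (ev (Y * Y')) * Q q par hP θ⁻¹ w w' := by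
  have hθ : 0 < θ := h.θ_pos
  have hYh := (mem_harm.1 hY).1
  have hYh' := (mem_harm.1 hY').1
  rw [QB_eq_sph_dens h hYh hYh' V V', sph_even (measurable_dens h.cont.measurable Y Y' V V')
    (dens_even heven Y Y' hε hV hV')]
  have hGi : Integrable (Gf q V V') (mu m) := integrable_cont m (continuous_Gf q V V')
  have hT1 : Integrable (fun z => P' z * comp m q par w 1 z * comp m q par w' 1 z) (mu m) :=
    Mod.integrable_term (Mod.coef_WQ hP θ⁻¹) w w' 1
  have hT2 : Integrable (fun z => θ⁻¹ ^ 2 / P' z * comp m q par w 2 z * comp m q par w' 2 z) (mu m) :=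
    Mod.integrable_term (Mod.coef_WQ hP θ⁻¹) w w' 2
  have hT3 : Integrable (fun z => 1 * comp m q par w 3 z * comp m q par w' 3 z) (mu m) :=
    Mod.integrable_term (Mod.coef_WQ hP θ⁻¹) w w' 3
  have hI3 := integral_comp33 (m := m) hw hw'
  have hQ : Q q par hP θ⁻¹ w w' = (∫ z, P' z * comp m q par w 1 z * comp m q par w' 1 z ∂(mu m))
      + (∫ z, θ⁻¹ ^ 2 / P' z * comp m q par w 2 z * comp m q par w' 2 z ∂(mu m))
      + E0 m q * ∫ z, Gf q V V' z ∂(mu m) := by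
    have hT12 : Integrable (fun z => P' z * comp m q par w 1 z * comp m q par w' 1 z
        + θ⁻¹ ^ 2 / P' z * comp m q par w 2 z * comp m q par w' 2 z) (mu m) := hT1.add hT2
    rw [Mod.Q_apply, ← hI3, ← integral_add hT1 hT2, ← integral_add hT12 hT3]
    congr 1; funext z
    ring
  have hpt : ∀ᵐ t ∂((mu m).prod (muS (m + 1))), dens q θ P Y Y' V V' (Psi m t)
      = (θ ^ ((2 : ℝ) / ((m : ℝ) + 2)) * (P' t.1 * comp m q par w 1 t.1 * comp m q par w' 1 t.1)
        + θ ^ ((2 : ℝ) / ((m : ℝ) + 2)) *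
          (θ⁻¹ ^ 2 / P' t.1 * comp m q par w 2 t.1 * comp m q par w' 2 t.1)
        - θ ^ ((2 : ℝ) / ((m : ℝ) + 2)) * (q * q) * Gf q V V' t.1) *
          ev (Y * Y') (t.2 : En (m + 1))
        + (θ ^ ((2 : ℝ) / ((m : ℝ) + 2)) * Gf q V V' t.1) * ev (gp Y Y') (t.2 : En (m + 1)) := by
    filter_upwards [ae_prod_mem m] with t ht
    exact dens_Psi hθ hYh hYh' hw hw' ht (by rw [hPP t.1 ht]; exact h.pos _ _) (hPP t.1 ht)
  rw [integral_congr_ae hpt]
  generalize hκ : θ ^ ((2 : ℝ) / ((m : ℝ) + 2)) = κ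
  have hF1i : Integrable (fun z => κ * (P' z * comp m q par w 1 z * comp m q par w' 1 z)
      + κ * (θ⁻¹ ^ 2 / P' z * comp m q par w 2 z * comp m q par w' 2 z)
        - κ * (q * q) * Gf q V V' z) (mu m) :=
    ((hT1.const_mul κ).add (hT2.const_mul κ)).sub (hGi.const_mul _)
  have hF2i : Integrable (fun z => κ * Gf q V V' z) (mu m) := hGi.const_mul κ
  have i1 := hF1i.mul_prod (integrable_sph (Y * Y'))
  have i2 := hF2i.mul_prod (integrable_sph (gp Y Y'))
  have hadd := integral_add i1 i2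
  have p1 := integral_prod_mul (μ := mu m) (ν := muS (m + 1))
    (fun z => κ * (P' z * comp m q par w 1 z * comp m q par w' 1 z)
      + κ * (θ⁻¹ ^ 2 / P' z * comp m q par w 2 z * comp m q par w' 2 z)
        - κ * (q * q) * Gf q V V' z) (fun ω : S1 (m + 1) => ev (Y * Y') (ω : En (m + 1)))
  have p2 := integral_prod_mul (μ := mu m) (ν := muS (m + 1))
    (fun z => κ * Gf q V V' z) (fun ω : S1 (m + 1) => ev (gp Y Y') (ω : En (m + 1)))
  have hI1 : ∫ z, (κ * (P' z * comp m q par w 1 z * comp m q par w' 1 z)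
      + κ * (θ⁻¹ ^ 2 / P' z * comp m q par w 2 z * comp m q par w' 2 z)
        - κ * (q * q) * Gf q V V' z) ∂(mu m)
      = κ * (∫ z, P' z * comp m q par w 1 z * comp m q par w' 1 z ∂(mu m))
      + κ * (∫ z, θ⁻¹ ^ 2 / P' z * comp m q par w 2 z * comp m q par w' 2 z ∂(mu m))
      - κ * (q * q) * ∫ z, Gf q V V' z ∂(mu m) := by
    have e1 := integral_sub ((hT1.const_mul κ).add (hT2.const_mul κ)) (hGi.const_mul (κ * (q * q)))
    have e2 := integral_add (hT1.const_mul κ) (hT2.const_mul κ)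
    rw [integral_const_mul, integral_const_mul] at e2
    simp only [Pi.add_apply] at e1
    rw [e1, e2, integral_const_mul]
  have hI2 : ∫ z, κ * Gf q V V' z ∂(mu m) = κ * ∫ z, Gf q V V' z ∂(mu m) := integral_const_mul _ _
  rw [hI1] at p1
  rw [hI2] at p2
  have hsp := sph_gp hY hY'
  have hsp1 : ∫ ω : S1 (m + 1), ev (Y * Y') (ω : En (m + 1)) ∂(muS (m + 1)) = sph (ev (Y * Y')) := rfl
  have hsp2 : ∫ ω : S1 (m + 1), ev (gp Y Y') (ω : En (m + 1)) ∂(muS (m + 1)) = sph (ev (gp Y Y')) :=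
    rfl
  rw [hsp1] at p1
  rw [hsp2, hsp] at p2
  rw [p1, p2] at hadd
  refine (congrArg (fun r => 2 * r) hadd).trans ?_
  rw [hQ]
  unfold E0
  push_cast
  ring

end Crest.Agent.R202.Tra
end
end

-- ▼ part R202/TraT4

/-! # Row 202, T4 (helper362): the two integral identities `T4g`, `T4Q` of `WgtSep` -/

set_option autoImplicit false

open MvPolynomial
open Crest.Agent.R202 Crest.Agent.R202.Sph Crest.Agent.R202.Geo

namespace Crest.Agent.R202.Tra

theorem neg_one_pow_mul_self (par : ℕ) : ((-1 : ℝ) ^ par) * (-1) ^ par = 1 := by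
  rw [← mul_pow]; norm_num

theorem t4g (m : ℕ) : Wgt.T4g m := by
  intro q par _ Y hY hY1 V V' hV hV' w w' hw hw'
  rw [ip_eq_g (mem_harm.1 hY).1 (mem_harm.1 hY).1 (neg_one_pow_mul_self par) hV hV' hw hw', hY1,
    mul_one]

theorem t4Q (m : ℕ) : Wgt.T4Q m := by
  intro q par _ Y hY hY1 V V' hV hV' w w' hw hw' θ P hF heven K hP
  have h := QB_eq_Q hF heven hP (fun z _ => rfl) hY hY (neg_one_pow_mul_self par) hV hV' hw hw'
  rw [hY1, mul_one] at h
  exact h

end Crest.Agent.R202.Tra
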