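import Crest.Agent.R202.TopDefs
import Crest.Agent.R202.BriF_Mg
import Crest.Agent.R202.BFinNorm_Mg
import Crest.Agent.R202.BFlowTop
import Crest.Agent.R202.WgtSepC
import Crest.Agent.R202.WgtFlow
import Crest.Agent.R202.SecUnif
import Crest.Agent.R202.SchGeo
import Crest.Agent.R202.BridG
import Crest.Agent.R202.BFlowW
import Crest.Agent.R202.WgtSep
import Crest.Agent.R202.TraT4
import Crest.Agent.R202.BFit
import Crest.Agent.R202.WgtSepD_Mg

-- ▼ part R202/Top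
section

/-!
Row 202, GLUE (helper632): `MainThm m` from `RicThm m`, `CThm m` and `BExport m`.
-/

set_option autoImplicit false

open scoped ContDiff
open Set Filter Topology MeasureTheory Metric
open Crest.GeometryTopology.CoordMetric
open Crest.Agent.R202.Geo Crest.Agent.R202.Main Crest.Agent.R202.CT Crest.Agent.R202.Sch
open Crest.Agent.R202.Mix (MixData SecData Sched Fits Cube mixing)

noncomputable section

namespace Crest.Agent.R202.Top

variable {m : ℕ} {v : ℝ} {k : ℕ} {D : CountData m v k} {εh : ℝ}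

theorem extκ_mem {P : ℕ} (κ : Cube P) (q : ℕ) : extκ κ q ∈ Icc (-1 : ℝ) 1 := by
  unfold extκ
  split_ifs with h
  · exact (κ ⟨q, h⟩).2
  · exact ⟨by norm_num, le_rfl⟩

/-- uniform bounds for the scheduled data -/
theorem Choice.exists_bd (c : Choice D εh) : ∃ K : ℝ, ∀ A : ℝ, 0 < A → ∀ (j : ℕ → Gate D)
    (κ : ℕ → ℝ), (∀ q, κ q ∈ Icc (-1 : ℝ) 1) →
    Fam.Bd (sfv m v) (c.th A j κ) (c.P A j κ) K := by
  set y1 := D.b1 with hy1
  set sI := -Real.log v / ((m : ℝ) + 2) with hsI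
  have hsI0 : 0 < sI := c.sI_pos
  have hb1 : 1 < y1 := D.b0_gt.trans D.b01
  refine ⟨sI + y1 + 2, fun A hA j κ hκ => ?_⟩
  have hK : 0 < sI + y1 + 2 := by linarith
  have key : ∀ y ∈ Icc 1 y1, ∀ G : ℝ → ℂ → ℝ, (∀ X u, |G X u| ≤ 1 / 2) →
      (sI + y1 + 2)⁻¹ ≤ y⁻¹ ∧ ∀ X u, (sI + y1 + 2)⁻¹ ≤ Ptip c.h y X u + G X u ∧
        Ptip c.h y X u + G X u ≤ sI + y1 + 2 := by
    intro y hy G hG
    have hy0 : 0 < y := by linarith [hy.1]
    refine ⟨inv_anti₀ hy0 (by linarith [hy.2]), fun X u => ?_⟩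
    have h1 : 1 ≤ Ptip c.h y X u ∧ Ptip c.h y X u ≤ y := by
      unfold Ptip
      have e1 := c.prof.nonneg X
      have e2 := c.prof.le_one X
      have e3 : 0 ≤ y - 1 := by linarith [hy.1]
      constructor <;> nlinarith
    have h2 := abs_le.1 (hG X u)
    have h3 : (sI + y1 + 2)⁻¹ ≤ 1 / 2 := by
      rw [one_div]
      exact inv_anti₀ (by norm_num) (by linarith)
    constructor
    · linarith [h2.1]
    · linarith [h2.2, hy.2]
  have hall := forall_datum (yInst c.prof D.b0_gt.le)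
    (fun q => (c.L (j q)).toLoop c.prof D.b0_gt.le) κ hA hκ
    (D := fun θ P => (sI + y1 + 2)⁻¹ ≤ θ ∧ ∀ X u, (sI + y1 + 2)⁻¹ ≤ P X u ∧
      P X u ≤ sI + y1 + 2) ?_ ?_
  · exact {
      one_le := by linarith
      s_le := fun t => by
        have h1 := sf_nonneg hsI0 t
        have h2 := sf_lt hsI0 t
        change |sf sI t| ≤ _
        rw [abs_of_nonneg h1]
        linarith
      θ_ge := fun t => (hall t).1
      P_ge := fun t X u => ((hall t).2 X u).1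
      P_le := fun t X u => ((hall t).2 X u).2 }
  · intro τ _
    have h1 := yI_mem D.b0_gt.le τ
    have h2 := key (yI D.b0 τ) ⟨h1.1, h1.2.trans D.b01.le⟩ (fun _ _ => 0) (fun _ _ => by simp)
    refine ⟨h2.1, fun X u => ?_⟩
    have h3 := h2.2 X u
    simp only [add_zero] at h3
    exact h3
  · intro q τ _ κ' hκ'
    have h1 := (c.L (j q)).y_mem τ
    exact key ((c.L (j q)).y τ) ⟨D.b0_gt.le.trans h1.1, h1.2⟩
      (fun X u => (c.L (j q)).Gh τ κ' X (ret u))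
      (fun X u => (c.L (j q)).Gh_small τ κ' hκ' X (ret u) (norm_ret_le u))

instance finite_gate : Finite (Gate D) := by
  have h1 : ({j : (ℕ × ℕ) × ℕ | j.1 ∈ D.S ∧ D.i0 j.1 ≤ j.2 ∧ j.2 < D.N j.1}).Finite := by
    refine Set.Finite.subset
      ((D.S ×ˢ Finset.range ((D.S.sup D.N) + 1) : Finset ((ℕ × ℕ) × ℕ)).finite_toSet) ?_
    rintro ⟨σ, l⟩ ⟨h1, h2, h3⟩
    simp only [Finset.coe_product, Finset.coe_range, mem_prod, Finset.mem_coe, mem_Iio]
    refine ⟨h1, ?_⟩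
    have : D.N σ ≤ D.S.sup D.N := Finset.le_sup (f := D.N) h1
    simp only at h3
    omega
  exact h1.to_subtype

theorem exists_slots (D : CountData m v k) : Nonempty (Slots D) := by
  classical
  have hM : 0 < ∑ σ : Sec D, (D.N σ.1 - D.i0 σ.1) := by
    obtain ⟨σ, hσ⟩ := D.S_ne
    have h1 : 0 < D.N σ - D.i0 σ := by have := D.i0_lt σ hσ; omega
    refine lt_of_lt_of_le h1 ?_
    exact Finset.single_le_sum (f := fun σ : Sec D => D.N σ.1 - D.i0 σ.1)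
      (fun _ _ => Nat.zero_le _) (Finset.mem_univ ⟨σ, hσ⟩)
  obtain ⟨jt, off, h⟩ := exists_schedule (fun σ : Sec D => D.N σ.1 - D.i0 σ.1) hM
  refine ⟨{
    jt := fun q => ⟨((jt q).1.1, D.i0 (jt q).1.1 + (jt q).2), (jt q).1.2, Nat.le_add_right _ _, ?_⟩
    off := off
    M := ∑ σ : Sec D, (D.N σ.1 - D.i0 σ.1)
    M_pos := hM
    hM := fun σ => Finset.single_le_sum (f := fun σ : Sec D => D.N σ.1 - D.i0 σ.1)
      (fun _ _ => Nat.zero_le _) (Finset.mem_univ σ)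
    active := fun q σ => ?_
    cut := fun q σ hσ => ?_ }⟩
  · have := (jt q).2.2
    simp only at this ⊢
    omega
  · rw [(h q σ).1]
    constructor
    · intro h; simp [h]
    · intro h; exact Subtype.ext h
  · have h1 : (jt q).1 = σ := Subtype.ext hσ
    have h2 := (h q σ).2 h1
    simp only
    rw [h2, h1]

/-- **THE MAIN THEOREM**, from the Ricci theorem, Part C and Part B. -/
theorem mainThm_of (hR : RicThm m) (hC : CThm m) (hB : BExport m) : MainThm m := by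
  classical
  intro v k D
  obtain ⟨εh, hεh, HB⟩ := hB v k D
  obtain ⟨c⟩ := exists_choice hC D hεh
  obtain ⟨K, C, hK, hC0, A1, hA1, HG⟩ := sched_geoOut hR c.μ_pos D.v_pos D.v_lt c.δ_pos c.X0_pos
    c.X0a c.Xab.le c.Xb1 c.X1_lt c.prof D.b0_gt.le c.hnum c.L c.cT D.b01.le c.cL
  have hmv : ∀ (j : ℕ → Gate D), ∀ N : ℕ, ∃ q, N ≤ q ∧ ∃ τ ∈ Icc (0 : ℝ) 1,
      D.b0 < (c.L (j q)).y τ := fun j N => by
    obtain ⟨τ, hτ, h1⟩ := c.moves (j N)
    exact ⟨N, le_rfl, τ, Ioo_subset_Icc_self hτ, h1⟩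
  have hOK : c.SchedOK K C A1 := fun A hA j κ hκ => by
    obtain ⟨h1, h2, -⟩ := HG A hA j κ hκ (hmv j)
    exact ⟨h1, h2⟩
  obtain ⟨A0, HA⟩ := HB c K C A1 hK hC0 hA1 hOK
  obtain ⟨A, hAA0, hAA1⟩ : ∃ A : ℝ, A0 ≤ A ∧ A1 ≤ A := ⟨max A0 A1, le_max_left _ _, le_max_right _ _⟩
  have hApos : 0 < A := by linarith
  obtain ⟨sl⟩ := exists_slots D
  obtain ⟨sd, S, hsd, hSM, hmean, H⟩ := HA A hAA0 hAA1 sl
  obtain ⟨Cm, hCm, Hmix⟩ := mixing sd S (fun σ => by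
      rw [(hsd σ).1, (hsd σ).2.1, hSM]; exact sl.hM σ)
    (fun q σ σ' h1 h2 => by
      rw [(hsd σ).1, (hsd σ).2.1, (hsd σ).2.2, hSM] at h1
      rw [(hsd σ').1, (hsd σ').2.1, (hsd σ').2.2, hSM] at h2
      exact Subtype.ext (((sl.active q σ).1 h1).symm.trans ((sl.active q σ').1 h2)))
    (K := k) hmean
  obtain ⟨B, HP⟩ := H Cm
  choose Hs i1 i2 MD hfit HF using HP
  have hκ : ∀ P : ℕ, ∃ κ : Cube P, ∀ σ, ∀ q ≤ P, ∀ u,
      ‖(MD P σ).Jm q κ u‖ ≤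
        Cm * Real.exp (k * ∑ i ∈ Finset.range q, S.T i) * ‖(MD P σ).Jm 0 κ u‖ ∧
      ‖(MD P σ).Jp q κ u‖ ≤
        Cm * Real.exp (k * ∑ i ∈ Finset.range q, S.T i) * ‖(MD P σ).Jm 0 κ u‖ := fun P =>
    Hmix P (Hs P) (MD P) (hfit P)
  choose κ hκ using hκ
  choose F hF using fun P => HF P (κ P) (hκ P)
  -- the limit parameter
  set κs : ℕ → ℕ → ℝ := fun P => extκ (κ P) with hκs
  have hκs0 : ∀ P q, κs P q ∈ Icc (-1 : ℝ) 1 := fun P q => extκ_mem (κ P) q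
  set 𝒰 : Ultrafilter ℕ := Filter.hyperfilter ℕ with h𝒰
  have h𝒰top : (𝒰 : Filter ℕ) ≤ atTop := by
    rw [← Nat.cofinite_eq_atTop]
    exact Filter.hyperfilter_le_cofinite
  have hlim : ∀ q, ∃ x ∈ Icc (-1 : ℝ) 1, Tendsto (fun P => κs P q) 𝒰 (𝓝 x) := by
    intro q
    obtain ⟨x, hx, hx2⟩ := isCompact_Icc.ultrafilter_le_nhds (𝒰.map fun P => κs P q) (by
      rw [Filter.le_principal_iff, Ultrafilter.mem_coe, Ultrafilter.mem_map]
      exact Filter.mem_of_superset Filter.univ_mem fun P _ => hκs0 P q)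
    exact ⟨x, hx, hx2⟩
  choose κ' hκ'0 hκ' using hlim
  -- geometry of the limit
  obtain ⟨hFam, -, hGeo⟩ := HG A hAA1 sl.jt κ' hκ'0 (hmv _)
  obtain ⟨Kb, hKb⟩ := c.exists_bd
  have hBd := hKb A hApos sl.jt κ' hκ'0
  have hconv := fun R ε hε => coefF_hconv (m := m) (sI := -Real.log v / ((m : ℝ) + 2))
    (I := yInst c.prof D.b0_gt.le) (G := fun q => (c.L (sl.jt q)).toLoop c.prof D.b0_gt.le)
    (t0 := 0) (X0 := c.X0) (X1 := c.X1) hApos
    (fun κ hκ => (HG A hAA1 sl.jt κ hκ (hmv _)).1) (l := (𝒰 : Filter ℕ)) hκs0 hκ'0 hκ' R ε hε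
  -- the functions
  let L : LimFam m (Idx D) k (fun P => c.coef A sl.jt (κs P)) := {
    F := F
    r0 := B.r0
    r0_pos := B.r0_pos
    reg := fun n j => (hF n).reg j
    w0 := fun j φ h1 h2 h3 => Eventually.of_forall fun n => (hF n).w0 j φ h1 h2 h3
    w1 := fun j χ h1 h2 h3 p => (eventually_ge_atTop p.totalDegree).mono fun n hn =>
      (hF n).w1 j χ h1 h2 h3 p hn
    energy := fun R => ⟨B.CE R, (eventually_ge_atTop ⌈R⌉₊).mono fun n hn j =>
      (hF n).energy R ((Nat.le_ceil R).trans (by exact_mod_cast hn)) j⟩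
    C0 := B.C0
    growth := fun R hR => (eventually_ge_atTop ⌈R⌉₊).mono fun n hn j =>
      (hF n).growth R hR ((Nat.le_ceil R).trans (by exact_mod_cast hn)) j
    φ := B.φ
    φ_L2 := B.φ_L2
    φ_supp := B.φ_supp
    ε := B.ε
    ε_lt := B.ε_lt
    pair := Eventually.of_forall fun n => (hF n).pair }
  obtain ⟨f, hf1, hf2⟩ := harmonic_of_limFam hFam hBd L 𝒰 h𝒰top
    (Eventually.of_forall fun n i l =>
      ((HG A hAA1 sl.jt (κs n) (hκs0 n) (hmv _)).1.contDiff_coefF i l).continuous) hconv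
  exact ⟨_, hGeo, f, hf1, hf2⟩

end Crest.Agent.R202.Top
end
end

-- ▼ part R202/BridS
section

/-!
# Row 202, bridge (helper684): the solutions of one sector
-/

set_option autoImplicit false
open MeasureTheory Metric Set Filter Topology
open scoped ContDiff InnerProductSpace
open Crest.Agent.R202.Jac (SepF)
open Crest.Agent.R202.Seg (PCone)
open Crest.Agent.R202.Sch (hs he Th Tg)

namespace Crest.Agent.R202.Brid

section LinAlg

variable {G : Type*} [NormedAddCommGroup G] [InnerProductSpace ℝ G]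

/-- the `N` lowest eigenvectors are below the lower constant of every separating frame -/
theorem low_le_of_sepF {N : ℕ} {H : G →L[ℝ] G} {e : Fin N → G} {lam : Fin N → ℝ}
    (he : Orthonormal ℝ e) (hHe : ∀ i, H (e i) = lam i • e i)
    (hsymm : ∀ x y, ⟪H x, y⟫_ℝ = ⟪x, H y⟫_ℝ) {a b : ℝ} (hab : a ≤ b)
    (hlow : ∀ x ∈ Submodule.span ℝ (range e), ⟪H x, x⟫_ℝ ≤ a * ‖x‖ ^ 2)
    (hhigh : ∀ x, (∀ i, ⟪e i, x⟫_ℝ = 0) → b * ‖x‖ ^ 2 ≤ ⟪H x, x⟫_ℝ)
    {F : Fin N → G} {A B : ℝ} (hF : SepF H F A B) :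
    ∀ x ∈ Submodule.span ℝ (range e), ⟪H x, x⟫_ℝ ≤ A * ‖x‖ ^ 2 := by
  classical
  have hlam : ∀ i, lam i ≤ A := by
    intro i
    have h1 : lam i ≤ a := by
      have h2 := hlow (e i) (Submodule.subset_span ⟨i, rfl⟩)
      rw [hHe, real_inner_smul_left, real_inner_self_eq_norm_sq, he.1 i] at h2
      linarith
    -- a vector in the span of `F`, orthogonal to the other `e j`
    set T : (Fin N → ℝ) →ₗ[ℝ] ({j : Fin N // j ≠ i} → ℝ) :=
      LinearMap.pi fun j => (innerSL ℝ (e j.1)).toLinearMap ∘ₗ Fintype.linearCombination ℝ F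
      with hT
    have hTa : ∀ c j, T c j = ⟪e j.1, ∑ l, c l • F l⟫_ℝ := by
      intro c j
      simp [hT, Fintype.linearCombination_apply]
    have hker : LinearMap.ker T ≠ ⊥ := by
      refine LinearMap.ker_ne_bot_of_finrank_lt ?_
      rw [Module.finrank_fintype_fun_eq_card, Module.finrank_fintype_fun_eq_card]
      simp only [ne_eq, Fintype.card_subtype_compl, Fintype.card_fin, Fintype.card_unique]
      have := i.2
      omega
    obtain ⟨c, hc, hc0⟩ := Submodule.exists_mem_ne_zero_of_ne_bot hker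
    set x : G := ∑ l, c l • F l with hx
    have hxe : ∀ j, j ≠ i → ⟪e j, x⟫_ℝ = 0 := by
      intro j hj
      have := congrFun (LinearMap.mem_ker.1 hc) ⟨j, hj⟩
      rw [hTa] at this
      exact this
    have hx0 : x ≠ 0 := by
      intro h0
      exact hc0 (funext ((Fintype.linearIndependent_iff.1 hF.li) c h0))
    have hxF : x ∈ Submodule.span ℝ (range F) := by
      rw [hx]
      exact Submodule.sum_mem _ fun l _ => Submodule.smul_mem _ _ (Submodule.subset_span ⟨l, rfl⟩)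
    set α : ℝ := ⟪e i, x⟫_ℝ with hα
    set y : G := x - α • e i with hy
    have hye : ∀ j, ⟪e j, y⟫_ℝ = 0 := by
      intro j
      rw [hy, inner_sub_right, real_inner_smul_right]
      by_cases hj : j = i
      · subst hj
        rw [real_inner_self_eq_norm_sq, he.1]; simp [hα]
      · rw [hxe j hj, he.2 hj]; simp
    have hxy : x = α • e i + y := by rw [hy]; abel
    have h3 : ‖x‖ ^ 2 = α ^ 2 + ‖y‖ ^ 2 := by
      rw [hxy, norm_add_sq_real, real_inner_smul_left, hye i, norm_smul, he.1 i]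
      simp
    have h4 : ⟪H x, x⟫_ℝ = lam i * α ^ 2 + ⟪H y, y⟫_ℝ := by
      have h5 : ⟪H y, e i⟫_ℝ = 0 := by
        rw [hsymm, hHe, real_inner_smul_right, real_inner_comm, hye i, mul_zero]
      rw [hxy, map_add, map_smul, hHe, inner_add_left, inner_add_right, inner_add_right,
        real_inner_smul_left, real_inner_smul_left, real_inner_smul_left, real_inner_smul_left,
        hye i, real_inner_smul_right, real_inner_smul_right, h5, real_inner_self_eq_norm_sq,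
        he.1 i]
      ring
    have h6 := hF.le x hxF
    have h7 := hhigh y hye
    have h8 : 0 < ‖x‖ ^ 2 := by positivity
    by_contra hneg
    push Not at hneg
    have h9 : b * ‖y‖ ^ 2 ≥ lam i * ‖y‖ ^ 2 :=
      mul_le_mul_of_nonneg_right (h1.trans hab) (sq_nonneg _)
    have h10 : lam i * ‖x‖ ^ 2 ≤ A * ‖x‖ ^ 2 := by
      rw [h3] at h6 ⊢
      rw [h4] at h6
      nlinarith
    have := mul_lt_mul_of_pos_right hneg h8
    linarith
  intro x hx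
  obtain ⟨c, rfl⟩ := (Submodule.mem_span_range_iff_exists_fun ℝ).1 hx
  have h1 : ⟪H (∑ i, c i • e i), ∑ i, c i • e i⟫_ℝ = ∑ i, lam i * c i ^ 2 := by
    rw [map_sum]
    have h2 : ∀ i, H (c i • e i) = (c i * lam i) • e i := fun i => by
      rw [map_smul, hHe, smul_smul]
    simp only [h2]
    rw [he.inner_sum]
    refine Finset.sum_congr rfl fun i _ => ?_
    simp; ring
  have h3 : ‖∑ i, c i • e i‖ ^ 2 = ∑ i, c i ^ 2 := by
    rw [← real_inner_self_eq_norm_sq, he.inner_sum]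
    refine Finset.sum_congr rfl fun i _ => ?_
    simp; ring
  rw [h1, h3, Finset.mul_sum]
  exact Finset.sum_le_sum fun i _ => mul_le_mul_of_nonneg_right (hlam i) (sq_nonneg _)

end LinAlg

/-! ### constants of the normalisation -/

/-- the cone constant of the normalisation -/
noncomputable def kn {A B : ℝ} (hA : 0 ≤ A) (hAB : A < B) : ℝ := (BFin.exists_dual hA hAB).choose

theorem kn_pos {A B : ℝ} (hA : 0 ≤ A) (hAB : A < B) : 0 < kn hA hAB :=
  (BFin.exists_dual hA hAB).choose_spec.1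

/-- the bound of the dual solutions -/
noncomputable def cd {A B : ℝ} (hA : 0 ≤ A) (hAB : A < B) {N : ℕ}
    (Gr : Matrix (Fin N) (Fin N) ℝ) : ℝ := ((BFin.exists_dual hA hAB).choose_spec.2 N Gr).choose

theorem cd_pos {A B : ℝ} (hA : 0 ≤ A) (hAB : A < B) {N : ℕ} (Gr : Matrix (Fin N) (Fin N) ℝ) :
    0 < cd hA hAB Gr := ((BFin.exists_dual hA hAB).choose_spec.2 N Gr).choose_spec.1

theorem exists_dual' {A B : ℝ} (hA : 0 ≤ A) (hAB : A < B) {N : ℕ} {Gr : Matrix (Fin N) (Fin N) ℝ}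
    {G : Type} [NormedAddCommGroup G] [InnerProductSpace ℝ G] {H : G →L[ℝ] G} {F e : Fin N → G}
    (hs : ∀ x y, ⟪H x, y⟫_ℝ = ⟪x, H y⟫_ℝ) (h0 : ∀ x, 0 ≤ ⟪H x, x⟫_ℝ) (hF : SepF H F A B)
    (hGr : ∀ i j, ⟪F i, F j⟫_ℝ = Gr i j) (he : Orthonormal ℝ e)
    (hlow : ∀ x ∈ Submodule.span ℝ (range e), ⟪H x, x⟫_ℝ ≤ A * ‖x‖ ^ 2)
    {J : (Fin N → ℝ) →ₗ[ℝ] G} (hJ : ∀ u, J u = 0 → u = 0)
    (hc : ∀ u, PCone e N (kn hA hAB) (J u)) :
    ∃ w : Fin N → (Fin N → ℝ), (∀ i j, ⟪F i, J (w j)⟫_ℝ = if i = j then 1 else 0) ∧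
        ∀ j, ‖J (w j)‖ ≤ cd hA hAB Gr :=
  ((BFin.exists_dual hA hAB).choose_spec.2 N Gr).choose_spec.2 G H F e hs h0 hF hGr he hlow J hJ hc

/-! ### one sector -/

open Crest.Agent.R202.Mix (MixData Cube)

/-- **One sector.** Normalised solutions from the output of the finite-dimensional part. -/
theorem sector_out {G : Type} [NormedAddCommGroup G] [InnerProductSpace ℝ G] {N P : ℕ}
    {C : Gal.Coef G} {U V : ℝ → G →L[ℝ] G} (hsol : Gal.Sol C U V) (ht0 : C.t0 = 0)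
    {A Lc : ℝ} (hLc : 0 ≤ Lc) (hA : 2 * Lc + 2 ≤ A) (MD : MixData G N P) (κ : Cube P)
    (hJm : ∀ q u, MD.Jm q κ u =
      U (hs A q + Lc) (Ring.inverse (U (he A P - Lc)) (∑ j, u j • MD.e j)))
    (hJp : ∀ q u, MD.Jp q κ u =
      U (he A q - Lc) (Ring.inverse (U (he A P - Lc)) (∑ j, u j • MD.e j)))
    (hT : ∀ q, MD.T q = Th A q - 2 * Lc) {k Cm : ℝ} (hk : 0 ≤ k) (hCm : 0 ≤ Cm)
    (hmix : ∀ q, q ≤ P → ∀ u, ‖MD.Jp q κ u‖ ≤
      Cm * Real.exp (k * ∑ i ∈ Finset.range q, MD.T i) * ‖MD.Jm 0 κ u‖)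
    {H : G →L[ℝ] G} (hsymm : ∀ x y, ⟪H x, y⟫_ℝ = ⟪x, H y⟫_ℝ) (hnn : ∀ x, 0 ≤ ⟪H x, x⟫_ℝ)
    {F : Fin N → G} {a b : ℝ} (hF : SepF H F a b) (ha : 0 ≤ a)
    (hlow : ∀ x ∈ Submodule.span ℝ (range MD.e), ⟪H x, x⟫_ℝ ≤ a * ‖x‖ ^ 2)
    (hcone : ∀ u, PCone MD.e N (kn ha hF.lt) (MD.Jm 0 κ u))
    {Gr : Matrix (Fin N) (Fin N) ℝ} (hGr : ∀ i j, ⟪F i, F j⟫_ℝ = Gr i j) :
    ∃ u v : Fin N → ℝ → G, (∀ c, Gal.Reg C (u c) (v c)) ∧
      (∀ c t, 0 ≤ t → t ≤ he A P - Lc →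
        ‖u c t‖ ≤ Cm * cd ha hF.lt Gr * Real.exp (k * max t 0)) ∧
      ∀ {B C2 dl ε : ℝ}, 0 ≤ B → (∀ t, C.b t ≤ B) → (∀ i, ‖F i‖ ≤ C2) → 0 < dl → dl ≤ 1 →
        Real.sqrt dl * (C2 ^ 2 + Real.exp (2 * B) *
          (Cm * cd ha hF.lt Gr * Real.exp (k * (hs A 0 + Lc + 2))) ^ 2) ≤ ε →
        ∀ i c, ∀ t ∈ Icc (hs A 0 + Lc) (hs A 0 + Lc + dl),
          |⟪F i, u c t⟫_ℝ - if i = c then 1 else 0| ≤ ε := by
  have hA0 : 0 < A := by linarith
  -- injectivity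
  have hJ : ∀ u, MD.Jm 0 κ u = 0 → u = 0 := by
    intro u hu
    have h1 := hmix P le_rfl u
    rw [hu, norm_zero, mul_zero] at h1
    have h2 : MD.Jp P κ u = 0 := norm_le_zero_iff.1 h1
    have h3 := MD.top κ u
    rw [h2, zero_sub, norm_neg] at h3
    have h4 : ‖∑ j, u j • MD.e j‖ ^ 2 = ∑ j, u j ^ 2 := by
      rw [← real_inner_self_eq_norm_sq, MD.orth.inner_sum]
      refine Finset.sum_congr rfl fun i _ => ?_
      simp; ring
    rw [h4] at h3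
    have h5 : 0 ≤ ∑ j, u j ^ 2 := Finset.sum_nonneg fun j _ => sq_nonneg _
    have h6 : ∑ j, u j ^ 2 = 0 := by linarith
    funext j
    have h7 := (Finset.sum_eq_zero_iff_of_nonneg fun j _ => sq_nonneg (u j)).1 h6 j
      (Finset.mem_univ j)
    exact pow_eq_zero_iff (two_ne_zero) |>.1 h7
  obtain ⟨w, hw1, hw2⟩ := exists_dual' ha hF.lt hsymm hnn hF hGr MD.orth hlow (J := MD.Jm 0 κ) hJ
    hcone
  set J : (Fin N → ℝ) → G := fun u => Ring.inverse (U (he A P - Lc)) (∑ j, u j • MD.e j) with hJdef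
  have htm : ∀ u, U (hs A 0 + Lc) (J u) = MD.Jm 0 κ u := fun u => (hJm 0 u).symm
  have hsum : ∀ q, ∑ i ∈ Finset.range q, ((he A i - Lc) - (hs A i + Lc))
      = ∑ i ∈ Finset.range q, MD.T i := fun q =>
    Finset.sum_congr rfl fun i _ => by rw [hT, Sch.he_eq]; ring
  have hh0 : hs A 0 = 2 * A := rfl
  obtain ⟨h1, h2, h3⟩ := sector_solutions hsol ht0 (N := N) (P := P) (tm := fun q => hs A q + Lc)
    (tp := fun q => he A q - Lc) (by show 0 ≤ hs A 0 + Lc; rw [hh0]; linarith)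
    (fun q hq => by
      have := MD.T_pos q hq
      rw [hT] at this
      show hs A q + Lc ≤ he A q - Lc
      rw [Sch.he_eq]; linarith)
    (fun q _ => by
      show he A q - Lc ≤ hs A (q + 1) + Lc
      rw [Sch.hs_succ]
      linarith [Sch.Tg_pos hA0 q])
    hk hCm J (Cd := cd ha hF.lt Gr) (fun u q hq => by
      show ‖U (he A q - Lc) (J u)‖ ≤ Cm * Real.exp (k * ∑ i ∈ Finset.range q,
        ((he A i - Lc) - (hs A i + Lc))) * ‖U (hs A 0 + Lc) (J u)‖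
      rw [hsum, htm]
      have := hmix q hq u
      rwa [hJp] at this)
    F w (fun i j => by
      show ⟪F i, U (hs A 0 + Lc) (J (w j))⟫_ℝ = _
      rw [htm]; exact hw1 i j)
    (fun j => by
      show ‖U (hs A 0 + Lc) (J (w j))‖ ≤ _
      rw [htm]; exact hw2 j)
  refine ⟨fun c t => U t (J (w c)), fun c t => V t (J (w c)), h1, h2, ?_⟩
  intro B C2 dl ε hB0 hB hF2 hdl hdl1 hε i c t ht
  refine h3 hB0 hB hF2 hdl hdl1 ?_ hε i c t ht
  show hs A 0 + Lc + 2 ≤ he A P - Lc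
  have h4 : he A 0 ≤ he A P := (Sch.he_strictMono hA0).monotone (Nat.zero_le P)
  have h5 : he A 0 = 3 * A := by
    rw [Sch.he_eq, hh0]
    unfold Th
    norm_num
    ring
  rw [hh0]
  linarith

end Crest.Agent.R202.Brid
end

-- ▼ part R202/BriG
section

/-!
Row 202, BRIDGE (helper778): `BData` for the Galerkin coefficients `coefOf` and the uniform sector
bases; evenness of the scheduled cross-sections.
-/

set_option autoImplicit false

open scoped ContDiff RealInnerProductSpace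
open Set Filter Topology MeasureTheory Metric
open Crest.GeometryTopology.CoordMetric
open Crest.Agent.R202.Sph (ev ip qb QB SecForm yI vI harm sph)
open Crest.Agent.R202.Geo (Fam coefF Afam outer)
open Crest.Agent.R202.Wgt (SBasis coefOf Kop Sop SB opM opM_apply L0op L0op_apply)

namespace Crest.Agent.R202.Bri

variable {n m N D : ℕ} {s θ : ℝ → ℝ} {P : ℝ → ℝ → ℂ → ℝ} {t0 X0 X1 : ℝ}

theorem bdata_coefOf {p0 p : Fin N → MvPolynomial (Fin (m + 3)) ℝ} {l : Fin N → ℕ}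
    (hb : SBasis p0 l) (hF : Fam s θ P t0 X0 X1) (h1 : ∀ t, deriv s t ≤ 1 / 4)
    (heven : ∀ t X u, P t X ((starRingEnd ℂ) u) = P t X u)
    (homog : ∀ i, (p i).IsHomogeneous (l i)) (l_pos : ∀ i, 1 ≤ l i)
    (hharm : ∀ i, Sph.lap (m + 3) (p i) = 0)
    (compl : ∀ h : MvPolynomial (Fin (m + 3)) ℝ, h.totalDegree ≤ D →
      ∀ B, SecForm (m := m) B → ∀ i, QB B (p i) h = ∑ j, ip (p j) h * QB B (p i) (p j))
    (hQ : ∀ B, SecForm (m := m) B → ∀ i j, QB B (p i) (p j) = QB B (p0 i) (p0 j)) :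
    BData m s θ P t0 X0 X1 p l D (coefOf hb hF h1) where
  fam := hF
  homog := homog
  l_pos := l_pos
  harm := hharm
  secB := secForm_Bt hF heven
  compl := compl
  t0_eq := rfl
  K_eq t x i := by
    show Kop p0 s θ P t x i = _
    unfold Kop Sop
    rw [smul_apply, PiLp.smul_apply, opM_apply, smul_eq_mul]
    congr 1
    refine Finset.sum_congr rfl fun j _ => ?_
    rw [hQ _ (secForm_Bt hF heven t)]
    congr 1
    exact QB_congr (fun z hz => (Bt_eq θ P t hz).symm) _ _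
  b_eq t := rfl
  L_eq x i := L0op_apply l x i

/-- `BData` for the uniform sector bases: one coefficient (built with `Y0`) for all `Y`. -/
theorem bdata_unif {q : ℕ} {e : Fin N → ℕ} {V : Fin N → MvPolynomial (Fin 3) ℝ}
    {Y0 Y : MvPolynomial (Fin (m + 1)) ℝ} (hY0 : Y0 ∈ harm (m + 1) q)
    (hY01 : sph (ev (Y0 * Y0)) = 1) (hY : Y ∈ harm (m + 1) q) (hY1 : sph (ev (Y * Y)) = 1)
    (hb : SBasis (fun i => yI m Y0 * vI m (V i)) (fun i => q + e i))
    (hF : Fam s θ P t0 X0 X1) (h1 : ∀ t, deriv s t ≤ 1 / 4)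
    (heven : ∀ t X u, P t X ((starRingEnd ℂ) u) = P t X u)
    (hpos : ∀ i, 1 ≤ q + e i)
    (homog : ∀ i, (yI m Y * vI m (V i)).IsHomogeneous (q + e i))
    (hharm : ∀ i, Sph.lap (m + 3) (yI m Y * vI m (V i)) = 0)
    (compl : ∀ B : EuclideanSpace ℝ (Fin (m + 3)) → Matrix (Fin (m + 3)) (Fin (m + 3)) ℝ,
      SecForm B → ∀ i, ∀ h : MvPolynomial (Fin (m + 3)) ℝ, h.totalDegree ≤ D →
        QB B (yI m Y * vI m (V i)) h = ∑ j, ip (yI m Y * vI m (V j)) h *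
          QB B (yI m Y * vI m (V i)) (yI m Y * vI m (V j))) :
    BData m s θ P t0 X0 X1 (fun i => yI m Y * vI m (V i)) (fun i => q + e i) D
      (coefOf hb hF h1) :=
  bdata_coefOf hb hF h1 heven homog hpos hharm (fun h hD B hB i => compl B hB i h hD)
    (fun B hB i j => Sph.QB_indep hB hY hY0 (by rw [hY1, hY01]) (V i) (V j))

theorem sbasis_unif {q : ℕ} {e : Fin N → ℕ} {V : Fin N → MvPolynomial (Fin 3) ℝ}
    {Y : MvPolynomial (Fin (m + 1)) ℝ}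
    (homog : ∀ i, (yI m Y * vI m (V i)).IsHomogeneous (q + e i))
    (hharm : ∀ i, Sph.lap (m + 3) (yI m Y * vI m (V i)) = 0)
    (orth : ∀ i j, ip (yI m Y * vI m (V i)) (yI m Y * vI m (V j)) = if i = j then 1 else 0) :
    SBasis (fun i => yI m Y * vI m (V i)) (fun i => q + e i) where
  mem i := Sph.mem_harm.2 ⟨homog i, hharm i⟩
  orth := orth

/-! ### evenness of the scheduled cross-sections -/

theorem ret_conj (u : ℂ) : Sch.ret ((starRingEnd ℂ) u) = (starRingEnd ℂ) (Sch.ret u) := by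
  unfold Sch.ret
  rw [RCLike.norm_conj, Complex.real_smul, Complex.real_smul, map_mul, Complex.conj_ofReal]

theorem PY_even {ι : Type*} {y0 y1 Xa Xb : ℝ} {h : ℝ → ℝ} (A : ℝ) (hp : Sch.Prof X0 X1 h)
    (hy0 : 1 ≤ y0) (L : ι → Sch.YLoop y0 y1 Xa Xb) (j : ℕ → ι) (κ : ℕ → ℝ)
    (heven : ∀ j τ κ X u, (L j).Gh τ κ X (star u) = (L j).Gh τ κ X u) (t X : ℝ) (u : ℂ) :
    Sch.PY A hp hy0 L j κ t X ((starRingEnd ℂ) u) = Sch.PY A hp hy0 L j κ t X u := by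
  unfold Sch.PY Sch.PS Sch.glue
  congr 1
  refine finsum_congr fun q => ?_
  congr 1
  show Sch.Ptip h ((L (j q)).y _) X ((starRingEnd ℂ) u) +
      (L (j q)).Gh _ (κ q) X (Sch.ret ((starRingEnd ℂ) u))
    = Sch.Ptip h ((L (j q)).y _) X u + (L (j q)).Gh _ (κ q) X (Sch.ret u)
  rw [ret_conj]
  have h1 := heven (j q) ((t - Sch.he A q) / Sch.Tg A q) (κ q) X (Sch.ret u)
  rw [show star (Sch.ret u) = (starRingEnd ℂ) (Sch.ret u) from rfl] at h1
  rw [h1]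
  rfl

end Crest.Agent.R202.Bri
end

-- ▼ part R202/BriH
section

/-!
Row 202, BRIDGE (helper778): helper684's structure `FOK` for the Galerkin functions `Ff p u`.
-/

set_option autoImplicit false

open scoped ContDiff RealInnerProductSpace
open Set Filter Topology MeasureTheory Metric
open Crest.GeometryTopology.CoordMetric
open Crest.Agent.R202.Sph (ev ip qb QB SecForm yI vI harm sph)
open Crest.Agent.R202.Geo (Fam coefF Afam outer)
open Crest.Agent.R202.Wgt (SBasis coefOf)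

namespace Crest.Agent.R202.Bri

variable {n m N D : ℕ} {s θ : ℝ → ℝ} {P : ℝ → ℝ → ℂ → ℝ} {t0 X0 X1 : ℝ}
  {p : Fin N → MvPolynomial (Fin (m + 3)) ℝ} {l : Fin N → ℕ}
  {C : Gal.Coef (EuclideanSpace ℝ (Fin N))} {u v : ℝ → EuclideanSpace ℝ (Fin N)}

theorem norm_le_of_coord {x y : EuclideanSpace ℝ (Fin N)} (h : ∀ i, |x i| ≤ |y i|) :
    ‖x‖ ≤ ‖y‖ := by
  rw [EuclideanSpace.norm_eq, EuclideanSpace.norm_eq]
  refine Real.sqrt_le_sqrt (Finset.sum_le_sum fun i _ => ?_)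
  rw [Real.norm_eq_abs, Real.norm_eq_abs]
  exact pow_le_pow_left₀ (abs_nonneg _) (h i) 2

theorem bdd_init (d : BData m s θ P t0 X0 X1 p l D C) (hR : Gal.Reg C u v) {t : ℝ} (ht : t ≤ t0) :
    ‖u t‖ ≤ ‖u t0‖ ∧ ‖v t‖ ≤ ‖v t0‖ := by
  have h1 : ∀ i, |u t i| ≤ |u t0 i| := by
    intro i
    have e1 : u t i = u t0 i * Real.exp ((l i : ℝ) * (t - t0)) := by
      rw [u_init d hR ht i, mul_assoc, ← Real.exp_add]
      congr 2; ring
    rw [e1, abs_mul, Real.abs_exp]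
    have h2 : Real.exp ((l i : ℝ) * (t - t0)) ≤ 1 := by
      rw [Real.exp_le_one_iff]
      exact mul_nonpos_of_nonneg_of_nonpos (Nat.cast_nonneg _) (by linarith)
    exact mul_le_of_le_one_right (abs_nonneg _) h2
  refine ⟨norm_le_of_coord h1, norm_le_of_coord fun i => ?_⟩
  rw [v_init d hR ht i, v_init d hR le_rfl i, abs_mul, abs_mul]
  exact mul_le_mul_of_nonneg_left (h1 i) (abs_nonneg _)

/-- **`FOK` for the Galerkin function** -/
theorem fok (d : BData m s θ P 0 X0 X1 p l D C)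
    (ho : ∀ i j, ip (p i) (p j) = if i = j then 1 else 0) (hR : Gal.Reg C u v) :
    Brid.FOK (coefF s θ P) C p u v D (Ff p u) where
  sol := hR
  t0 := d.t0_eq
  bdd t ht := bdd_init d hR ht
  orth := ho
  reg := reg d hR
  slice r hr z := Ff_polar p u hr (by simp)
  flux r hr := S1 d ho hR r hr
  w0 φ h1 h2 h3 := w0 d hR h1 h2 (by rwa [Real.exp_zero])
  w1 χ h1 h2 h3 h hD := w1 d hR (reg d hR) h1 h2 h3 hD

theorem _root_.Crest.Agent.R202.Brid.FOK.mono {A : MetricField (m + 3)} {P Q : ℕ}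
    {F : EuclideanSpace ℝ (Fin (m + 3)) → ℝ} (h : Brid.FOK A C p u v P F) (hQ : Q ≤ P) :
    Brid.FOK A C p u v Q F :=
  { h with w1 := fun χ h1 h2 h3 q hq => h.w1 χ h1 h2 h3 q (hq.trans hQ) }

end Crest.Agent.R202.Bri
end

-- ▼ part R202/BriI
section

/-!
Row 202, BRIDGE (helper778): `FOK` for the scheduled metrics and the uniform sector bases.
-/

set_option autoImplicit false

open scoped ContDiff RealInnerProductSpace
open Set Filter Topology MeasureTheory Metric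
open Crest.GeometryTopology.CoordMetric
open Crest.Agent.R202.Sph (ev ip qb QB SecForm yI vI harm sph w3 refl3)
open Crest.Agent.R202.Geo (Fam coefF Afam outer RateAt)
open Crest.Agent.R202.Wgt (SBasis coefOf)
open Crest.Agent.R202.Mix (Cube)
open Crest.Agent.R202.Main (CountData)
open Crest.Agent.R202.CT (Gate)
open Crest.Agent.R202.BFlow (schedCoef AllFam AllRate)
open Crest.Agent.R202.Top (Choice extκ)

namespace Crest.Agent.R202.Bri

/-- helper862's uniform sector basis -/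
structure UBasis (m q : ℕ) (ε : ℝ) (D : ℕ) {N : ℕ} (e : Fin N → ℕ)
    (V : Fin N → MvPolynomial (Fin 3) ℝ) : Prop where
  wh : ∀ i, (V i).IsWeightedHomogeneous w3 (e i)
  par : ∀ i, refl3 (V i) = MvPolynomial.C ε * V i
  deg : ∀ i, 1 ≤ q + e i ∧ q + e i ≤ D
  homog : ∀ Y ∈ harm (m + 1) q, sph (ev (Y * Y)) = 1 → ∀ i,
    (yI m Y * vI m (V i)).IsHomogeneous (q + e i)
  lap : ∀ Y ∈ harm (m + 1) q, sph (ev (Y * Y)) = 1 → ∀ i,
    Sph.lap (m + 3) (yI m Y * vI m (V i)) = 0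
  orth : ∀ Y ∈ harm (m + 1) q, sph (ev (Y * Y)) = 1 → ∀ i j,
    ip (yI m Y * vI m (V i)) (yI m Y * vI m (V j)) = if i = j then 1 else 0
  compl : ∀ Y ∈ harm (m + 1) q, sph (ev (Y * Y)) = 1 →
    ∀ B : EuclideanSpace ℝ (Fin (m + 3)) → Matrix (Fin (m + 3)) (Fin (m + 3)) ℝ, SecForm B →
      ∀ i, ∀ h : MvPolynomial (Fin (m + 3)) ℝ, h.totalDegree ≤ D →
        QB B (yI m Y * vI m (V i)) h = ∑ j, ip (yI m Y * vI m (V j)) h *
          QB B (yI m Y * vI m (V i)) (yI m Y * vI m (V j))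
  sector : ∀ Y ∈ harm (m + 1) q, sph (ev (Y * Y)) = 1 →
    ∀ e', q + e' ≤ D → ∀ V' : MvPolynomial (Fin 3) ℝ, V'.IsWeightedHomogeneous w3 e' →
      refl3 V' = MvPolynomial.C ε * V' → ∃ c0 : ℝ, (0 < q ∨ ε = -1 → c0 = 0) ∧
      ∀ z : EuclideanSpace ℝ (Fin (m + 3)), ‖z‖ = 1 →
        ev (yI m Y * vI m V') z = ∑ j, ip (yI m Y * vI m (V j)) (yI m Y * vI m V') *
          ev (yI m Y * vI m (V j)) z + c0


theorem UBasis.sbasis {m q : ℕ} {ε : ℝ} {D N : ℕ} {e : Fin N → ℕ}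
    {V : Fin N → MvPolynomial (Fin 3) ℝ} (h : UBasis m q ε D e V)
    {Y : MvPolynomial (Fin (m + 1)) ℝ} (hY : Y ∈ harm (m + 1) q) (hY1 : sph (ev (Y * Y)) = 1) :
    SBasis (fun i => yI m Y * vI m (V i)) (fun i => q + e i) :=
  sbasis_unif (h.homog Y hY hY1) (h.lap Y hY hY1) (h.orth Y hY hY1)

theorem extκ_eq {P : ℕ} (κ : Cube P) : (fun q => (BFlow.extK κ q : ℝ)) = extκ κ := by
  funext q
  unfold BFlow.extK extκ
  split_ifs <;> rfl

section

variable {m : ℕ} {v : ℝ} {k : ℕ} {D : CountData m v k} {εh : ℝ}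




end

end Crest.Agent.R202.Bri
end

-- ▼ part R202/BriJ
section

/-!
Row 202, BRIDGE (helper778): `FOK` for helper514's `topCoef` and helper728's bases `MB`.
-/

set_option autoImplicit false

open scoped ContDiff RealInnerProductSpace
open Set Filter Topology MeasureTheory Metric
open Crest.GeometryTopology.CoordMetric
open Crest.Agent.R202.Sph (ev ip qb QB SecForm yI vI harm sph w3 refl3)
open Crest.Agent.R202.Wgt (SBasis coefOf MB pY)
open Crest.Agent.R202.Mix (Cube)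
open Crest.Agent.R202.Main (CountData)
open Crest.Agent.R202.CT (Gate)
open Crest.Agent.R202.BFlow (CFam topCoef)
open Crest.Agent.R202.Top (Choice extκ)

namespace Crest.Agent.R202.Bri

/-- **`FOK` for `topCoef`**: one coefficient (built with `Y0`) for all normalised `Y`. -/
theorem fok_top {m : ℕ} {v : ℝ} {k : ℕ} {D : CountData m v k} {εh : ℝ}
    (c : Choice D εh) {A : ℝ} {j : ℕ → Gate D} (hF : CFam c A j)
    {q par Deg N : ℕ} {e : Fin N → ℕ} {V : Fin N → MvPolynomial (Fin 3) ℝ}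
    {w : Fin N → Mod.VS q par} (hU : MB m q par Deg N e V w)
    {Y0 Y : MvPolynomial (Fin (m + 1)) ℝ}
    (hY0 : Y0 ∈ harm (m + 1) q) (hY01 : sph (ev (Y0 * Y0)) = 1)
    (hY : Y ∈ harm (m + 1) q) (hY1 : sph (ev (Y * Y)) = 1)
    (hb : SBasis (pY m V Y0) (fun i => q + e i))
    {P : ℕ} (κ : Cube P) {u u' : ℝ → EuclideanSpace ℝ (Fin N)}
    (hR : Gal.Reg (topCoef hb c hF κ) u u') {Q : ℕ} (hQ : Q ≤ Deg) :
    Brid.FOK (c.coef A j (extκ κ)) (topCoef hb c hF κ) (pY m V Y) u u' Q (Ff (pY m V Y) u) := by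
  have hd := bdata_unif (D := Deg) hY0 hY01 hY hY1 hb
    (hF (fun q => BFlow.extK κ q) (BFlow.extK_mem κ)) (Sch.deriv_sf_le c.sI_pos)
    (fun t X u => PY_even A c.prof D.b0_gt.le c.L j _ c.even t X u)
    (fun i => (hU.deg i).1) (hU.homog Y hY hY1) (hU.lap0 Y hY hY1) (hU.compl Y hY hY1)
  have h1 := fok hd (hU.orth Y hY hY1) hR
  rw [← extκ_eq κ]
  exact h1.mono hQ

end Crest.Agent.R202.Bri
end

-- ▼ part R202/BridT
section

/-!
# Row 202, bridge (helper684): from the finite-dimensional output in all sectors to `Top.BFun`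
-/

set_option autoImplicit false
open MeasureTheory Metric Set Filter Topology
open scoped ContDiff InnerProductSpace
open Crest.GeometryTopology.CoordMetric
open Crest.Agent.R202.Sph (ev ip yI vI refl3 harm dimH sph)
open Crest.Agent.R202.Main Crest.Agent.R202.Top Crest.Agent.R202.CT
open Crest.Agent.R202.Mod (VS Pol PolD)
open Crest.Agent.R202.Wgt
open Crest.Agent.R202.Jac (SepF)
open Crest.Agent.R202.Seg (PCone)
open Crest.Agent.R202.Sch (hs he Th Tg)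
open Crest.Agent.R202.Mix (MixData Cube)

namespace Crest.Agent.R202.Brid

noncomputable section

variable {m : ℕ} {v0 : ℝ} {k : ℕ} {D : CountData m v0 k} {εh : ℝ}

/-- the separating home frame of the cut `N` of a sector, with its polynomials -/
structure HomeData (c : Choice D εh) (σ : Sec D) where
  p : Fin (D.N σ.1) → VV σ.1
  A : ℝ
  B : ℝ
  sep : SepP m σ.1 (D.N σ.1) p A B D.b0 (PF c.h D.b0 fun _ _ => 0)
  A_nonneg : 0 ≤ A
  Vf : Fin (D.N σ.1) → MvPolynomial (Fin 3) ℝ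
  refl : ∀ i, refl3 (Vf i) = MvPolynomial.C (par σ.1) * Vf i
  mdl : ∀ i, IsMdl (Vf i) (p i)
  deg : ℕ
  mem : ∀ i, p i ∈ PolD σ.1.1 σ.1.2 deg

/-- the weight of the home form -/
def wy0 (D : CountData m v0 k) : ℝ := (D.b0⁻¹) ^ ((2 : ℝ) / ((m : ℝ) + 2))

theorem wy0_pos (D : CountData m v0 k) : 0 < wy0 D :=
  Real.rpow_pos_of_pos (inv_pos.2 (by linarith [D.b0_gt])) _

theorem sec_par_le (σ : Sec D) : σ.1.2 ≤ 1 := by
  have := D.secOK σ.1 σ.2
  exact this.1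

theorem sepF_of_sep {G : Type*} [NormedAddCommGroup G] [InnerProductSpace ℝ G] {l : ℕ}
    {T : G →L[ℝ] G} {F : Fin l → G} {A B : ℝ} (h : LowF.Sep T F A B) (hAB : A < B) :
    SepF T F A B := ⟨h.li, hAB, h.low, h.high⟩

variable {c : Choice D εh} {σ : Sec D}

namespace HomeData

variable (d : HomeData c σ)

theorem lt' : wy0 D * d.A < wy0 D * d.B := mul_lt_mul_of_pos_left d.sep.lt (wy0_pos D)

theorem nonneg' : 0 ≤ wy0 D * d.A := mul_nonneg (wy0_pos D).le d.A_nonneg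

/-- cone constant of the sector -/
def κn : ℝ := kn d.nonneg' d.lt'

theorem κn_pos : 0 < d.κn := kn_pos _ _

/-- Gram matrix of the frame -/
def Gr : Matrix (Fin (D.N σ.1)) (Fin (D.N σ.1)) ℝ :=
  Matrix.of fun i j => 2 * gF m σ.1 (d.p i) (d.p j)

/-- bound of the dual solutions -/
def Cd : ℝ := cd d.nonneg' d.lt' d.Gr

theorem Cd_pos : 0 < d.Cd := cd_pos _ _ _

/-- bound of the frame -/
def C2 : ℝ := ∑ i, Real.sqrt (2 * gF m σ.1 (d.p i) (d.p i))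

theorem mem' {Dg : ℕ} (h : d.deg ≤ Dg) (i : Fin (D.N σ.1)) : d.p i ∈ PolD σ.1.1 σ.1.2 Dg :=
  Mod.PolD_mono _ _ h (d.mem i)

section

variable {Dg ND : ℕ} {e : Fin ND → ℕ} {V : Fin ND → MvPolynomial (Fin 3) ℝ}
  {w : Fin ND → VV σ.1} (hb : MB m σ.1.1 σ.1.2 Dg ND e V w) (hg : T4g m) (hQ : T4Q m)
  {Y : MvPolynomial (Fin (m + 1)) ℝ} (hY : Y ∈ harm (m + 1) σ.1.1) (hY1 : sph (ev (Y * Y)) = 1)

/-- the frame in the Galerkin space -/
def F (d : HomeData c σ) (w : Fin ND → VV σ.1) : Fin (D.N σ.1) → EuclideanSpace ℝ (Fin ND) :=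
  fr m w d.p

include hb hg hQ hY hY1 in
theorem sepF (hDg : d.deg ≤ Dg) : SepF (homeS (pY m V Y) c.h D.b0) (d.F w) (wy0 D * d.A)
    (wy0 D * d.B) :=
  sepF_of_sep (hb.sep_home hg hQ hY hY1 c.prof c.X0_pos c.X1_lt D.b0_gt.le (d.mem' hDg) d.sep)
    d.lt'

include hb hg hY hY1 in
theorem gram (hDg : d.deg ≤ Dg) (i j : Fin (D.N σ.1)) : ⟪d.F w i, d.F w j⟫_ℝ = d.Gr i j := by
  show ⟪crd m w (d.p i), crd m w (d.p j)⟫_ℝ = 2 * gF m σ.1 (d.p i) (d.p j)
  rw [inner_crd, hb.complete hg hY hY1 (d.mem' hDg j) (d.sep.red j)]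
  rfl

include hb hg hY hY1 in
theorem norm_F_le (hDg : d.deg ≤ Dg) (i : Fin (D.N σ.1)) : ‖d.F w i‖ ≤ d.C2 := by
  have h1 : ‖d.F w i‖ ^ 2 = 2 * gF m σ.1 (d.p i) (d.p i) := by
    rw [← real_inner_self_eq_norm_sq, d.gram hb hg hY hY1 hDg]
    rfl
  have h2 : ‖d.F w i‖ = Real.sqrt (2 * gF m σ.1 (d.p i) (d.p i)) := by
    rw [← h1, Real.sqrt_sq (norm_nonneg _)]
  rw [h2]
  exact Finset.single_le_sum (f := fun i => Real.sqrt (2 * gF m σ.1 (d.p i) (d.p i)))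
    (fun i _ => Real.sqrt_nonneg _) (Finset.mem_univ i)

include hb hg hY hY1 in
/-- the pairings with the frame are the pairings of the polynomials -/
theorem inner_F (i : Fin (D.N σ.1)) (u : EuclideanSpace ℝ (Fin ND)) :
    ⟪d.F w i, u⟫_ℝ = ∑ l, u l * ip (yI m Y * vI m (V l)) (yI m Y * vI m (d.Vf i)) := by
  show ⟪crd m w (d.p i), u⟫_ℝ = _
  rw [PiLp.inner_apply]
  refine Finset.sum_congr rfl fun l _ => ?_
  have h1 : ip (yI m Y * vI m (V l)) (yI m Y * vI m (d.Vf i))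
      = 2 * Mod.g m σ.1.1 σ.1.2 (w l) (d.p i) :=
    hg σ.1.1 σ.1.2 hb.par_le Y hY hY1 _ _ (hb.refl l) (d.refl i) _ _ (hb.mdl l) (d.mdl i)
  rw [h1, crd_apply]
  simp only [RCLike.inner_apply, conj_trivial]

end

end HomeData

/-- the home data exist -/
theorem exists_homeData (hg : T4g m) (hQ : T4Q m) (c : Choice D εh) (σ : Sec D)
    {Y : MvPolynomial (Fin (m + 1)) ℝ} (hY : Y ∈ harm (m + 1) σ.1.1)
    (hY1 : sph (ev (Y * Y)) = 1) : Nonempty (HomeData c σ) := by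
  classical
  obtain ⟨p, A, B, hs, -, -⟩ := c.cout.home σ.1 σ.2 (D.N σ.1) (D.i0_lt σ.1 σ.2).le le_rfl
  have h1 : ∀ i, ∃ E, p i ∈ PolD σ.1.1 σ.1.2 E := fun i => Mod.mem_Pol_iff.1 (hs.pol i)
  choose E hE using h1
  set deg : ℕ := Finset.univ.sup E with hdeg
  have hmem : ∀ i, p i ∈ PolD σ.1.1 σ.1.2 deg := fun i =>
    Mod.PolD_mono _ _ (Finset.le_sup (Finset.mem_univ i)) (hE i)
  have h2 : ∀ i, ∃ V : MvPolynomial (Fin 3) ℝ, refl3 V = MvPolynomial.C (par σ.1) * V ∧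
      IsMdl V (p i) := fun i => by
    obtain ⟨V, hV1, -, hV2⟩ := Mod.exists_V_of_pol σ.1.1 (sec_par_le σ) (hmem i)
    exact ⟨V, hV1, fun z hz => hV2 z (Mod.sq_lt_one_of_mem hz.1)⟩
  choose Vf hVf1 hVf2 using h2
  obtain ⟨ND, e, V, w, hb⟩ := exists_MB m σ.1.1 (sec_par_le σ) deg
  have hsep := hb.sep_home hg hQ hY hY1 c.prof c.X0_pos c.X1_lt D.b0_gt.le hmem hs
  have hN : 0 < D.N σ.1 := lt_of_lt_of_le (D.i0_pos σ.1 σ.2) (D.i0_lt σ.1 σ.2).le
  have hA : 0 ≤ A := by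
    have h3 : fr m w p ⟨0, hN⟩ ≠ 0 := hsep.li.ne_zero _
    have h4 := hsep.low (fr m w p ⟨0, hN⟩) (Submodule.subset_span ⟨_, rfl⟩)
    have h5 := homeS_nonneg (p := pY m V Y) c.prof D.b0_gt.le (fr m w p ⟨0, hN⟩)
    have h6 : 0 < ‖fr m w p ⟨0, hN⟩‖ ^ 2 := by positivity
    have h7 := wy0_pos D
    by_contra hneg
    push Not at hneg
    have h8 : (D.b0⁻¹) ^ ((2 : ℝ) / ((m : ℝ) + 2)) * A < 0 := mul_neg_of_pos_of_neg h7 hneg
    have := mul_neg_of_neg_of_pos h8 h6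
    linarith
  exact ⟨⟨p, A, B, hs, hA, Vf, hVf1, hVf2, deg, hmem⟩⟩

/-- total error constant of the pairings -/
def WW (c : Choice D εh) (d : ∀ σ, HomeData c σ) (A Lc Cm : ℝ) : ℝ :=
  ∑ σ, ((d σ).C2 ^ 2 + Real.exp (2 * ((m : ℝ) + 1)) *
    (|Cm| * (d σ).Cd * Real.exp (k * (hs A 0 + Lc + 2))) ^ 2)

theorem WW_nonneg (c : Choice D εh) (d : ∀ σ, HomeData c σ) (A Lc Cm : ℝ) : 0 ≤ WW c d A Lc Cm :=
  Finset.sum_nonneg fun σ _ => by positivity

theorem le_WW (c : Choice D εh) (d : ∀ σ, HomeData c σ) (A Lc Cm : ℝ) (σ : Sec D) :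
    (d σ).C2 ^ 2 + Real.exp (2 * ((m : ℝ) + 1)) *
    (|Cm| * (d σ).Cd * Real.exp (k * (hs A 0 + Lc + 2))) ^ 2 ≤ WW c d A Lc Cm :=
  Finset.single_le_sum (f := fun σ => (d σ).C2 ^ 2 + Real.exp (2 * ((m : ℝ) + 1)) *
    (|Cm| * (d σ).Cd * Real.exp (k * (hs A 0 + Lc + 2))) ^ 2) (fun σ _ => by positivity)
    (Finset.mem_univ σ)

/-- **From the finite-dimensional output in all sectors to `BFun`.** -/
theorem bfun_of_sectors (c : Choice D εh) (d : ∀ σ, HomeData c σ) {A Lc : ℝ} (hLc : 0 ≤ Lc)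
    (hA : 2 * Lc + 2 ≤ A) {j : ℕ → Gate D} (hF : BFlow.CFam c A j) (Cm : ℝ) :
    ∃ B : BConst D, ∀ (P Dg : ℕ), P ≤ Dg → (∀ σ, (d σ).deg ≤ Dg) →
      ∀ (ND : Sec D → ℕ) (e : ∀ σ, Fin (ND σ) → ℕ) (V : ∀ σ, Fin (ND σ) → MvPolynomial (Fin 3) ℝ)
        (w : ∀ σ : Sec D, Fin (ND σ) → VV σ.1)
        (hb : ∀ σ : Sec D, MB m σ.1.1 σ.1.2 Dg (ND σ) (e σ) (V σ) (w σ))
        (Y0 : Sec D → MvPolynomial (Fin (m + 1)) ℝ) (hY0 : ∀ σ, Y0 σ ∈ harm (m + 1) σ.1.1)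
        (hY01 : ∀ σ, sph (ev (Y0 σ * Y0 σ)) = 1)
        (η Cμ Mμ : Sec D → ℝ) (Λ : Sec D → ℕ → ℝ)
        (LS : ∀ σ : Sec D, BFin.LoopSys (EuclideanSpace ℝ (Fin (ND σ))) (Gate D) (D.N σ.1)
          (D.i0 σ.1) (η σ) (Cμ σ) (Mμ σ) (Λ σ))
        (_ : ∀ σ, 0 < η σ)
        (_ : ∀ σ, (LS σ).H = homeS (pY m (V σ) (Y0 σ)) c.h D.b0)
        (MD : ∀ σ : Sec D, MixData (EuclideanSpace ℝ (Fin (ND σ))) (D.N σ.1) P)
        (κ : Cube P)
        (U V' : ∀ σ : Sec D, ℝ → EuclideanSpace ℝ (Fin (ND σ)) →L[ℝ] EuclideanSpace ℝ (Fin (ND σ)))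
        (_ : ∀ σ, Gal.Sol (BFlow.topCoef ((hb σ).sbasis (hY0 σ) (hY01 σ)) c hF κ) (U σ) (V' σ))
        (_ : ∀ σ, (MD σ).e = (LS σ).e)
        (_ : ∀ σ q u, (MD σ).Jm q κ u =
          U σ (hs A q + Lc) (Ring.inverse (U σ (he A P - Lc)) (∑ i, u i • (LS σ).e i)))
        (_ : ∀ σ q u, (MD σ).Jp q κ u =
          U σ (he A q - Lc) (Ring.inverse (U σ (he A P - Lc)) (∑ i, u i • (LS σ).e i)))
        (_ : ∀ σ q, (MD σ).T q = Th A q - 2 * Lc)
        (_ : ∀ σ u, PCone (LS σ).e (D.N σ.1) (d σ).κn ((MD σ).Jm 0 κ u))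
        (_ : ∀ σ, ∀ q ≤ P, ∀ u, ‖(MD σ).Jp q κ u‖ ≤
          Cm * Real.exp (k * ∑ i ∈ Finset.range q, (Th A i - 2 * Lc)) * ‖(MD σ).Jm 0 κ u‖),
        ∃ F : Idx D → EuclideanSpace ℝ (Fin (m + 3)) → ℝ,
          BFun B P (c.coef A j (extκ κ)) F := by
  classical
  have hA0 : 0 < A := by linarith
  have hg : T4g m := Tra.t4g m
  have hQ : T4Q m := Tra.t4Q m
  obtain ⟨K, hK⟩ := c.exists_bd
  have hK1 : 1 ≤ K := (hK A hA0 j (fun _ => 1) (fun _ => ⟨by norm_num, le_rfl⟩)).one_le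
  obtain ⟨lam, Lam, hlam, -, hell⟩ := Geo.Fam.coefF_bounds m K hK1
  -- the constants
  set ε : ℝ := 1 / (2 * ((Fintype.card (Idx D) : ℝ) + 1)) with hεdef
  have hcard : (0 : ℝ) ≤ Fintype.card (Idx D) := Nat.cast_nonneg _
  have hε0 : 0 < ε := by rw [hεdef]; positivity
  have hε : ε * Fintype.card (Idx D) < 1 := by
    rw [hεdef, div_mul_eq_mul_div, one_mul, div_lt_one (by positivity)]
    linarith
  set W : ℝ := WW c d A Lc Cm with hW
  have hW0 : 0 ≤ W := WW_nonneg c d A Lc Cm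
  set dl : ℝ := min 1 ((ε / (W + 1)) ^ 2) with hdldef
  have hdl : 0 < dl := lt_min one_pos (by positivity)
  have hdl1 : dl ≤ 1 := min_le_left _ _
  have hsq : Real.sqrt dl ≤ ε / (W + 1) := by
    have h1 : dl ≤ (ε / (W + 1)) ^ 2 := min_le_right _ _
    have h2 := Real.sqrt_le_sqrt h1
    rwa [Real.sqrt_sq (by positivity)] at h2
  have hdlW : ∀ σ : Sec D, Real.sqrt dl * ((d σ).C2 ^ 2 + Real.exp (2 * ((m : ℝ) + 1)) *
      (|Cm| * (d σ).Cd * Real.exp (k * (hs A 0 + Lc + 2))) ^ 2) ≤ ε := by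
    intro σ
    have h1 := le_WW c d A Lc Cm σ
    calc Real.sqrt dl * ((d σ).C2 ^ 2 + Real.exp (2 * ((m : ℝ) + 1)) *
          (|Cm| * (d σ).Cd * Real.exp (k * (hs A 0 + Lc + 2))) ^ 2)
        ≤ Real.sqrt dl * W := mul_le_mul_of_nonneg_left h1 (Real.sqrt_nonneg _)
      _ ≤ ε / (W + 1) * W := mul_le_mul_of_nonneg_right hsq hW0
      _ ≤ ε := by
          rw [div_mul_eq_mul_div, div_le_iff₀ (by positivity)]
          nlinarith
  set Cg : ℝ := ∑ σ : Sec D, |Cm| * (d σ).Cd with hCg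
  have hCgle : ∀ σ : Sec D, |Cm| * (d σ).Cd ≤ Cg := fun σ =>
    Finset.single_le_sum (f := fun σ : Sec D => |Cm| * (d σ).Cd)
      (fun σ _ => mul_nonneg (abs_nonneg _) (d σ).Cd_pos.le) (Finset.mem_univ σ)
  have hτ0 : 0 ≤ hs A 0 + Lc := by
    show 0 ≤ 2 * A + Lc
    linarith
  refine ⟨mkB D (fun σ => (d σ).Vf) Cg lam ((m : ℝ) + 1) (hs A 0 + Lc) dl ε hdl hε, ?_⟩
  intro P Dg hPD hdeg ND e V w hb Y0 hY0 hY01 η Cμ Mμ Λ LS hη hH MD κ U V' hsol hMe hJm hJp hT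
    hcone hmix
  have hκ : ∀ q, extκ κ q ∈ Icc (-1 : ℝ) 1 := Top.extκ_mem κ
  have hFam := (hF (extκ κ) hκ)
  -- the solutions
  have hb1 : ∀ σ : Sec D, ∀ t,
      (BFlow.topCoef ((hb σ).sbasis (hY0 σ) (hY01 σ)) c hF κ).b t ≤ (m : ℝ) + 1 := by
    intro σ t
    rw [BFlow.topCoef_b]
    have := Sch.deriv_sf_nonneg c.sI_pos t
    have h2 : 0 ≤ ((m : ℝ) + 2) * deriv (sfv m v0) t := mul_nonneg (by positivity) this
    linarith
  have key : ∀ σ : Sec D, ∃ u v : Fin (D.N σ.1) → ℝ → EuclideanSpace ℝ (Fin (ND σ)),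
      (∀ i, Gal.Reg (BFlow.topCoef ((hb σ).sbasis (hY0 σ) (hY01 σ)) c hF κ) (u i) (v i)) ∧
      (∀ i t, 0 ≤ t → t ≤ he A P - Lc →
        ‖u i t‖ ≤ |Cm| * (d σ).Cd * Real.exp (k * max t 0)) ∧
      ∀ i l, ∀ t ∈ Icc (hs A 0 + Lc) (hs A 0 + Lc + dl),
          |⟪(d σ).F (w σ) i, u l t⟫_ℝ - if i = l then 1 else 0| ≤ ε := by
    intro σ
    have hsep := (d σ).sepF (hb σ) hg hQ (hY0 σ) (hY01 σ) (hdeg σ)
    rw [← hH σ] at hsep
    obtain ⟨μ, -, hlow, hhigh⟩ := (LS σ).home_gap (D.N σ.1) le_rfl (D.i0_lt σ.1 σ.2).le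
    have hlow' : ∀ x ∈ Submodule.span ℝ (range (LS σ).e),
        ⟪(LS σ).H x, x⟫_ℝ ≤ (wy0 D * (d σ).A) * ‖x‖ ^ 2 :=
      low_le_of_sepF (LS σ).orth (LS σ).H_e (LS σ).H_symm
        (by have := hη σ; linarith : μ - η σ ≤ μ + η σ) hlow hhigh hsep
    obtain ⟨u, v, h1, h2, h3⟩ := sector_out (hsol σ) (BFlow.topCoef_t0 _ c hF κ) hLc hA (MD σ) κ
      (fun q u => by rw [hJm, hMe]) (fun q u => by rw [hJp, hMe]) (hT σ)
      (k := k) (Cm := |Cm|) (Nat.cast_nonneg k) (abs_nonneg _)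
      (fun q hq u => by
        have h4 := hmix σ q hq u
        have h5 : ∑ i ∈ Finset.range q, (MD σ).T i = ∑ i ∈ Finset.range q, (Th A i - 2 * Lc) :=
          Finset.sum_congr rfl fun i _ => hT σ i
        rw [h5]
        refine h4.trans ?_
        gcongr
        exact le_abs_self Cm)
      (LS σ).H_symm (LS σ).H_nonneg hsep (d σ).nonneg' (by rw [hMe]; exact hlow')
      (fun u => by rw [hMe]; exact hcone σ u)
      (Gr := (d σ).Gr) ((d σ).gram (hb σ) hg (hY0 σ) (hY01 σ) (hdeg σ))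
    exact ⟨u, v, h1, h2, h3 (B := (m : ℝ) + 1) (by positivity) (hb1 σ)
      ((d σ).norm_F_le (hb σ) hg (hY0 σ) (hY01 σ) (hdeg σ)) hdl hdl1 (hdlW σ)⟩
  choose u v hreg hgrow hpair using key
  have hfok : ∀ i : Idx D, Brid.FOK (c.coef A j (extκ κ))
      (BFlow.topCoef ((hb i.1).sbasis (hY0 i.1) (hY01 i.1)) c hF κ)
      (pY m (V i.1) (YB m i.1.1.1 i.2.1).1) (u i.1 i.2.2) (v i.1 i.2.2) P
      (Bri.Ff (pY m (V i.1) (YB m i.1.1.1 i.2.1).1) (u i.1 i.2.2)) := fun i =>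
    Bri.fok_top c hF (hb i.1) (hY0 i.1) (hY01 i.1) (YB m i.1.1.1 i.2.1).2
      (by rw [YB_orth, if_pos rfl]) _ κ (hreg i.1 i.2.2) hPD
  refine ⟨fun i => Bri.Ff (pY m (V i.1) (YB m i.1.1.1 i.2.1).1) (u i.1 i.2.2), ?_⟩
  refine bfun_of_FOK (Vf := fun σ => (d σ).Vf) (fun σ i => (d σ).refl i) sec_par_le hε0.le hlam
    hτ0 (fun i l => (hFam.contDiff_coefF i l).continuous)
    (fun x w => (hell _ _ _ _ _ _ hFam (hK A hA0 j _ hκ) x w).1)
    (NN := ND) (V := V) (fun σ i => (hb σ).refl i)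
    (Cc := fun i => BFlow.topCoef ((hb i.1).sbasis (hY0 i.1) (hY01 i.1)) c hF κ)
    (fun i t => hb1 i.1 t) (u := u) (v := v) (T := he A P - Lc) ?_ ?_ ?_ hfok
  · -- log (P+1) + 1 ≤ he A P - Lc
    have h1 : Real.log ((P : ℝ) + 1) ≤ P := by
      have := Real.log_le_sub_one_of_pos (by positivity : (0 : ℝ) < (P : ℝ) + 1)
      linarith
    have h2 : 2 * A ≤ hs A P := Sch.two_mul_le_hs hA0 P
    have h3 : (P : ℝ) + 1 ≤ Th A P := by
      unfold Th
      have hP0 : (0 : ℝ) ≤ P := Nat.cast_nonneg P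
      have h4 : (P : ℝ) + 1 ≤ ((P : ℝ) + 1) ^ 4 := le_self_pow₀ (by linarith) (by norm_num)
      nlinarith
    rw [Sch.he_eq]
    linarith
  · intro σ i t h0 h1
    refine (hgrow σ i t h0 h1).trans (mul_le_mul_of_nonneg_right (hCgle σ) (Real.exp_pos _).le)
  · intro σ i l Y hY hY1 t ht
    have h1 := hpair σ i l t ht
    rwa [(d σ).inner_F (hb σ) hg hY hY1] at h1

end

end Crest.Agent.R202.Brid
end

-- ▼ part R202/BExp

/-!
Row 202, PART B, final composition (helper912): `BExport m`.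

Ingredients: `Num.exists_num` (225), `BFin.exists_loopSys`, `BFin.exists_mixDataL'` (846),
`BFlow.exists_flowFam_top` (514), `Wgt.exists_MB` (728, 862), `Tra.t4g`, `Tra.t4Q` (362),
`Brid.exists_homeData`, `Brid.bfun_of_sectors` (684, 778), `fits_of` (BFit).
-/

set_option autoImplicit false

open scoped ContDiff InnerProductSpace
open Set Filter Topology MeasureTheory Metric
open Crest.GeometryTopology.CoordMetric
open Crest.Agent.R202.Geo Crest.Agent.R202.Main Crest.Agent.R202.CT Crest.Agent.R202.Sch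
open Crest.Agent.R202.Top Crest.Agent.R202.Wgt
open Crest.Agent.R202.Mix (MixData SecData Sched Fits Cube)
open Crest.Agent.R202.BFin (LoopSys FlowFam)
open Crest.Agent.R202.Sph (harm sph)

noncomputable section

namespace Crest.Agent.R202.BExp

theorem le_sum_of {ι : Type*} [Fintype ι] {f : ι → ℝ} (h : ∀ i, 0 ≤ f i) (i : ι) :
    f i ≤ ∑ j, f j :=
  Finset.single_le_sum (f := f) (fun j _ => h j) (Finset.mem_univ i)

end BExp

namespace Top

open BExp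

/-- **PART B.** -/
theorem bExport (m : ℕ) : BExport m := by
  classical
  intro v k D
  obtain ⟨εh, hεh, ε, hε, a, ha⟩ := Num.exists_num D
  refine ⟨εh, hεh, ?_⟩
  intro c K C A1 hK hC hA1 hOK
  have hm : MonoA D a := fun σ hσ => (ha σ hσ).2.1
  have hY : ∀ σ : Sec D, ∃ Y ∈ harm (m + 1) σ.1.1, sph (Sph.ev (Y * Y)) = 1 := fun σ =>
    exists_Y (D.secOK σ.1 σ.2)
  choose Y0 hY0 hY1 using hY
  -- the loop systems of the sectors
  choose η Cμ Mμ D0 _ _ _ hη hCμ _ _ _ _ hLS using fun σ : Sec D =>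
    BFin.exists_loopSys (Tra.t4g m) (Tra.t4Q m) c (q := σ.1.1) (par := σ.1.2) σ.2
  -- the home frames
  have hd : ∀ σ : Sec D, Nonempty (Brid.HomeData c σ) := fun σ =>
    Brid.exists_homeData (Tra.t4g m) (Tra.t4Q m) c σ (hY0 σ) (hY1 σ)
  have hd' := fun σ => (hd σ).some
  -- the constants of the mixing data
  have hMx := fun σ : Sec D => BFin.exists_mixDataL' m c.sI_pos (D.i0_pos σ.1 σ.2)
    (D.i0_lt σ.1 σ.2).le (Mμ := Mμ σ) (hη σ) (hCμ σ) hε (hd' σ).κn_pos (a := a σ.1)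
    (Λ := fun l => ((D.b0)⁻¹) ^ ((2 : ℝ) / ((m : ℝ) + 2)) * (homeLev D σ.1 (l - 1) + εh))
    (fun l h1 h2 => by
      have h3 := (ha σ.1 σ.2).1 l h1 h2
      rw [Num.b0_rpow] at h3
      exact h3)
  choose δ hδ Lc0 hLc0 CΓ hCΓ M hM M2 hM2 hMx' using hMx
  set Lc : ℝ := 1 + ∑ σ, Lc0 σ with hLcdef
  have hLc1 : 1 ≤ Lc := by
    have : 0 ≤ ∑ σ, Lc0 σ := Finset.sum_nonneg fun σ _ => (hLc0 σ).le
    linarith
  have hLc : ∀ σ, Lc0 σ ≤ Lc := fun σ => by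
    have := le_sum_of (fun σ => (hLc0 σ).le) σ
    linarith
  choose A0 hA0 hMD using fun σ => hMx' σ Lc (hLc σ)
  choose A2 hA2 hFF using fun σ => BFlow.exists_flowFam_top c hK hC hOK (hδ σ)
  refine ⟨4 + 4 * Lc + ∑ σ, A0 σ + ∑ σ, A2 σ, ?_⟩
  intro A hA hAA1 sl
  have hs0 : 0 ≤ ∑ σ, A0 σ := Finset.sum_nonneg fun σ _ => by linarith [hA0 σ]
  have hs2 : 0 ≤ ∑ σ, A2 σ := Finset.sum_nonneg fun σ _ => by linarith [hA2 σ]
  have hAA0 : ∀ σ, A0 σ ≤ A := fun σ => by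
    have := le_sum_of (fun σ => zero_le_one.trans (hA0 σ)) σ
    linarith
  have hAA2 : ∀ σ, A2 σ ≤ A := fun σ => by
    have := le_sum_of (fun σ => zero_le_one.trans (hA2 σ)) σ
    linarith
  have hApos : 0 < A := by linarith
  have hCΓ1 : (1 : ℝ) ≤ 1 + ∑ σ, CΓ σ := by
    have : 0 ≤ ∑ σ, CΓ σ := Finset.sum_nonneg fun σ _ => (hCΓ σ).le
    linarith
  have hM0 : (0 : ℝ) ≤ ∑ σ, M σ := Finset.sum_nonneg fun σ _ => (hM σ).le
  refine ⟨sdOf sl ε hm, sched hApos (by linarith : 0 ≤ Lc) (by linarith : 4 * Lc ≤ A) hCΓ1 hM0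
    sl.M_pos, fun σ => ⟨rfl, rfl, rfl⟩, rfl, fun σ => ?_, fun Cm => ?_⟩
  · rw [sched_δ, add_zero, sdOf_mean]
    exact (ha σ.1 σ.2).2.2
  obtain ⟨B, hB'⟩ := Brid.bfun_of_sectors c hd' (A := A) (Lc := Lc) (by linarith) (by linarith)
    (BFlow.cfam_of_ok hOK hAA1 sl.jt) Cm
  refine ⟨B, fun P => ?_⟩
  -- the degree
  set Dg : ℕ := P + ∑ σ, D0 σ + ∑ σ, (hd' σ).deg with hDg
  have hD0 : ∀ σ, D0 σ ≤ Dg := fun σ => by
    have := Finset.single_le_sum (f := D0) (fun j _ => Nat.zero_le _) (Finset.mem_univ σ)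
    omega
  have hdeg : ∀ σ, (hd' σ).deg ≤ Dg := fun σ => by
    have := Finset.single_le_sum (f := fun σ => (hd' σ).deg) (fun j _ => Nat.zero_le _)
      (Finset.mem_univ σ)
    omega
  choose ND e V w hb using fun σ : Sec D => exists_MB m σ.1.1 (D.secOK σ.1 σ.2).1 Dg
  choose LS hS hH hdes _ _ using fun σ : Sec D => (hLS σ Dg (hD0 σ)).2 (hb σ) (hY0 σ) (hY1 σ)
  choose U V' FF hU hV' hSol hF using fun σ : Sec D => hFF σ A (hAA2 σ) hAA1 sl.jt (ND σ)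
    (pY m (V σ) (Y0 σ)) _ ((hb σ).sbasis (hY0 σ) (hY1 σ)) _ _ _ _ _ _ (LS σ)
    (fun i τ κ _ => hS σ i τ κ) (hH σ) P
  choose MD h1 h2 h3 h4 h5 h6 h7 h8 h9 h10 h11 using fun σ : Sec D =>
    (hMD σ A (hAA0 σ)).2 (EuclideanSpace ℝ (Fin (ND σ))) (Gate D) (LS σ) P sl.jt (FF σ)
  refine ⟨fun σ => EuclideanSpace ℝ (Fin (ND σ)), fun σ => inferInstance, fun σ => inferInstance,
    MD, fun σ => ?_, fun κ hκ => ?_⟩
  · refine fits_of sl hm σ hApos (by linarith) (by linarith) hCΓ1 hM0 (MD σ) (h2 σ) (h3 σ) (h4 σ)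
      (h5 σ) ?_ (CΓ' := CΓ σ) (M' := M σ) ?_ ?_ (h7 σ)
    · rw [h6 σ]
      funext q
      exact hdes σ _
    · have := le_sum_of (fun σ => (hCΓ σ).le) σ
      linarith
    · have := le_sum_of (fun σ => (hM σ).le) σ
      linarith
  · refine hB' P Dg (by omega) hdeg ND e V w hb Y0 hY0 hY1 η Cμ Mμ _ LS hη hH MD κ
      (fun σ => U σ κ) (fun σ => V' σ κ) (fun σ => hSol σ κ) h1 ?_ ?_ ?_ ?_ ?_
    · intro σ q u
      rw [h8 σ q κ u]
      unfold FlowFam.sol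
      rw [(hF σ κ).2.1]
    · intro σ q u
      rw [h9 σ q κ u]
      unfold FlowFam.sol
      rw [(hF σ κ).2.1]
    · intro σ q
      rw [h4 σ]
    · intro σ u
      rw [h8 σ 0 κ u]
      exact h10 σ κ u
    · intro σ q hq u
      exact (hκ σ q hq u).2

end Crest.Agent.R202.Top
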