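import Mathlib
import Crest.Agent.R202.SpinBasis
import Crest.Agent.R202.Model2
import Crest.Agent.R202.SpFam
import Crest.Agent.R202.SpinLink

-- ▼ part R202/CluTrig
section

/-! Row 202, PART C4 (helper58): the trigonometric integrals over `(0,π)` which occur in the
first variation of the cross-section form. -/

set_option autoImplicit false

namespace Crest.Agent.R202.Clu

open MeasureTheory Set Real

/-- indicator of `k = 0`. -/
noncomputable def dz (k : ℤ) : ℝ := if k = 0 then 1 else 0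

theorem dz_zero : dz 0 = 1 := by simp [dz]

theorem dz_ne {k : ℤ} (hk : k ≠ 0) : dz k = 0 := by simp [dz, hk]

theorem int_cos (k : ℤ) : ∫ φ in Ioo (0:ℝ) π, cos (k * φ) = π * dz k := by
  rw [← integral_Ioc_eq_integral_Ioo, ← intervalIntegral.integral_of_le pi_pos.le]
  by_cases hk : k = 0
  · subst hk; simp [dz]
  · have hk' : (k : ℝ) ≠ 0 := by exact_mod_cast hk
    rw [intervalIntegral.integral_comp_mul_left (fun x => cos x) hk', dz_ne hk, integral_cos]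
    simp

/-- `∫ cos(aφ) cos(mφ) cos(nφ)` over `(0,π)`. -/
noncomputable def tcc (a m n : ℕ) : ℝ :=
  π / 4 * (dz (a + m + n) + dz (a + m - n) + dz (a - m + n) + dz (a - m - n))

/-- `∫ cos(aφ) sin(mφ) sin(nφ)` over `(0,π)`. -/
noncomputable def tss (a m n : ℕ) : ℝ :=
  π / 4 * (-dz (a + m + n) + dz (a + m - n) + dz (a - m + n) - dz (a - m - n))

theorem cont_cos (k : ℤ) : Continuous fun φ : ℝ => cos (k * φ) := by fun_prop

theorem cos_integrable (k : ℤ) : IntegrableOn (fun φ : ℝ => cos (k * φ)) (Ioo 0 π) :=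
  ((cont_cos k).continuousOn.integrableOn_Icc (a := 0) (b := π)).mono_set Ioo_subset_Icc_self

theorem int_cos_cos_cos (a m n : ℕ) :
    ∫ φ in Ioo (0:ℝ) π, cos (a * φ) * (cos (m * φ) * cos (n * φ)) = tcc a m n := by
  have e : ∀ φ : ℝ, cos (a * φ) * (cos (m * φ) * cos (n * φ)) =
      1 / 4 * ((cos (((a + m + n : ℤ) : ℝ) * φ) + cos (((a + m - n : ℤ) : ℝ) * φ)) +
        (cos (((a - m + n : ℤ) : ℝ) * φ) + cos (((a - m - n : ℤ) : ℝ) * φ))) := by
    intro φ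
    push_cast
    have h1 := Real.cos_add_cos ((a + m + n : ℝ) * φ) ((a + m - n : ℝ) * φ)
    have h2 := Real.cos_add_cos ((a - m + n : ℝ) * φ) ((a - m - n : ℝ) * φ)
    have h3 := Real.cos_add_cos ((a + m : ℝ) * φ) ((a - m : ℝ) * φ)
    rw [h1, h2]
    have e1 : ((a + m + n : ℝ) * φ + (a + m - n : ℝ) * φ) / 2 = (a + m : ℝ) * φ := by ring
    have e2 : ((a + m + n : ℝ) * φ - (a + m - n : ℝ) * φ) / 2 = n * φ := by ring
    have e3 : ((a - m + n : ℝ) * φ + (a - m - n : ℝ) * φ) / 2 = (a - m : ℝ) * φ := by ring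
    have e4 : ((a - m + n : ℝ) * φ - (a - m - n : ℝ) * φ) / 2 = n * φ := by ring
    have e5 : ((a + m : ℝ) * φ + (a - m : ℝ) * φ) / 2 = a * φ := by ring
    have e6 : ((a + m : ℝ) * φ - (a - m : ℝ) * φ) / 2 = m * φ := by ring
    rw [e1, e2, e3, e4]
    rw [e5, e6] at h3
    linear_combination (-(1 / 2) * cos (n * φ)) * h3
  simp_rw [e]
  rw [integral_const_mul, integral_add, integral_add, integral_add, int_cos, int_cos, int_cos,
    int_cos]
  · unfold tcc; ring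
  · exact cos_integrable _
  · exact cos_integrable _
  · exact cos_integrable _
  · exact cos_integrable _
  · exact (cos_integrable _).add (cos_integrable _)
  · exact (cos_integrable _).add (cos_integrable _)

theorem int_cos_sin_sin (a m n : ℕ) :
    ∫ φ in Ioo (0:ℝ) π, cos (a * φ) * (sin (m * φ) * sin (n * φ)) = tss a m n := by
  have e : ∀ φ : ℝ, cos (a * φ) * (sin (m * φ) * sin (n * φ)) =
      1 / 4 * ((-cos (((a + m + n : ℤ) : ℝ) * φ) + cos (((a + m - n : ℤ) : ℝ) * φ)) +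
        (cos (((a - m + n : ℤ) : ℝ) * φ) + -cos (((a - m - n : ℤ) : ℝ) * φ))) := by
    intro φ
    push_cast
    have e1 : (a + m + n : ℝ) * φ = (a * φ + m * φ) + n * φ := by ring
    have e2 : (a + m - n : ℝ) * φ = (a * φ + m * φ) - n * φ := by ring
    have e3 : (a - m + n : ℝ) * φ = (a * φ - m * φ) + n * φ := by ring
    have e4 : (a - m - n : ℝ) * φ = (a * φ - m * φ) - n * φ := by ring
    rw [e1, e2, e3, e4]
    simp only [Real.cos_add, Real.cos_sub, Real.sin_add, Real.sin_sub]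
    ring
  simp_rw [e]
  rw [integral_const_mul, integral_add, integral_add, integral_add, integral_neg, integral_neg,
    int_cos, int_cos, int_cos, int_cos]
  · unfold tss; ring
  · exact cos_integrable _
  · exact (cos_integrable _).neg
  · exact (cos_integrable _).neg
  · exact cos_integrable _
  · exact (cos_integrable _).neg.add (cos_integrable _)
  · exact (cos_integrable _).add (cos_integrable _).neg

/-! The values. -/

theorem tcc_zero_self {m : ℕ} (hm : m ≠ 0) : tcc 0 m m = π / 2 := by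
  unfold tcc
  have h1 : ((0 : ℕ) : ℤ) + m + m ≠ 0 := by omega
  have h2 : ((0 : ℕ) : ℤ) + m - m = 0 := by omega
  have h3 : ((0 : ℕ) : ℤ) - m + m = 0 := by omega
  have h4 : ((0 : ℕ) : ℤ) - m - m ≠ 0 := by omega
  rw [dz_ne h1, h2, h3, dz_ne h4, dz_zero]; ring


theorem tss_zero_self {m : ℕ} (hm : m ≠ 0) : tss 0 m m = π / 2 := by
  unfold tss
  have h1 : ((0 : ℕ) : ℤ) + m + m ≠ 0 := by omega
  have h2 : ((0 : ℕ) : ℤ) + m - m = 0 := by omega
  have h3 : ((0 : ℕ) : ℤ) - m + m = 0 := by omega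
  have h4 : ((0 : ℕ) : ℤ) - m - m ≠ 0 := by omega
  rw [dz_ne h1, h2, h3, dz_ne h4, dz_zero]; ring

theorem tcc_zero_ne {m n : ℕ} (h : m ≠ n) : tcc 0 m n = 0 := by
  unfold tcc
  have h1 : ((0 : ℕ) : ℤ) + m + n ≠ 0 := by omega
  have h2 : ((0 : ℕ) : ℤ) + m - n ≠ 0 := by omega
  have h3 : ((0 : ℕ) : ℤ) - m + n ≠ 0 := by omega
  have h4 : ((0 : ℕ) : ℤ) - m - n ≠ 0 := by omega
  rw [dz_ne h1, dz_ne h2, dz_ne h3, dz_ne h4]; ring

theorem tss_zero_ne {m n : ℕ} (h : m ≠ n) : tss 0 m n = 0 := by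
  unfold tss
  have h1 : ((0 : ℕ) : ℤ) + m + n ≠ 0 := by omega
  have h2 : ((0 : ℕ) : ℤ) + m - n ≠ 0 := by omega
  have h3 : ((0 : ℕ) : ℤ) - m + n ≠ 0 := by omega
  have h4 : ((0 : ℕ) : ℤ) - m - n ≠ 0 := by omega
  rw [dz_ne h1, dz_ne h2, dz_ne h3, dz_ne h4]; ring











end Crest.Agent.R202.Clu
end

-- ▼ part R202/CluSlope
section

/-! Row 202, PART C4 (helper58): the slope identity (Hellmann–Feynman) for the spindle
eigenfunctions, on `(0,1)`:
`2 μ ∫ x^d R_j² / (1-x²) = (2 a_j + d + 1) ∫ x^d R_j²`. -/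

set_option autoImplicit false

namespace Crest.Agent.R202.Clu

open MeasureTheory Set Polynomial Filter Topology

theorem jQ_eval_sum (d q : ℕ) (μ : ℝ) (j : ℕ) (x : ℝ) :
    (jQ d q μ j).eval x = ∑ i ∈ Finset.range (j + 1), jc d q μ j i * x ^ (q + 2 * i) := by
  rw [jQ_eval]
  unfold jp
  rw [eval_finsetSum, Finset.mul_sum]
  refine Finset.sum_congr rfl fun i _ => ?_
  simp only [eval_mul, eval_C, eval_pow, eval_X]
  rw [pow_add, pow_mul]; ring

theorem x_mul_dQ_eval_sum (d q : ℕ) (μ : ℝ) (j : ℕ) (x : ℝ) :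
    x * (derivative (jQ d q μ j)).eval x =
      ∑ i ∈ Finset.range (j + 1), ((q : ℝ) + 2 * i) * (jc d q μ j i * x ^ (q + 2 * i)) := by
  have h1 := (jQ d q μ j).hasDerivAt x
  have h2 : HasDerivAt (fun x : ℝ => ∑ i ∈ Finset.range (j + 1), jc d q μ j i * x ^ (q + 2 * i))
      (∑ i ∈ Finset.range (j + 1),
        jc d q μ j i * (((q + 2 * i : ℕ) : ℝ) * x ^ (q + 2 * i - 1))) x := by
    apply HasDerivAt.fun_sum
    intro i _
    exact (hasDerivAt_pow (q + 2 * i) x).const_mul _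
  have h3 : (fun x : ℝ => ∑ i ∈ Finset.range (j + 1), jc d q μ j i * x ^ (q + 2 * i)) =
      fun x => (jQ d q μ j).eval x := by
    funext x; rw [jQ_eval_sum]
  rw [h3] at h2
  rw [h1.unique h2, Finset.mul_sum]
  refine Finset.sum_congr rfl fun i _ => ?_
  push_cast
  rcases Nat.eq_zero_or_pos (q + 2 * i) with h | h
  · have hq : q = 0 := by omega
    have hi : i = 0 := by omega
    subst hq; subst hi; simp
  · have : x ^ (q + 2 * i) = x * x ^ (q + 2 * i - 1) := by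
      rw [← pow_succ']; congr 1; omega
    rw [this]; ring


/-- even functions: `(lft d, 1)` against `(0,1)`. -/
theorem int_lft_even (d : ℕ) {f : ℝ → ℝ} (hf : Continuous f) (he : ∀ x, f (-x) = f x) :
    ∫ x in Ioo (lft d) 1, f x = (if d = 0 then 2 else 1) * ∫ x in Ioo (0:ℝ) 1, f x := by
  by_cases hd : d = 0
  · subst hd
    rw [lft_zero, if_pos rfl]
    rw [← integral_Ioc_eq_integral_Ioo, ← integral_Ioc_eq_integral_Ioo,
      ← intervalIntegral.integral_of_le (by norm_num), ← intervalIntegral.integral_of_le (by norm_num)]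
    rw [← intervalIntegral.integral_add_adjacent_intervals (b := 0)
      (hf.intervalIntegrable _ _) (hf.intervalIntegrable _ _)]
    have : ∫ x in (-1:ℝ)..0, f x = ∫ x in (0:ℝ)..1, f x := by
      have h := intervalIntegral.integral_comp_neg (a := 0) (b := 1) f
      simp only [neg_zero] at h
      rw [← h]
      exact intervalIntegral.integral_congr fun x _ => he x
    rw [this]; ring
  · rw [lft_pos hd, if_neg hd, one_mul]

/-- the weighted product of two polynomials. -/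
theorem jQ_even (d q : ℕ) (μ : ℝ) (i j : ℕ) (x : ℝ) :
    (jQ d q μ i).eval (-x) * (jQ d q μ j).eval (-x) =
      (jQ d q μ i).eval x * (jQ d q μ j).eval x := by
  rw [jQ_eval, jQ_eval, jQ_eval, jQ_eval, neg_sq]
  have : (-x) ^ q * (-x) ^ q = x ^ q * x ^ q := by
    rw [← mul_pow, ← mul_pow]; congr 1; ring
  linear_combination ((jp d q μ i).eval (x ^ 2) * (jp d q μ j).eval (x ^ 2)) * this

theorem cont_w (μ : ℝ) (hμ : 0 ≤ μ) : Continuous fun x : ℝ => (1 - x ^ 2) ^ μ :=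
  Continuous.rpow_const (by fun_prop) (fun _ => Or.inr hμ)

/-- orthogonality on `(0,1)`. -/
theorem ortho01 (d q : ℕ) {μ : ℝ} (hμ : 0 ≤ μ) {i j : ℕ} (hij : i ≠ j) :
    ∫ x in Ioo (0:ℝ) 1, x ^ d * ((1 - x ^ 2) ^ μ *
      ((jQ d q μ i).eval x * (jQ d q μ j).eval x)) = 0 := by
  have h := ortho d q hμ hij
  have e : ∫ x in Ioo (lft d) 1, x ^ d * (Rj d q μ i x * Rj d q μ j x) =
      ∫ x in Ioo (lft d) 1, x ^ d * ((1 - x ^ 2) ^ μ *
        ((jQ d q μ i).eval x * (jQ d q μ j).eval x)) := by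
    apply setIntegral_congr_fun measurableSet_Ioo
    intro x hx
    simp only
    rw [Rj_mul_Rj (d := d) d q d q i j hx]
  rw [e] at h
  by_cases hd : d = 0
  · subst hd
    rw [int_lft_even 0] at h
    · rw [if_pos rfl] at h
      linarith
    · apply Continuous.mul (by fun_prop)
      exact (cont_w μ hμ).mul ((jQ 0 q μ i).continuous.mul (jQ 0 q μ j).continuous)
    · intro x
      simp only [pow_zero, neg_sq, one_mul]
      rw [jQ_even]
  · rwa [lft_pos hd] at h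

theorem w_int {f : ℝ → ℝ} (hf : Continuous f) : IntegrableOn f (Ioo (0:ℝ) 1) :=
  (hf.continuousOn.integrableOn_Icc (a := 0) (b := 1)).mono_set Ioo_subset_Icc_self

/-- `R_j` is orthogonal to the lower monomials. -/
theorem ortho_mono (d q : ℕ) {μ : ℝ} (hμ : 0 ≤ μ) (j : ℕ) : ∀ i, i < j →
    ∫ x in Ioo (0:ℝ) 1, x ^ d * ((1 - x ^ 2) ^ μ *
      ((jQ d q μ j).eval x * x ^ (q + 2 * i))) = 0 := by
  intro i
  induction i using Nat.strong_induction_on with
  | _ i ih =>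
    intro hij
    have h := ortho01 d q hμ hij.ne
    have hne := jc_ne_zero d q hμ i i le_rfl
    have hc : ∀ k : ℕ, Continuous fun x : ℝ => x ^ d * ((1 - x ^ 2) ^ μ *
        ((jQ d q μ j).eval x * x ^ (q + 2 * k))) := fun k =>
      (continuous_pow d).mul ((cont_w μ hμ).mul ((jQ d q μ j).continuous.mul (continuous_pow _)))
    have e : ∀ x : ℝ, x ^ d * ((1 - x ^ 2) ^ μ *
        ((jQ d q μ i).eval x * (jQ d q μ j).eval x)) =
        ∑ k ∈ Finset.range (i + 1), jc d q μ i k * (x ^ d * ((1 - x ^ 2) ^ μ *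
          ((jQ d q μ j).eval x * x ^ (q + 2 * k)))) := by
      intro x
      rw [jQ_eval_sum d q μ i, Finset.sum_mul, Finset.mul_sum, Finset.mul_sum]
      refine Finset.sum_congr rfl fun k _ => ?_
      ring
    simp_rw [e] at h
    rw [integral_finsetSum _ (fun k _ => (w_int (hc k)).const_mul _), Finset.sum_range_succ] at h
    rw [Finset.sum_eq_zero, zero_add, integral_const_mul] at h
    · exact (mul_eq_zero.mp h).resolve_left hne
    · intro k hk
      have hk' := Finset.mem_range.mp hk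
      rw [integral_const_mul, ih k hk' (hk'.trans hij), mul_zero]

/-- the norm square on `(0,1)`. -/
noncomputable def nj1 (d q : ℕ) (μ : ℝ) (j : ℕ) : ℝ :=
  ∫ x in Ioo (0:ℝ) 1, x ^ d * Rj d q μ j x ^ 2

/-- the integral of `x^d R_j² / (1-x²)` on `(0,1)`. -/
noncomputable def sj1 (d q : ℕ) (μ : ℝ) (j : ℕ) : ℝ :=
  ∫ x in Ioo (0:ℝ) 1, x ^ d * (Rj d q μ j x ^ 2 / (1 - x ^ 2))

theorem nj1_eq (d q : ℕ) {μ : ℝ} (hμ : 0 ≤ μ) (j : ℕ) :
    nj d q μ j = (if d = 0 then 2 else 1) * nj1 d q μ j := by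
  unfold nj nj1
  by_cases hd : d = 0
  · subst hd
    apply int_lft_even 0
    · exact (continuous_pow 0).mul ((Rj_cont 0 q hμ j).pow 2)
    · intro x
      unfold Rj
      simp only [pow_zero, neg_sq, one_mul, mul_pow]
      rw [pow_two ((jQ 0 q μ j).eval (-x)), jQ_even]
      ring
  · rw [lft_pos hd, if_neg hd, one_mul]

theorem nj1_pos (d q : ℕ) {μ : ℝ} (hμ : 0 ≤ μ) (j : ℕ) : 0 < nj1 d q μ j := by
  have h1 := nj_pos d q hμ j
  rw [nj1_eq d q hμ j] at h1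
  by_cases hd : d = 0
  · rw [if_pos hd] at h1; linarith
  · rw [if_neg hd] at h1; linarith

theorem Rj_sq (d q : ℕ) {μ : ℝ} (j : ℕ) {x : ℝ} (hx : x ∈ Ioo (0:ℝ) 1) :
    Rj d q μ j x ^ 2 = (1 - x ^ 2) ^ μ * (jQ d q μ j).eval x ^ 2 := by
  have h : (0:ℝ) < 1 - x ^ 2 := by nlinarith [hx.1, hx.2]
  unfold Rj
  have : (1 - x ^ 2) ^ μ = (1 - x ^ 2) ^ (μ / 2) * (1 - x ^ 2) ^ (μ / 2) := by
    rw [← Real.rpow_add h]; congr 1; ring
  rw [this]; ring

/-- `(1-x²)^(μ-1)` is integrable on `(0,1)` for `μ > 0`. -/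
theorem w_sub_one_int {μ : ℝ} (hμ : 0 < μ) :
    IntegrableOn (fun x : ℝ => (1 - x ^ 2) ^ (μ - 1)) (Ioo 0 1) := by
  have h1 : IntervalIntegrable (fun x : ℝ => x ^ (μ - 1)) volume 0 1 :=
    intervalIntegral.intervalIntegrable_rpow' (by linarith)
  have h2 : IntervalIntegrable (fun x : ℝ => (1 - x) ^ (μ - 1)) volume 0 1 := by
    have := (h1.comp_sub_left 1).symm
    simpa using this
  have h3 : IntegrableOn (fun x : ℝ => (1 - x) ^ (μ - 1)) (Ioo 0 1) := by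
    rw [intervalIntegrable_iff_integrableOn_Ioo_of_le (by norm_num)] at h2
    exact h2
  have h4 : IntegrableOn (fun x : ℝ => (2 ^ (μ - 1) + 1) * (1 - x) ^ (μ - 1)) (Ioo 0 1) :=
    h3.const_mul _
  refine h4.mono' ?_ ?_
  · refine ContinuousOn.aestronglyMeasurable ?_ measurableSet_Ioo
    intro x hx
    have : (0:ℝ) < 1 - x ^ 2 := by nlinarith [hx.1, hx.2]
    apply ContinuousAt.continuousWithinAt
    exact ContinuousAt.rpow_const (by fun_prop) (Or.inl this.ne')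
  · filter_upwards [ae_restrict_mem measurableSet_Ioo] with x hx
    have h5 : (0:ℝ) < 1 - x := by linarith [hx.2]
    have h6 : (0:ℝ) < 1 + x := by linarith [hx.1]
    have e : (1 - x ^ 2 : ℝ) = (1 + x) * (1 - x) := by ring
    rw [Real.norm_of_nonneg (Real.rpow_nonneg (by nlinarith) _), e,
      Real.mul_rpow h6.le h5.le]
    apply mul_le_mul_of_nonneg_right _ (Real.rpow_nonneg h5.le _)
    rcases le_or_gt 0 (μ - 1) with h | h
    · have : (1 + x) ^ (μ - 1) ≤ 2 ^ (μ - 1) :=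
        Real.rpow_le_rpow h6.le (by linarith [hx.2]) h
      linarith
    · have : (1 + x) ^ (μ - 1) ≤ 1 := Real.rpow_le_one_of_one_le_of_nonpos (by linarith [hx.1]) h.le
      have h7 : (0:ℝ) ≤ 2 ^ (μ - 1) := Real.rpow_nonneg (by norm_num) _
      linarith

theorem w_sub_one_mul_int {μ : ℝ} (hμ : 0 < μ) {f : ℝ → ℝ} (hf : Continuous f) :
    IntegrableOn (fun x : ℝ => (1 - x ^ 2) ^ (μ - 1) * f x) (Ioo 0 1) := by
  obtain ⟨C, hC⟩ := (isCompact_Icc (a := (0:ℝ)) (b := 1)).exists_bound_of_continuousOn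
    hf.continuousOn
  refine Integrable.mul_bdd (c := C) (w_sub_one_int hμ) hf.aestronglyMeasurable ?_
  filter_upwards [ae_restrict_mem measurableSet_Ioo] with x hx
  exact hC x (Ioo_subset_Icc_self hx)

/-- **Slope identity** (Hellmann–Feynman). -/
theorem slope (d q : ℕ) {μ : ℝ} (hμ : 0 < μ) (j : ℕ) :
    2 * μ * sj1 d q μ j = (2 * aj q μ j + d + 1) * nj1 d q μ j := by
  set A := jQ d q μ j with hA
  have hcA : ∀ x, HasDerivAt (fun x : ℝ => A.eval x ^ 2)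
      (2 * A.eval x * (derivative A).eval x) x := by
    intro x
    have := (A.hasDerivAt x).fun_pow 2
    simpa using this
  -- the primitive
  have hcont : Continuous fun x : ℝ => (1 - x ^ 2) ^ μ * (x ^ (d + 1) * A.eval x ^ 2) :=
    (cont_w μ hμ.le).mul ((continuous_pow _).mul (A.continuous.pow 2))
  have hI1 : IntegrableOn (fun x : ℝ => (1 - x ^ 2) ^ (μ - 1) *
      (x ^ d * A.eval x ^ 2)) (Ioo 0 1) :=
    w_sub_one_mul_int hμ ((continuous_pow _).mul (A.continuous.pow 2))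
  have hI2 : IntegrableOn (fun x : ℝ => x ^ d * ((1 - x ^ 2) ^ μ * A.eval x ^ 2)) (Ioo 0 1) :=
    w_int ((continuous_pow _).mul ((cont_w μ hμ.le).mul (A.continuous.pow 2)))
  have hI3 : IntegrableOn (fun x : ℝ => x ^ d * ((1 - x ^ 2) ^ μ *
      (A.eval x * (x * (derivative A).eval x)))) (Ioo 0 1) :=
    w_int ((continuous_pow _).mul ((cont_w μ hμ.le).mul
      (A.continuous.mul (continuous_id.mul (derivative A).continuous))))
  have hder : ∀ x ∈ Ioo (0:ℝ) 1,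
      HasDerivAt (fun x : ℝ => (1 - x ^ 2) ^ μ * (x ^ (d + 1) * A.eval x ^ 2))
      ((2 * μ + d + 1) * (x ^ d * ((1 - x ^ 2) ^ μ * A.eval x ^ 2)) -
        2 * μ * ((1 - x ^ 2) ^ (μ - 1) * (x ^ d * A.eval x ^ 2)) +
        2 * (x ^ d * ((1 - x ^ 2) ^ μ * (A.eval x * (x * (derivative A).eval x))))) x := by
    intro x hx
    have hpos : (0:ℝ) < 1 - x ^ 2 := by nlinarith [hx.1, hx.2]
    have h1 : HasDerivAt (fun x : ℝ => 1 - x ^ 2) (-(2 * x)) x := by
      have := (hasDerivAt_pow 2 x).const_sub 1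
      simpa using this
    have h2 := h1.rpow_const (p := μ) (Or.inl hpos.ne')
    have h3 := h2.mul ((hasDerivAt_pow (d + 1) x).mul (hcA x))
    refine h3.congr_deriv ?_
    have e1 : (1 - x ^ 2) ^ μ = (1 - x ^ 2) ^ (μ - 1) * (1 - x ^ 2) := by
      rw [← Real.rpow_add_one hpos.ne']; congr 1; ring
    simp only [Pi.mul_apply]
    rw [Nat.add_sub_cancel, e1, pow_succ]
    push_cast
    ring
  have hint : IntegrableOn (fun x : ℝ =>
      (2 * μ + d + 1) * (x ^ d * ((1 - x ^ 2) ^ μ * A.eval x ^ 2)) -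
        2 * μ * ((1 - x ^ 2) ^ (μ - 1) * (x ^ d * A.eval x ^ 2)) +
        2 * (x ^ d * ((1 - x ^ 2) ^ μ * (A.eval x * (x * (derivative A).eval x))))) (Ioo 0 1) :=
    ((hI2.const_mul _).sub (hI1.const_mul _)).add (hI3.const_mul _)
  have hftc := intervalIntegral.integral_eq_sub_of_hasDerivAt_of_le (a := (0:ℝ)) (b := 1)
    (by norm_num) hcont.continuousOn hder
    ((intervalIntegrable_iff_integrableOn_Ioo_of_le (by norm_num)).mpr hint)
  have hsplit : ∫ x in Ioo (0:ℝ) 1, ((2 * μ + d + 1) * (x ^ d * ((1 - x ^ 2) ^ μ * A.eval x ^ 2)) -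
        2 * μ * ((1 - x ^ 2) ^ (μ - 1) * (x ^ d * A.eval x ^ 2)) +
        2 * (x ^ d * ((1 - x ^ 2) ^ μ * (A.eval x * (x * (derivative A).eval x))))) =
      (2 * μ + d + 1) * (∫ x in Ioo (0:ℝ) 1, x ^ d * ((1 - x ^ 2) ^ μ * A.eval x ^ 2)) -
        2 * μ * (∫ x in Ioo (0:ℝ) 1, (1 - x ^ 2) ^ (μ - 1) * (x ^ d * A.eval x ^ 2)) +
        2 * ∫ x in Ioo (0:ℝ) 1, x ^ d * ((1 - x ^ 2) ^ μ *
          (A.eval x * (x * (derivative A).eval x))) := by
    rw [← integral_const_mul, ← integral_const_mul, ← integral_const_mul,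
      ← integral_sub (hI2.const_mul _) (hI1.const_mul _)]
    exact integral_add ((hI2.const_mul _).sub (hI1.const_mul _)) (hI3.const_mul _)
  rw [intervalIntegral.integral_of_le (by norm_num), integral_Ioc_eq_integral_Ioo, hsplit] at hftc
  have z1 : (1 - (1 : ℝ) ^ 2) ^ μ = 0 := by
    rw [one_pow, sub_self]; exact Real.zero_rpow hμ.ne'
  have z2 : (0:ℝ) ^ (d + 1) = 0 := by simp
  rw [z1, z2] at hftc
  have hN : ∫ x in Ioo (0:ℝ) 1, x ^ d * ((1 - x ^ 2) ^ μ * A.eval x ^ 2) = nj1 d q μ j := by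
    unfold nj1
    apply setIntegral_congr_fun measurableSet_Ioo
    intro x hx
    simp only
    rw [Rj_sq d q j hx]
  have hS : ∫ x in Ioo (0:ℝ) 1, (1 - x ^ 2) ^ (μ - 1) * (x ^ d * A.eval x ^ 2) =
      sj1 d q μ j := by
    unfold sj1
    apply setIntegral_congr_fun measurableSet_Ioo
    intro x hx
    have hpos : (0:ℝ) < 1 - x ^ 2 := by nlinarith [hx.1, hx.2]
    have e1 : (1 - x ^ 2) ^ μ = (1 - x ^ 2) ^ (μ - 1) * (1 - x ^ 2) := by
      rw [← Real.rpow_add_one hpos.ne']; congr 1; ring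
    simp only
    rw [Rj_sq d q j hx, e1, ← hA]
    field_simp
  have hD : ∫ x in Ioo (0:ℝ) 1, x ^ d * ((1 - x ^ 2) ^ μ *
      (A.eval x * (x * (derivative A).eval x))) = ((q : ℝ) + 2 * j) * nj1 d q μ j := by
    have hc : ∀ k : ℕ, Continuous fun x : ℝ => x ^ d * ((1 - x ^ 2) ^ μ *
        ((jQ d q μ j).eval x * x ^ (q + 2 * k))) := fun k =>
      (continuous_pow d).mul ((cont_w μ hμ.le).mul ((jQ d q μ j).continuous.mul (continuous_pow _)))
    have e : ∀ x : ℝ, x ^ d * ((1 - x ^ 2) ^ μ * (A.eval x * (x * (derivative A).eval x))) =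
        ∑ k ∈ Finset.range (j + 1), (((q : ℝ) + 2 * k) * jc d q μ j k) *
          (x ^ d * ((1 - x ^ 2) ^ μ * ((jQ d q μ j).eval x * x ^ (q + 2 * k)))) := by
      intro x
      rw [hA, x_mul_dQ_eval_sum d q μ j, Finset.mul_sum, Finset.mul_sum, Finset.mul_sum]
      refine Finset.sum_congr rfl fun k _ => ?_
      ring
    have e' : ∀ x : ℝ, x ^ d * ((1 - x ^ 2) ^ μ * A.eval x ^ 2) =
        ∑ k ∈ Finset.range (j + 1), jc d q μ j k *
          (x ^ d * ((1 - x ^ 2) ^ μ * ((jQ d q μ j).eval x * x ^ (q + 2 * k)))) := by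
      intro x
      have : A.eval x ^ 2 = (jQ d q μ j).eval x *
        ∑ k ∈ Finset.range (j + 1), jc d q μ j k * x ^ (q + 2 * k) := by
        rw [← jQ_eval_sum, ← hA]; ring
      rw [this, Finset.mul_sum, Finset.mul_sum, Finset.mul_sum]
      refine Finset.sum_congr rfl fun k _ => ?_
      ring
    rw [← hN]
    simp_rw [e, e']
    rw [integral_finsetSum _ (fun k _ => (w_int (hc k)).const_mul _),
      integral_finsetSum _ (fun k _ => (w_int (hc k)).const_mul _),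
      Finset.sum_range_succ, Finset.sum_range_succ, Finset.sum_eq_zero, Finset.sum_eq_zero]
    · rw [zero_add, zero_add, integral_const_mul, integral_const_mul]; ring
    · intro k hk
      rw [integral_const_mul, ortho_mono d q hμ.le j k (Finset.mem_range.mp hk), mul_zero]
    · intro k hk
      rw [integral_const_mul, ortho_mono d q hμ.le j k (Finset.mem_range.mp hk), mul_zero]
  rw [hN, hS, hD] at hftc
  unfold aj
  linarith

end Crest.Agent.R202.Clu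
end

-- ▼ part R202/CluForm
section

/-! Row 202, PART C4 (helper58): the first variation of the cross-section form in `b` and in the
profile `P`, with explicit remainder, and its explicit values on pairs of pure modes. -/

set_option autoImplicit false

noncomputable section

namespace Crest.Agent.R202.Clu

open MeasureTheory Set Crest.Agent.R202.Mod

set_option linter.unusedSimpArgs false
set_option linter.unusedVariables false

/-- product integrals over the model measure. -/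
theorem integral_mu_prod (d : ℕ) (f g : ℝ → ℝ) :
    ∫ z, f z.1 * g z.2 ∂(Mod.mu d) =
      (∫ x in Ioo (0:ℝ) 1, x ^ d * f x) * ∫ φ in Ioo (0:ℝ) Real.pi, g φ := by
  unfold Mod.mu
  rw [integral_withDensity_eq_integral_toReal_smul (by fun_prop)
    (Filter.Eventually.of_forall fun z => ENNReal.ofReal_lt_top)]
  have : ∀ z ∈ Om, (ENNReal.ofReal (z.1 ^ d)).toReal • (f z.1 * g z.2) =
      (fun x => x ^ d * f x) z.1 * g z.2 := by
    intro z hz
    rw [ENNReal.toReal_ofReal (pow_nonneg hz.1.1.le d), smul_eq_mul]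
    ring
  rw [setIntegral_congr_fun measurableSet_Om this]
  unfold Om
  rw [Measure.volume_eq_prod, setIntegral_prod_mul (fun x : ℝ => x ^ d * f x) g]

theorem comp_single (d q par m : ℕ) (R : ℝ → ℝ) (i : Fin 4) (z : ℝ × ℝ) :
    comp d q par (Finsupp.single m R) i z = rcomp d q R i z.1 * acomp par m i z.2 := by
  rw [comp_eq, Finsupp.sum_single_index]
  rw [rcomp_zero, zero_mul]

/-- coefficients of the first variation in `P` at `(b1, 1)` in the direction `G`. -/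
def W1 (b1 : ℝ) (G : ℝ × ℝ → ℝ) : Fin 4 → ℝ × ℝ → ℝ := fun i z =>
  match i with
  | 0 => 0
  | 1 => G z
  | 2 => -(b1 ^ 2 * G z)
  | 3 => 0

/-- coefficients of `∫ u_φ v_φ / (1-x²)`. -/
def WS : Fin 4 → ℝ × ℝ → ℝ := fun i _ =>
  match i with
  | 2 => 1
  | _ => 0

theorem coef_WS (d : ℕ) : Coef d WS := by
  refine ⟨fun i => ?_, 1, fun i z _ => ?_⟩
  · fin_cases i <;> simp only [WS] <;> exact aestronglyMeasurable_const
  · fin_cases i <;> simp [WS]

theorem coef_W1 {d : ℕ} (b1 : ℝ) {G : ℝ × ℝ → ℝ} {γ : ℝ} (hG : AEStronglyMeasurable G (Mod.mu d))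
    (hb : ∀ z ∈ Om, |G z| ≤ γ) : Coef d (W1 b1 G) := by
  refine ⟨fun i => ?_, (1 + b1 ^ 2) * |γ|, fun i z hz => ?_⟩
  · fin_cases i <;> simp only [W1]
    · exact aestronglyMeasurable_const
    · exact hG
    · exact (hG.const_mul _).neg
    · exact aestronglyMeasurable_const
  · have h1 := (hb z hz).trans (le_abs_self γ)
    have h2 := abs_nonneg γ
    have h3 := sq_nonneg b1
    fin_cases i <;> simp only [W1, abs_zero, abs_neg]
    · positivity
    · nlinarith [abs_nonneg (G z)]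
    · rw [abs_mul, abs_of_nonneg h3]
      nlinarith [abs_nonneg (G z)]
    · positivity

/-- the pointwise expansion. -/
theorem pointwise {b b1 P τ G γ B κ K : ℝ} (hκ : 0 < κ) (hB : |b| ≤ B) (hB1 : |b1| ≤ B)
    (hP : κ ≤ P) (hPe : P = 1 + τ + G) (hτ : |τ| ≤ K) (hG : |G| ≤ γ) (hγK : γ ≤ K) :
    |b ^ 2 / P - b1 ^ 2 - (b - b1) * (2 * b1) - -(b1 ^ 2 * G)| ≤
      (1 + B ^ 2 + κ⁻¹ * (6 * B ^ 2 * (K + 1) + B)) * ((b - b1) ^ 2 + γ ^ 2 + |τ|) := by
  have hP0 : 0 < P := hκ.trans_le hP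
  have hB0 : 0 ≤ B := (abs_nonneg b).trans hB
  have hK0 : 0 ≤ K := (abs_nonneg τ).trans hτ
  have hγ0 : 0 ≤ γ := (abs_nonneg G).trans hG
  have key : b ^ 2 / P - b1 ^ 2 - (b - b1) * (2 * b1) - -(b1 ^ 2 * G) =
      (b - b1) ^ 2 - b1 ^ 2 * τ +
        P⁻¹ * (b1 ^ 2 * (τ + G) ^ 2 - (b ^ 2 - b1 ^ 2) * (τ + G)) := by
    have hPG : τ + G = P - 1 := by rw [hPe]; ring
    have hG' : G = P - 1 - τ := by rw [hPe]; ring
    rw [hPG, hG']
    field_simp
    ring
  rw [key]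
  have hb1 : b1 ^ 2 ≤ B ^ 2 := by
    rw [← sq_abs b1]; exact pow_le_pow_left₀ (abs_nonneg _) hB1 2
  have h1 : |b1 ^ 2 * τ| ≤ B ^ 2 * |τ| := by
    rw [abs_mul, abs_of_nonneg (sq_nonneg b1)]
    exact mul_le_mul_of_nonneg_right hb1 (abs_nonneg _)
  have hs : |τ + G| ≤ |τ| + γ := (abs_add_le _ _).trans (by linarith)
  have hs2 : (τ + G) ^ 2 ≤ 2 * (K * |τ|) + 2 * γ ^ 2 := by
    have e1 : (τ + G) ^ 2 = |τ + G| ^ 2 := (sq_abs _).symm
    rw [e1]
    have h3 : |τ + G| ^ 2 ≤ (|τ| + γ) ^ 2 := pow_le_pow_left₀ (abs_nonneg _) hs 2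
    have h4 : |τ| * |τ| ≤ K * |τ| := mul_le_mul_of_nonneg_right hτ (abs_nonneg _)
    nlinarith [sq_nonneg (|τ| - γ), abs_nonneg τ]
  have hd : |b ^ 2 - b1 ^ 2| ≤ 2 * B * |b - b1| := by
    have : b ^ 2 - b1 ^ 2 = (b - b1) * (b + b1) := by ring
    rw [this, abs_mul]
    have : |b + b1| ≤ 2 * B := (abs_add_le _ _).trans (by linarith)
    nlinarith [abs_nonneg (b - b1)]
  have hdb : |b - b1| ≤ 2 * B := by
    rw [sub_eq_add_neg]
    exact (abs_add_le _ _).trans (by rw [abs_neg]; linarith)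
  have h2 : |b1 ^ 2 * (τ + G) ^ 2 - (b ^ 2 - b1 ^ 2) * (τ + G)| ≤
      (6 * B ^ 2 * (K + 1) + B) * ((b - b1) ^ 2 + γ ^ 2 + |τ|) := by
    refine (abs_sub _ _).trans ?_
    rw [abs_mul, abs_mul, abs_of_nonneg (sq_nonneg b1), abs_of_nonneg (sq_nonneg (τ + G))]
    have h5 : b1 ^ 2 * (τ + G) ^ 2 ≤ B ^ 2 * (2 * (K * |τ|) + 2 * γ ^ 2) :=
      mul_le_mul hb1 hs2 (sq_nonneg _) (sq_nonneg _)
    have h6 : |b ^ 2 - b1 ^ 2| * |τ + G| ≤ 2 * B * |b - b1| * (|τ| + γ) :=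
      mul_le_mul hd hs (abs_nonneg _) (by positivity)
    have h7 : 2 * B * |b - b1| * |τ| ≤ 4 * B ^ 2 * |τ| := by
      have := mul_le_mul_of_nonneg_right hdb (abs_nonneg τ)
      nlinarith
    have h8 : 2 * B * |b - b1| * γ ≤ B * ((b - b1) ^ 2 + γ ^ 2) := by
      have : 2 * (|b - b1| * γ) ≤ |b - b1| ^ 2 + γ ^ 2 := by nlinarith [sq_nonneg (|b - b1| - γ)]
      rw [sq_abs] at this
      nlinarith
    have h9 : 0 ≤ B ^ 2 := sq_nonneg B
    have h10 := abs_nonneg τ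
    have h11 := sq_nonneg (b - b1)
    have h12 := sq_nonneg γ
    have h13 : 0 ≤ B ^ 2 * K := by positivity
    have e : (6 * B ^ 2 * (K + 1) + B) * ((b - b1) ^ 2 + γ ^ 2 + |τ|) =
        B ^ 2 * (2 * (K * |τ|) + 2 * γ ^ 2) + 4 * B ^ 2 * |τ| + B * ((b - b1) ^ 2 + γ ^ 2) +
        (4 * (B ^ 2 * K) * |τ| + 6 * (B ^ 2 * K) * ((b - b1) ^ 2 + γ ^ 2) +
          4 * B ^ 2 * γ ^ 2 + 6 * B ^ 2 * (b - b1) ^ 2 + 2 * B ^ 2 * |τ| + B * |τ|) := by ring
    have h14 : 0 ≤ 4 * (B ^ 2 * K) * |τ| + 6 * (B ^ 2 * K) * ((b - b1) ^ 2 + γ ^ 2) +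
          4 * B ^ 2 * γ ^ 2 + 6 * B ^ 2 * (b - b1) ^ 2 + 2 * B ^ 2 * |τ| + B * |τ| := by
      positivity
    rw [e]
    have e2 : 2 * B * |b - b1| * (|τ| + γ) = 2 * B * |b - b1| * |τ| + 2 * B * |b - b1| * γ := by
      ring
    linarith
  have h3 : |P⁻¹ * (b1 ^ 2 * (τ + G) ^ 2 - (b ^ 2 - b1 ^ 2) * (τ + G))| ≤
      κ⁻¹ * ((6 * B ^ 2 * (K + 1) + B) * ((b - b1) ^ 2 + γ ^ 2 + |τ|)) := by
    rw [abs_mul, abs_of_pos (inv_pos.mpr hP0)]
    exact mul_le_mul (inv_anti₀ hκ hP) h2 (abs_nonneg _) (by positivity)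
  have h4 : |(b - b1) ^ 2 - b1 ^ 2 * τ +
        P⁻¹ * (b1 ^ 2 * (τ + G) ^ 2 - (b ^ 2 - b1 ^ 2) * (τ + G))| ≤
      (b - b1) ^ 2 + B ^ 2 * |τ| + κ⁻¹ * ((6 * B ^ 2 * (K + 1) + B) *
        ((b - b1) ^ 2 + γ ^ 2 + |τ|)) := by
    refine (abs_add_le _ _).trans (add_le_add ((abs_sub _ _).trans ?_) h3)
    rw [abs_of_nonneg (sq_nonneg (b - b1))]
    linarith
  refine h4.trans ?_
  have h5 := sq_nonneg B
  have h10 := abs_nonneg τ
  have h11 := sq_nonneg (b - b1)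
  have h12 := sq_nonneg γ
  have e : (1 + B ^ 2 + κ⁻¹ * (6 * B ^ 2 * (K + 1) + B)) * ((b - b1) ^ 2 + γ ^ 2 + |τ|) =
      (b - b1) ^ 2 + B ^ 2 * |τ| + κ⁻¹ * ((6 * B ^ 2 * (K + 1) + B) *
        ((b - b1) ^ 2 + γ ^ 2 + |τ|)) + (γ ^ 2 + |τ| + B ^ 2 * ((b - b1) ^ 2 + γ ^ 2)) := by ring
  rw [e]
  have : 0 ≤ γ ^ 2 + |τ| + B ^ 2 * ((b - b1) ^ 2 + γ ^ 2) := by positivity
  linarith

theorem integral_comb {X : Type*} [MeasurableSpace X] {ν : Measure X} {f1 f2 f3 f4 : X → ℝ} (c : ℝ)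
    (h1 : Integrable f1 ν) (h2 : Integrable f2 ν) (h3 : Integrable f3 ν) (h4 : Integrable f4 ν) :
    ∫ z, (f1 z - f2 z - c * f3 z - f4 z) ∂ν =
      ∫ z, f1 z ∂ν - ∫ z, f2 z ∂ν - c * ∫ z, f3 z ∂ν - ∫ z, f4 z ∂ν := by
  have e1 : ∫ z, (f1 z - f2 z) ∂ν = ∫ z, f1 z ∂ν - ∫ z, f2 z ∂ν := integral_sub h1 h2
  have e2 : ∫ z, (f1 z - f2 z - c * f3 z) ∂ν = ∫ z, (f1 z - f2 z) ∂ν - ∫ z, c * f3 z ∂ν :=
    integral_sub (h1.sub h2) (h3.const_mul c)
  have e3 : ∫ z, (f1 z - f2 z - c * f3 z - f4 z) ∂ν =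
      ∫ z, (f1 z - f2 z - c * f3 z) ∂ν - ∫ z, f4 z ∂ν :=
    integral_sub ((h1.sub h2).sub (h3.const_mul c)) h4
  rw [e3, e2, e1, integral_const_mul]

/-- **(P4), general form**: first order expansion of `Q_{b,P}` at `(b1, 1)` on a fixed pair
`u, v` of the core space, `P = 1 + τ + G` with `τ` the tip and `G` the perturbation. -/
theorem expansion {q par : ℕ} (d : ℕ) (u v : VS q par) (B K : ℝ) :
    ∃ C : ℝ, 0 ≤ C ∧ ∀ (b b1 γ : ℝ) (P τ G : ℝ × ℝ → ℝ), |b| ≤ B → |b1| ≤ B → Adm d K P →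
      AEStronglyMeasurable τ (Mod.mu d) → AEStronglyMeasurable G (Mod.mu d) →
      (∀ z ∈ Om, P z = 1 + τ z + G z ∧ |τ z| ≤ K ∧ |G z| ≤ γ) → γ ≤ K →
      |fW d q par (WQ b P) u v - fW d q par (WQ b1 fun _ => 1) u v -
        (b - b1) * (2 * b1 * fW d q par WS u v) - fW d q par (W1 b1 G) u v| ≤
      C * ((b - b1) ^ 2 + γ ^ 2 + ∫ z, |τ z| ∂(Mod.mu d)) := by
  obtain ⟨A1, hA10, hA1⟩ := comp_bdd d u 1
  obtain ⟨A2, hA20, hA2⟩ := comp_bdd d u 2
  obtain ⟨B1, hB10, hB1⟩ := comp_bdd d v 1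
  obtain ⟨B2, hB20, hB2⟩ := comp_bdd d v 2
  set C0 := 1 + B ^ 2 + (K⁻¹)⁻¹ * (6 * B ^ 2 * (K + 1) + B) with hC0
  set m0 := (Mod.mu d).real univ with hm0
  have hm00 : 0 ≤ m0 := measureReal_nonneg
  refine ⟨(|C0| * (A2 * B2) * m0) + (A1 * B1 + |C0| * (A2 * B2)), by positivity, ?_⟩
  intro b b1 γ P τ G hb hb1 hAdm hτm hGm hz' hγK
  have hκ : 0 < K⁻¹ := inv_pos.mpr (one_pos.trans_le hAdm.K_ge)
  have hz : ∀ z ∈ Om, K⁻¹ ≤ P z ∧ P z = 1 + τ z + G z ∧ |τ z| ≤ K ∧ |G z| ≤ γ :=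
    fun z h => ⟨hAdm.low z h, hz' z h⟩
  have cQ : Coef d (WQ b P) := Mod.coef_WQ hAdm b
  have cQ1 : Coef d (WQ b1 fun _ => 1) := Mod.coef_WQ (adm_one d) b1
  have cS := coef_WS d
  have c1 : Coef d (W1 b1 G) := coef_W1 b1 hGm (fun z hz' => (hz z hz').2.2.2)
  have iQ := integrable_sum cQ u v
  have iQ1 := integrable_sum cQ1 u v
  have iS := integrable_sum cS u v
  have i1 := integrable_sum c1 u v
  have hτi : Integrable (fun z => |τ z|) (Mod.mu d) := by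
    refine Integrable.mono' (integrable_const K) hτm.norm ?_
    filter_upwards [ae_mem_Om d] with z hz'
    rw [Real.norm_eq_abs, abs_abs]
    exact (hz z hz').2.2.1
  have e : fW d q par (WQ b P) u v - fW d q par (WQ b1 fun _ => 1) u v -
        (b - b1) * (2 * b1 * fW d q par WS u v) - fW d q par (W1 b1 G) u v =
      ∫ z, (τ z * (comp d q par u 1 z * comp d q par v 1 z) +
        (b ^ 2 / P z - b1 ^ 2 - (b - b1) * (2 * b1) - -(b1 ^ 2 * G z)) *
          (comp d q par u 2 z * comp d q par v 2 z)) ∂(Mod.mu d) := by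
    have hc := integral_comb (ν := Mod.mu d) ((b - b1) * (2 * b1)) iQ iQ1 iS i1
    unfold fW
    rw [← mul_assoc (b - b1), ← hc]
    refine integral_congr_ae ?_
    filter_upwards [ae_mem_Om d] with z hz'
    have hP := (hz z hz').2.1
    simp only [Fin.sum_univ_four, WQ, W1, WS, Pi.one_apply, Pi.sub_apply]
    rw [hP]
    simp only [div_one]
    ring
  rw [e]
  have hbound : ∀ᵐ z ∂(Mod.mu d), ‖τ z * (comp d q par u 1 z * comp d q par v 1 z) +
        (b ^ 2 / P z - b1 ^ 2 - (b - b1) * (2 * b1) - -(b1 ^ 2 * G z)) *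
          (comp d q par u 2 z * comp d q par v 2 z)‖ ≤
      |C0| * (A2 * B2) * ((b - b1) ^ 2 + γ ^ 2) + (A1 * B1 + |C0| * (A2 * B2)) * |τ z| := by
    filter_upwards [ae_mem_Om d] with z hz'
    obtain ⟨h1, h2, h3, h4⟩ := hz z hz'
    have hp := pointwise hκ hb hb1 h1 h2 h3 h4 hγK
    have hγ0 : 0 ≤ γ := (abs_nonneg _).trans h4
    have hsum : 0 ≤ (b - b1) ^ 2 + γ ^ 2 + |τ z| := by positivity
    have hp' : |b ^ 2 / P z - b1 ^ 2 - (b - b1) * (2 * b1) - -(b1 ^ 2 * G z)| ≤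
        |C0| * ((b - b1) ^ 2 + γ ^ 2 + |τ z|) :=
      hp.trans (mul_le_mul_of_nonneg_right (le_abs_self _) hsum)
    rw [Real.norm_eq_abs]
    refine (abs_add_le _ _).trans ?_
    rw [abs_mul, abs_mul, abs_mul, abs_mul]
    have k1 : |comp d q par u 1 z| * |comp d q par v 1 z| ≤ A1 * B1 :=
      mul_le_mul (hA1 z hz') (hB1 z hz') (abs_nonneg _) hA10
    have k2 : |comp d q par u 2 z| * |comp d q par v 2 z| ≤ A2 * B2 :=
      mul_le_mul (hA2 z hz') (hB2 z hz') (abs_nonneg _) hA20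
    have k3 : |τ z| * (|comp d q par u 1 z| * |comp d q par v 1 z|) ≤ |τ z| * (A1 * B1) :=
      mul_le_mul_of_nonneg_left k1 (abs_nonneg _)
    have k4 : |b ^ 2 / P z - b1 ^ 2 - (b - b1) * (2 * b1) - -(b1 ^ 2 * G z)| *
        (|comp d q par u 2 z| * |comp d q par v 2 z|) ≤
        |C0| * ((b - b1) ^ 2 + γ ^ 2 + |τ z|) * (A2 * B2) :=
      mul_le_mul hp' k2 (by positivity) (by positivity)
    refine (add_le_add k3 k4).trans (le_of_eq ?_)
    ring
  have hint : Integrable (fun z => |C0| * (A2 * B2) * ((b - b1) ^ 2 + γ ^ 2) +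
      (A1 * B1 + |C0| * (A2 * B2)) * |τ z|) (Mod.mu d) :=
    (integrable_const _).add (hτi.const_mul _)
  have h := norm_integral_le_of_norm_le hint hbound
  rw [Real.norm_eq_abs] at h
  refine h.trans ?_
  rw [integral_add (integrable_const _) (hτi.const_mul _), integral_const, integral_const_mul,
    smul_eq_mul, ← hm0]
  have hT : 0 ≤ ∫ z, |τ z| ∂(Mod.mu d) := integral_nonneg fun z => abs_nonneg _
  have h5 : 0 ≤ (A1 * B1 + |C0| * (A2 * B2)) * ((b - b1) ^ 2 + γ ^ 2) := by positivity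
  have h6 : 0 ≤ |C0| * (A2 * B2) * m0 * ∫ z, |τ z| ∂(Mod.mu d) := by positivity
  nlinarith

end Crest.Agent.R202.Clu
end
private theorem rz_cf3ad56a86 : type_of% @_root_.Crest.Agent.R202.Clu.W1.eq_1 := @_root_.Crest.Agent.R202.Clu.W1.eq_1 -- L41
private theorem rz_01b6907acd : type_of% @_root_.Crest.Agent.R202.Clu.WS.eq_1 := @_root_.Crest.Agent.R202.Clu.WS.eq_1 -- L49
end

-- ▼ part R202/CluDefs

/-! Row 202, PART C4 (helper58): concrete definitions for the instantiation of the abstract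
spindle family (72's `SF.SpindleFamily`): test functions `TF`, perturbations `Gf`, profiles `prof`,
normalised eigenfunctions `psiN`, coupling functionals `cplA`, `cplB`, forms `aform`. -/

set_option autoImplicit false

open MeasureTheory Set
open scoped ContDiff
open Crest.Agent.R202.Mod Crest.Agent.R202.Lab

noncomputable section

namespace Crest.Agent.R202.Clu

/-- test functions on `[Xa, Xb]` -/
def TF (Xa Xb : ℝ) : Submodule ℝ (ℝ → ℝ) where
  carrier := {η | ContDiff ℝ ∞ η ∧ ∀ x, x ∉ Icc Xa Xb → η x = 0}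
  zero_mem' := ⟨contDiff_const, fun _ _ => rfl⟩
  add_mem' := fun {f g} hf hg => ⟨hf.1.add hg.1, fun x hx => by
    rw [Pi.add_apply, hf.2 x hx, hg.2 x hx, add_zero]⟩
  smul_mem' := fun c {f} hf => ⟨contDiff_const.smul hf.1, fun x hx => by
    rw [Pi.smul_apply, hf.2 x hx, smul_zero]⟩


theorem TF.continuous {Xa Xb : ℝ} (η : TF Xa Xb) : Continuous (η : ℝ → ℝ) := η.2.1.continuous

theorem TF.eq_zero {Xa Xb : ℝ} (η : TF Xa Xb) {x : ℝ} (hx : x ∉ Icc Xa Xb) :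
    (η : ℝ → ℝ) x = 0 := η.2.2 x hx

/-- the perturbation `∑ f, η_f(x) cos (f φ)` -/
def Gf {Xa Xb : ℝ} (G : ℕ →₀ TF Xa Xb) (z : ℝ × ℝ) : ℝ :=
  G.sum fun f η => (η : ℝ → ℝ) z.1 * Real.cos (f * z.2)

/-- the profile `1 + (b-1) h(x) + G(x,φ)` -/
def prof {Xa Xb : ℝ} (h : ℝ → ℝ) (b : ℝ) (G : ℕ →₀ TF Xa Xb) (z : ℝ × ℝ) : ℝ :=
  1 + (b - 1) * h z.1 + Gf G z

/-- norm square of the spindle function with label `p` (the same for both parities) -/
def nsq (d q : ℕ) (b : ℝ) (p : ℕ × ℕ) : ℝ :=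
  (if p.1 = 0 then Real.pi else Real.pi / 2) * nj1 d q (b * p.1) p.2

/-- normalised spindle function -/
def psiN (d q par : ℕ) (b : ℝ) (p : ℕ × ℕ) : VS q par :=
  (Real.sqrt (nsq d q b p))⁻¹ • Mod.psi d q par b p.1 p.2

open Classical in
/-- integration against the density `D` on `(0,1)` as a linear functional on `TF Xa Xb` (zero if
some of the integrals do not exist) -/
def intFun (Xa Xb : ℝ) (D : ℝ → ℝ) : TF Xa Xb →ₗ[ℝ] ℝ :=
  if h : ∀ η : TF Xa Xb, IntegrableOn (fun x => (η : ℝ → ℝ) x * D x) (Ioo 0 1) then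
    { toFun := fun η => ∫ x in Ioo (0:ℝ) 1, (η : ℝ → ℝ) x * D x
      map_add' := fun η ξ => by
        rw [← integral_add (h η) (h ξ)]
        congr 1; funext x
        simp only [Submodule.coe_add, Pi.add_apply]; ring
      map_smul' := fun c η => by
        rw [RingHom.id_apply, smul_eq_mul, ← integral_const_mul]
        congr 1; funext x
        simp only [Submodule.coe_smul, Pi.smul_apply, smul_eq_mul]; ring }
  else 0

theorem integrableOn_TF {Xa Xb : ℝ} (ha : 0 < Xa) (hb : Xb < 1) {D : ℝ → ℝ}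
    (hD : ContinuousOn D (Ioo 0 1)) (η : TF Xa Xb) :
    IntegrableOn (fun x => (η : ℝ → ℝ) x * D x) (Ioo 0 1) := by
  have hI : Icc Xa Xb ⊆ Ioo (0:ℝ) 1 := fun x hx => ⟨ha.trans_le hx.1, hx.2.trans_lt hb⟩
  have h1 : IntegrableOn (fun x => (η : ℝ → ℝ) x * D x) (Icc Xa Xb) :=
    (((TF.continuous η).continuousOn).mul (hD.mono hI)).integrableOn_compact isCompact_Icc
  refine (integrableOn_iff_integrable_of_support_subset (fun x hx => ?_)).1 h1 |>.integrableOn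
  by_contra hx'
  exact hx (by simp only [TF.eq_zero η hx', zero_mul])

theorem intFun_apply {Xa Xb : ℝ} (ha : 0 < Xa) (hb : Xb < 1) {D : ℝ → ℝ}
    (hD : ContinuousOn D (Ioo 0 1)) (η : TF Xa Xb) :
    intFun Xa Xb D η = ∫ x in Ioo (0:ℝ) 1, (η : ℝ → ℝ) x * D x := by
  unfold intFun
  rw [dif_pos (integrableOn_TF ha hb hD)]
  rfl

variable {Xa Xb : ℝ}

/-- coupling functional, difference type `f = |m - m'|` -/
def cplA (Xa Xb : ℝ) (d q : ℕ) (b : ℝ) (p p' : ℕ × ℕ) : TF Xa Xb →ₗ[ℝ] ℝ :=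
  ((Real.sqrt (nsq d q b p) * Real.sqrt (nsq d q b p'))⁻¹ * (Real.pi / 4)) •
    intFun Xa Xb (linkDen d q (b * p.1) p.2 (b * p'.1) p'.2)

/-- coupling functional, sum type `f = m + m'` -/
def cplB (Xa Xb : ℝ) (d q : ℕ) (b : ℝ) (p p' : ℕ × ℕ) : TF Xa Xb →ₗ[ℝ] ℝ :=
  ((Real.sqrt (nsq d q b p) * Real.sqrt (nsq d q b p'))⁻¹ * (Real.pi / 4)) •
    intFun Xa Xb (linkDenP d q (b * p.1) p.2 (b * p'.1) p'.2)

theorem linkDen_cont01 (d q : ℕ) (μ : ℝ) (j : ℕ) (μ' : ℝ) (j' : ℕ) :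
    ContinuousOn (linkDen d q μ j μ' j') (Ioo 0 1) :=
  (linkDen_continuousOn d q μ j μ' j').mono (Ioo_subset_Ioo (by norm_num) le_rfl)

theorem linkDenP_cont01 (d q : ℕ) (μ : ℝ) (j : ℕ) (μ' : ℝ) (j' : ℕ) :
    ContinuousOn (linkDenP d q μ j μ' j') (Ioo 0 1) :=
  (linkDenP_continuousOn d q μ j μ' j').mono (Ioo_subset_Ioo (by norm_num) le_rfl)

theorem cplA_apply (ha : 0 < Xa) (hb : Xb < 1) (d q : ℕ) (b : ℝ) (p p' : ℕ × ℕ)
    (η : TF Xa Xb) : cplA Xa Xb d q b p p' η =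
      (Real.sqrt (nsq d q b p) * Real.sqrt (nsq d q b p'))⁻¹ * (Real.pi / 4) *
        ∫ x in Ioo (0:ℝ) 1, (η : ℝ → ℝ) x * linkDen d q (b * p.1) p.2 (b * p'.1) p'.2 x := by
  unfold cplA
  rw [LinearMap.smul_apply, intFun_apply ha hb (linkDen_cont01 _ _ _ _ _ _), smul_eq_mul]

theorem cplB_apply (ha : 0 < Xa) (hb : Xb < 1) (d q : ℕ) (b : ℝ) (p p' : ℕ × ℕ)
    (η : TF Xa Xb) : cplB Xa Xb d q b p p' η =
      (Real.sqrt (nsq d q b p) * Real.sqrt (nsq d q b p'))⁻¹ * (Real.pi / 4) *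
        ∫ x in Ioo (0:ℝ) 1, (η : ℝ → ℝ) x * linkDenP d q (b * p.1) p.2 (b * p'.1) p'.2 x := by
  unfold cplB
  rw [LinearMap.smul_apply, intFun_apply ha hb (linkDenP_cont01 _ _ _ _ _ _), smul_eq_mul]

theorem linkDen_symm (d q : ℕ) (μ : ℝ) (j : ℕ) (μ' : ℝ) (j' : ℕ) :
    linkDen d q μ j μ' j' = linkDen d q μ' j' μ j := by
  funext x; unfold linkDen; ring

theorem linkDenP_symm (d q : ℕ) (μ : ℝ) (j : ℕ) (μ' : ℝ) (j' : ℕ) :
    linkDenP d q μ j μ' j' = linkDenP d q μ' j' μ j := by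
  funext x; unfold linkDenP; ring

/-- field `A_symm` -/
theorem cplA_symm (d q : ℕ) (b : ℝ) (p p' : ℕ × ℕ) (η : TF Xa Xb) :
    cplA Xa Xb d q b p p' η = cplA Xa Xb d q b p' p η := by
  unfold cplA
  rw [linkDen_symm, mul_comm (Real.sqrt (nsq d q b p))]

/-- field `B_symm` -/
theorem cplB_symm (d q : ℕ) (b : ℝ) (p p' : ℕ × ℕ) (η : TF Xa Xb) :
    cplB Xa Xb d q b p p' η = cplB Xa Xb d q b p' p η := by
  unfold cplB
  rw [linkDenP_symm, mul_comm (Real.sqrt (nsq d q b p))]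

/-- field `B_eq_A` -/
theorem cplB_eq_cplA (d q : ℕ) (b : ℝ) (p p' : ℕ × ℕ) (hp : p.1 = 0) (η : TF Xa Xb) :
    cplB Xa Xb d q b p p' η = cplA Xa Xb d q b p p' η := by
  unfold cplA cplB
  have : linkDenP d q (b * p.1) p.2 (b * p'.1) p'.2 = linkDen d q (b * p.1) p.2 (b * p'.1) p'.2 := by
    funext x; unfold linkDen linkDenP
    rw [hp]; simp
  rw [this]

theorem nsq_pos (d q : ℕ) {b : ℝ} (hb : 0 ≤ b) (p : ℕ × ℕ) : 0 < nsq d q b p := by
  unfold nsq
  have h1 := nj1_pos d q (μ := b * p.1) (by positivity) p.2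
  split_ifs <;> positivity

open Classical in
/-- the Dirichlet form of the sector `σ = (q, par)` at the datum `(b, P)` (zero if `P` is not
admissible) -/
def aform (d : ℕ) (σ : ℕ × ℕ) (b : ℝ) (P : ℝ × ℝ → ℝ) : LinearMap.BilinForm ℝ (VS σ.1 σ.2) :=
  if h : ∃ K : ℝ, Adm d K P then Q σ.1 σ.2 h.choose_spec b else 0

theorem aform_eq {d : ℕ} (σ : ℕ × ℕ) (b : ℝ) {P : ℝ × ℝ → ℝ} {K : ℝ} (hP : Adm d K P) :
    aform d σ b P = Q σ.1 σ.2 hP b := by
  unfold aform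
  rw [dif_pos ⟨K, hP⟩]
  rfl

theorem aform_apply {d : ℕ} (σ : ℕ × ℕ) (b : ℝ) {P : ℝ × ℝ → ℝ} {K : ℝ} (hP : Adm d K P)
    (u v : VS σ.1 σ.2) : aform d σ b P u v = fW d σ.1 σ.2 (WQ b P) u v := by
  rw [aform_eq σ b hP]; rfl

theorem aform_symm (d : ℕ) (σ : ℕ × ℕ) (b : ℝ) (P : ℝ × ℝ → ℝ) (u v : VS σ.1 σ.2) :
    aform d σ b P u v = aform d σ b P v u := by
  by_cases h : ∃ K : ℝ, Adm d K P
  · obtain ⟨K, hP⟩ := h
    rw [aform_apply σ b hP, aform_apply σ b hP, fW_symm]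
  · unfold aform
    rw [dif_neg h]; rfl

end Crest.Agent.R202.Clu
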