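import Crest.Agent.R202.SpinBasis

/-! Row 202, PART C1 (helper816): Parseval for the radial functions `R_j` in `L²(x^d dx)`. -/

set_option autoImplicit false

namespace Crest.Agent.R202

open MeasureTheory Set Polynomial Filter Topology



theorem jQ_natDegree (d q : ℕ) {μ : ℝ} (hμ : 0 ≤ μ) (j : ℕ) :
    (jQ d q μ j).natDegree = 2 * j + q := by
  unfold jQ
  rw [natDegree_mul (pow_ne_zero _ X_ne_zero), natDegree_X_pow, natDegree_comp,
    jp_natDegree d q hμ, natDegree_X_pow]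
  · ring
  · intro h
    apply jQ_ne_zero d q μ j
    unfold jQ
    rw [h, mul_zero]


theorem jp_degree (d q : ℕ) {μ : ℝ} (hμ : 0 ≤ μ) (j : ℕ) : (jp d q μ j).degree = (j : ℕ) := by
  have h0 : jp d q μ j ≠ 0 := by
    intro h
    have := jp_eval_zero d q μ j
    rw [h] at this
    simp at this
  rw [degree_eq_natDegree h0, jp_natDegree d q hμ j]


theorem jQ_eval_neg (d q : ℕ) (μ : ℝ) (j : ℕ) (x : ℝ) :
    (jQ d q μ j).eval (-x) = (-1) ^ q * (jQ d q μ j).eval x := by
  rw [jQ_eval, jQ_eval, neg_sq, neg_pow]; ring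

theorem Rj_neg (d q : ℕ) (μ : ℝ) (j : ℕ) (x : ℝ) :
    Rj d q μ j (-x) = (-1) ^ q * Rj d q μ j x := by
  unfold Rj
  rw [jQ_eval_neg, neg_sq]; ring


end Crest.Agent.R202
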