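import Mathlib
import Crest.Agent.R202.SpinParseval
import Crest.Agent.R202.Model2
import Crest.Agent.R202.Fou1
import Crest.Agent.R202.Model3
import Crest.Agent.R202.SpFam

-- ▼ part R202/Fou2
section

/-! Row 202, PART C1-2D (helper206): the radial basis on `(0,1)` (all `d`, including `d = 0`):
orthogonality, Parseval, bounds and the weak equation. -/

set_option autoImplicit false

namespace Crest.Agent.R202.Fou

open MeasureTheory Set Polynomial Filter Topology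
open Crest.Agent.R202

theorem osp {x : ℝ} (hx : x ∈ Ioo (0 : ℝ) 1) : 0 < 1 - x ^ 2 := by
  have h1 := hx.1
  have h2 := hx.2
  nlinarith

theorem mem_lft (d : ℕ) {x : ℝ} (hx : x ∈ Ioo (0 : ℝ) 1) : x ∈ Ioo (lft d) 1 := by
  refine ⟨lt_of_le_of_lt ?_ hx.1, hx.2⟩
  unfold lft
  split_ifs <;> norm_num

/-- the integral of an even function -/
theorem integral_even {f : ℝ → ℝ} (hf : Continuous f) (he : ∀ x, f (-x) = f x) :
    ∫ x in Ioo (-1 : ℝ) 1, f x = 2 * ∫ x in Ioo (0 : ℝ) 1, f x := by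
  have h1 : ∫ x in Ioo (-1 : ℝ) 1, f x = ∫ x in (-1 : ℝ)..1, f x := by
    rw [intervalIntegral.integral_of_le (by norm_num), integral_Ioc_eq_integral_Ioo]
  have h2 : ∫ x in Ioo (0 : ℝ) 1, f x = ∫ x in (0 : ℝ)..1, f x := by
    rw [intervalIntegral.integral_of_le (by norm_num), integral_Ioc_eq_integral_Ioo]
  have h3 : ∫ x in (-1 : ℝ)..0, f x = ∫ x in (0 : ℝ)..1, f x := by
    have := intervalIntegral.integral_comp_neg (a := (-1 : ℝ)) (b := 0) f
    simp only [he, neg_zero, neg_neg] at this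
    exact this
  rw [h1, h2, ← intervalIntegral.integral_add_adjacent_intervals (b := 0)
    (hf.intervalIntegrable _ _) (hf.intervalIntegrable _ _), h3]
  ring

/-- square of the norm of `R_j` in `L²((0,1), x^d dx)` -/
noncomputable def nh (d q : ℕ) (μ : ℝ) (j : ℕ) : ℝ :=
  ∫ x in Ioo (0 : ℝ) 1, x ^ d * Rj d q μ j x ^ 2

theorem nh_eq_nj_zero (q : ℕ) {μ : ℝ} (hμ : 0 ≤ μ) (j : ℕ) : nj 0 q μ j = 2 * nh 0 q μ j := by
  unfold nj nh
  rw [lft_zero]
  apply integral_even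
  · exact (continuous_pow 0).mul ((Rj_cont 0 q hμ j).pow 2)
  · intro x
    rw [Rj_neg]
    simp only [pow_zero, one_mul, mul_pow, ← pow_mul]
    rw [mul_comm q 2, pow_mul, neg_one_sq, one_pow, one_mul]

theorem nh_pos (d q : ℕ) {μ : ℝ} (hμ : 0 ≤ μ) (j : ℕ) : 0 < nh d q μ j := by
  by_cases hd : d = 0
  · subst hd
    have := nj_pos 0 q hμ j
    rw [nh_eq_nj_zero q hμ j] at this
    linarith
  · have := nj_pos d q hμ j
    unfold nj at this
    rw [lft_pos hd] at this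
    exact this

theorem orthh (d q : ℕ) {μ : ℝ} (hμ : 0 ≤ μ) {i j : ℕ} (hij : i ≠ j) :
    ∫ x in Ioo (0 : ℝ) 1, x ^ d * (Rj d q μ i x * Rj d q μ j x) = 0 := by
  have h := ortho d q hμ hij
  by_cases hd : d = 0
  · subst hd
    rw [lft_zero, integral_even] at h
    · linarith
    · exact (continuous_pow 0).mul ((Rj_cont 0 q hμ i).mul (Rj_cont 0 q hμ j))
    · intro x
      rw [Rj_neg, Rj_neg]
      have : ((-1 : ℝ)) ^ q * (-1) ^ q = 1 := by rw [← pow_add, ← two_mul, pow_mul]; simp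
      linear_combination ((-x) ^ 0 * (Rj 0 q μ i x * Rj 0 q μ j x)) * this
  · rw [lft_pos hd] at h
    exact h

/-- **Parseval for the radial basis on `(0,1)`** -/
theorem parsevalh (d q : ℕ) {μ : ℝ} (hμ : 0 ≤ μ) {S T : ℝ → ℝ}
    (hS : MemLp (fun x => Real.sqrt (x ^ d) * S x) 2 (volume.restrict (Ioo (0 : ℝ) 1)))
    (hT : MemLp (fun x => Real.sqrt (x ^ d) * T x) 2 (volume.restrict (Ioo (0 : ℝ) 1))) :
    HasSum (fun j => (∫ x in Ioo (0 : ℝ) 1, x ^ d * (S x * Rj d q μ j x)) *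
        (∫ x in Ioo (0 : ℝ) 1, x ^ d * (T x * Rj d q μ j x)) / nh d q μ j)
      (∫ x in Ioo (0 : ℝ) 1, x ^ d * (S x * T x)) := by
  have hsq : ∀ x ∈ Ioo (0 : ℝ) 1, Real.sqrt (x ^ d) * Real.sqrt (x ^ d) = x ^ d :=
    fun x hx => Real.mul_self_sqrt (pow_nonneg hx.1.le _)
  have hx0 : ∀ x ∈ Ioo (0 : ℝ) 1, 0 < x := fun x hx => hx.1
  have hcq : Continuous fun x : ℝ => Real.sqrt (x ^ d) := (continuous_pow d).sqrt
  have hcw : Continuous fun x : ℝ => (1 - x ^ 2) ^ (μ / 2) :=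
    Continuous.rpow_const (by fun_prop) (fun x => Or.inr (by linarith))
  have main := parseval_system (a := 0) (b := 1)
    (om := fun x : ℝ => Real.sqrt (x ^ d) * (x ^ q * (1 - x ^ 2) ^ (μ / 2)))
    (s := fun x => x ^ 2) (σ := Real.sqrt) (continuous_pow 2) Real.continuous_sqrt
    (fun x hx => Real.sqrt_sq (hx0 x hx).le)
    ((hcq.mul ((continuous_pow q).mul hcw)).aestronglyMeasurable) (C := 1)
    (by
      intro x hx
      have h := osp hx
      have hx' := hx0 x hx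
      have hx1 := hx.2
      have a1 : Real.sqrt (x ^ d) ≤ 1 := by
        rw [Real.sqrt_le_left (by norm_num), one_pow]
        exact pow_le_one₀ hx'.le hx1.le
      have a2 : x ^ q ≤ 1 := pow_le_one₀ hx'.le hx1.le
      have a3 : (1 - x ^ 2) ^ (μ / 2) ≤ 1 :=
        Real.rpow_le_one h.le (by nlinarith [sq_nonneg x]) (by linarith)
      have a4 := Real.rpow_nonneg h.le (μ / 2)
      rw [abs_of_nonneg (by positivity)]
      exact mul_le_one₀ a1 (by positivity) (mul_le_one₀ a2 a4 a3))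
    (by
      intro x hx
      have h1 := hx0 x hx
      have h2 : (0 : ℝ) < (1 - x ^ 2) ^ (μ / 2) := Real.rpow_pos_of_pos (osp hx) _
      have h3 : 0 < Real.sqrt (x ^ d) := Real.sqrt_pos.mpr (by positivity)
      positivity)
    (p := fun j => jp d q μ j) (fun j => jp_degree d q hμ j)
    (F := fun j x => Real.sqrt (x ^ d) * Rj d q μ j x)
    (by
      intro j x _
      unfold Rj
      rw [jQ_eval]; ring)
    (by
      intro j
      have := nh_pos d q hμ j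
      unfold nh at this
      refine this.trans_eq ?_
      apply setIntegral_congr_fun measurableSet_Ioo
      intro x hx
      simp only
      linear_combination (-(Rj d q μ j x ^ 2)) * hsq x hx)
    (by
      intro i j hij
      refine Eq.trans ?_ (orthh d q hμ hij)
      apply setIntegral_congr_fun measurableSet_Ioo
      intro x hx
      simp only
      linear_combination (Rj d q μ i x * Rj d q μ j x) * hsq x hx)
    hS hT
  convert main using 1
  · funext j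
    have e1 : ∀ U : ℝ → ℝ, (∫ x in Ioo (0 : ℝ) 1, x ^ d * (U x * Rj d q μ j x)) =
        ∫ x in Ioo (0 : ℝ) 1,
        Real.sqrt (x ^ d) * U x * (Real.sqrt (x ^ d) * Rj d q μ j x) := by
      intro U
      apply setIntegral_congr_fun measurableSet_Ioo
      intro x hx
      simp only
      linear_combination (-(U x * Rj d q μ j x)) * hsq x hx
    have e2 : nh d q μ j = ∫ x in Ioo (0 : ℝ) 1, (Real.sqrt (x ^ d) * Rj d q μ j x) ^ 2 := by
      apply setIntegral_congr_fun measurableSet_Ioo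
      intro x hx
      simp only
      linear_combination (-(Rj d q μ j x ^ 2)) * hsq x hx
    rw [e1 S, e1 T, e2]
  · apply setIntegral_congr_fun measurableSet_Ioo
    intro x hx
    simp only
    linear_combination (-(S x * T x)) * hsq x hx

/-! ### bounds -/

theorem poly_bound (P : ℝ[X]) : ∃ C : ℝ, 0 ≤ C ∧ ∀ x ∈ Ioo (0 : ℝ) 1, |P.eval x| ≤ C := by
  obtain ⟨C, hC⟩ := (isCompact_Icc (a := (0 : ℝ)) (b := 1)).exists_bound_of_continuousOn
    P.continuous.continuousOn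
  refine ⟨max C 0, le_max_right _ _, fun x hx => ?_⟩
  exact (hC x (Ioo_subset_Icc_self hx)).trans (le_max_left _ _)

/-- pointwise bounds of the radial functions, `μ = 0` or `μ ≥ 1` -/
theorem Rj_bounds (d q : ℕ) {μ : ℝ} (hμ : μ = 0 ∨ 1 ≤ μ) (j : ℕ) :
    ∃ C : ℝ, 0 ≤ C ∧ ∀ x ∈ Ioo (0 : ℝ) 1,
      |Rj d q μ j x| ≤ C * x ^ q * (1 - x ^ 2) ^ (μ / 2) ∧
      |dRj d q μ j x| * Real.sqrt (1 - x ^ 2) ≤ C := by
  obtain ⟨C1, hC1, h1⟩ := poly_bound ((jp d q μ j).comp (X ^ 2))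
  obtain ⟨C2, hC2, h2⟩ := poly_bound (derivative (jQ d q μ j))
  obtain ⟨C3, hC3, h3⟩ := poly_bound (jQ d q μ j)
  have hμ0 : 0 ≤ μ := by rcases hμ with h | h <;> linarith
  refine ⟨C1 + C2 + μ * C3, by positivity, fun x hx => ⟨?_, ?_⟩⟩
  · have hr : 0 ≤ (1 - x ^ 2) ^ (μ / 2) := Real.rpow_nonneg (osp hx).le _
    have hxq : 0 ≤ x ^ q := pow_nonneg hx.1.le _
    unfold Rj
    rw [jQ_eval, abs_mul, abs_mul, abs_of_nonneg hr, abs_of_nonneg hxq]
    have := h1 x hx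
    simp only [eval_comp, eval_pow, eval_X] at this
    have h4 : |eval (x ^ 2) (jp d q μ j)| ≤ C1 + C2 + μ * C3 := by
      have : 0 ≤ μ * C3 := by positivity
      linarith
    calc (1 - x ^ 2) ^ (μ / 2) * (x ^ q * |eval (x ^ 2) (jp d q μ j)|)
        ≤ (1 - x ^ 2) ^ (μ / 2) * (x ^ q * (C1 + C2 + μ * C3)) := by gcongr
      _ = _ := by ring
  · have hp := osp hx
    have hs : 0 < Real.sqrt (1 - x ^ 2) := Real.sqrt_pos.2 hp
    have hs2 : Real.sqrt (1 - x ^ 2) * Real.sqrt (1 - x ^ 2) = 1 - x ^ 2 :=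
      Real.mul_self_sqrt hp.le
    have hs1 : Real.sqrt (1 - x ^ 2) ≤ 1 := by
      rw [Real.sqrt_le_left (by norm_num)]; nlinarith [sq_nonneg x]
    have hw1 : (1 - x ^ 2) ^ (μ / 2) ≤ 1 :=
      Real.rpow_le_one hp.le (by nlinarith [sq_nonneg x]) (by linarith)
    have hw0 : 0 ≤ (1 - x ^ 2) ^ (μ / 2) := Real.rpow_nonneg hp.le _
    -- `μ ρ^μ ≤ μ ρ`
    have hw2 : μ * (1 - x ^ 2) ^ (μ / 2) ≤ μ * Real.sqrt (1 - x ^ 2) := by
      rcases hμ with h | h
      · rw [h]; simp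
      · apply mul_le_mul_of_nonneg_left _ hμ0
        rw [Real.sqrt_eq_rpow]
        exact Real.rpow_le_rpow_of_exponent_ge hp (by nlinarith [sq_nonneg x]) (by linarith)
    have h2' := h2 x hx
    have h3' := h3 x hx
    have e : |dRj d q μ j x| * Real.sqrt (1 - x ^ 2) ≤
        ((1 - x ^ 2) ^ (μ / 2) * |(derivative (jQ d q μ j)).eval x|) * Real.sqrt (1 - x ^ 2) +
        (μ * (1 - x ^ 2) ^ (μ / 2)) * x * |(jQ d q μ j).eval x| / Real.sqrt (1 - x ^ 2) := by
      unfold dRj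
      rw [abs_mul, abs_of_nonneg hw0]
      have t : |(derivative (jQ d q μ j)).eval x - μ * x / (1 - x ^ 2) * (jQ d q μ j).eval x| ≤
          |(derivative (jQ d q μ j)).eval x| + μ * x / (1 - x ^ 2) * |(jQ d q μ j).eval x| := by
        refine (abs_sub _ _).trans ?_
        rw [abs_mul, abs_of_nonneg (div_nonneg (mul_nonneg hμ0 hx.1.le) hp.le)]
      calc _ ≤ (1 - x ^ 2) ^ (μ / 2) * (|(derivative (jQ d q μ j)).eval x| +
            μ * x / (1 - x ^ 2) * |(jQ d q μ j).eval x|) * Real.sqrt (1 - x ^ 2) := by gcongr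
        _ = _ := by
          rw [mul_add, add_mul]
          congr 1
          have hh : Real.sqrt (1 - x ^ 2) / (1 - x ^ 2) = 1 / Real.sqrt (1 - x ^ 2) := by
            rw [div_eq_div_iff hp.ne' hs.ne', hs2]; ring
          have : (1 - x ^ 2) ^ (μ / 2) * (μ * x / (1 - x ^ 2) * |(jQ d q μ j).eval x|) *
              Real.sqrt (1 - x ^ 2) = (1 - x ^ 2) ^ (μ / 2) * (μ * x * |(jQ d q μ j).eval x|) *
              (Real.sqrt (1 - x ^ 2) / (1 - x ^ 2)) := by field_simp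
          rw [this, hh]
          field_simp
    refine e.trans ?_
    have t1 : ((1 - x ^ 2) ^ (μ / 2) * |(derivative (jQ d q μ j)).eval x|) *
        Real.sqrt (1 - x ^ 2) ≤ (1 * C2) * 1 := by gcongr
    have t2 : (μ * (1 - x ^ 2) ^ (μ / 2)) * x * |(jQ d q μ j).eval x| / Real.sqrt (1 - x ^ 2) ≤
        μ * C3 := by
      rw [div_le_iff₀ hs]
      have hx1 := hx.2.le
      have hx00 := hx.1.le
      calc (μ * (1 - x ^ 2) ^ (μ / 2)) * x * |(jQ d q μ j).eval x|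
          ≤ (μ * Real.sqrt (1 - x ^ 2)) * 1 * C3 := by gcongr
        _ = _ := by ring
    linarith

end Crest.Agent.R202.Fou
end

-- ▼ part R202/Fou3
section

/-! Row 202, PART C1-2D (helper206): the radial energy on `(0,1)`: weak equation and the
lower bound on the complement of the first eigenfunctions. -/

set_option autoImplicit false

namespace Crest.Agent.R202.Fou

open MeasureTheory Set Polynomial Filter Topology
open Crest.Agent.R202

/-- admissible radial profiles on `(0,1)` (with their derivative) -/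
structure Cls (q : ℕ) (μ : ℝ) (C : ℝ) (S S' : ℝ → ℝ) : Prop where
  hd : ∀ x ∈ Ioo (0 : ℝ) 1, HasDerivAt S (S' x) x
  cont : ContinuousOn S' (Ioo (0 : ℝ) 1)
  b0 : ∀ x ∈ Ioo (0 : ℝ) 1, |S x| ≤ C
  b1 : ∀ x ∈ Ioo (0 : ℝ) 1, |S' x| * Real.sqrt (1 - x ^ 2) ≤ C
  bq : 1 ≤ q → ∀ x ∈ Ioo (0 : ℝ) 1, |S x| ≤ C * x
  bp : μ ≠ 0 → ∀ x ∈ Ioo (0 : ℝ) 1, |S x| ≤ C * Real.sqrt (1 - x ^ 2)

namespace Cls

variable {q : ℕ} {μ C D : ℝ} {S S' T T' : ℝ → ℝ}

theorem nonneg (h : Cls q μ C S S') : 0 ≤ C :=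
  (abs_nonneg _).trans (h.b0 (1 / 2) (by constructor <;> norm_num))

theorem contS (h : Cls q μ C S S') : ContinuousOn S (Ioo (0 : ℝ) 1) :=
  fun x hx => (h.hd x hx).continuousAt.continuousWithinAt

theorem mono (h : Cls q μ C S S') (hCD : C ≤ D) : Cls q μ D S S' where
  hd := h.hd
  cont := h.cont
  b0 x hx := (h.b0 x hx).trans hCD
  b1 x hx := (h.b1 x hx).trans hCD
  bq hq x hx := (h.bq hq x hx).trans (mul_le_mul_of_nonneg_right hCD hx.1.le)
  bp hp x hx := (h.bp hp x hx).trans (mul_le_mul_of_nonneg_right hCD (Real.sqrt_nonneg _))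

theorem zero : Cls q μ 0 (fun _ => 0) (fun _ => 0) where
  hd x _ := hasDerivAt_const x 0
  cont := continuousOn_const
  b0 x _ := by simp
  b1 x _ := by simp
  bq _ x _ := by simp
  bp _ x _ := by simp

theorem add (h : Cls q μ C S S') (k : Cls q μ D T T') :
    Cls q μ (C + D) (fun x => S x + T x) (fun x => S' x + T' x) where
  hd x hx := (h.hd x hx).add (k.hd x hx)
  cont := h.cont.add k.cont
  b0 x hx := (abs_add_le _ _).trans (add_le_add (h.b0 x hx) (k.b0 x hx))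
  b1 x hx := by
    have h1 := h.b1 x hx
    have h2 := k.b1 x hx
    have h3 := abs_add_le (S' x) (T' x)
    have h4 := Real.sqrt_nonneg (1 - x ^ 2)
    nlinarith
  bq hq x hx := by
    have h1 := h.bq hq x hx
    have h2 := k.bq hq x hx
    have h3 := abs_add_le (S x) (T x)
    linarith
  bp hp x hx := by
    have h1 := h.bp hp x hx
    have h2 := k.bp hp x hx
    have h3 := abs_add_le (S x) (T x)
    linarith

theorem smul (h : Cls q μ C S S') (c : ℝ) :
    Cls q μ (|c| * C) (fun x => c * S x) (fun x => c * S' x) where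
  hd x hx := (h.hd x hx).const_mul c
  cont := continuousOn_const.mul h.cont
  b0 x hx := by
    rw [abs_mul]; exact mul_le_mul_of_nonneg_left (h.b0 x hx) (abs_nonneg _)
  b1 x hx := by
    rw [abs_mul, mul_assoc]; exact mul_le_mul_of_nonneg_left (h.b1 x hx) (abs_nonneg _)
  bq hq x hx := by
    rw [abs_mul, mul_assoc]; exact mul_le_mul_of_nonneg_left (h.bq hq x hx) (abs_nonneg _)
  bp hp x hx := by
    rw [abs_mul, mul_assoc]; exact mul_le_mul_of_nonneg_left (h.bp hp x hx) (abs_nonneg _)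

end Cls

/-- the radial functions are admissible -/
theorem Rj_cls (d q : ℕ) {μ : ℝ} (hμ : μ = 0 ∨ 1 ≤ μ) (j : ℕ) :
    ∃ C : ℝ, Cls q μ C (Rj d q μ j) (dRj d q μ j) := by
  obtain ⟨C, hC, h⟩ := Rj_bounds d q hμ j
  have hμ0 : 0 ≤ μ := by rcases hμ with h | h <;> linarith
  refine ⟨C, ⟨fun x hx => Rj_hasDerivAt d q μ j (osp hx), ?_, ?_, fun x hx => (h x hx).2, ?_, ?_⟩⟩
  · unfold dRj
    apply ContinuousOn.mul
    · exact (Continuous.rpow_const (by fun_prop) (fun x => Or.inr (by linarith))).continuousOn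
    · apply ContinuousOn.sub (derivative (jQ d q μ j)).continuous.continuousOn
      apply ContinuousOn.mul _ (jQ d q μ j).continuous.continuousOn
      apply ContinuousOn.div (by fun_prop) (by fun_prop)
      intro x hx
      exact (osp hx).ne'
  · intro x hx
    refine (h x hx).1.trans ?_
    have h1 : x ^ q ≤ 1 := pow_le_one₀ hx.1.le hx.2.le
    have h2 : (1 - x ^ 2) ^ (μ / 2) ≤ 1 :=
      Real.rpow_le_one (osp hx).le (by nlinarith [sq_nonneg x]) (by linarith)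
    have h3 : 0 ≤ (1 - x ^ 2) ^ (μ / 2) := Real.rpow_nonneg (osp hx).le _
    have h4 : 0 ≤ x ^ q := pow_nonneg hx.1.le _
    calc C * x ^ q * (1 - x ^ 2) ^ (μ / 2) ≤ C * 1 * 1 := by gcongr
      _ = C := by ring
  · intro hq x hx
    refine (h x hx).1.trans ?_
    have h1 : x ^ q ≤ x := by
      calc x ^ q ≤ x ^ 1 := pow_le_pow_of_le_one hx.1.le hx.2.le hq
        _ = x := pow_one x
    have h2 : (1 - x ^ 2) ^ (μ / 2) ≤ 1 :=
      Real.rpow_le_one (osp hx).le (by nlinarith [sq_nonneg x]) (by linarith)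
    have h3 : 0 ≤ (1 - x ^ 2) ^ (μ / 2) := Real.rpow_nonneg (osp hx).le _
    have hx0 := hx.1.le
    calc C * x ^ q * (1 - x ^ 2) ^ (μ / 2) ≤ C * x * 1 := by gcongr
      _ = C * x := by ring
  · intro hp x hx
    refine (h x hx).1.trans ?_
    have hμ1 : 1 ≤ μ := by rcases hμ with h | h; exact absurd h hp; exact h
    have h1 : x ^ q ≤ 1 := pow_le_one₀ hx.1.le hx.2.le
    have h2 : (1 - x ^ 2) ^ (μ / 2) ≤ Real.sqrt (1 - x ^ 2) := by
      rw [Real.sqrt_eq_rpow]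
      exact Real.rpow_le_rpow_of_exponent_ge (osp hx) (by nlinarith [sq_nonneg x]) (by linarith)
    have h3 : 0 ≤ (1 - x ^ 2) ^ (μ / 2) := Real.rpow_nonneg (osp hx).le _
    have h4 : 0 ≤ x ^ q := pow_nonneg hx.1.le _
    calc C * x ^ q * (1 - x ^ 2) ^ (μ / 2) ≤ C * 1 * Real.sqrt (1 - x ^ 2) := by gcongr
      _ = _ := by ring

/-- energy density -/
noncomputable def den (d q : ℕ) (μ : ℝ) (S S' T T' : ℝ → ℝ) (x : ℝ) : ℝ :=
  x ^ d * ((1 - x ^ 2) * (S' x * T' x) + μ ^ 2 / (1 - x ^ 2) * (S x * T x) +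
    E0 d q / x ^ 2 * (S x * T x))

/-- radial energy on `(0,1)` -/
noncomputable def en (d q : ℕ) (μ : ℝ) (S S' T T' : ℝ → ℝ) : ℝ :=
  ∫ x in Ioo (0 : ℝ) 1, den d q μ S S' T T' x

theorem E0_zero' {d q : ℕ} (hadm : d = 0 → q ≤ 1) (h : d = 0 ∨ q = 0) : E0 d q = 0 := by
  rcases h with h | h
  · subst h; exact E0_three (hadm rfl)
  · subst h; simp [E0]

theorem den_bound {d q : ℕ} (hadm : d = 0 → q ≤ 1) {μ C D : ℝ} {S S' T T' : ℝ → ℝ}
    (h : Cls q μ C S S') (k : Cls q μ D T T') {x : ℝ} (hx : x ∈ Ioo (0 : ℝ) 1) :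
    |den d q μ S S' T T' x| ≤ (1 + μ ^ 2 + E0 d q) * (C * D) := by
  have hC := h.nonneg
  have hD := k.nonneg
  have hp := osp hx
  have hxd0 : 0 ≤ x ^ d := pow_nonneg hx.1.le _
  have hxd1 : x ^ d ≤ 1 := pow_le_one₀ hx.1.le hx.2.le
  have hs2 : Real.sqrt (1 - x ^ 2) * Real.sqrt (1 - x ^ 2) = 1 - x ^ 2 :=
    Real.mul_self_sqrt hp.le
  have hE0 := E0_nonneg d q
  unfold den
  have t1 : |x ^ d * ((1 - x ^ 2) * (S' x * T' x))| ≤ C * D := by
    rw [abs_mul, abs_of_nonneg hxd0, abs_mul, abs_of_nonneg hp.le, abs_mul]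
    have e : (1 - x ^ 2) * (|S' x| * |T' x|) =
        (|S' x| * Real.sqrt (1 - x ^ 2)) * (|T' x| * Real.sqrt (1 - x ^ 2)) := by
      calc (1 - x ^ 2) * (|S' x| * |T' x|) =
          (Real.sqrt (1 - x ^ 2) * Real.sqrt (1 - x ^ 2)) * (|S' x| * |T' x|) := by rw [hs2]
        _ = _ := by ring
    rw [e]
    have h1 := h.b1 x hx
    have h2 := k.b1 x hx
    calc x ^ d * (|S' x| * Real.sqrt (1 - x ^ 2) * (|T' x| * Real.sqrt (1 - x ^ 2)))
        ≤ 1 * (C * D) := by gcongr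
      _ = C * D := one_mul _
  have t2 : |x ^ d * (μ ^ 2 / (1 - x ^ 2) * (S x * T x))| ≤ μ ^ 2 * (C * D) := by
    by_cases hμ : μ = 0
    · rw [hμ]; simp
    · rw [abs_mul, abs_of_nonneg hxd0, abs_mul, abs_of_nonneg (by positivity), abs_mul]
      have h1 := h.bp hμ x hx
      have h2 := k.bp hμ x hx
      calc x ^ d * (μ ^ 2 / (1 - x ^ 2) * (|S x| * |T x|))
          ≤ 1 * (μ ^ 2 / (1 - x ^ 2) * ((C * Real.sqrt (1 - x ^ 2)) *
            (D * Real.sqrt (1 - x ^ 2)))) := by gcongr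
        _ = μ ^ 2 / (1 - x ^ 2) * (C * D) * (Real.sqrt (1 - x ^ 2) * Real.sqrt (1 - x ^ 2)) := by
          ring
        _ = μ ^ 2 * (C * D) := by rw [hs2]; field_simp
  have t3 : |x ^ d * (E0 d q / x ^ 2 * (S x * T x))| ≤ E0 d q * (C * D) := by
    by_cases hz : d = 0 ∨ q = 0
    · rw [E0_zero' hadm hz]; simp
    · push Not at hz
      have hq : 1 ≤ q := by omega
      rw [abs_mul, abs_of_nonneg hxd0, abs_mul, abs_of_nonneg (by positivity), abs_mul]
      have h1 := h.bq hq x hx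
      have h2 := k.bq hq x hx
      have hx0 := hx.1
      calc x ^ d * (E0 d q / x ^ 2 * (|S x| * |T x|))
          ≤ 1 * (E0 d q / x ^ 2 * ((C * x) * (D * x))) := by gcongr
        _ = E0 d q * (C * D) := by field_simp
  have := abs_add_three (x ^ d * ((1 - x ^ 2) * (S' x * T' x)))
    (x ^ d * (μ ^ 2 / (1 - x ^ 2) * (S x * T x))) (x ^ d * (E0 d q / x ^ 2 * (S x * T x)))
  rw [mul_add, mul_add]
  linarith

theorem den_cont {d q : ℕ} {μ C D : ℝ} {S S' T T' : ℝ → ℝ}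
    (h : Cls q μ C S S') (k : Cls q μ D T T') :
    ContinuousOn (den d q μ S S' T T') (Ioo (0 : ℝ) 1) := by
  unfold den
  have h1 := h.contS
  have h2 := k.contS
  have h3 := h.cont
  have h4 := k.cont
  have c1 : ContinuousOn (fun x : ℝ => μ ^ 2 / (1 - x ^ 2)) (Ioo (0 : ℝ) 1) :=
    ContinuousOn.div (by fun_prop) (by fun_prop) (fun x hx => (osp hx).ne')
  have c2 : ContinuousOn (fun x : ℝ => E0 d q / x ^ 2) (Ioo (0 : ℝ) 1) :=
    ContinuousOn.div (by fun_prop) (by fun_prop) (fun x hx => pow_ne_zero 2 hx.1.ne')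
  have c3 : ContinuousOn (fun x : ℝ => 1 - x ^ 2) (Ioo (0 : ℝ) 1) := by fun_prop
  have c4 : ContinuousOn (fun x : ℝ => x ^ d) (Ioo (0 : ℝ) 1) := by fun_prop
  exact c4.mul (((c3.mul (h3.mul h4)).add (c1.mul (h1.mul h2))).add (c2.mul (h1.mul h2)))

theorem integrableOn_of_bound {f : ℝ → ℝ} {M : ℝ} (hf : ContinuousOn f (Ioo (0 : ℝ) 1))
    (hM : ∀ x ∈ Ioo (0 : ℝ) 1, |f x| ≤ M) : IntegrableOn f (Ioo (0 : ℝ) 1) := by
  refine ⟨hf.aestronglyMeasurable measurableSet_Ioo, ?_⟩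
  apply MeasureTheory.HasFiniteIntegral.of_bounded (C := M)
  filter_upwards [ae_restrict_mem measurableSet_Ioo] with x hx
  exact hM x hx

theorem den_int {d q : ℕ} (hadm : d = 0 → q ≤ 1) {μ C D : ℝ} {S S' T T' : ℝ → ℝ}
    (h : Cls q μ C S S') (k : Cls q μ D T T') :
    IntegrableOn (den d q μ S S' T T') (Ioo (0 : ℝ) 1) :=
  integrableOn_of_bound (den_cont h k) (fun _ hx => den_bound hadm h k hx)

theorem ip_int {d q : ℕ} {μ C D : ℝ} {S S' T T' : ℝ → ℝ}
    (h : Cls q μ C S S') (k : Cls q μ D T T') :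
    IntegrableOn (fun x => x ^ d * (S x * T x)) (Ioo (0 : ℝ) 1) := by
  have c4 : ContinuousOn (fun x : ℝ => x ^ d) (Ioo (0 : ℝ) 1) := by fun_prop
  refine integrableOn_of_bound (M := C * D) (c4.mul (h.contS.mul k.contS)) (fun x hx => ?_)
  have hC := h.nonneg
  have hxd0 : 0 ≤ x ^ d := pow_nonneg hx.1.le _
  have hxd1 : x ^ d ≤ 1 := pow_le_one₀ hx.1.le hx.2.le
  rw [abs_mul, abs_mul, abs_of_nonneg hxd0]
  have h1 := h.b0 x hx
  have h2 := k.b0 x hx
  calc x ^ d * (|S x| * |T x|) ≤ 1 * (C * D) := by gcongr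
    _ = C * D := one_mul _

/-- the flux of `R_j` at the end points -/
theorem Flj_tendsto (d q : ℕ) {μ : ℝ} (hμ : 0 ≤ μ) (j : ℕ) (l : Filter ℝ) {a : ℝ}
    (hl : l ≤ 𝓝 a) (hl2 : ∀ᶠ x in l, x ∈ Ioo (0 : ℝ) 1) :
    Tendsto (Flj d q μ j) l (𝓝 ((1 - a ^ 2) ^ (μ / 2) * (a ^ d *
      ((1 - a ^ 2) * (derivative (jQ d q μ j)).eval a - μ * a * (jQ d q μ j).eval a)))) := by
  have hc : Continuous fun x : ℝ => (1 - x ^ 2) ^ (μ / 2) * (x ^ d *
      ((1 - x ^ 2) * (derivative (jQ d q μ j)).eval x - μ * x * (jQ d q μ j).eval x)) := by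
    apply Continuous.mul
    · exact Continuous.rpow_const (by fun_prop) (fun x => Or.inr (by linarith))
    · apply Continuous.mul (by fun_prop)
      exact ((by fun_prop : Continuous fun x : ℝ => (1 - x ^ 2)).mul
        (derivative (jQ d q μ j)).continuous).sub
        ((by fun_prop : Continuous fun x : ℝ => μ * x).mul (jQ d q μ j).continuous)
  refine ((hc.tendsto a).mono_left hl).congr' ?_
  filter_upwards [hl2] with x hx
  exact (Flj_eq d q μ j (osp hx)).symm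

theorem djQ_zero (d : ℕ) (μ : ℝ) (j : ℕ) : (derivative (jQ d 0 μ j)).eval 0 = 0 := by
  unfold jQ
  simp [derivative_comp]

/-- **the weak equation** -/
theorem weakh {d q : ℕ} (hadm : d = 0 → q ≤ 1) {μ : ℝ} (hμ : μ = 0 ∨ 1 ≤ μ) (j : ℕ)
    {C : ℝ} {S S' : ℝ → ℝ} (h : Cls q μ C S S') :
    en d q μ (Rj d q μ j) (dRj d q μ j) S S' =
      Ej d q μ j * ∫ x in Ioo (0 : ℝ) 1, x ^ d * (Rj d q μ j x * S x) := by
  have hμ0 : 0 ≤ μ := by rcases hμ with h | h <;> linarith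
  obtain ⟨D, hR⟩ := Rj_cls d q hμ j
  have hIR := den_int hadm hR h
  have hIP := ip_int (d := d) hR h
  set f' : ℝ → ℝ := fun x => den d q μ (Rj d q μ j) (dRj d q μ j) S S' x -
    Ej d q μ j * (x ^ d * (Rj d q μ j x * S x)) with hf'
  have hder : ∀ x ∈ Ioo (0 : ℝ) 1, HasDerivAt (fun x => Flj d q μ j x * S x) (f' x) x := by
    intro x hx
    have h1 := Flj_hasDerivAt' hadm μ j (mem_lft d hx)
    have h2 := h1.mul (h.hd x hx)
    refine h2.congr_deriv ?_
    rw [hf']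
    simp only [den, Flj]
    ring
  have hint : IntegrableOn f' (Ioo (0 : ℝ) 1) := hIR.sub (hIP.const_mul _)
  have hev0 : ∀ᶠ x in 𝓝[>] (0 : ℝ), x ∈ Ioo (0 : ℝ) 1 := Ioo_mem_nhdsGT one_pos
  have hev1 : ∀ᶠ x in 𝓝[<] (1 : ℝ), x ∈ Ioo (0 : ℝ) 1 := Ioo_mem_nhdsLT one_pos
  have hSb : ∀ x ∈ Ioo (0 : ℝ) 1, |S x| ≤ C := h.b0
  have ha : Tendsto (fun x => Flj d q μ j x * S x) (𝓝[>] 0) (𝓝 0) := by
    have hF := Flj_tendsto d q hμ0 j (𝓝[>] 0) nhdsWithin_le_nhds hev0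
    by_cases hz : 0 < d ∨ q = 0
    · have e0 : (1 - (0 : ℝ) ^ 2) ^ (μ / 2) * ((0 : ℝ) ^ d *
          ((1 - 0 ^ 2) * (derivative (jQ d q μ j)).eval 0 - μ * 0 * (jQ d q μ j).eval 0)) = 0 := by
        rcases hz with hz | hz
        · rw [zero_pow hz.ne']; ring
        · subst hz; rw [djQ_zero]; ring
      rw [e0] at hF
      refine hF.zero_mul_isBoundedUnder_le ?_
      refine ⟨C, ?_⟩
      rw [eventually_map]
      filter_upwards [hev0] with x hx
      exact hSb x hx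
    · push Not at hz
      have hq : 1 ≤ q := by omega
      have hS0 : Tendsto S (𝓝[>] 0) (𝓝 0) := by
        have hx0 : Tendsto (fun x : ℝ => C * x) (𝓝[>] 0) (𝓝 0) := by
          have : Tendsto (fun x : ℝ => C * x) (𝓝 0) (𝓝 (C * 0)) :=
            (continuous_const.mul continuous_id).tendsto 0
          rw [mul_zero] at this
          exact this.mono_left nhdsWithin_le_nhds
        refine squeeze_zero_norm' ?_ hx0
        filter_upwards [hev0] with x hx
        exact h.bq hq x hx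
      have := hF.mul hS0
      rw [mul_zero] at this
      exact this
  have hb : Tendsto (fun x => Flj d q μ j x * S x) (𝓝[<] 1) (𝓝 0) := by
    have hF := Flj_tendsto d q hμ0 j (𝓝[<] 1) nhdsWithin_le_nhds hev1
    have e0 : (1 - (1 : ℝ) ^ 2) ^ (μ / 2) * ((1 : ℝ) ^ d *
          ((1 - 1 ^ 2) * (derivative (jQ d q μ j)).eval 1 - μ * 1 * (jQ d q μ j).eval 1)) = 0 := by
      rcases hμ with h | h
      · rw [h]; ring
      · rw [one_pow, sub_self, Real.zero_rpow (by linarith)]; ring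
    rw [e0] at hF
    refine hF.zero_mul_isBoundedUnder_le ?_
    refine ⟨C, ?_⟩
    rw [eventually_map]
    filter_upwards [hev1] with x hx
    exact hSb x hx
  have key := intervalIntegral.integral_eq_sub_of_hasDerivAt_of_tendsto one_pos hder
    ((intervalIntegrable_iff_integrableOn_Ioo_of_le zero_le_one).2 hint) ha hb
  rw [intervalIntegral.integral_of_le zero_le_one, integral_Ioc_eq_integral_Ioo, sub_zero, hf',
    integral_sub hIR (hIP.const_mul _), integral_const_mul] at key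
  unfold en
  linarith

end Crest.Agent.R202.Fou
end

-- ▼ part R202/Fou4
section

/-! Row 202, PART C, (P0) (helper206): the spindle forms on `VS q par`:
reduction to one variable, weak equation, orthogonality, lower bound. -/

set_option autoImplicit false

open MeasureTheory Set Filter Topology
open Crest.Agent.R202

noncomputable section

namespace Crest.Agent.R202.Mod

open Crest.Agent.R202.Fou (en den nh ntrg Cls osp)

/-! ### integrals of products -/

theorem integral_mu (d : ℕ) (f : ℝ × ℝ → ℝ) :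
    ∫ z, f z ∂(mu d) = ∫ z in Om, z.1 ^ d * f z := by
  unfold mu
  rw [integral_withDensity_eq_integral_toReal_smul (by fun_prop)
    (Filter.Eventually.of_forall fun z => ENNReal.ofReal_lt_top)]
  refine setIntegral_congr_fun measurableSet_Om fun z hz => ?_
  simp only [smul_eq_mul]
  rw [ENNReal.toReal_ofReal (pow_nonneg hz.1.1.le _)]

theorem integral_mu_mul (d : ℕ) (f k : ℝ → ℝ) :
    ∫ z, f z.1 * k z.2 ∂(mu d) =
      (∫ x in Ioo (0 : ℝ) 1, x ^ d * f x) * ∫ φ in Ioo (0 : ℝ) Real.pi, k φ := by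
  rw [integral_mu]
  have := setIntegral_prod_mul (μ := (volume : Measure ℝ)) (ν := (volume : Measure ℝ))
    (fun x : ℝ => x ^ d * f x) k (Ioo (0 : ℝ) 1) (Ioo (0 : ℝ) Real.pi)
  rw [← this, ← Measure.volume_eq_prod]
  refine setIntegral_congr_fun measurableSet_Om fun z _ => ?_
  show z.1 ^ d * (f z.1 * k z.2) = z.1 ^ d * f z.1 * k z.2
  ring

/-! ### trigonometric integrals -/

theorem trig_eq (par m : ℕ) (φ : ℝ) :
    trig par m φ = Fou.trg (decide (par ≠ 0)) m φ := by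
  unfold trig Fou.trg
  by_cases h : par = 0 <;> simp [h]

theorem trigD_eq (par m : ℕ) (φ : ℝ) :
    trigD par m φ = (if par = 0 then -1 else 1) * (m * Fou.trg (decide (par = 0)) m φ) := by
  unfold trigD Fou.trg
  by_cases h : par = 0 <;> simp [h]

theorem integral_trig_orthF (par : ℕ) {m n : ℕ} (h : m ≠ n) :
    ∫ φ in Ioo (0 : ℝ) Real.pi, trig par m φ * trig par n φ = 0 := by
  simp_rw [trig_eq]
  exact Fou.integral_trg_orth h

theorem integral_trigD_orthF (par : ℕ) {m n : ℕ} (h : m ≠ n) :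
    ∫ φ in Ioo (0 : ℝ) Real.pi, trigD par m φ * trigD par n φ = 0 := by
  simp_rw [trigD_eq]
  have e : ∀ φ : ℝ, (if par = 0 then (-1 : ℝ) else 1) * (m * Fou.trg (decide (par = 0)) m φ) *
      ((if par = 0 then (-1 : ℝ) else 1) * (n * Fou.trg (decide (par = 0)) n φ)) =
      (m * n) * (Fou.trg (decide (par = 0)) m φ * Fou.trg (decide (par = 0)) n φ) := by
    intro φ
    split_ifs <;> ring
  simp_rw [e]
  rw [integral_const_mul, Fou.integral_trg_orth h, mul_zero]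

theorem integral_trig_sqF {par m : ℕ} (hm : par ≤ m) :
    ∫ φ in Ioo (0 : ℝ) Real.pi, trig par m φ * trig par m φ = ntrg m := by
  have h := Fou.integral_trg_sq (par := decide (par ≠ 0)) (m := m) (by
    unfold Fou.m0
    by_cases h : par = 0
    · simp [h]
    · simp [h]; omega)
  rw [← h]
  refine setIntegral_congr_fun measurableSet_Ioo fun φ _ => ?_
  simp only [trig_eq]; ring

theorem integral_trigD_sqF {par m : ℕ} (_hm : par ≤ m) :
    ∫ φ in Ioo (0 : ℝ) Real.pi, trigD par m φ * trigD par m φ = (m : ℝ) ^ 2 * ntrg m := by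
  simp_rw [trigD_eq]
  have e : ∀ φ : ℝ, (if par = 0 then (-1 : ℝ) else 1) * (m * Fou.trg (decide (par = 0)) m φ) *
      ((if par = 0 then (-1 : ℝ) else 1) * (m * Fou.trg (decide (par = 0)) m φ)) =
      (m : ℝ) ^ 2 * (Fou.trg (decide (par = 0)) m φ ^ 2) := by
    intro φ
    split_ifs <;> ring
  simp_rw [e]
  rw [integral_const_mul]
  rcases Nat.eq_zero_or_pos m with h | h
  · subst h; simp
  · rw [Fou.integral_trg_sq (by unfold Fou.m0; split_ifs <;> omega)]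

/-! ### one-variable reduction -/

theorem isRad_cls {q m : ℕ} {R : ℝ → ℝ} (h : IsRad q m R) (b : ℝ) :
    ∃ C, Cls q (m * b) C R (deriv R) := by
  obtain ⟨C, hC⟩ := h.bd
  refine ⟨C, ⟨fun x hx => (h.diff x (sq_lt_one_of_mem hx)).hasDerivAt,
    h.cont.mono (Ioo_subset_Ioo (by norm_num) le_rfl),
    fun x hx => (hC x (sq_lt_one_of_mem hx)).1,
    fun x hx => by
      rw [mul_comm]; exact (hC x (sq_lt_one_of_mem hx)).2.2.1, fun hq x hx => ?_,
    fun hp x hx => ?_⟩⟩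
  · have := (hC x (sq_lt_one_of_mem hx)).2.2.2 hq
    rwa [abs_of_pos hx.1] at this
  · refine (hC x (sq_lt_one_of_mem hx)).2.1 ?_
    rcases Nat.eq_zero_or_pos m with h0 | h0
    · subst h0; simp at hp
    · exact h0

theorem comp_singleF (d q par m : ℕ) (R : ℝ → ℝ) (i : Fin 4) (z : ℝ × ℝ) :
    comp d q par (Finsupp.single m R) i z = rcomp d q R i z.1 * acomp par m i z.2 := by
  rw [comp_eq, Finsupp.sum_single_index]
  rw [rcomp_zero]; ring

/-- the `m`-th Fourier component as an element of `VS` -/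
def sg {q par : ℕ} (v : VS q par) (m : ℕ) : VS q par :=
  ⟨Finsupp.single m ((v : ℕ →₀ (ℝ → ℝ)) m), by
    classical
    intro k
    by_cases hk : m = k
    · subst hk
      rw [Finsupp.single_eq_same]
      exact v.2 m
    · rw [Finsupp.single_eq_of_ne' hk]
      exact ⟨Submodule.zero_mem _, fun _ => rfl⟩⟩

theorem coe_sg {q par : ℕ} (v : VS q par) (m : ℕ) :
    (sg v m : ℕ →₀ (ℝ → ℝ)) = Finsupp.single m ((v : ℕ →₀ (ℝ → ℝ)) m) := rfl

theorem eq_sum_sg {q par : ℕ} (v : VS q par) :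
    v = ∑ m ∈ (v : ℕ →₀ (ℝ → ℝ)).support, sg v m := by
  apply Subtype.ext
  rw [AddSubmonoidClass.coe_finsetSum]
  simp only [coe_sg]
  exact (Finsupp.sum_single (v : ℕ →₀ (ℝ → ℝ))).symm

theorem acomp_zero (par m : ℕ) (φ : ℝ) : acomp par m 0 φ = trig par m φ := rfl

theorem acomp_one (par m : ℕ) (φ : ℝ) : acomp par m 1 φ = trig par m φ := rfl

theorem acomp_two (par m : ℕ) (φ : ℝ) : acomp par m 2 φ = trigD par m φ := rfl

theorem acomp_three (par m : ℕ) (φ : ℝ) : acomp par m 3 φ = trig par m φ := rfl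

theorem g_sg_orth (d : ℕ) {q par : ℕ} (u v : VS q par) {m n : ℕ} (h : m ≠ n) :
    g d q par (sg u m) (sg v n) = 0 := by
  rw [g_apply]
  simp only [coe_sg, comp_singleF]
  have e : ∀ z : ℝ × ℝ, rcomp d q ((u : ℕ →₀ (ℝ → ℝ)) m) 0 z.1 * acomp par m 0 z.2 *
      (rcomp d q ((v : ℕ →₀ (ℝ → ℝ)) n) 0 z.1 * acomp par n 0 z.2) =
      (rcomp d q ((u : ℕ →₀ (ℝ → ℝ)) m) 0 z.1 * rcomp d q ((v : ℕ →₀ (ℝ → ℝ)) n) 0 z.1) *
      (trig par m z.2 * trig par n z.2) := by
    intro z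
    simp only [acomp_zero]; ring
  simp_rw [e]
  rw [integral_mu_mul d (fun x => rcomp d q ((u : ℕ →₀ (ℝ → ℝ)) m) 0 x *
    rcomp d q ((v : ℕ →₀ (ℝ → ℝ)) n) 0 x) (fun φ => trig par m φ * trig par n φ),
    integral_trig_orthF par h, mul_zero]

theorem g_sg_same (d : ℕ) {q par : ℕ} (u v : VS q par) (m : ℕ) :
    g d q par (sg u m) (sg v m) = ntrg m * ∫ x in Ioo (0 : ℝ) 1,
      x ^ d * ((u : ℕ →₀ (ℝ → ℝ)) m x * (v : ℕ →₀ (ℝ → ℝ)) m x) := by
  by_cases hm : par ≤ m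
  · rw [g_apply]
    simp only [coe_sg, comp_singleF]
    have e : ∀ z : ℝ × ℝ, rcomp d q ((u : ℕ →₀ (ℝ → ℝ)) m) 0 z.1 * acomp par m 0 z.2 *
        (rcomp d q ((v : ℕ →₀ (ℝ → ℝ)) m) 0 z.1 * acomp par m 0 z.2) =
        ((u : ℕ →₀ (ℝ → ℝ)) m z.1 * (v : ℕ →₀ (ℝ → ℝ)) m z.1) *
        (trig par m z.2 * trig par m z.2) := by
      intro z
      simp only [acomp_zero, rcomp]; ring
    simp_rw [e]
    rw [integral_mu_mul d (fun x => (u : ℕ →₀ (ℝ → ℝ)) m x * (v : ℕ →₀ (ℝ → ℝ)) m x)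
      (fun φ => trig par m φ * trig par m φ), integral_trig_sqF hm]
    ring
  · have hz : (u : ℕ →₀ (ℝ → ℝ)) m = 0 := (u.2 m).2 (by omega)
    have hs : sg u m = 0 := by
      apply Subtype.ext
      rw [coe_sg, hz]; simp
    rw [hs, hz]
    simp

/-! the three parts of the radial energy -/

section parts

variable {d q : ℕ} {μ C D : ℝ} {S S' T T' : ℝ → ℝ}

theorem int1 (h : Cls q μ C S S') (k : Cls q μ D T T') :
    IntegrableOn (fun x => x ^ d * ((1 - x ^ 2) * (S' x * T' x))) (Ioo (0 : ℝ) 1) := by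
  have hc : ContinuousOn (fun x => x ^ d * ((1 - x ^ 2) * (S' x * T' x))) (Ioo (0 : ℝ) 1) := by
    have c3 : ContinuousOn (fun x : ℝ => 1 - x ^ 2) (Ioo (0 : ℝ) 1) := by fun_prop
    have c4 : ContinuousOn (fun x : ℝ => x ^ d) (Ioo (0 : ℝ) 1) := by fun_prop
    exact c4.mul (c3.mul (h.cont.mul k.cont))
  refine Fou.integrableOn_of_bound (M := C * D) hc fun x hx => ?_
  have hC := h.nonneg
  have hD := k.nonneg
  have hp := osp hx
  have hxd0 : 0 ≤ x ^ d := pow_nonneg hx.1.le _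
  have hxd1 : x ^ d ≤ 1 := pow_le_one₀ hx.1.le hx.2.le
  have hs2 : Real.sqrt (1 - x ^ 2) * Real.sqrt (1 - x ^ 2) = 1 - x ^ 2 :=
    Real.mul_self_sqrt hp.le
  rw [abs_mul, abs_of_nonneg hxd0, abs_mul, abs_of_nonneg hp.le, abs_mul]
  have e : (1 - x ^ 2) * (|S' x| * |T' x|) =
      (|S' x| * Real.sqrt (1 - x ^ 2)) * (|T' x| * Real.sqrt (1 - x ^ 2)) := by
    calc (1 - x ^ 2) * (|S' x| * |T' x|) =
        (Real.sqrt (1 - x ^ 2) * Real.sqrt (1 - x ^ 2)) * (|S' x| * |T' x|) := by rw [hs2]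
      _ = _ := by ring
  rw [e]
  have h1 := h.b1 x hx
  have h2 := k.b1 x hx
  calc x ^ d * (|S' x| * Real.sqrt (1 - x ^ 2) * (|T' x| * Real.sqrt (1 - x ^ 2)))
      ≤ 1 * (C * D) := by gcongr
    _ = C * D := one_mul _

theorem int2 (h : Cls q μ C S S') (k : Cls q μ D T T') :
    IntegrableOn (fun x => x ^ d * (μ ^ 2 / (1 - x ^ 2) * (S x * T x))) (Ioo (0 : ℝ) 1) := by
  have hc : ContinuousOn (fun x => x ^ d * (μ ^ 2 / (1 - x ^ 2) * (S x * T x)))
      (Ioo (0 : ℝ) 1) := by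
    have c1 : ContinuousOn (fun x : ℝ => μ ^ 2 / (1 - x ^ 2)) (Ioo (0 : ℝ) 1) :=
      ContinuousOn.div (by fun_prop) (by fun_prop) (fun x hx => (osp hx).ne')
    have c4 : ContinuousOn (fun x : ℝ => x ^ d) (Ioo (0 : ℝ) 1) := by fun_prop
    exact c4.mul (c1.mul (h.contS.mul k.contS))
  refine Fou.integrableOn_of_bound (M := μ ^ 2 * (C * D)) hc fun x hx => ?_
  have hC := h.nonneg
  have hD := k.nonneg
  have hp := osp hx
  have hxd0 : 0 ≤ x ^ d := pow_nonneg hx.1.le _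
  have hxd1 : x ^ d ≤ 1 := pow_le_one₀ hx.1.le hx.2.le
  have hs2 : Real.sqrt (1 - x ^ 2) * Real.sqrt (1 - x ^ 2) = 1 - x ^ 2 :=
    Real.mul_self_sqrt hp.le
  by_cases hμ : μ = 0
  · rw [hμ]; simp
  · rw [abs_mul, abs_of_nonneg hxd0, abs_mul, abs_of_nonneg (by positivity), abs_mul]
    have h1 := h.bp hμ x hx
    have h2 := k.bp hμ x hx
    calc x ^ d * (μ ^ 2 / (1 - x ^ 2) * (|S x| * |T x|))
        ≤ 1 * (μ ^ 2 / (1 - x ^ 2) * ((C * Real.sqrt (1 - x ^ 2)) *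
          (D * Real.sqrt (1 - x ^ 2)))) := by gcongr
      _ = μ ^ 2 / (1 - x ^ 2) * (C * D) * (Real.sqrt (1 - x ^ 2) * Real.sqrt (1 - x ^ 2)) := by
        ring
      _ = μ ^ 2 * (C * D) := by rw [hs2]; field_simp

theorem int3 (h : Cls q μ C S S') (k : Cls q μ D T T') :
    IntegrableOn (fun x => x ^ d * (E0 d q / x ^ 2 * (S x * T x))) (Ioo (0 : ℝ) 1) := by
  have hc : ContinuousOn (fun x => x ^ d * (E0 d q / x ^ 2 * (S x * T x)))
      (Ioo (0 : ℝ) 1) := by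
    have c2 : ContinuousOn (fun x : ℝ => E0 d q / x ^ 2) (Ioo (0 : ℝ) 1) :=
      ContinuousOn.div (by fun_prop) (by fun_prop) (fun x hx => pow_ne_zero 2 hx.1.ne')
    have c4 : ContinuousOn (fun x : ℝ => x ^ d) (Ioo (0 : ℝ) 1) := by fun_prop
    exact c4.mul (c2.mul (h.contS.mul k.contS))
  refine Fou.integrableOn_of_bound (M := E0 d q * (C * D)) hc fun x hx => ?_
  have hC := h.nonneg
  have hD := k.nonneg
  have hxd0 : 0 ≤ x ^ d := pow_nonneg hx.1.le _
  have hxd1 : x ^ d ≤ 1 := pow_le_one₀ hx.1.le hx.2.le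
  have hE0 := E0_nonneg d q
  rcases Nat.eq_zero_or_pos q with hq | hq
  · subst hq
    have : E0 d 0 = 0 := by simp [E0]
    rw [this]; simp
  · rw [abs_mul, abs_of_nonneg hxd0, abs_mul, abs_of_nonneg (by positivity), abs_mul]
    have h1 := h.bq hq x hx
    have h2 := k.bq hq x hx
    have hx0 := hx.1
    calc x ^ d * (E0 d q / x ^ 2 * (|S x| * |T x|))
        ≤ 1 * (E0 d q / x ^ 2 * ((C * x) * (D * x))) := by gcongr
      _ = E0 d q * (C * D) := by field_simp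

theorem en_parts (h : Cls q μ C S S') (k : Cls q μ D T T') :
    en d q μ S S' T T' = (∫ x in Ioo (0 : ℝ) 1, x ^ d * ((1 - x ^ 2) * (S' x * T' x))) +
      (∫ x in Ioo (0 : ℝ) 1, x ^ d * (μ ^ 2 / (1 - x ^ 2) * (S x * T x))) +
      ∫ x in Ioo (0 : ℝ) 1, x ^ d * (E0 d q / x ^ 2 * (S x * T x)) := by
  have i1 := int1 (d := d) h k
  have i2 := int2 (d := d) h k
  have i3 := int3 (d := d) h k
  calc en d q μ S S' T T' = ∫ x in Ioo (0 : ℝ) 1, ((x ^ d * ((1 - x ^ 2) * (S' x * T' x)) +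
        x ^ d * (μ ^ 2 / (1 - x ^ 2) * (S x * T x))) +
        x ^ d * (E0 d q / x ^ 2 * (S x * T x))) := by
        refine setIntegral_congr_fun measurableSet_Ioo fun x _ => ?_
        simp only [den]
        ring
    _ = (∫ x in Ioo (0 : ℝ) 1, (x ^ d * ((1 - x ^ 2) * (S' x * T' x)) +
        x ^ d * (μ ^ 2 / (1 - x ^ 2) * (S x * T x)))) +
        ∫ x in Ioo (0 : ℝ) 1, x ^ d * (E0 d q / x ^ 2 * (S x * T x)) :=
        integral_add (Integrable.add i1 i2) i3
    _ = _ := by rw [integral_add i1 i2]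

end parts

theorem Q_sg_orth (d : ℕ) {q par : ℕ} (b : ℝ) (u v : VS q par) {m n : ℕ} (h : m ≠ n) :
    Q q par (adm_one d) b (sg u m) (sg v n) = 0 := by
  show fW d q par (WQ b fun _ => 1) (sg u m : VS q par) (sg v n : VS q par) = 0
  rw [fW_eq_sum (coef_WQ (adm_one d) b), Fin.sum_univ_four]
  simp only [coe_sg, comp_singleF, WQ, acomp_one, acomp_two, acomp_three, zero_mul,
    integral_zero, zero_add, one_mul, div_one]
  have key : ∀ (c : ℝ) (A B : ℝ → ℝ) (k l : ℝ → ℝ),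
      (∫ φ in Ioo (0 : ℝ) Real.pi, k φ * l φ = 0) →
      ∫ z : ℝ × ℝ, c * (A z.1 * k z.2) * (B z.1 * l z.2) ∂(mu d) = 0 := by
    intro c A B k l hkl
    have := integral_mu_mul d (fun x => c * (A x * B x)) (fun φ => k φ * l φ)
    rw [hkl, mul_zero] at this
    rw [← this]
    congr 1; funext z; ring
  have k1 := key 1 (rcomp d q ((u : ℕ →₀ (ℝ → ℝ)) m) 1) (rcomp d q ((v : ℕ →₀ (ℝ → ℝ)) n) 1)
    (trig par m) (trig par n) (integral_trig_orthF par h)
  have k2 := key (b ^ 2) (rcomp d q ((u : ℕ →₀ (ℝ → ℝ)) m) 2)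
    (rcomp d q ((v : ℕ →₀ (ℝ → ℝ)) n) 2)
    (trigD par m) (trigD par n) (integral_trigD_orthF par h)
  have k3 := key 1 (rcomp d q ((u : ℕ →₀ (ℝ → ℝ)) m) 3) (rcomp d q ((v : ℕ →₀ (ℝ → ℝ)) n) 3)
    (trig par m) (trig par n) (integral_trig_orthF par h)
  simp only [one_mul] at k1 k3
  rw [k1, k2, k3]; ring

theorem Q_sg_same (d : ℕ) {q par : ℕ} (b : ℝ) (u v : VS q par) (m : ℕ) :
    Q q par (adm_one d) b (sg u m) (sg v m) =
      ntrg m * en d q (m * b) ((u : ℕ →₀ (ℝ → ℝ)) m) (deriv ((u : ℕ →₀ (ℝ → ℝ)) m))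
        ((v : ℕ →₀ (ℝ → ℝ)) m) (deriv ((v : ℕ →₀ (ℝ → ℝ)) m)) := by
  by_cases hm : par ≤ m
  swap
  · have hz : (u : ℕ →₀ (ℝ → ℝ)) m = 0 := (u.2 m).2 (by omega)
    have hs : sg u m = 0 := by
      apply Subtype.ext
      rw [coe_sg, hz]; simp
    have hd0 : deriv (0 : ℝ → ℝ) = 0 := by funext x; exact deriv_const x 0
    rw [hs, hz, hd0]
    simp [en, den]
  obtain ⟨C, hC⟩ := isRad_cls (isRad_coe u m) b
  obtain ⟨D, hD⟩ := isRad_cls (isRad_coe v m) b
  rw [en_parts hC hD]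
  show fW d q par (WQ b fun _ => 1) (sg u m : VS q par) (sg v m : VS q par) = _
  rw [fW_eq_sum (coef_WQ (adm_one d) b), Fin.sum_univ_four]
  simp only [coe_sg, comp_singleF, WQ, acomp_one, acomp_two, acomp_three, zero_mul,
    integral_zero, zero_add, one_mul, div_one]
  have key : ∀ (c : ℝ) (A B : ℝ → ℝ) (k : ℝ → ℝ),
      ∫ z : ℝ × ℝ, c * (A z.1 * k z.2) * (B z.1 * k z.2) ∂(mu d) =
      (∫ x in Ioo (0 : ℝ) 1, x ^ d * (c * (A x * B x))) *
        ∫ φ in Ioo (0 : ℝ) Real.pi, k φ * k φ := by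
    intro c A B k
    rw [← integral_mu_mul d (fun x => c * (A x * B x)) (fun φ => k φ * k φ)]
    congr 1; funext z; ring
  have k1 := key 1 (rcomp d q ((u : ℕ →₀ (ℝ → ℝ)) m) 1) (rcomp d q ((v : ℕ →₀ (ℝ → ℝ)) m) 1)
    (trig par m)
  have k2 := key (b ^ 2) (rcomp d q ((u : ℕ →₀ (ℝ → ℝ)) m) 2)
    (rcomp d q ((v : ℕ →₀ (ℝ → ℝ)) m) 2) (trigD par m)
  have k3 := key 1 (rcomp d q ((u : ℕ →₀ (ℝ → ℝ)) m) 3) (rcomp d q ((v : ℕ →₀ (ℝ → ℝ)) m) 3)
    (trig par m)
  simp only [one_mul] at k1 k3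
  rw [k1, k2, k3, integral_trig_sqF hm, integral_trigD_sqF hm]
  have e1 : (∫ x in Ioo (0 : ℝ) 1, x ^ d * (rcomp d q ((u : ℕ →₀ (ℝ → ℝ)) m) 1 x *
      rcomp d q ((v : ℕ →₀ (ℝ → ℝ)) m) 1 x)) = ∫ x in Ioo (0 : ℝ) 1, x ^ d * ((1 - x ^ 2) *
      (deriv ((u : ℕ →₀ (ℝ → ℝ)) m) x * deriv ((v : ℕ →₀ (ℝ → ℝ)) m) x)) := by
    refine setIntegral_congr_fun measurableSet_Ioo fun x hx => ?_
    simp only [rcomp]
    rw [← rh_sq (sq_lt_one_of_mem hx)]; ring
  have e2 : (∫ x in Ioo (0 : ℝ) 1, x ^ d * (b ^ 2 * (rcomp d q ((u : ℕ →₀ (ℝ → ℝ)) m) 2 x *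
      rcomp d q ((v : ℕ →₀ (ℝ → ℝ)) m) 2 x))) * ((m : ℝ) ^ 2 * ntrg m) =
      (∫ x in Ioo (0 : ℝ) 1, x ^ d * (((m : ℝ) * b) ^ 2 / (1 - x ^ 2) *
      (((u : ℕ →₀ (ℝ → ℝ)) m) x * ((v : ℕ →₀ (ℝ → ℝ)) m) x))) * ntrg m := by
    rw [← mul_assoc, ← integral_mul_const]
    congr 1
    refine setIntegral_congr_fun measurableSet_Ioo fun x hx => ?_
    simp only [rcomp]
    rw [← rh_sq (sq_lt_one_of_mem hx)]
    have := (rh_pos (sq_lt_one_of_mem hx)).ne'
    field_simp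
  have e3 : (∫ x in Ioo (0 : ℝ) 1, x ^ d * (rcomp d q ((u : ℕ →₀ (ℝ → ℝ)) m) 3 x *
      rcomp d q ((v : ℕ →₀ (ℝ → ℝ)) m) 3 x)) = ∫ x in Ioo (0 : ℝ) 1, x ^ d * (E0 d q / x ^ 2 *
      (((u : ℕ →₀ (ℝ → ℝ)) m) x * ((v : ℕ →₀ (ℝ → ℝ)) m) x)) := by
    refine setIntegral_congr_fun measurableSet_Ioo fun x hx => ?_
    simp only [rcomp]
    have hx0 := hx.1.ne'
    have hs := Real.mul_self_sqrt (E0_nonneg d q)
    have : x ^ d * (E0 d q / x ^ 2 * (((u : ℕ →₀ (ℝ → ℝ)) m) x * ((v : ℕ →₀ (ℝ → ℝ)) m) x)) =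
      x ^ d * ((Real.sqrt (E0 d q) * Real.sqrt (E0 d q)) / x ^ 2 *
        (((u : ℕ →₀ (ℝ → ℝ)) m) x * ((v : ℕ →₀ (ℝ → ℝ)) m) x)) := by rw [hs]
    rw [this]
    field_simp
  rw [e1, e2, e3]
  ring

end Crest.Agent.R202.Mod
end
end

-- ▼ part R202/Fou5

/-! Row 202, PART C, (P0) (helper206): spectral data of the ideal spindle on `VS q par`:
weak equation, orthogonality, lower bound on the complement, `Cut.Eig`. -/

set_option autoImplicit false

open MeasureTheory Set Filter Topology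
open Crest.Agent.R202

noncomputable section

namespace Crest.Agent.R202.Mod

open Crest.Agent.R202.Fou (en den nh ntrg Cls osp)

variable {q par : ℕ}

/-- a form for which different Fourier components are orthogonal -/
theorem sum_sg (F : LinearMap.BilinForm ℝ (VS q par))
    (h : ∀ (u v : VS q par) (m n : ℕ), m ≠ n → F (sg u m) (sg v n) = 0) (u v : VS q par) :
    F u v = ∑ m ∈ (v : ℕ →₀ (ℝ → ℝ)).support, F (sg u m) (sg v m) := by
  classical
  conv_lhs => rw [eq_sum_sg v]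
  rw [map_sum]
  refine Finset.sum_congr rfl fun n _ => ?_
  conv_lhs => rw [eq_sum_sg u]
  rw [LinearMap.map_sum₂]
  by_cases hn : n ∈ (u : ℕ →₀ (ℝ → ℝ)).support
  · rw [Finset.sum_eq_single n]
    · intro m _ hmn
      exact h u v m n hmn
    · intro hc; exact absurd hn hc
  · have hz : (u : ℕ →₀ (ℝ → ℝ)) n = 0 := by simpa using hn
    have hs : sg u n = 0 := by
      apply Subtype.ext
      rw [coe_sg, hz]; simp
    rw [hs]
    simp only [map_zero, LinearMap.zero_apply]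
    exact Finset.sum_eq_zero fun m hm => h u v m n (fun hmn => hn (hmn ▸ hm))

theorem g_eq_sum (d : ℕ) (u v : VS q par) :
    g d q par u v = ∑ m ∈ (v : ℕ →₀ (ℝ → ℝ)).support, ntrg m * ∫ x in Ioo (0 : ℝ) 1,
      x ^ d * ((u : ℕ →₀ (ℝ → ℝ)) m x * (v : ℕ →₀ (ℝ → ℝ)) m x) := by
  rw [sum_sg (g d q par) (fun u v m n h => g_sg_orth d u v h) u v]
  exact Finset.sum_congr rfl fun m _ => g_sg_same d u v m

theorem Q_eq_sum (d : ℕ) (b : ℝ) (u v : VS q par) :
    Q q par (adm_one d) b u v = ∑ m ∈ (v : ℕ →₀ (ℝ → ℝ)).support,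
      ntrg m * en d q (m * b) ((u : ℕ →₀ (ℝ → ℝ)) m) (deriv ((u : ℕ →₀ (ℝ → ℝ)) m))
        ((v : ℕ →₀ (ℝ → ℝ)) m) (deriv ((v : ℕ →₀ (ℝ → ℝ)) m)) := by
  rw [sum_sg (Q q par (adm_one d) b) (fun u v m n h => Q_sg_orth d b u v h) u v]
  exact Finset.sum_congr rfl fun m _ => Q_sg_same d b u v m

/-! ### the spindle functions -/

theorem mu_ok {b : ℝ} (hb : 1 ≤ b) (m : ℕ) : (m : ℝ) * b = 0 ∨ 1 ≤ (m : ℝ) * b := by
  rcases Nat.eq_zero_or_pos m with h | h
  · left; subst h; simp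
  · right
    have : (1 : ℝ) ≤ m := by exact_mod_cast h
    nlinarith

theorem mu_nn {b : ℝ} (hb : 1 ≤ b) (m : ℕ) : 0 ≤ (m : ℝ) * b := by positivity

theorem g_psi (d : ℕ) {b : ℝ} (hb : 1 ≤ b) {m : ℕ} (hm : par ≤ m) (j : ℕ) (v : VS q par) :
    g d q par (psi d q par b m j) v = ntrg m * ∫ x in Ioo (0 : ℝ) 1,
      x ^ d * (Rj d q (m * b) j x * (v : ℕ →₀ (ℝ → ℝ)) m x) := by
  classical
  rw [g_eq_sum, coe_psi d q hb hm]
  have hz : ∀ n, n ≠ m → (∫ x in Ioo (0 : ℝ) 1, x ^ d *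
      ((Finsupp.single m (trunc (Rj d q (m * b) j))) n x * (v : ℕ →₀ (ℝ → ℝ)) n x)) = 0 := by
    intro n hn
    rw [Finsupp.single_eq_of_ne hn]
    simp
  have hs : (∫ x in Ioo (0 : ℝ) 1, x ^ d *
      ((Finsupp.single m (trunc (Rj d q (m * b) j))) m x * (v : ℕ →₀ (ℝ → ℝ)) m x)) =
      ∫ x in Ioo (0 : ℝ) 1, x ^ d * (Rj d q (m * b) j x * (v : ℕ →₀ (ℝ → ℝ)) m x) := by
    rw [Finsupp.single_eq_same]
    refine setIntegral_congr_fun measurableSet_Ioo fun x hx => ?_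
    rw [trunc_of_lt (sq_lt_one_of_mem hx)]
  by_cases hv : m ∈ (v : ℕ →₀ (ℝ → ℝ)).support
  · rw [Finset.sum_eq_single m (fun n _ hn => by rw [hz n hn, mul_zero])
      (fun hc => absurd hv hc), hs]
  · rw [Finset.sum_eq_zero (fun n hn => by
      rw [hz n (fun h => hv (h ▸ hn)), mul_zero])]
    have : (v : ℕ →₀ (ℝ → ℝ)) m = 0 := by simpa using hv
    rw [this]
    simp

theorem Q_psi (d : ℕ) {b : ℝ} (hb : 1 ≤ b) {m : ℕ} (hm : par ≤ m) (j : ℕ) (v : VS q par) :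
    Q q par (adm_one d) b (psi d q par b m j) v = ntrg m * en d q (m * b) (Rj d q (m * b) j)
      (dRj d q (m * b) j) ((v : ℕ →₀ (ℝ → ℝ)) m) (deriv ((v : ℕ →₀ (ℝ → ℝ)) m)) := by
  classical
  rw [Q_eq_sum, coe_psi d q hb hm]
  have hd0 : deriv (0 : ℝ → ℝ) = 0 := by funext x; exact deriv_const x 0
  have hz : ∀ n, n ≠ m → en d q (n * b) ((Finsupp.single m (trunc (Rj d q (m * b) j))) n)
      (deriv ((Finsupp.single m (trunc (Rj d q (m * b) j))) n)) ((v : ℕ →₀ (ℝ → ℝ)) n)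
      (deriv ((v : ℕ →₀ (ℝ → ℝ)) n)) = 0 := by
    intro n hn
    rw [Finsupp.single_eq_of_ne hn, hd0]
    simp [en, den]
  have hs : en d q (m * b) ((Finsupp.single m (trunc (Rj d q (m * b) j))) m)
      (deriv ((Finsupp.single m (trunc (Rj d q (m * b) j))) m)) ((v : ℕ →₀ (ℝ → ℝ)) m)
      (deriv ((v : ℕ →₀ (ℝ → ℝ)) m)) = en d q (m * b) (Rj d q (m * b) j)
      (dRj d q (m * b) j) ((v : ℕ →₀ (ℝ → ℝ)) m) (deriv ((v : ℕ →₀ (ℝ → ℝ)) m)) := by
    rw [Finsupp.single_eq_same]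
    refine setIntegral_congr_fun measurableSet_Ioo fun x hx => ?_
    have hx2 := sq_lt_one_of_mem hx
    have hder : deriv (trunc (Rj d q (m * b) j)) x = dRj d q (m * b) j x :=
      ((Rj_hasDerivAt d q (m * b) j (osp hx)).congr_of_eventuallyEq
        (trunc_eventuallyEq hx2)).deriv
    simp only [den]
    rw [trunc_of_lt hx2, hder]
  by_cases hv : m ∈ (v : ℕ →₀ (ℝ → ℝ)).support
  · rw [Finset.sum_eq_single m (fun n _ hn => by rw [hz n hn, mul_zero])
      (fun hc => absurd hv hc), hs]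
  · rw [Finset.sum_eq_zero (fun n hn => by
      rw [hz n (fun h => hv (h ▸ hn)), mul_zero])]
    have : (v : ℕ →₀ (ℝ → ℝ)) m = 0 := by simpa using hv
    rw [this, hd0]
    simp [en, den]

/-- **(P0) weak equation** -/
theorem Q_psi_eq {d : ℕ} (hadm : d = 0 → q ≤ 1) {b : ℝ} (hb : 1 ≤ b) {m : ℕ} (hm : par ≤ m)
    (j : ℕ) (v : VS q par) :
    Q q par (adm_one d) b (psi d q par b m j) v =
      Ej d q (m * b) j * g d q par (psi d q par b m j) v := by
  obtain ⟨C, hC⟩ := isRad_cls (isRad_coe v m) b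
  rw [Q_psi d hb hm, g_psi d hb hm, Fou.weakh hadm (mu_ok hb m) j hC]
  ring

theorem psi_apply_same (d : ℕ) {b : ℝ} (hb : 1 ≤ b) {m : ℕ} (hm : par ≤ m) (j : ℕ) :
    (psi d q par b m j : ℕ →₀ (ℝ → ℝ)) m = trunc (Rj d q (m * b) j) := by
  rw [coe_psi d q hb hm, Finsupp.single_eq_same]

theorem psi_apply_ne (d : ℕ) {b : ℝ} (hb : 1 ≤ b) {m n : ℕ} (hm : par ≤ m) (hn : n ≠ m)
    (j : ℕ) : (psi d q par b m j : ℕ →₀ (ℝ → ℝ)) n = 0 := by
  classical
  rw [coe_psi d q hb hm, Finsupp.single_eq_of_ne hn]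

/-- **(P0) orthogonality** -/
theorem g_psi_orth (d : ℕ) {b : ℝ} (hb : 1 ≤ b) {m m' : ℕ} (hm : par ≤ m) (hm' : par ≤ m')
    {j j' : ℕ} (h : (m, j) ≠ (m', j')) :
    g d q par (psi d q par b m j) (psi d q par b m' j') = 0 := by
  rw [g_psi d hb hm]
  by_cases hmm : m = m'
  · subst hmm
    have hj : j ≠ j' := fun hj => h (by rw [hj])
    rw [psi_apply_same d hb hm]
    have := Fou.orthh d q (mu_nn hb m) hj
    have e : ∫ x in Ioo (0 : ℝ) 1, x ^ d * (Rj d q (m * b) j x *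
        trunc (Rj d q (m * b) j') x) = 0 := by
      refine Eq.trans ?_ this
      refine setIntegral_congr_fun measurableSet_Ioo fun x hx => ?_
      rw [trunc_of_lt (sq_lt_one_of_mem hx)]
    rw [e, mul_zero]
  · rw [psi_apply_ne d hb hm' hmm]
    simp

/-- norm of the spindle functions -/
theorem g_psi_self (d : ℕ) {b : ℝ} (hb : 1 ≤ b) {m : ℕ} (hm : par ≤ m) (j : ℕ) :
    g d q par (psi d q par b m j) (psi d q par b m j) = ntrg m * nh d q (m * b) j := by
  rw [g_psi d hb hm, psi_apply_same d hb hm]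
  congr 1
  refine setIntegral_congr_fun measurableSet_Ioo fun x hx => ?_
  rw [trunc_of_lt (sq_lt_one_of_mem hx)]
  ring

theorem g_psi_self_pos (d : ℕ) {b : ℝ} (hb : 1 ≤ b) {m : ℕ} (hm : par ≤ m) (j : ℕ) :
    0 < g d q par (psi d q par b m j) (psi d q par b m j) := by
  rw [g_psi_self d hb hm]
  exact mul_pos (Fou.ntrg_pos m) (Fou.nh_pos d q (mu_nn hb m) j)

/-! ### Parseval -/

theorem memLp_rad {m : ℕ} (d : ℕ) {R : ℝ → ℝ} (h : IsRad q m R) :
    MemLp (fun x => Real.sqrt (x ^ d) * R x) 2 (volume.restrict (Ioo (0 : ℝ) 1)) := by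
  obtain ⟨C, hC⟩ := isRad_cls h 1
  have hc : ContinuousOn (fun x => Real.sqrt (x ^ d) * R x) (Ioo (0 : ℝ) 1) :=
    ((continuous_pow d).sqrt).continuousOn.mul hC.contS
  refine MemLp.of_bound (hc.aestronglyMeasurable measurableSet_Ioo) C ?_
  filter_upwards [ae_restrict_mem measurableSet_Ioo] with x hx
  rw [norm_mul, Real.norm_eq_abs, Real.norm_eq_abs, abs_of_nonneg (Real.sqrt_nonneg _)]
  have a1 : Real.sqrt (x ^ d) ≤ 1 := by
    rw [Real.sqrt_le_left (by norm_num), one_pow]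
    exact pow_le_one₀ hx.1.le hx.2.le
  have := hC.b0 x hx
  have hC0 := hC.nonneg
  calc Real.sqrt (x ^ d) * |R x| ≤ 1 * C := by gcongr
    _ = C := one_mul _

/-- **(P0) Parseval**, one Fourier component -/
theorem hasSum_comp (d : ℕ) {b : ℝ} (hb : 1 ≤ b) {m : ℕ} (hm : par ≤ m) (v : VS q par) :
    HasSum (fun j => g d q par (psi d q par b m j) v ^ 2 /
        g d q par (psi d q par b m j) (psi d q par b m j))
      (ntrg m * ∫ x in Ioo (0 : ℝ) 1,
        x ^ d * ((v : ℕ →₀ (ℝ → ℝ)) m x * (v : ℕ →₀ (ℝ → ℝ)) m x)) := by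
  have h := Fou.parsevalh d q (mu_nn hb m) (memLp_rad d (isRad_coe v m))
    (memLp_rad d (isRad_coe v m))
  refine (h.mul_left (ntrg m)).congr_fun fun j => ?_
  rw [g_psi d hb hm, g_psi_self d hb hm]
  have h1 := (Fou.ntrg_pos m).ne'
  have h2 := (Fou.nh_pos d q (mu_nn hb m) j).ne'
  have e : (∫ x in Ioo (0 : ℝ) 1, x ^ d * (Rj d q (m * b) j x * (v : ℕ →₀ (ℝ → ℝ)) m x)) =
      ∫ x in Ioo (0 : ℝ) 1, x ^ d * ((v : ℕ →₀ (ℝ → ℝ)) m x * Rj d q (m * b) j x) := by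
    refine setIntegral_congr_fun measurableSet_Ioo fun x _ => ?_
    ring
  rw [e]
  field_simp

/-- Bessel's inequality for a pair of forms -/
theorem bessel_abs {V : Type*} [AddCommGroup V] [Module ℝ V] (a g : LinearMap.BilinForm ℝ V)
    (hs : ∀ u v, a u v = a v u) (hn : ∀ v, 0 ≤ a v v) {ι : Type*} (F : Finset ι) (ψ : ι → V)
    (E : ι → ℝ) (horth : ∀ i ∈ F, ∀ j ∈ F, i ≠ j → g (ψ i) (ψ j) = 0)
    (hpos : ∀ i ∈ F, 0 < g (ψ i) (ψ i)) (hw : ∀ i ∈ F, ∀ v, a (ψ i) v = E i * g (ψ i) v) (v : V) :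
    ∑ i ∈ F, E i * (g (ψ i) v ^ 2 / g (ψ i) (ψ i)) ≤ a v v := by
  classical
  set c : ι → ℝ := fun i => g (ψ i) v / g (ψ i) (ψ i) with hc
  set w : V := ∑ i ∈ F, c i • ψ i with hwdef
  have h1 : a w v = ∑ i ∈ F, E i * (g (ψ i) v ^ 2 / g (ψ i) (ψ i)) := by
    rw [hwdef, LinearMap.map_sum₂]
    refine Finset.sum_congr rfl fun i hi => ?_
    rw [LinearMap.map_smul₂, smul_eq_mul, hw i hi, hc]
    simp only; ring
  have h2 : a w w = ∑ i ∈ F, E i * (g (ψ i) v ^ 2 / g (ψ i) (ψ i)) := by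
    rw [show a w w = a (∑ i ∈ F, c i • ψ i) w from rfl, LinearMap.map_sum₂]
    refine Finset.sum_congr rfl fun i hi => ?_
    rw [LinearMap.map_smul₂, smul_eq_mul, hw i hi, hwdef, map_sum]
    have : ∑ k ∈ F, g (ψ i) (c k • ψ k) = c i * g (ψ i) (ψ i) := by
      rw [Finset.sum_eq_single i]
      · rw [map_smul, smul_eq_mul]
      · intro k hk hki
        rw [map_smul, horth i hi k hk hki.symm, smul_zero]
      · intro h; exact absurd hi h
    rw [this, hc]
    have := (hpos i hi).ne'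
    simp only
    field_simp
  have h3 := hn (v - w)
  have h4 : a (v - w) (v - w) = a v v - a w v - a w v + a w w := by
    rw [LinearMap.map_sub₂, map_sub, map_sub, hs v w]; ring
  rw [h4, h1, h2] at h3
  linarith

/-- **(P0) lower bound on the complement** -/
theorem Q_lower {d : ℕ} (hadm : d = 0 → q ≤ 1) {b : ℝ} (hb : 1 ≤ b) {Λ : ℝ} (v : VS q par)
    (h : ∀ m j, par ≤ m → Ej d q (m * b) j < Λ → g d q par (psi d q par b m j) v = 0) :
    Λ * g d q par v v ≤ Q q par (adm_one d) b v v := by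
  classical
  set s := (v : ℕ →₀ (ℝ → ℝ)).support with hs
  have hsp : ∀ m ∈ s, par ≤ m := by
    intro m hm
    by_contra hc
    have := (v.2 m).2 (by omega)
    rw [hs, Finsupp.mem_support_iff] at hm
    exact hm this
  set f : ℕ → ℕ → ℝ := fun m j => g d q par (psi d q par b m j) v ^ 2 /
    g d q par (psi d q par b m j) (psi d q par b m j) with hf
  have hsum : HasSum (fun j => ∑ m ∈ s, f m j) (g d q par v v) := by
    rw [g_eq_sum]
    exact hasSum_sum fun m hm => hasSum_comp d hb (hsp m hm) v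
  have hbes : ∀ N : ℕ, Λ * ∑ j ∈ Finset.range N, ∑ m ∈ s, f m j ≤
      Q q par (adm_one d) b v v := by
    intro N
    have hB := bessel_abs (Q q par (adm_one d) b) (g d q par) (Q_symm (adm_one d) b)
      (Q_nonneg (adm_one d) b) (Finset.range N ×ˢ s)
      (fun p => psi d q par b p.2 p.1) (fun p => Ej d q (p.2 * b) p.1)
      (by
        intro i hi j hj hij
        rw [Finset.mem_product] at hi hj
        refine g_psi_orth d hb (hsp _ hi.2) (hsp _ hj.2) ?_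
        intro hc
        apply hij
        rw [Prod.mk.injEq] at hc
        exact Prod.ext hc.2 hc.1)
      (by
        intro i hi
        rw [Finset.mem_product] at hi
        exact g_psi_self_pos d hb (hsp _ hi.2) _)
      (by
        intro i hi w
        rw [Finset.mem_product] at hi
        exact Q_psi_eq hadm hb (hsp _ hi.2) _ w) v
    refine le_trans ?_ hB
    rw [Finset.sum_product, Finset.mul_sum]
    refine Finset.sum_le_sum fun j _ => ?_
    rw [Finset.mul_sum]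
    refine Finset.sum_le_sum fun m hm => ?_
    simp only [hf]
    have hnn : 0 ≤ g d q par (psi d q par b m j) v ^ 2 /
        g d q par (psi d q par b m j) (psi d q par b m j) :=
      div_nonneg (sq_nonneg _) (g_psi_self_pos d hb (hsp m hm) j).le
    by_cases hE : Ej d q (m * b) j < Λ
    · rw [h m j (hsp m hm) hE]; simp
    · exact mul_le_mul_of_nonneg_right (not_lt.1 hE) hnn
  refine le_of_tendsto' (hsum.tendsto_sum_nat.const_mul Λ) hbes


/-! ### the interface of the abstract assembly -/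

theorem lev_eq (d q : ℕ) (b : ℝ) (p : ℕ × ℕ) : SF.lev d q b p = Ej d q (p.1 * b) p.2 := by
  unfold SF.lev Lab.mu Ej aj
  ring

theorem finite_lev (d q : ℕ) {par : ℕ} {b : ℝ} (hb : 1 ≤ b) (Λ : ℝ) :
    {p : SF.Lbl par | SF.lev d q b p ≤ Λ}.Finite := by
  obtain ⟨N, hN⟩ := exists_nat_gt Λ
  have hsub : {p : SF.Lbl par | SF.lev d q b p ≤ Λ} ⊆
      Subtype.val ⁻¹' ((Finset.range (N + 1) ×ˢ Finset.range (N + 1) : Finset (ℕ × ℕ)) :
        Set (ℕ × ℕ)) := by
    rintro ⟨⟨m, j⟩, hp⟩ hle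
    simp only [Set.mem_ofPred_eq] at hle
    have hm : (0 : ℝ) ≤ m := by positivity
    have hj : (0 : ℝ) ≤ j := by positivity
    have hq : (0 : ℝ) ≤ q := by positivity
    have hd : (0 : ℝ) ≤ d := by positivity
    have h1 : (m : ℝ) + 2 * j ≤ SF.lev d q b (m, j) := by
      unfold SF.lev Lab.mu
      simp only
      have hbm : (m : ℝ) ≤ b * m := by nlinarith
      set t : ℝ := b * m + 2 * j + q with ht
      have ht0 : (m : ℝ) + 2 * j ≤ t := by rw [ht]; linarith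
      have ht1 : 0 ≤ t := by linarith
      nlinarith
    have h2 : (m : ℝ) + 2 * j < N := by linarith
    have h3 : m + 2 * j < N := by exact_mod_cast h2
    simp only [Set.mem_preimage, Finset.coe_product, Finset.coe_range, Set.mem_prod, Set.mem_Iio]
    omega
  exact ((Finset.finite_toSet _).preimage Subtype.val_injective.injOn).subset hsub

/-- **(P0) for the abstract assembly** (any normalisation `c`) -/
theorem eig_main {d : ℕ} (hadm : d = 0 → q ≤ 1) {b : ℝ} (hb : 1 ≤ b) (c : SF.Lbl par → ℝ)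
    (hc : ∀ p, c p ^ 2 * (ntrg p.1.1 * nh d q (p.1.1 * b) p.1.2) = 1) :
    Cut.Eig (g d q par) (Q q par (adm_one d) b)
      (fun p : SF.Lbl par => c p • psi d q par b p.1.1 p.1.2)
      (fun p : SF.Lbl par => SF.lev d q b p) where
  gsymm := g_symm
  gnn := g_nonneg
  asymm := Q_symm (adm_one d) b
  ann := Q_nonneg (adm_one d) b
  orth i j hij := by
    rw [LinearMap.map_smul₂, map_smul, g_psi_orth d hb i.2 j.2, smul_zero, smul_zero]
    intro h
    exact hij (Subtype.ext h)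
  one i := by
    rw [LinearMap.map_smul₂, map_smul, g_psi_self d hb i.2, smul_eq_mul, smul_eq_mul,
      ← hc i]
    ring
  eig i v := by
    rw [LinearMap.map_smul₂, LinearMap.map_smul₂,
      Q_psi_eq hadm hb i.2, lev_eq, smul_eq_mul, smul_eq_mul]
    ring
  fin Λ := finite_lev d q hb Λ
  compl Λ v h := by
    refine Q_lower hadm hb v fun m j hm hE => ?_
    have h1 := h ⟨(m, j), hm⟩ (by rw [lev_eq]; exact hE.le)
    rw [LinearMap.map_smul₂, smul_eq_mul] at h1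
    have h2 := hc ⟨(m, j), hm⟩
    have h3 : c ⟨(m, j), hm⟩ ≠ 0 := by
      intro h0
      rw [h0] at h2
      norm_num at h2
    exact (mul_eq_zero.1 h1).resolve_left h3

end Crest.Agent.R202.Mod
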