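import Crest.Agent.R202.GateBlow

-- ▼ part R202/GateOpen
section

/-!
# Row 202, PART C: local openness of cuts (LL) and the blow-up lemma (BL)
-/

set_option autoImplicit false

noncomputable section

open Filter Topology Set Module
open scoped InnerProductSpace
open Crest.Agent.R202.Lab Crest.Agent.R202.Cut Crest.Agent.R202.Jac

namespace Crest.Agent.R202.SF

variable {d : ℕ} {b0 b1 : ℝ} {OK : ℕ × ℕ → Prop} {T : Type*} [AddCommGroup T] [Module ℝ T]
  {V : ℕ × ℕ → Type*} [∀ σ, AddCommGroup (V σ)] [∀ σ, Module ℝ (V σ)]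
  (F : SpindleFamily d b0 b1 OK T V)

theorem finrank_span_psi {W : Type*} [AddCommGroup W] [Module ℝ W] {g a : Bil W} {ι : Type*}
    {ψ : ι → W} {E : ι → ℝ} (h : Eig g a ψ E) (S : Finset ι) :
    finrank ℝ (Submodule.span ℝ (ψ '' (S : Set ι))) = S.card := by
  rw [← range_sub, finrank_span_eq_card (eig_li_sub h S)]
  simp

/-- the cut `l` is open at `(b, G, k)`, with a trial space spanned by ideal eigenfunctions -/
def SpindleFamily.OpenAt (F : SpindleFamily d b0 b1 OK T V) (σ : ℕ × ℕ) (b : ℝ) (G : ℕ →₀ T)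
    (k l : ℕ) : Prop :=
  ∃ b' ∈ Icc b0 b1,
    IsOpenIn (F.g σ) (F.a σ b G k) (Submodule.span ℝ (Set.range (F.ψ σ b'))) l

theorem SpindleFamily.open_zero {σ : ℕ × ℕ} (hσ : OK σ) {b : ℝ} (hb : b ∈ Icc b0 b1)
    {G : ℕ →₀ T} (hG : F.sz G ≤ 1 / 2) (k : ℕ) : F.OpenAt σ b G k 0 := by
  refine ⟨b, hb, ⊥, -1, 0, bot_le, inferInstance, by simp, by norm_num, ?_, ?_⟩
  · intro w hw
    rw [(Submodule.mem_bot ℝ).1 hw]; simp
  · intro v _
    obtain ⟨c, hc0, -, hcmp⟩ := F.comp σ hσ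
    rw [zero_mul]
    exact (mul_nonneg hc0.le ((F.eig σ hσ b hb).ann v)).trans (hcmp b hb b hb G hG k v)

/-- **(LL) local openness**: an open cut of the ideal spindle stays open nearby -/
theorem SpindleFamily.local_open (hb0 : 0 < b0) {σ : ℕ × ℕ} (hσ : OK σ) {b' : ℝ}
    (hb' : b' ∈ Icc b0 b1) {l : ℕ} (hl : ¬ Closed b' σ.2 l) :
    ∃ δ : ℝ, 0 < δ ∧ ∃ K : ℕ, ∀ b ∈ Icc b0 b1, |b - b'| ≤ δ → ∀ G : ℕ →₀ T, G 0 = 0 →
      F.sz G ≤ δ → ∀ k, K ≤ k → F.OpenAt σ b G k l := by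
  classical
  have hb'0 : 0 < b' := hb0.trans_le hb'.1
  rcases Nat.eq_zero_or_pos l with rfl | hlpos
  · exact ⟨1 / 2, by norm_num, 0, fun b hb _ G _ hG k _ => F.open_zero hσ hb hG k⟩
  obtain ⟨Tl, hTl, hcard⟩ := (open_or_closed hb'0 σ.2 l).resolve_right hl
  have h := F.eig σ hσ b' hb'
  -- the set `S`
  set S : Finset (Lbl σ.2) := Tl.subtype fun p => σ.2 ≤ p.1 with hSdef
  have hmemS : ∀ p : Lbl σ.2, p ∈ S ↔ (p : ℕ × ℕ) ∈ Tl := fun p => by simp [hSdef]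
  have hScard : S.card = l := by
    rw [← hcard, hSdef, Finset.card_subtype, Finset.filter_true_of_mem]
    exact fun p hp => hTl.1 p hp
  have hTne : Tl.Nonempty := by rw [← Finset.card_pos, hcard]; exact hlpos
  obtain ⟨p0, hp0, hmax⟩ := Tl.exists_max_image (mu b') hTne
  -- the lowest label outside
  have hA : {p : ℕ × ℕ | p ∈ lab σ.2 ∧ p ∉ Tl}.Nonempty := by
    obtain ⟨p, hp, hp'⟩ := (lab_infinite σ.2).exists_notMem_finset Tl
    exact ⟨p, hp, hp'⟩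
  obtain ⟨p1, ⟨hp1, hp1'⟩, hmin⟩ := exists_min hb'0 hA
  have hlt : mu b' p0 < mu b' p1 := hTl.2 p0 hp0 p1 hp1 hp1'
  set J : ℝ := (mu b' p0 + mu b' p1) / 2 with hJ
  have hJ0 : 0 ≤ J := by
    have := mu_nonneg hb'0.le p0; have := mu_nonneg hb'0.le p1; rw [hJ]; linarith
  obtain ⟨γ, hγ, h1, -, h3⟩ := exists_gap (d := d) (q := σ.1) hb'0 (S := S) (Cl := ∅) hJ0
    (fun p hp => by
      have := hmax p ((hmemS p).1 hp); rw [hJ]; linarith)
    (fun p hp => absurd hp (Finset.notMem_empty p))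
    (fun p hp _ => by
      have h4 : (p : ℕ × ℕ) ∉ Tl := fun hh => hp ((hmemS p).2 hh)
      have := hmin p ⟨p.2, h4⟩
      rw [hJ]; linarith)
  set lam : ℝ := (J + σ.1) * (J + σ.1 + d + 1) with hlamdef
  have hlam : 0 ≤ lam := by rw [hlamdef]; positivity
  obtain ⟨N0, hN0, K, hK, C, hC, o, ho0, ho, hblk⟩ := F.blkFam hσ hb' (S := S) (Cl := ∅) hlam hγ
    h1 (fun p hp => absurd hp (Finset.notMem_empty p)) h3
  -- choice of constants
  set M : ℝ := min N0 (min 1 (γ / (4 * (K + 1)))) with hM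
  have hM0 : 0 < M := lt_min hN0 (lt_min one_pos (by positivity))
  have hM1 : M ≤ N0 := min_le_left _ _
  have hM2 : M ≤ 1 := (min_le_right _ _).trans (min_le_left _ _)
  have hM3 : M ≤ γ / (4 * (K + 1)) := (min_le_right _ _).trans (min_le_right _ _)
  obtain ⟨k0, hk0⟩ := (eventually_atTop.1 ((tendsto_order.1 ho).2 (M / 2) (by positivity)))
  refine ⟨min (1 / 2) (M / (4 * (C + 1))), lt_min (by norm_num) (by positivity), k0, ?_⟩
  intro b hb hbb' G hG0 hG k hk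
  have hδ1 : F.sz G ≤ 1 / 2 := hG.trans (min_le_left _ _)
  have hδ2 : F.sz G ≤ M / (4 * (C + 1)) := hG.trans (min_le_right _ _)
  have hδ3 : |b - b'| ≤ M / (4 * (C + 1)) := hbb'.trans (min_le_right _ _)
  set η : ℝ := C * (|b - b'| + F.sz G) + o k with hη
  have hη0 : 0 ≤ η := add_nonneg (mul_nonneg hC (add_nonneg (abs_nonneg _) (F.sz_nonneg G))) (ho0 k)
  have hηM : η ≤ M := by
    have h5 : C * (|b - b'| + F.sz G) ≤ C * (M / (2 * (C + 1))) := by
      refine mul_le_mul_of_nonneg_left ?_ hC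
      have : M / (2 * (C + 1)) = M / (4 * (C + 1)) + M / (4 * (C + 1)) := by field_simp; ring
      linarith
    have h6 : C * (M / (2 * (C + 1))) ≤ M / 2 := by
      rw [← mul_div_assoc, div_le_div_iff₀ (by positivity) (by norm_num)]
      nlinarith
    have h7 := (hk0 k hk).le
    linarith
  have hKη : K * η ^ 2 ≤ γ / 4 := by
    have h5 : η ^ 2 ≤ M := by nlinarith
    have h6 : K * η ^ 2 ≤ (K + 1) * M := by nlinarith
    have h7 : (K + 1) * M ≤ γ / 4 := by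
      have := mul_le_mul_of_nonneg_left hM3 (by positivity : (0:ℝ) ≤ K + 1)
      have e : (K + 1) * (γ / (4 * (K + 1))) = γ / 4 := by field_simp
      linarith
    linarith
  have hsep := hblk b hb G hG0 hδ1 k η rfl (hηM.trans hM1) ⊥ bot_le (lam - γ / 2) (lam + γ / 2)
    le_rfl le_rfl (fun w hw => by rw [(Submodule.mem_bot ℝ).1 hw]; simp)
    (fun z hz _ => by
      have : z = 0 := by simpa using hz
      rw [this]; simp)
    (by linarith)
  rw [sup_bot_eq] at hsep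
  refine ⟨b', hb', _, _, _, Submodule.span_mono (Set.image_subset_range _ _), ?_, ?_, hsep⟩
  · rw [← range_sub]
    exact FiniteDimensional.span_of_finite ℝ (Set.finite_range _)
  · rw [finrank_span_psi h, hScard]

/-- the effective matrix on the class enumerated by `e` -/
def SpindleFamily.Xmat (σ : ℕ × ℕ) (b' : ℝ) {L : ℕ} (e : Fin L → Lbl σ.2) (x : ℝ) (G : ℕ →₀ T) :
    Matrix (Fin L) (Fin L) ℝ :=
  fun i j => (if i = j then x * slope d σ.1 b' (e i) else 0) +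
    firstVar F.A F.B σ b' (e i) (e j) G

theorem firstVar_smul (σ : ℕ × ℕ) (b : ℝ) (p p' : ℕ × ℕ) (r : ℝ) (G : ℕ →₀ T) :
    firstVar F.A F.B σ b p p' (r • G) = r * firstVar F.A F.B σ b p p' G := by
  classical
  unfold firstVar
  rw [Finsupp.sum_smul_index' (fun i => by simp)]
  rw [Finsupp.sum, Finsupp.sum, Finset.mul_sum]
  refine Finset.sum_congr rfl fun f _ => ?_
  simp only [map_smul, smul_eq_mul]
  split_ifs <;> ring

theorem firstVar_add (σ : ℕ × ℕ) (b : ℝ) (p p' : ℕ × ℕ) (G G' : ℕ →₀ T) :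
    firstVar F.A F.B σ b p p' (G + G') =
      firstVar F.A F.B σ b p p' G + firstVar F.A F.B σ b p p' G' := by
  classical
  unfold firstVar
  rw [Finsupp.sum_add_index' (fun i => by simp)]
  intro f η η'
  simp only [map_add]
  split_ifs <;> ring

theorem firstVar_zero (σ : ℕ × ℕ) (b : ℝ) (p p' : ℕ × ℕ) :
    firstVar F.A F.B σ b p p' 0 = 0 := by
  unfold firstVar; simp

set_option maxHeartbeats 4000000 in
/-- **(BL) the blow-up lemma** -/
theorem SpindleFamily.blowup (hb0 : 0 < b0) {σ : ℕ × ℕ} (hσ : OK σ) {b' : ℝ}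
    (hb' : b' ∈ Ioo b0 b1) {J : ℝ} (hJ : 0 ≤ J) {S : Finset (Lbl σ.2)}
    (hS : ∀ p : Lbl σ.2, p ∈ S ↔ mu b' p < J) {L : ℕ} {e : Fin L → Lbl σ.2}
    (he : Function.Injective e) (hcl : ∀ p : Lbl σ.2, mu b' p = J ↔ p ∈ Set.range e)
    (R g0 : ℝ) (hR : 0 ≤ R) (hg0 : 0 < g0) :
    ∃ ε0 : ℝ, 0 < ε0 ∧ ∀ ε : ℝ, 0 < ε → ε ≤ ε0 → ∃ K : ℕ, ∀ k, K ≤ k → ∀ x : ℝ, |x| ≤ R →
      ∀ G : ℕ →₀ T, G 0 = 0 → F.sz G ≤ R → ∀ (n : ℕ) (f : Fin n → EuclideanSpace ℝ (Fin L))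
        (A B : ℝ), |A| ≤ R → |B| ≤ R → A + g0 ≤ B → SepF (op (F.Xmat σ b' e x G)) f A B →
        b' + ε * x ∈ Icc b0 b1 ∧ F.sz (ε • G) ≤ 1 / 2 ∧
        LinearIndependent ℝ (frm (F.ψ σ b') S e f) ∧
        Sep (F.g σ) (F.a σ (b' + ε * x) (ε • G) k)
          (Submodule.span ℝ (Set.range (frm (F.ψ σ b') S e f)))
          ((J + σ.1) * (J + σ.1 + d + 1) + ε * (A + g0 / 4))
          ((J + σ.1) * (J + σ.1 + d + 1) + ε * (B - g0 / 4)) := by
  classical
  have hb'0 : 0 < b' := hb0.trans hb'.1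
  have hbI : b' ∈ Icc b0 b1 := ⟨hb'.1.le, hb'.2.le⟩
  have h := F.eig σ hσ b' hbI
  set Cl : Finset (Lbl σ.2) := Finset.univ.image e with hCl
  have hmemC : ∀ p : Lbl σ.2, p ∈ Cl ↔ mu b' p = J := fun p => by
    rw [hcl p, hCl]; simp
  obtain ⟨γ, hγ, h1, h2, h3⟩ := exists_gap (d := d) (q := σ.1) hb'0 (S := S) (Cl := Cl) hJ
    (fun p hp => (hS p).1 hp) (fun p hp => (hmemC p).1 hp)
    (fun p hp hp' => by
      have e1 : ¬ mu b' p < J := fun hh => hp ((hS p).2 hh)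
      have e2 : mu b' p ≠ J := fun hh => hp' ((hmemC p).2 hh)
      exact lt_of_le_of_ne (not_lt.1 e1) (Ne.symm e2))
  set lam : ℝ := (J + σ.1) * (J + σ.1 + d + 1) with hlamdef
  have hlam : 0 ≤ lam := by rw [hlamdef]; positivity
  obtain ⟨N0, hN0, K1, hK1, C1, hC1, o1, ho10, ho1, hblk⟩ := F.blkFam hσ hbI (S := S) (Cl := Cl)
    hlam hγ h1 h2 h3
  have hlevel : ∀ i j : Fin L, mu b' (e i) = mu b' (e j) := fun i j => by
    rw [(hcl (e i)).2 ⟨i, rfl⟩, (hcl (e j)).2 ⟨j, rfl⟩]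
  choose C2 hC20 o2 ho20 ho2 hfirst using fun i j : Fin L =>
    F.first σ hσ b' hb' (e i) (e j) (hlevel i j)
  set CC : ℝ := ∑ i, ∑ j, C2 i j with hCC
  have hCC0 : 0 ≤ CC := Finset.sum_nonneg fun i _ => Finset.sum_nonneg fun j _ => hC20 i j
  set oo : ℕ → ℝ := fun k => ∑ i, ∑ j, o2 i j k with hoo
  have hoo0 : ∀ k, 0 ≤ oo k := fun k =>
    Finset.sum_nonneg fun i _ => Finset.sum_nonneg fun j _ => ho20 i j k
  have hoolim : Tendsto oo atTop (𝓝 0) := by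
    have : Tendsto oo atTop (𝓝 (∑ _i : Fin L, ∑ _j : Fin L, (0:ℝ))) :=
      tendsto_finsetSum _ fun i _ => tendsto_finsetSum _ fun j _ => ho2 i j
    simpa using this
  -- constants
  set D1 : ℝ := 2 * R * C1 + 1 with hD1
  have hD10 : 0 < D1 := by positivity
  set ε0 : ℝ := min (min (1 / (2 * (R + 1))) (min ((b' - b0) / (R + 1)) ((b1 - b') / (R + 1))))
    (min (min (N0 / D1) (γ / (4 * (R + g0 + 1)))) (min (g0 / (16 * (K1 * D1 ^ 2 + 1)))
      (g0 / (16 * (CC * (2 * R) ^ 2 + 1))))) with hε0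
  have hbb0 : 0 < b' - b0 := sub_pos.2 hb'.1
  have hbb1 : 0 < b1 - b' := sub_pos.2 hb'.2
  have hε0pos : 0 < ε0 := by
    rw [hε0]
    refine lt_min (lt_min (by positivity) (lt_min (by positivity) (by positivity)))
      (lt_min (lt_min (by positivity) (by positivity)) (lt_min (by positivity) (by positivity)))
  refine ⟨ε0, hε0pos, fun ε hε hεε0 => ?_⟩
  have c1 : ε ≤ 1 / (2 * (R + 1)) := hεε0.trans ((min_le_left _ _).trans (min_le_left _ _))
  have c2 : ε ≤ (b' - b0) / (R + 1) :=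
    hεε0.trans ((min_le_left _ _).trans ((min_le_right _ _).trans (min_le_left _ _)))
  have c3 : ε ≤ (b1 - b') / (R + 1) :=
    hεε0.trans ((min_le_left _ _).trans ((min_le_right _ _).trans (min_le_right _ _)))
  have c4 : ε ≤ N0 / D1 :=
    hεε0.trans ((min_le_right _ _).trans ((min_le_left _ _).trans (min_le_left _ _)))
  have c5 : ε ≤ γ / (4 * (R + g0 + 1)) :=
    hεε0.trans ((min_le_right _ _).trans ((min_le_left _ _).trans (min_le_right _ _)))
  have c6 : ε ≤ g0 / (16 * (K1 * D1 ^ 2 + 1)) :=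
    hεε0.trans ((min_le_right _ _).trans ((min_le_right _ _).trans (min_le_left _ _)))
  have c7 : ε ≤ g0 / (16 * (CC * (2 * R) ^ 2 + 1)) :=
    hεε0.trans ((min_le_right _ _).trans ((min_le_right _ _).trans (min_le_right _ _)))
  rw [le_div_iff₀ (by positivity)] at c1 c2 c3 c4 c5 c6 c7
  obtain ⟨k1, hk1⟩ := (eventually_atTop.1 ((tendsto_order.1 ho1).2 ε hε))
  obtain ⟨k2, hk2⟩ := (eventually_atTop.1 ((tendsto_order.1 hoolim).2 (ε * g0 / 16)
    (by positivity)))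
  refine ⟨max k1 k2, fun k hk x hx G hG0 hG n f A B hA hB hAB hf => ?_⟩
  have hk1' := (hk1 k ((le_max_left _ _).trans hk)).le
  have hk2' := (hk2 k ((le_max_right _ _).trans hk)).le
  have hszε : F.sz (ε • G) = ε * F.sz G := by rw [F.sz_smul, abs_of_pos hε]
  have hεx : |ε * x| ≤ ε * R := by rw [abs_mul, abs_of_pos hε]; gcongr
  have hεG : ε * F.sz G ≤ ε * R := by gcongr
  have hεR : ε * R ≤ 1 / 2 := by linarith
  have hbx : b' + ε * x ∈ Icc b0 b1 := by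
    have h5 := abs_le.1 hεx
    constructor
    · linarith [h5.1]
    · linarith [h5.2]
  have hsz2 : F.sz (ε • G) ≤ 1 / 2 := by rw [hszε]; linarith
  have hG0' : (ε • G) 0 = 0 := by rw [Finsupp.smul_apply, hG0, smul_zero]
  have habs : |b' + ε * x - b'| = |ε * x| := by congr 1; ring
  refine ⟨hbx, hsz2, li_frm h he ?_ hf.li, ?_⟩
  · intro i hi
    have e1 := (hS (e i)).1 hi
    rw [(hcl (e i)).2 ⟨i, rfl⟩] at e1
    exact lt_irrefl _ e1
  set η : ℝ := C1 * (|b' + ε * x - b'| + F.sz (ε • G)) + o1 k with hη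
  have hη0 : 0 ≤ η := add_nonneg (mul_nonneg hC1 (add_nonneg (abs_nonneg _) (F.sz_nonneg _)))
    (ho10 k)
  have hηle : η ≤ D1 * ε := by
    rw [hη, habs, hszε, hD1]
    have h5 : C1 * (|ε * x| + ε * F.sz G) ≤ C1 * (ε * R + ε * R) := by gcongr
    linarith
  have hηN : η ≤ N0 := hηle.trans (by linarith)
  -- block error
  set Er : ℝ := CC * (2 * R * ε) ^ 2 + oo k with hEr
  have hEr0 : 0 ≤ Er := by
    have := hoo0 k
    positivity
  have hentry : ∀ i j : Fin L, |F.a σ (b' + ε * x) (ε • G) k (F.ψ σ b' (e i)) (F.ψ σ b' (e j)) -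
      ((if i = j then lam else 0) + ε * F.Xmat σ b' e x G i j)| ≤
      C2 i j * (2 * R * ε) ^ 2 + o2 i j k := by
    intro i j
    have h5 := hfirst i j (b' + ε * x) hbx (ε • G) hG0' hsz2 k
    have h6 : (if e i = e j then lev d σ.1 b' (e i) + (b' + ε * x - b') * slope d σ.1 b' (e i)
        else 0) + firstVar F.A F.B σ b' (e i) (e j) (ε • G) =
        (if i = j then lam else 0) + ε * F.Xmat σ b' e x G i j := by
      rw [firstVar_smul]
      unfold SpindleFamily.Xmat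
      by_cases hij : i = j
      · subst hij
        have hl : lev d σ.1 b' (e i) = lam := h2 (e i) ((hmemC (e i)).2 ((hcl (e i)).2 ⟨i, rfl⟩))
        simp only [if_true, hl]; ring
      · have : ¬ e i = e j := fun hh => hij (he hh)
        simp only [hij, this, if_false]; ring
    rw [h6] at h5
    refine h5.trans ?_
    have h7 : |b' + ε * x - b'| + F.sz (ε • G) ≤ 2 * R * ε := by
      rw [habs, hszε]; linarith
    have h8 : 0 ≤ |b' + ε * x - b'| + F.sz (ε • G) :=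
      add_nonneg (abs_nonneg _) (F.sz_nonneg _)
    have := hC20 i j
    gcongr
  have hblock : ∀ y : EuclideanSpace ℝ (Fin L),
      |F.a σ (b' + ε * x) (ε • G) k (Jmap (F.ψ σ b') e y) (Jmap (F.ψ σ b') e y) -
        (lam * ‖y‖ ^ 2 + ε * ⟪op (F.Xmat σ b' e x G) y, y⟫_ℝ)| ≤ Er * ‖y‖ ^ 2 := by
    intro y
    have h5 : F.a σ (b' + ε * x) (ε • G) k (Jmap (F.ψ σ b') e y) (Jmap (F.ψ σ b') e y) =
        ∑ i, ∑ j, y i * y j *
          F.a σ (b' + ε * x) (ε • G) k (F.ψ σ b' (e i)) (F.ψ σ b' (e j)) := by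
      rw [Jmap_apply]
      simp only [map_sum, map_smul, LinearMap.sum_apply, LinearMap.smul_apply, smul_eq_mul]
      rw [Finset.sum_comm]
      refine Finset.sum_congr rfl fun i _ => ?_
      rw [Finset.mul_sum]
      refine Finset.sum_congr rfl fun j _ => by ring
    have h6 : lam * ‖y‖ ^ 2 + ε * ⟪op (F.Xmat σ b' e x G) y, y⟫_ℝ =
        ∑ i, ∑ j, y i * y j * ((if i = j then lam else 0) + ε * F.Xmat σ b' e x G i j) := by
      rw [inner_op, EuclideanSpace.norm_sq_eq, Finset.mul_sum, Finset.mul_sum,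
        ← Finset.sum_add_distrib]
      refine Finset.sum_congr rfl fun i _ => ?_
      rw [Finset.mul_sum]
      have h7 : lam * ‖y i‖ ^ 2 = ∑ j, y i * y j * (if i = j then lam else 0) := by
        rw [Finset.sum_eq_single i]
        · simp; ring
        · intro j _ hj; simp [Ne.symm hj]
        · intro hh; exact absurd (Finset.mem_univ i) hh
      rw [h7, ← Finset.sum_add_distrib]
      refine Finset.sum_congr rfl fun j _ => by ring
    rw [h5, h6, ← Finset.sum_sub_distrib]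
    have hyi : ∀ i, |y i| ≤ ‖y‖ := fun i => by
      have := EuclideanSpace.norm_sq_eq y
      have h8 : ‖y i‖ ^ 2 ≤ ‖y‖ ^ 2 := by
        rw [this]
        exact Finset.single_le_sum (f := fun i => ‖y i‖ ^ 2) (fun j _ => sq_nonneg _)
          (Finset.mem_univ i)
      exact abs_le_of_sq_le_sq' (by simpa using h8) (norm_nonneg y) |> abs_le.2
    calc |∑ i, (∑ j, y i * y j * F.a σ (b' + ε * x) (ε • G) k (F.ψ σ b' (e i)) (F.ψ σ b' (e j)) -
          ∑ j, y i * y j * ((if i = j then lam else 0) + ε * F.Xmat σ b' e x G i j))|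
        ≤ ∑ i, |∑ j, y i * y j * F.a σ (b' + ε * x) (ε • G) k (F.ψ σ b' (e i)) (F.ψ σ b' (e j)) -
          ∑ j, y i * y j * ((if i = j then lam else 0) + ε * F.Xmat σ b' e x G i j)| :=
          Finset.abs_sum_le_sum_abs _ _
      _ ≤ ∑ i, ∑ j, ‖y‖ ^ 2 * (C2 i j * (2 * R * ε) ^ 2 + o2 i j k) := by
          refine Finset.sum_le_sum fun i _ => ?_
          rw [← Finset.sum_sub_distrib]
          refine (Finset.abs_sum_le_sum_abs _ _).trans (Finset.sum_le_sum fun j _ => ?_)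
          rw [← mul_sub, abs_mul, abs_mul]
          have h8 : |y i| * |y j| ≤ ‖y‖ ^ 2 := by
            rw [sq]; exact mul_le_mul (hyi i) (hyi j) (abs_nonneg _) (norm_nonneg _)
          have h9 : 0 ≤ C2 i j * (2 * R * ε) ^ 2 + o2 i j k := by
            have := hC20 i j; have := ho20 i j k; positivity
          exact mul_le_mul h8 (hentry i j) (abs_nonneg _) (by positivity)
      _ = Er * ‖y‖ ^ 2 := by
          rw [hEr, hCC, hoo]
          simp only [← Finset.mul_sum, Finset.sum_add_distrib, ← Finset.sum_mul]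
          ring
  have hsmall1 : K1 * η ^ 2 ≤ ε * g0 / 16 := by
    have h5 : η ^ 2 ≤ (D1 * ε) ^ 2 := pow_le_pow_left₀ hη0 hηle 2
    have h6 : K1 * η ^ 2 ≤ K1 * (D1 * ε) ^ 2 := mul_le_mul_of_nonneg_left h5 hK1
    have h7 : K1 * (D1 * ε) ^ 2 = ε * (K1 * D1 ^ 2 * ε) := by ring
    have h8 : K1 * D1 ^ 2 * ε ≤ g0 / 16 := by linarith
    have h9 := mul_le_mul_of_nonneg_left h8 hε.le
    linarith
  have hsmall2 : Er ≤ ε * g0 / 8 := by
    have h7 : CC * (2 * R * ε) ^ 2 = ε * (CC * (2 * R) ^ 2 * ε) := by ring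
    have h8 : CC * (2 * R) ^ 2 * ε ≤ g0 / 16 := by linarith
    have h9 := mul_le_mul_of_nonneg_left h8 hε.le
    rw [hEr]; linarith
  have hAR := abs_le.1 hA
  have hBR := abs_le.1 hB
  have hεA : -(ε * R) ≤ ε * A := by
    have := mul_le_mul_of_nonneg_left hAR.1 hε.le; linarith
  have hεB : ε * B ≤ ε * R := mul_le_mul_of_nonneg_left hBR.2 hε.le
  have hεg : ε * g0 ≤ ε * B - ε * A := by
    have := mul_le_mul_of_nonneg_left hAB hε.le; linarith
  have hεg0 : 0 < ε * g0 := by positivity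
  have hεγ : ε * R ≤ γ / 4 := by
    have : 0 ≤ ε * (g0 + 1) := by positivity
    linarith
  have hsep := hblk (b' + ε * x) hbx (ε • G) hG0' hsz2 k η rfl hηN
    ((Submodule.span ℝ (Set.range f)).map (Jmap (F.ψ σ b') e))
    (by
      rw [Submodule.map_le_iff_le_comap]
      intro y _
      exact Jmap_mem e y)
    (lam + ε * A + Er) (lam + ε * B - Er)
    (by linarith) (by linarith)
    (by
      rintro _ ⟨y, hy, rfl⟩
      have h5 := (abs_le.1 (hblock y)).2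
      have h6 := hf.le y hy
      have h7 := mul_le_mul_of_nonneg_left h6 hε.le
      rw [g_Jmap h he, real_inner_self_eq_norm_sq]
      linarith)
    (by
      intro z hz hzW
      obtain ⟨y, rfl⟩ := exists_Jmap_of_mem (e := e) hz
      have h5 := (abs_le.1 (hblock y)).1
      have h6 := hf.ge y (fun i => by
        have h7 := hzW (Jmap (F.ψ σ b') e (f i)) ⟨f i, Submodule.subset_span ⟨i, rfl⟩, rfl⟩
        rw [g_Jmap h he] at h7
        rw [real_inner_comm]; exact h7)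
      have h7 := mul_le_mul_of_nonneg_left h6 hε.le
      rw [g_Jmap h he, real_inner_self_eq_norm_sq]
      linarith)
    (by linarith)
  rw [← span_frm] at hsep
  refine hsep.mono h.gnn ?_ ?_ ?_
  · linarith
  · linarith
  · linarith

end Crest.Agent.R202.SF
end
end

-- ▼ part R202/GateDefs

/-!
# Row 202, PART C: frozen output of the abstract gate assembly

The loop of a gate is a closed polygon with `2 n + 4` edges in the `(b, G)`-plane:
* vertices `0, …, n`: approach `(b0, 0) = v_0 → … → v_n = (bL, G(1))`, independent of `κ`;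
* `v_{n+1} = (bL, G(κ))`, `v_{n+2} = (bR, G(κ))`, `v_{n+3} = (bR, G(1))`, `v_{n+4} = (bL, G(1))`;
* vertices `n+4+i = n-i`: the way back.
-/

set_option autoImplicit false

noncomputable section

open Filter Topology Set Module
open Crest.Agent.R202.Lab Crest.Agent.R202.Cut

namespace Crest.Agent.R202.SF

variable {d : ℕ} {b0 b1 : ℝ} {OK : ℕ × ℕ → Prop} {T : Type*} [AddCommGroup T] [Module ℝ T]
  {V : ℕ × ℕ → Type*} [∀ σ, AddCommGroup (V σ)] [∀ σ, Module ℝ (V σ)]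

/-- the frame `u_0, …, u_{l-2}, c₁ vB + c₂ vE` -/
def rotV {W : Type*} [AddCommGroup W] [Module ℝ W] {l : ℕ} (u : Fin l → W) (vB vE : W)
    (c : ℝ × ℝ) : Fin (l + 1) → W := Fin.snoc u (c.1 • vB + c.2 • vE)

/-- **output of the abstract gate assembly** for the designated cut `ls + 1` of the sector `σs` -/
structure GateOut (F : SpindleFamily d b0 b1 OK T V) (S : Finset (ℕ × ℕ)) (N : ℕ × ℕ → ℕ)
    (σs : ℕ × ℕ) (ls : ℕ) (δ : ℝ) where
  n : ℕ
  vb : ℕ → ℝ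
  G0 : ℕ → (ℕ →₀ T)
  G1 : ℕ → (ℕ →₀ T)
  n_pos : 0 < n
  start_b : vb 0 = b0
  start_G0 : G0 0 = 0
  start_G1 : G1 0 = 0
  appr : ∀ i ≤ n, G1 i = 0
  b_w1 : vb (n + 1) = vb n
  b_w3 : vb (n + 3) = vb (n + 2)
  G_w12 : G0 (n + 1) = G0 (n + 2)
  G_w12' : G1 (n + 1) = G1 (n + 2)
  G_w1 : G0 (n + 1) + G1 (n + 1) = G0 n
  G_w3 : G0 (n + 3) = G0 n
  G_w3' : G1 (n + 3) = 0
  pal : ∀ i ≤ n, vb (n + 4 + i) = vb (n - i) ∧ G0 (n + 4 + i) = G0 (n - i) ∧ G1 (n + 4 + i) = 0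
  mem : ∀ i, vb i ∈ Icc b0 b1
  freq0 : ∀ i, G0 i 0 = 0 ∧ G1 i 0 = 0
  sz_le : ∀ i, ∀ κ ∈ Icc (-1 : ℝ) 1, F.sz (G0 i + κ • G1 i) ≤ δ
  moves : b0 < vb n
  K : ℕ
  /-- openness of the cuts along the polygon -/
  isOpen : ∀ k, K ≤ k → ∀ σ ∈ S, ∀ l ≤ N σ, ∀ κ ∈ Icc (-1 : ℝ) 1,
    ((σ, l) ≠ (σs, ls + 1) ∨ κ = 1 ∨ κ = -1) → ∀ i < 2 * n + 4, ∀ s ∈ Icc (0 : ℝ) 1,
    ∃ b' ∈ Icc b0 b1, IsOpenIn (F.g σ) (F.a σ ((1 - s) * vb i + s * vb (i + 1))
      ((1 - s) • (G0 i + κ • G1 i) + s • (G0 (i + 1) + κ • G1 (i + 1))) k)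
      (Submodule.span ℝ (Set.range (F.ψ σ b'))) l
  /-- the window: the resonance `bs` and the vectors of the trial frames -/
  bs : ℝ
  bs_mem : bs ∈ Ioo b0 b1
  u : Fin ls → V σs
  vB : V σs
  vE : V σs
  u_mem : ∀ i, u i ∈ Submodule.span ℝ (Set.range (F.ψ σs bs))
  vB_mem : vB ∈ Submodule.span ℝ (Set.range (F.ψ σs bs))
  vE_mem : vE ∈ Submodule.span ℝ (Set.range (F.ψ σs bs))
  /-- `u, vB, vE` are `g`-orthonormal -/
  on_u : ∀ i j, F.g σs (u i) (u j) = if i = j then 1 else 0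
  on_uB : ∀ i, F.g σs (u i) vB = 0
  on_uE : ∀ i, F.g σs (u i) vE = 0
  on_BE : F.g σs vB vE = 0
  on_B : F.g σs vB vB = 1
  on_E : F.g σs vE vE = 1
  /-- the rotating last vector on the window edges `n, …, n+3` (parameter `τ ∈ [0,4]`) -/
  c : ℝ → ℝ → ℝ × ℝ
  c_cont : ∀ κ, Continuous (c κ)
  c_circle : ∀ κ τ, (c κ τ).1 ^ 2 + (c κ τ).2 ^ 2 = 1
  c_start : ∀ κ, κ = 1 ∨ κ = -1 → c κ 0 = (0, -1)
  c_end : ∀ κ, κ = 1 ∨ κ = -1 → c κ 4 = (0, -κ)
  window : ∀ k, K ≤ k → ∀ κ, κ = 1 ∨ κ = -1 → ∀ i < 4, ∀ s ∈ Icc (0 : ℝ) 1, ∃ A B : ℝ,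
    Sep (F.g σs) (F.a σs ((1 - s) * vb (n + i) + s * vb (n + i + 1))
      ((1 - s) • (G0 (n + i) + κ • G1 (n + i)) + s • (G0 (n + i + 1) + κ • G1 (n + i + 1))) k)
      (Submodule.span ℝ (Set.range (rotV u vB vE (c κ (i + s))))) A B

/-- **the gate theorem** (statement; proved in `GateThm.lean`) -/
def GateThm (F : SpindleFamily d b0 b1 OK T V) : Prop :=
  0 < b0 → (∀ (s l : ℕ), ¬ Closed b0 s l) →
  ∀ (S : Finset (ℕ × ℕ)) (N : ℕ × ℕ → ℕ), (∀ σ ∈ S, OK σ ∧ σ.2 ≤ 1) →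
  ∀ (σs : ℕ × ℕ) (ls : ℕ), σs ∈ S → ls + 1 ≤ N σs →
    (∃ b, b0 < b ∧ b < b1 ∧ Closed b σs.2 (ls + 1)) →
  ∀ δ : ℝ, 0 < δ → Nonempty (GateOut F S N σs ls δ)

end Crest.Agent.R202.SF
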