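import Crest.Agent.R202.InstForm
import Crest.Agent.R202.Fou5
import Crest.Agent.R202.CluDefs
import Mathlib
import Crest.Agent.R202.SpinLink
import Crest.Agent.R202.SpFam
import Crest.Agent.R202.GateDefs
import Crest.Agent.R202.PolyJet

-- ▼ part R202/InstCons
section

/-!
# Row 202: instantiation of the abstract spindle family, part 2: consistency (P3) (helper98)
-/

set_option autoImplicit false

open MeasureTheory Set Filter
open scoped Topology ContDiff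
open Crest.Agent.R202.Mod Crest.Agent.R202.Cut Crest.Agent.R202.PL Crest.Agent.R202.Clu

noncomputable section

namespace Crest.Agent.R202.Inst

theorem sqrt_add_le {a b : ℝ} (ha : 0 ≤ a) (hb : 0 ≤ b) : √(a + b) ≤ √a + √b := by
  rw [Real.sqrt_le_left (by positivity), add_sq, Real.sq_sqrt ha, Real.sq_sqrt hb]
  nlinarith [mul_nonneg (Real.sqrt_nonneg a) (Real.sqrt_nonneg b)]

/-- `L²` size of the tip -/
def tipN (d : ℕ) (h : ℝ → ℝ) : ℝ := √(∫ z, h z.1 ^ 2 ∂(mu d))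

theorem tipN_nonneg (d : ℕ) (h : ℝ → ℝ) : 0 ≤ tipN d h := Real.sqrt_nonneg _

theorem tendsto_tipN (d : ℕ) {hs : ℕ → ℝ → ℝ} (hm : ∀ k, Measurable (hs k))
    (h0 : ∀ k x, 0 ≤ hs k x) (h1 : ∀ k x, hs k x ≤ 1) {ε : ℕ → ℝ} (hε : Tendsto ε atTop (𝓝 0))
    (hsm : ∀ k, ∀ x ∈ Icc (0 : ℝ) 1, hs k x * (1 - x ^ 2) ≤ ε k) :
    Tendsto (fun k => tipN d (hs k)) atTop (𝓝 0) := by
  have key : Tendsto (fun k => ∫ z, hs k z.1 ^ 2 ∂(mu d)) atTop (𝓝 (∫ _, (0 : ℝ) ∂(mu d))) := by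
    refine tendsto_integral_of_dominated_convergence (fun _ => (1 : ℝ))
      (fun k => ((hm k).comp measurable_fst).pow_const 2 |>.aestronglyMeasurable)
      (integrable_const _) (fun k => Filter.Eventually.of_forall fun z => ?_) ?_
    · rw [Real.norm_eq_abs, abs_of_nonneg (sq_nonneg _)]
      have := h0 k z.1
      have := h1 k z.1
      nlinarith
    · filter_upwards [ae_mem_Om d] with z hz
      have hx : 0 < 1 - z.1 ^ 2 := by have := sq_lt_one_of_mem hz.1; linarith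
      have hlim : Tendsto (fun k => ε k / (1 - z.1 ^ 2)) atTop (𝓝 0) := by
        simpa using hε.div_const (1 - z.1 ^ 2)
      refine squeeze_zero (fun k => sq_nonneg _) (fun k => ?_) hlim
      rw [le_div_iff₀ hx]
      have e1 := hsm k z.1 ⟨hz.1.1.le, hz.1.2.le⟩
      have e2 := h0 k z.1
      have e3 := h1 k z.1
      calc hs k z.1 ^ 2 * (1 - z.1 ^ 2) = hs k z.1 * (hs k z.1 * (1 - z.1 ^ 2)) := by ring
        _ ≤ 1 * (hs k z.1 * (1 - z.1 ^ 2)) := by
            have : 0 ≤ hs k z.1 * (1 - z.1 ^ 2) := by positivity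
            gcongr
        _ ≤ ε k := by linarith
  rw [integral_zero] at key
  have := (Real.continuous_sqrt.tendsto 0).comp key
  rw [Real.sqrt_zero] at this
  exact this

variable {Xa Xb : ℝ}

theorem dev_prof_le (d : ℕ) {h : ℝ → ℝ} (hm : Measurable h) (h0 : ∀ x, 0 ≤ h x) (h1 : ∀ x, h x ≤ 1) {b β : ℝ}
    (hb : 1 ≤ b) (hbβ : b ≤ β) (G : ℕ →₀ TF Xa Xb) :
    dev d (prof h b G) ≤ √2 * (β - 1) * tipN d h + √2 * √((mu d).real univ) * jetN G := by
  have hβ : 0 ≤ β - 1 := by linarith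
  have hsz := jetN_nonneg G
  have i1 : Integrable (fun z : ℝ × ℝ => h z.1 ^ 2) (mu d) := by
    refine Integrable.mono' (integrable_const (1 : ℝ))
      ((hm.comp measurable_fst).pow_const 2).aestronglyMeasurable ?_
    refine Filter.Eventually.of_forall fun z => ?_
    rw [Real.norm_eq_abs, abs_of_nonneg (sq_nonneg _)]
    have := h0 z.1
    have := h1 z.1
    nlinarith
  have hle : ∫ z, (prof h b G z - 1) ^ 2 ∂(mu d) ≤
      2 * (β - 1) ^ 2 * (∫ z, h z.1 ^ 2 ∂(mu d)) + 2 * (mu d).real univ * jetN G ^ 2 := by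
    have e1 : ∫ z, (prof h b G z - 1) ^ 2 ∂(mu d) ≤
        ∫ z : ℝ × ℝ, (2 * (β - 1) ^ 2 * h z.1 ^ 2 + 2 * jetN G ^ 2) ∂(mu d) := by
      refine integral_mono_of_nonneg (Filter.Eventually.of_forall fun z => sq_nonneg _)
        ((i1.const_mul _).add (integrable_const _)) (Filter.Eventually.of_forall fun z => ?_)
      have e2 := abs_Gf_le G z
      have e3 : Gf G z ^ 2 ≤ jetN G ^ 2 := by
        rw [← sq_abs]; exact pow_le_pow_left₀ (abs_nonneg _) e2 2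
      have e4 : ((b - 1) * h z.1) ^ 2 ≤ (β - 1) ^ 2 * h z.1 ^ 2 := by
        rw [mul_pow]
        have : (b - 1) ^ 2 ≤ (β - 1) ^ 2 := pow_le_pow_left₀ (by linarith) (by linarith) 2
        gcongr
      show (1 + (b - 1) * h z.1 + Gf G z - 1) ^ 2 ≤ _
      nlinarith [sq_nonneg ((b - 1) * h z.1 - Gf G z)]
    refine e1.trans (le_of_eq ?_)
    rw [integral_add (i1.const_mul _) (integrable_const _), integral_const_mul, integral_const,
      smul_eq_mul]
    ring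
  unfold dev
  refine (Real.sqrt_le_sqrt hle).trans ?_
  have i0 : 0 ≤ ∫ z, h z.1 ^ 2 ∂(mu d) := integral_nonneg fun z => sq_nonneg _
  refine (sqrt_add_le (by positivity) (by positivity)).trans (le_of_eq ?_)
  unfold tipN
  rw [Real.sqrt_mul (by positivity), Real.sqrt_mul (by norm_num), Real.sqrt_sq hβ,
    Real.sqrt_mul (by positivity), Real.sqrt_mul (by norm_num), Real.sqrt_sq hsz]

/-- **(P3)**, consistency, for every `u` in the core space -/
theorem aform_cons (d : ℕ) (σ : ℕ × ℕ) {b0 b1 : ℝ} (hb0 : 1 ≤ b0) {hs : ℕ → ℝ → ℝ}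
    (hm : ∀ k, Measurable (hs k)) (h0 : ∀ k x, 0 ≤ hs k x) (h1 : ∀ k x, hs k x ≤ 1) {ε : ℕ → ℝ}
    (hε : Tendsto ε atTop (𝓝 0)) (hsm : ∀ k, ∀ x ∈ Icc (0 : ℝ) 1, hs k x * (1 - x ^ 2) ≤ ε k)
    {b' : ℝ} (hb' : b' ∈ Icc b0 b1) (u : CT.VV σ) :
    ∃ C : ℝ, 0 ≤ C ∧ ∃ o : ℕ → ℝ, (∀ k, 0 ≤ o k) ∧ Tendsto o atTop (𝓝 0) ∧
    ∀ b ∈ Icc b0 b1, ∀ G : ℕ →₀ TF Xa Xb, jetN G ≤ 1 / 2 → ∀ k v,
      (aform d σ b (prof (hs k) b G) u v - a0form d σ b' u v) ^ 2 ≤
        (C * (|b - b'| + jetN G) + o k) ^ 2 * (a0form d σ b' v v + g d σ.1 σ.2 v v) := by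
  obtain ⟨C0, hC0, hC⟩ := Q_sub_le (q := σ.1) (par := σ.2) d u (b1 + 2) b1
  have hb1 : 1 ≤ b1 := hb0.trans (hb'.1.trans hb'.2)
  have hM : 0 ≤ √((mu d).real univ) := Real.sqrt_nonneg _
  refine ⟨C0 * (1 + √2 * √((mu d).real univ)), by positivity,
    fun k => C0 * (√2 * (b1 - 1) * tipN d (hs k)), fun k => ?_, ?_, fun b hb G hG k v => ?_⟩
  · have := tipN_nonneg d (hs k)
    have : 0 ≤ b1 - 1 := by linarith
    positivity
  · have := (tendsto_tipN d hm h0 h1 hε hsm).const_mul (C0 * (√2 * (b1 - 1)))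
    simpa [mul_assoc] using this
  · have hP := adm_prof d (hm k) (h0 k) (h1 k) (hb0.trans hb.1) hb.2 hG
    have hdev := dev_prof_le d (hm k) (h0 k) (h1 k) (hb0.trans hb.1) hb.2 G
    have h2 := hC (prof (hs k) b G) hP b b' (by linarith [hb.1]) hb.2 (by linarith [hb'.1]) hb'.2 v
    rw [Clu.aform_eq σ b hP]
    have hQ1 : Q σ.1 σ.2 (adm_one d) 1 v v ≤ a0form d σ b' v v + g d σ.1 σ.2 v v := by
      have e1 := Q_le (adm_one d) (b := 1) (b1 := b') (β := 1) (by norm_num) le_rfl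
        (hb0.trans hb'.1) le_rfl v
      have e2 := g_nonneg (d := d) v
      unfold a0form
      linarith
    have hS := Q_nonneg (adm_one d) 1 v
    have hszG := jetN_nonneg G
    have htip := tipN_nonneg d (hs k)
    have h3 : |Q σ.1 σ.2 hP b u v - Q σ.1 σ.2 (adm_one d) b' u v| ≤
        (C0 * (1 + √2 * √((mu d).real univ)) * (|b - b'| + jetN G) +
          C0 * (√2 * (b1 - 1) * tipN d (hs k))) * √(Q σ.1 σ.2 (adm_one d) 1 v v) := by
      refine h2.trans ?_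
      refine mul_le_mul_of_nonneg_right ?_ (Real.sqrt_nonneg _)
      have e1 : C0 * (|b - b'| + dev d (prof (hs k) b G)) ≤ C0 * (|b - b'| +
          (√2 * (b1 - 1) * tipN d (hs k) + √2 * √((mu d).real univ) * jetN G)) := by gcongr
      refine e1.trans ?_
      have e2 : 0 ≤ C0 * (√2 * √((mu d).real univ)) * |b - b'| := by positivity
      have e3 : 0 ≤ C0 * jetN G := by positivity
      nlinarith
    calc (Q σ.1 σ.2 hP b u v - a0form d σ b' u v) ^ 2
        = |Q σ.1 σ.2 hP b u v - Q σ.1 σ.2 (adm_one d) b' u v| ^ 2 := (sq_abs _).symm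
      _ ≤ ((C0 * (1 + √2 * √((mu d).real univ)) * (|b - b'| + jetN G) +
          C0 * (√2 * (b1 - 1) * tipN d (hs k))) * √(Q σ.1 σ.2 (adm_one d) 1 v v)) ^ 2 :=
          pow_le_pow_left₀ (abs_nonneg _) h3 2
      _ = (C0 * (1 + √2 * √((mu d).real univ)) * (|b - b'| + jetN G) +
          C0 * (√2 * (b1 - 1) * tipN d (hs k))) ^ 2 * Q σ.1 σ.2 (adm_one d) 1 v v := by
          rw [mul_pow, Real.sq_sqrt hS]
      _ ≤ _ := by gcongr

end Crest.Agent.R202.Inst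
end
end

-- ▼ part R202/FouEig
section

/-! Row 202, PART C (helper206): field `eig` of the spindle family for helper58's `psiN`. -/

set_option autoImplicit false

open MeasureTheory Set

noncomputable section

namespace Crest.Agent.R202.Mod

theorem nsq_eq (d q : ℕ) (b : ℝ) (p : ℕ × ℕ) :
    Clu.nsq d q b p = Fou.ntrg p.1 * Fou.nh d q (p.1 * b) p.2 := by
  have : (p.1 : ℝ) * b = b * p.1 := mul_comm _ _
  rw [this]
  rfl

/-- **(P0), field `eig`** -/
theorem eig_psiN {d q par : ℕ} (hadm : d = 0 → q ≤ 1) {b : ℝ} (hb : 1 ≤ b) :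
    Cut.Eig (g d q par) (Q q par (adm_one d) b)
      (fun p : SF.Lbl par => Clu.psiN d q par b p) (fun p : SF.Lbl par => SF.lev d q b p) := by
  have h := eig_main (q := q) (par := par) (d := d) hadm hb
    (fun p => (Real.sqrt (Clu.nsq d q b p))⁻¹) (fun p => by
      have hpos : 0 < Clu.nsq d q b p := Clu.nsq_pos d q (by linarith) p
      rw [← nsq_eq, inv_pow, Real.sq_sqrt hpos.le, inv_mul_cancel₀ hpos.ne'])
  exact h

end Crest.Agent.R202.Mod
end
end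

-- ▼ part R202/CluFirst
section

/-! Row 202, PART C4 (helper58): field `first` (P4) of the spindle family: first variation of the
form on pairs of spindle eigenfunctions of equal level. -/

set_option autoImplicit false

open MeasureTheory Set Filter
open scoped Topology ContDiff
open Crest.Agent.R202.Mod Crest.Agent.R202.Lab

noncomputable section

namespace Crest.Agent.R202.Clu

/-! ### trigonometric factors -/

/-- `∫ cos(aφ) trig_m trig_n` -/
def tT (par a m n : ℕ) : ℝ := if par = 0 then tcc a m n else tss a m n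

/-- `∫ cos(aφ) trig_m' trig_n'` -/
def tD (par a m n : ℕ) : ℝ := m * n * (if par = 0 then tss a m n else tcc a m n)

theorem int_trig (par a m n : ℕ) :
    ∫ φ in Ioo (0:ℝ) Real.pi, Real.cos (a * φ) * (trig par m φ * trig par n φ) = tT par a m n := by
  unfold trig tT
  by_cases h : par = 0
  · simp only [h, if_true]
    exact int_cos_cos_cos a m n
  · simp only [h, if_false]
    exact int_cos_sin_sin a m n

theorem int_trigD (par a m n : ℕ) :
    ∫ φ in Ioo (0:ℝ) Real.pi, Real.cos (a * φ) * (trigD par m φ * trigD par n φ) =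
      tD par a m n := by
  unfold trigD tD
  by_cases h : par = 0
  · simp only [h, if_true]
    rw [← int_cos_sin_sin a m n, ← integral_const_mul]
    congr 1; funext φ; ring
  · simp only [h, if_false]
    rw [← int_cos_cos_cos a m n, ← integral_const_mul]
    congr 1; funext φ; ring

/-! ### modes -/

theorem fW_smul_smul {q par d : ℕ} {W : Fin 4 → ℝ × ℝ → ℝ} (hW : Coef d W) (c c' : ℝ)
    (u v : VS q par) :
    fW d q par W (c • u : VS q par) (c' • v : VS q par) = c * c' * fW d q par W u v := by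
  have h : formW q par hW (c • u) (c' • v) = c * c' * formW q par hW u v := by
    rw [LinearMap.BilinForm.smul_left, LinearMap.BilinForm.smul_right]; ring
  exact h

/-- the first variation in the direction `η(x) cos(aφ)` on a pair of pure modes -/
theorem fW_W1_mode {q par d : ℕ} (b1 : ℝ) {u v : VS q par} {m n : ℕ} {R S : ℝ → ℝ}
    (hu : (u : ℕ →₀ (ℝ → ℝ)) = Finsupp.single m R) (hv : (v : ℕ →₀ (ℝ → ℝ)) = Finsupp.single n S)
    (a : ℕ) (η : ℝ → ℝ)
    (hW : Coef d (W1 b1 fun z => η z.1 * Real.cos (a * z.2))) :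
    fW d q par (W1 b1 fun z => η z.1 * Real.cos (a * z.2)) u v =
      tT par a m n * (∫ x in Ioo (0:ℝ) 1, x ^ d * (η x * (rcomp d q R 1 x * rcomp d q S 1 x))) -
      b1 ^ 2 * (tD par a m n *
        ∫ x in Ioo (0:ℝ) 1, x ^ d * (η x * (rcomp d q R 2 x * rcomp d q S 2 x))) := by
  rw [fW_eq_sum hW u v, Fin.sum_univ_four, hu, hv]
  have e0 : ∫ z, W1 b1 (fun z => η z.1 * Real.cos (a * z.2)) 0 z *
      comp d q par (Finsupp.single m R) 0 z * comp d q par (Finsupp.single n S) 0 z ∂(Mod.mu d) = 0 := by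
    simp [W1]
  have e3 : ∫ z, W1 b1 (fun z => η z.1 * Real.cos (a * z.2)) 3 z *
      comp d q par (Finsupp.single m R) 3 z * comp d q par (Finsupp.single n S) 3 z ∂(Mod.mu d) = 0 := by
    simp [W1]
  have e1 : ∫ z, W1 b1 (fun z => η z.1 * Real.cos (a * z.2)) 1 z *
      comp d q par (Finsupp.single m R) 1 z * comp d q par (Finsupp.single n S) 1 z ∂(Mod.mu d) =
      tT par a m n *
        (∫ x in Ioo (0:ℝ) 1, x ^ d * (η x * (rcomp d q R 1 x * rcomp d q S 1 x))) := by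
    rw [← int_trig, mul_comm, ← integral_mu_prod d
      (fun x => η x * (rcomp d q R 1 x * rcomp d q S 1 x))
      (fun φ => Real.cos (a * φ) * (trig par m φ * trig par n φ))]
    congr 1; funext z
    rw [comp_single, comp_single]
    simp only [W1, acomp, Fin.reduceEq, if_false]
    ring
  have e2 : ∫ z, W1 b1 (fun z => η z.1 * Real.cos (a * z.2)) 2 z *
      comp d q par (Finsupp.single m R) 2 z * comp d q par (Finsupp.single n S) 2 z ∂(Mod.mu d) =
      -(b1 ^ 2 * (tD par a m n *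
        ∫ x in Ioo (0:ℝ) 1, x ^ d * (η x * (rcomp d q R 2 x * rcomp d q S 2 x)))) := by
    rw [← int_trigD, mul_comm (∫ φ in Ioo (0:ℝ) Real.pi, _), ← integral_mu_prod d
      (fun x => η x * (rcomp d q R 2 x * rcomp d q S 2 x))
      (fun φ => Real.cos (a * φ) * (trigD par m φ * trigD par n φ)), ← integral_const_mul,
      ← integral_neg]
    congr 1; funext z
    rw [comp_single, comp_single]
    simp only [W1, acomp, if_true]
    ring
  rw [e0, e1, e2, e3]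
  ring

theorem fW_WS_mode {q par d : ℕ} {u v : VS q par} {m n : ℕ} {R S : ℝ → ℝ}
    (hu : (u : ℕ →₀ (ℝ → ℝ)) = Finsupp.single m R)
    (hv : (v : ℕ →₀ (ℝ → ℝ)) = Finsupp.single n S) :
    fW d q par WS u v = tD par 0 m n *
        ∫ x in Ioo (0:ℝ) 1, x ^ d * (rcomp d q R 2 x * rcomp d q S 2 x) := by
  rw [fW_eq_sum (coef_WS d) u v, Fin.sum_univ_four, hu, hv]
  have e2 : ∫ z, WS 2 z *
      comp d q par (Finsupp.single m R) 2 z * comp d q par (Finsupp.single n S) 2 z ∂(Mod.mu d) =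
      tD par 0 m n *
        ∫ x in Ioo (0:ℝ) 1, x ^ d * (rcomp d q R 2 x * rcomp d q S 2 x) := by
    rw [← int_trigD, mul_comm, ← integral_mu_prod d
      (fun x => rcomp d q R 2 x * rcomp d q S 2 x)
      (fun φ => Real.cos ((0:ℕ) * φ) * (trigD par m φ * trigD par n φ))]
    congr 1; funext z
    rw [comp_single, comp_single]
    simp only [WS, acomp, if_true, Nat.cast_zero, zero_mul, Real.cos_zero]
    ring
  rw [e2]
  simp [WS]

/-! ### spindle modes -/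

theorem deriv_trunc_Rj (d q : ℕ) (μ : ℝ) (j : ℕ) {x : ℝ} (hx : x ^ 2 < 1) :
    deriv (trunc (Rj d q μ j)) x = dRj d q μ j x := by
  have h : HasDerivAt (trunc (Rj d q μ j)) (dRj d q μ j x) x :=
    (Rj_hasDerivAt d q μ j (by linarith)).congr_of_eventuallyEq (trunc_eventuallyEq hx)
  exact h.deriv

/-- `I1 = ∫ η x^d (1-x²) R' S'`. -/
theorem rad_one (d q : ℕ) (μ : ℝ) (j : ℕ) (μ' : ℝ) (j' : ℕ) (η : ℝ → ℝ) :
    ∫ x in Ioo (0:ℝ) 1, x ^ d * (η x * (rcomp d q (trunc (Rj d q μ j)) 1 x *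
      rcomp d q (trunc (Rj d q μ' j')) 1 x)) =
    ∫ x in Ioo (0:ℝ) 1, η x * (x ^ d * ((1 - x ^ 2) * (dRj d q μ j x * dRj d q μ' j' x))) := by
  refine setIntegral_congr_fun measurableSet_Ioo fun x hx => ?_
  have hx2 := sq_lt_one_of_mem hx
  simp only [rcomp]
  rw [deriv_trunc_Rj d q μ j hx2, deriv_trunc_Rj d q μ' j' hx2, ← rh_sq hx2]
  ring

/-- `I2 = ∫ η x^d R S / (1-x²)`. -/
theorem rad_two (d q : ℕ) (μ : ℝ) (j : ℕ) (μ' : ℝ) (j' : ℕ) (η : ℝ → ℝ) :
    ∫ x in Ioo (0:ℝ) 1, x ^ d * (η x * (rcomp d q (trunc (Rj d q μ j)) 2 x *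
      rcomp d q (trunc (Rj d q μ' j')) 2 x)) =
    ∫ x in Ioo (0:ℝ) 1, η x * (x ^ d * (1 / (1 - x ^ 2) * (Rj d q μ j x * Rj d q μ' j' x))) := by
  refine setIntegral_congr_fun measurableSet_Ioo fun x hx => ?_
  have hx2 := sq_lt_one_of_mem hx
  have hrh := rh_pos hx2
  simp only [rcomp]
  rw [trunc_of_lt hx2, trunc_of_lt hx2, ← rh_sq hx2]
  field_simp

theorem rad_two' (d q : ℕ) (μ : ℝ) (j : ℕ) :
    ∫ x in Ioo (0:ℝ) 1, x ^ d * (rcomp d q (trunc (Rj d q μ j)) 2 x *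
      rcomp d q (trunc (Rj d q μ j)) 2 x) = sj1 d q μ j := by
  unfold sj1
  refine setIntegral_congr_fun measurableSet_Ioo fun x hx => ?_
  have hx2 := sq_lt_one_of_mem hx
  have hrh := rh_pos hx2
  simp only [rcomp]
  rw [trunc_of_lt hx2, ← rh_sq hx2]
  field_simp

theorem dens_one_cont (d q : ℕ) (μ : ℝ) (j : ℕ) (μ' : ℝ) (j' : ℕ) :
    ContinuousOn (fun x => x ^ d * ((1 - x ^ 2) * (dRj d q μ j x * dRj d q μ' j' x)))
      (Ioo 0 1) := by
  have h := ((linkDen_cont01 d q μ j μ' j').add (linkDenP_cont01 d q μ j μ' j')).div_const 2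
  refine h.congr fun x _ => ?_
  simp only [Pi.add_apply, linkDen, linkDenP]
  ring

theorem Rj_cont01 (d q : ℕ) (μ : ℝ) (j : ℕ) : ContinuousOn (Rj d q μ j) (Ioo 0 1) :=
  fun x hx => (Rj_hasDerivAt d q μ j (by have := sq_lt_one_of_mem hx; linarith)).continuousAt.continuousWithinAt

theorem dens_two_cont (d q : ℕ) (μ : ℝ) (j : ℕ) (μ' : ℝ) (j' : ℕ) :
    ContinuousOn (fun x => x ^ d * (1 / (1 - x ^ 2) * (Rj d q μ j x * Rj d q μ' j' x)))
      (Ioo 0 1) := by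
  refine (continuous_pow d).continuousOn.mul (ContinuousOn.mul ?_
    ((Rj_cont01 d q μ j).mul (Rj_cont01 d q μ' j')))
  refine ContinuousOn.div (by fun_prop) (by fun_prop) fun x hx => ?_
  have := sq_lt_one_of_mem hx
  linarith

variable {Xa Xb : ℝ}

theorem int_linkDen (ha : 0 < Xa) (hb : Xb < 1) (d q : ℕ) (μ : ℝ) (j : ℕ) (μ' : ℝ) (j' : ℕ)
    (η : TF Xa Xb) :
    ∫ x in Ioo (0:ℝ) 1, (η : ℝ → ℝ) x * linkDen d q μ j μ' j' x =
      (∫ x in Ioo (0:ℝ) 1, (η : ℝ → ℝ) x *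
        (x ^ d * ((1 - x ^ 2) * (dRj d q μ j x * dRj d q μ' j' x)))) -
      μ * μ' * ∫ x in Ioo (0:ℝ) 1, (η : ℝ → ℝ) x *
        (x ^ d * (1 / (1 - x ^ 2) * (Rj d q μ j x * Rj d q μ' j' x))) := by
  rw [← integral_const_mul, ← integral_sub (integrableOn_TF ha hb (dens_one_cont d q μ j μ' j') η)
    ((integrableOn_TF ha hb (dens_two_cont d q μ j μ' j') η).const_mul _)]
  congr 1; funext x
  unfold linkDen; ring

theorem int_linkDenP (ha : 0 < Xa) (hb : Xb < 1) (d q : ℕ) (μ : ℝ) (j : ℕ) (μ' : ℝ) (j' : ℕ)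
    (η : TF Xa Xb) :
    ∫ x in Ioo (0:ℝ) 1, (η : ℝ → ℝ) x * linkDenP d q μ j μ' j' x =
      (∫ x in Ioo (0:ℝ) 1, (η : ℝ → ℝ) x *
        (x ^ d * ((1 - x ^ 2) * (dRj d q μ j x * dRj d q μ' j' x)))) +
      μ * μ' * ∫ x in Ioo (0:ℝ) 1, (η : ℝ → ℝ) x *
        (x ^ d * (1 / (1 - x ^ 2) * (Rj d q μ j x * Rj d q μ' j' x))) := by
  rw [← integral_const_mul, ← integral_add (integrableOn_TF ha hb (dens_one_cont d q μ j μ' j') η)
    ((integrableOn_TF ha hb (dens_two_cont d q μ j μ' j') η).const_mul _)]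
  congr 1; funext x
  unfold linkDenP; ring

theorem TF_bdd (η : TF Xa Xb) : ∃ C : ℝ, ∀ x, |(η : ℝ → ℝ) x| ≤ C := by
  obtain ⟨C, hC⟩ := (isCompact_Icc (a := Xa) (b := Xb)).exists_bound_of_continuousOn
    (TF.continuous η).continuousOn
  refine ⟨|C|, fun x => ?_⟩
  by_cases hx : x ∈ Icc Xa Xb
  · exact (hC x hx).trans (le_abs_self C)
  · rw [TF.eq_zero η hx, abs_zero]; exact abs_nonneg C

theorem coef_mode (d : ℕ) (b1 : ℝ) (a : ℕ) (η : TF Xa Xb) :
    Coef d (W1 b1 fun z => (η : ℝ → ℝ) z.1 * Real.cos (a * z.2)) := by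
  obtain ⟨C, hC⟩ := TF_bdd η
  refine coef_W1 (γ := C) b1 ?_ (fun z _ => ?_)
  · have : Continuous fun z : ℝ × ℝ => (η : ℝ → ℝ) z.1 * Real.cos (a * z.2) :=
      ((TF.continuous η).comp continuous_fst).mul (by fun_prop)
    exact this.aestronglyMeasurable
  · rw [abs_mul]
    calc |(η : ℝ → ℝ) z.1| * |Real.cos (a * z.2)| ≤ |(η : ℝ → ℝ) z.1| * 1 := by
          gcongr; exact Real.abs_cos_le_one _
      _ ≤ C := by rw [mul_one]; exact hC _

/-- the value of the first variation on a pair of spindle functions. -/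
theorem fW_W1_psi (ha : 0 < Xa) (hb : Xb < 1) (d q par : ℕ) {b : ℝ} (hb1 : 1 ≤ b)
    {p p' : ℕ × ℕ} (hp : par ≤ p.1) (hp' : par ≤ p'.1) {f : ℕ} (hf : f ≠ 0) (η : TF Xa Xb) :
    fW d q par (W1 b fun z => (η : ℝ → ℝ) z.1 * Real.cos (f * z.2))
      (psiN d q par b p) (psiN d q par b p') =
    (if p.1 + f = p'.1 ∨ p'.1 + f = p.1 then cplA Xa Xb d q b p p' η else 0) +
      SF.sg par * (if p.1 + p'.1 = f then cplB Xa Xb d q b p p' η else 0) := by
  have hc := coef_mode d b f η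
  unfold psiN
  rw [fW_smul_smul hc, fW_W1_mode b (coe_psi d q hb1 hp p.2) (coe_psi d q hb1 hp' p'.2) f
    (η : ℝ → ℝ) hc, rad_one, rad_two, cplA_apply ha hb, cplB_apply ha hb,
    int_linkDen ha hb, int_linkDenP ha hb, mul_comm b p.1, mul_comm b p'.1]
  set I1 := ∫ x in Ioo (0:ℝ) 1, (η : ℝ → ℝ) x *
    (x ^ d * ((1 - x ^ 2) * (dRj d q (p.1 * b) p.2 x * dRj d q (p'.1 * b) p'.2 x)))
  set I2 := ∫ x in Ioo (0:ℝ) 1, (η : ℝ → ℝ) x *
    (x ^ d * (1 / (1 - x ^ 2) * (Rj d q (p.1 * b) p.2 x * Rj d q (p'.1 * b) p'.2 x)))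
  have hd0 : ((f : ℤ) + p.1 + p'.1) ≠ 0 := by omega
  have key : ∀ m n : ℕ,
      tcc f m n = Real.pi / 4 * ((if m + f = n ∨ n + f = m then 1 else 0) +
        (if m + n = f then 1 else 0)) ∧
      tss f m n = Real.pi / 4 * ((if m + f = n ∨ n + f = m then 1 else 0) -
        (if m + n = f then 1 else 0)) := by
    intro m n
    unfold tcc tss dz
    have h0 : ¬ ((f : ℤ) + m + n = 0) := by omega
    have h1 : ((f : ℤ) + m - n = 0) ↔ m + f = n := by omega
    have h2 : ((f : ℤ) - m + n = 0) ↔ n + f = m := by omega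
    have h3 : ((f : ℤ) - m - n = 0) ↔ m + n = f := by omega
    simp only [h0, h1, h2, h3, if_false]
    have hex : ¬ (m + f = n ∧ n + f = m) := by omega
    constructor
    · split_ifs <;> first | (exfalso; omega) | ring
    · split_ifs <;> first | (exfalso; omega) | ring
  obtain ⟨k1, k2⟩ := key p.1 p'.1
  unfold tT tD SF.sg
  rw [k1, k2, mul_inv]
  by_cases h0 : par = 0
  · simp only [h0, if_true]
    split_ifs <;> ring
  · simp only [h0, if_false]
    split_ifs <;> ring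

/-! ### the sum over the harmonics -/

theorem continuous_Gf (G : ℕ →₀ TF Xa Xb) : Continuous (Gf G) := by
  unfold Gf Finsupp.sum
  refine continuous_finsetSum _ fun f _ => ?_
  exact ((TF.continuous _).comp continuous_fst).mul (by fun_prop)

theorem fW_W1_Gf {q par d : ℕ} (b : ℝ) (G : ℕ →₀ TF Xa Xb) (u v : VS q par) :
    fW d q par (W1 b (Gf G)) u v =
      G.sum fun f η => fW d q par (W1 b fun z => (η : ℝ → ℝ) z.1 * Real.cos (f * z.2)) u v := by
  unfold Finsupp.sum fW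
  rw [← integral_finsetSum _ fun f _ => integrable_sum (coef_mode d b f (G f)) u v]
  congr 1; funext z
  rw [Finset.sum_comm]
  refine Finset.sum_congr rfl fun i _ => ?_
  have : W1 b (Gf G) i z =
      ∑ f ∈ G.support, W1 b (fun z => (G f : ℝ → ℝ) z.1 * Real.cos (f * z.2)) i z := by
    fin_cases i
    · simp [W1]
    · simp [W1, Gf, Finsupp.sum]
    · simp only [W1, Gf, Finsupp.sum]
      rw [Finset.mul_sum, ← Finset.sum_neg_distrib]
    · simp [W1]
  rw [this, Finset.sum_mul, Finset.sum_mul]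

/-! ### slopes -/

theorem slope_self (d q : ℕ) {par : ℕ} {b : ℝ} (hb1 : 1 ≤ b) {p : ℕ × ℕ} (hp : par ≤ p.1) :
    2 * b * fW d q par WS (psiN d q par b p) (psiN d q par b p) = SF.slope d q b p := by
  have hb0 : (0:ℝ) ≤ b := by linarith
  have hn := nsq_pos d q hb0 p
  unfold psiN
  rw [fW_smul_smul (coef_WS d), fW_WS_mode (coe_psi d q hb1 hp p.2) (coe_psi d q hb1 hp p.2),
    rad_two', ← mul_inv, Real.mul_self_sqrt hn.le]
  unfold SF.slope
  by_cases hm : p.1 = 0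
  · unfold tD
    rw [hm]; simp
  · have hm1 : (1:ℝ) ≤ p.1 := by exact_mod_cast Nat.one_le_iff_ne_zero.mpr hm
    have hμ : (0:ℝ) < p.1 * b := by positivity
    have hs := slope d q hμ p.2
    have hT : tD par 0 p.1 p.1 = p.1 * p.1 * (Real.pi / 2) := by
      unfold tD
      split_ifs
      · rw [tss_zero_self hm]
      · rw [tcc_zero_self hm]
    have hN : nsq d q b p = Real.pi / 2 * nj1 d q (p.1 * b) p.2 := by
      unfold nsq
      rw [if_neg hm, mul_comm b]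
    rw [hN] at hn
    have hn1 : nj1 d q (p.1 * b) p.2 ≠ 0 := (nj1_pos d q hμ.le p.2).ne'
    rw [hT, hN]
    have hmu : aj q (p.1 * b) p.2 = Lab.mu b p + q := by
      unfold aj Lab.mu; ring
    rw [← hmu]
    have hpi : Real.pi ≠ 0 := Real.pi_pos.ne'
    generalize nj1 d q (p.1 * b) p.2 = n at hs hn1 ⊢
    generalize sj1 d q (p.1 * b) p.2 = s at hs ⊢
    generalize aj q (p.1 * b) p.2 = A at hs ⊢
    generalize (p.1 : ℝ) = m at hs ⊢
    have e1 : 2 * b * ((Real.pi / 2 * n)⁻¹ * (m * m * (Real.pi / 2) * s)) =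
        m * (2 * (m * b) * s) / n := by field_simp
    rw [e1, hs]
    field_simp

theorem slope_ne (d q : ℕ) {par : ℕ} {b : ℝ} (hb1 : 1 ≤ b) {p p' : ℕ × ℕ} (hp : par ≤ p.1)
    (hp' : par ≤ p'.1) (hne : p.1 ≠ p'.1) :
    2 * b * fW d q par WS (psiN d q par b p) (psiN d q par b p') = 0 := by
  unfold psiN
  rw [fW_smul_smul (coef_WS d), fW_WS_mode (coe_psi d q hb1 hp p.2) (coe_psi d q hb1 hp' p'.2)]
  have hT : tD par 0 p.1 p'.1 = 0 := by
    unfold tD
    split_ifs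
    · rw [tss_zero_ne hne, mul_zero]
    · rw [tcc_zero_ne hne, mul_zero]
  rw [hT]; ring

/-! ### the field `first` -/

/-- **(P4)**: field `first` of `SF.SpindleFamily` for the concrete objects. -/
theorem first_field {d : ℕ} {b0 b1 : ℝ} (hb0 : 1 ≤ b0) (ha : 0 < Xa) (hb : Xb < 1)
    (h : ℕ → ℝ → ℝ) (hh : ∀ k, Measurable (h k)) (h01 : ∀ k, ∀ x ∈ Ioo (0:ℝ) 1, 0 ≤ h k x ∧ h k x ≤ 1)
    (hlim : Tendsto (fun k => ∫ z, |h k z.1| ∂(Mod.mu d)) atTop (𝓝 0))
    (sz : (ℕ →₀ TF Xa Xb) → ℝ) (hsz : ∀ G, ∀ z ∈ Om, |Gf G z| ≤ sz G)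
    (σ : ℕ × ℕ) {b' : ℝ} (hb' : b' ∈ Ioo b0 b1) (p p' : SF.Lbl σ.2)
    (hmu : Lab.mu b' (p : ℕ × ℕ) = Lab.mu b' (p' : ℕ × ℕ))
    (heig : aform d σ b' (fun _ => 1) (psiN d σ.1 σ.2 b' p) (psiN d σ.1 σ.2 b' p') =
      if p = p' then SF.lev d σ.1 b' p else 0) :
    ∃ C : ℝ, 0 ≤ C ∧ ∃ o : ℕ → ℝ, (∀ k, 0 ≤ o k) ∧ Tendsto o atTop (𝓝 0) ∧
    ∀ b ∈ Icc b0 b1, ∀ G : ℕ →₀ TF Xa Xb, G 0 = 0 → sz G ≤ 1 / 2 → ∀ k,
      |aform d σ b (prof (h k) b G) (psiN d σ.1 σ.2 b' p) (psiN d σ.1 σ.2 b' p') -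
        ((if p = p' then SF.lev d σ.1 b' p + (b - b') * SF.slope d σ.1 b' p else 0) +
          SF.firstVar (cplA Xa Xb d) (cplB Xa Xb d) σ b' p p' G)| ≤
        C * (|b - b'| + sz G) ^ 2 + o k := by
  have hb'1 : 1 ≤ b' := hb0.trans hb'.1.le
  have hbb : b0 ≤ b1 := (hb'.1.trans hb'.2).le
  have hb1p : 1 ≤ b1 := hb0.trans hbb
  set K : ℝ := 2 + b1 with hK
  obtain ⟨C, hC0, hC⟩ := expansion d (psiN d σ.1 σ.2 b' p) (psiN d σ.1 σ.2 b' p') b1 K
  refine ⟨C, hC0, fun k => C * ((b1 - 1) * ∫ z, |h k z.1| ∂(Mod.mu d)), fun k => ?_, ?_, ?_⟩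
  · have : 0 ≤ ∫ z, |h k z.1| ∂(Mod.mu d) := integral_nonneg fun z => abs_nonneg _
    have h2 : 0 ≤ b1 - 1 := by linarith
    positivity
  · have := (hlim.const_mul (b1 - 1)).const_mul C
    simpa using this
  intro b hbI G hG0 hGs k
  have hb1' : 1 ≤ b := hb0.trans hbI.1
  -- admissibility
  have hτm : AEStronglyMeasurable (fun z : ℝ × ℝ => (b - 1) * h k z.1) (Mod.mu d) :=
    (((hh k).comp measurable_fst).const_mul _).aestronglyMeasurable
  have hGm : AEStronglyMeasurable (Gf G) (Mod.mu d) := (continuous_Gf G).aestronglyMeasurable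
  have hpt : ∀ z ∈ Om, 0 ≤ (b - 1) * h k z.1 ∧ (b - 1) * h k z.1 ≤ b1 - 1 := by
    intro z hz
    obtain ⟨a1, a2⟩ := h01 k z.1 hz.1
    have a3 : 0 ≤ b - 1 := by linarith
    refine ⟨mul_nonneg a3 a1, ?_⟩
    calc (b - 1) * h k z.1 ≤ (b - 1) * 1 := mul_le_mul_of_nonneg_left a2 a3
      _ ≤ b1 - 1 := by linarith [hbI.2]
  have hAdm : Adm d K (prof (h k) b G) := by
    refine ⟨?_, by rw [hK]; linarith, fun z hz => ?_, fun z hz => ?_⟩
    · exact (aestronglyMeasurable_const.add hτm).add hGm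
    · obtain ⟨a1, a2⟩ := hpt z hz
      have a3 := abs_le.1 ((hsz G z hz).trans hGs)
      have a4 : K⁻¹ ≤ 1 / 2 := by
        rw [one_div]
        exact inv_anti₀ (by norm_num) (by rw [hK]; linarith)
      unfold prof
      linarith [a3.1]
    · obtain ⟨a1, a2⟩ := hpt z hz
      have a3 := abs_le.1 ((hsz G z hz).trans hGs)
      unfold prof
      rw [hK]
      linarith [a3.2]
  have hexp := hC b b' (sz G) (prof (h k) b G) (fun z => (b - 1) * h k z.1) (Gf G)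
    (by rw [abs_of_nonneg (by linarith)]; exact hbI.2)
    (by rw [abs_of_nonneg (by linarith)]; exact hb'.2.le) hAdm hτm hGm
    (fun z hz => ⟨rfl, by
      obtain ⟨a1, a2⟩ := hpt z hz
      rw [abs_of_nonneg a1, hK]; linarith, hsz G z hz⟩)
    (hGs.trans (by rw [hK]; linarith))
  rw [← aform_apply σ b hAdm, ← aform_apply σ b' (adm_one d), heig] at hexp
  -- the main terms
  have hA1 : (b - b') * (2 * b' * fW d σ.1 σ.2 WS (psiN d σ.1 σ.2 b' p) (psiN d σ.1 σ.2 b' p')) =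
      if p = p' then (b - b') * SF.slope d σ.1 b' p else 0 := by
    by_cases hpp : p = p'
    · subst hpp
      rw [if_pos rfl, slope_self d σ.1 hb'1 p.2]
    · rw [if_neg hpp, slope_ne d σ.1 hb'1 p.2 p'.2, mul_zero]
      intro h1
      apply hpp
      apply Subtype.ext
      have h2 : ((p : ℕ × ℕ).2 : ℝ) = ((p' : ℕ × ℕ).2 : ℝ) := by
        unfold Lab.mu at hmu
        rw [h1] at hmu
        linarith
      exact Prod.ext h1 (by exact_mod_cast h2)
  have hA2 : fW d σ.1 σ.2 (W1 b' (Gf G)) (psiN d σ.1 σ.2 b' p) (psiN d σ.1 σ.2 b' p') =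
      SF.firstVar (cplA Xa Xb d) (cplB Xa Xb d) σ b' p p' G := by
    rw [fW_W1_Gf]
    unfold SF.firstVar Finsupp.sum
    refine Finset.sum_congr rfl fun f hf => ?_
    have hf0 : f ≠ 0 := by
      rintro rfl
      exact (Finsupp.mem_support_iff.1 hf) hG0
    exact fW_W1_psi ha hb d σ.1 σ.2 hb'1 p.2 p'.2 hf0 (G f)
  rw [hA1, hA2] at hexp
  have hτint : ∫ z, |(b - 1) * h k z.1| ∂(Mod.mu d) ≤ (b1 - 1) * ∫ z, |h k z.1| ∂(Mod.mu d) := by
    have e : ∀ z : ℝ × ℝ, |(b - 1) * h k z.1| = (b - 1) * |h k z.1| := fun z => by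
      rw [abs_mul, abs_of_nonneg (by linarith)]
    simp_rw [e]
    rw [integral_const_mul]
    exact mul_le_mul_of_nonneg_right (by linarith [hbI.2]) (integral_nonneg fun z => abs_nonneg _)
  have hsz0 : 0 ≤ sz G := by
    have hne : ((1/2 : ℝ), (1:ℝ)) ∈ Om := ⟨⟨by norm_num, by norm_num⟩, ⟨by norm_num, by
      linarith [Real.pi_gt_three]⟩⟩
    exact (abs_nonneg _).trans (hsz G _ hne)
  have e : aform d σ b (prof (h k) b G) (psiN d σ.1 σ.2 b' p) (psiN d σ.1 σ.2 b' p') -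
        ((if p = p' then SF.lev d σ.1 b' p + (b - b') * SF.slope d σ.1 b' p else 0) +
          SF.firstVar (cplA Xa Xb d) (cplB Xa Xb d) σ b' p p' G) =
      aform d σ b (prof (h k) b G) (psiN d σ.1 σ.2 b' p) (psiN d σ.1 σ.2 b' p') -
        (if p = p' then SF.lev d σ.1 b' p else 0) -
        (if p = p' then (b - b') * SF.slope d σ.1 b' p else 0) -
        SF.firstVar (cplA Xa Xb d) (cplB Xa Xb d) σ b' p p' G := by
    split_ifs <;> ring
  rw [e]
  refine hexp.trans ?_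
  have h1 : (b - b') ^ 2 + sz G ^ 2 ≤ (|b - b'| + sz G) ^ 2 := by
    rw [← sq_abs (b - b')]
    nlinarith [abs_nonneg (b - b')]
  have h2 : (b - b') ^ 2 + sz G ^ 2 + ∫ z, |(b - 1) * h k z.1| ∂(Mod.mu d) ≤
      (|b - b'| + sz G) ^ 2 + (b1 - 1) * ∫ z, |h k z.1| ∂(Mod.mu d) := add_le_add h1 hτint
  have h3 := mul_le_mul_of_nonneg_left h2 hC0
  linarith

end Crest.Agent.R202.Clu
end
end

-- ▼ part R202/LinkAbs
section

/-!
Row 202, Part C: choice of test functions for finitely many functionals `η ↦ ∫ η D`.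
-/

set_option autoImplicit false

open MeasureTheory Set
open scoped ContDiff

noncomputable section
namespace Crest.Agent.R202.Link

/-- test functions: smooth with compact support in `(α, β)` -/
def TF (α β : ℝ) : Submodule ℝ (ℝ → ℝ) where
  carrier := {η | ContDiff ℝ ∞ η ∧ HasCompactSupport η ∧ tsupport η ⊆ Ioo α β}
  zero_mem' := ⟨contDiff_const, HasCompactSupport.zero, by
    have : tsupport (0 : ℝ → ℝ) = ∅ := tsupport_eq_empty_iff.2 rfl
    rw [this]; exact empty_subset _⟩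
  add_mem' := by
    rintro η ζ ⟨h1, h2, h3⟩ ⟨k1, k2, k3⟩
    exact ⟨h1.add k1, h2.add k2, (tsupport_add η ζ).trans (union_subset h3 k3)⟩
  smul_mem' := by
    rintro c η ⟨h1, h2, h3⟩
    refine ⟨contDiff_const.smul h1, h2.smul_left (f := fun _ => c), ?_⟩
    exact (tsupport_smul_subset_right (fun _ => c) η).trans h3


theorem TF.eq_zero {α β : ℝ} {η : ℝ → ℝ} (hη : η ∈ TF α β) {x : ℝ} (hx : x ∉ Ioo α β) :
    η x = 0 := image_eq_zero_of_notMem_tsupport fun h => hx (hη.2.2 h)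

theorem TF.integrable {α β : ℝ} {η D : ℝ → ℝ} (hη : η ∈ TF α β) (hD : ContinuousOn D (Ioo α β)) :
    Integrable fun x => η x * D x := by
  have h1 : ContinuousOn (fun x => η x * D x) (tsupport η) :=
    hη.1.continuous.continuousOn.mul (hD.mono hη.2.2)
  have h2 : IntegrableOn (fun x => η x * D x) (tsupport η) :=
    h1.integrableOn_compact hη.2.1.isCompact
  refine (integrableOn_iff_integrable_of_support_subset ?_).1 h2
  intro x hx
  by_contra h
  exact hx (by simp [image_eq_zero_of_notMem_tsupport h])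

/-- the functional `η ↦ ∫ η D` on the test functions -/
def fn (α β : ℝ) (D : ℝ → ℝ) (hD : ContinuousOn D (Ioo α β)) : TF α β →ₗ[ℝ] ℝ where
  toFun η := ∫ x, (η : ℝ → ℝ) x * D x
  map_add' η ζ := by
    rw [← integral_add (TF.integrable η.2 hD) (TF.integrable ζ.2 hD)]
    exact integral_congr_ae (Filter.Eventually.of_forall fun x => by
      simp [add_mul])
  map_smul' c η := by
    simp only [RingHom.id_apply, smul_eq_mul]
    rw [← integral_const_mul]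
    exact integral_congr_ae (Filter.Eventually.of_forall fun x => by
      simp [mul_assoc])

theorem fn_apply {α β : ℝ} {D : ℝ → ℝ} (hD : ContinuousOn D (Ioo α β)) (η : TF α β) :
    fn α β D hD η = ∫ x, (η : ℝ → ℝ) x * D x := rfl

/-- fundamental lemma of the calculus of variations -/
theorem eqOn_zero_of_fn {α β : ℝ} {D : ℝ → ℝ} (hD : ContinuousOn D (Ioo α β))
    (h : ∀ η ∈ TF α β, ∫ x, η x * D x = 0) : ∀ x ∈ Ioo α β, D x = 0 := by
  have hloc : LocallyIntegrableOn D (Ioo α β) := hD.locallyIntegrableOn measurableSet_Ioo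
  have h1 := isOpen_Ioo.ae_eq_zero_of_integral_contDiff_smul_eq_zero hloc
    (fun g hg hc hs => by
      have := h g ⟨hg, hc, hs⟩
      simpa [smul_eq_mul] using this)
  have h2 : D =ᵐ[volume.restrict (Ioo α β)] fun _ => (0 : ℝ) :=
    (ae_restrict_iff' measurableSet_Ioo).2 h1
  exact fun x hx => Measure.eqOn_open_of_ae_eq h2 isOpen_Ioo hD continuousOn_const hx

/-- finitely many non-zero functionals have a common non-zero -/
theorem exists_forall_ne {W ι : Type*} [AddCommGroup W] [Module ℝ W] [Finite ι]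
    (f : ι → W →ₗ[ℝ] ℝ) (h : ∀ i, f i ≠ 0) : ∃ w, ∀ i, f i w ≠ 0 := by
  by_contra hcon
  push Not at hcon
  have hcov : ⋃ i, ((LinearMap.ker (f i) : Submodule ℝ W) : Set W) = univ := by
    rw [eq_univ_iff_forall]
    intro w
    obtain ⟨i, hi⟩ := hcon w
    exact mem_iUnion.2 ⟨i, hi⟩
  obtain ⟨i, hi⟩ := Subspace.exists_eq_top_of_iUnion_eq_univ hcov
  exact h i (LinearMap.ker_eq_top.1 hi)

/-- a functional vanishing on the kernel of another one is a multiple of it -/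
theorem exists_eq_smul_of_ker_le {W : Type*} [AddCommGroup W] [Module ℝ W]
    (f g : W →ₗ[ℝ] ℝ) (h : LinearMap.ker f ≤ LinearMap.ker g) : ∃ c : ℝ, g = c • f := by
  by_cases hf : f = 0
  · refine ⟨0, ?_⟩
    ext w
    have : w ∈ LinearMap.ker f := by rw [hf]; simp
    have := h this
    rw [LinearMap.mem_ker] at this
    simp [this]
  · obtain ⟨w0, hw0⟩ : ∃ w0, f w0 ≠ 0 := by
      by_contra hcon
      push Not at hcon
      exact hf (LinearMap.ext hcon)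
    refine ⟨g w0 / f w0, ?_⟩
    ext w
    have h1 : w - (f w / f w0) • w0 ∈ LinearMap.ker f := by
      rw [LinearMap.mem_ker, map_sub, map_smul, smul_eq_mul]; field_simp; ring
    have h2 := h h1
    rw [LinearMap.mem_ker, map_sub, map_smul, smul_eq_mul] at h2
    simp only [LinearMap.smul_apply, smul_eq_mul]
    have h3 : g w = f w / f w0 * g w0 := by linarith
    rw [h3]; field_simp

/-- **(1)** one test function on which all functionals are non-zero -/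
theorem exists_test_all_ne {α β : ℝ} {ι : Type*} [Finite ι] (D : ι → ℝ → ℝ)
    (hD : ∀ i, ContinuousOn (D i) (Ioo α β)) (hne : ∀ i, ∃ x ∈ Ioo α β, D i x ≠ 0) :
    ∃ η ∈ TF α β, ∀ i, ∫ x, η x * D i x ≠ 0 := by
  obtain ⟨η, hη⟩ := exists_forall_ne (fun i => fn α β (D i) (hD i)) (fun i h0 => by
    obtain ⟨x, hx, hDx⟩ := hne i
    refine hDx (eqOn_zero_of_fn (hD i) (fun η hη => ?_) x hx)
    have := LinearMap.congr_fun h0 ⟨η, hη⟩
    simpa [fn_apply] using this)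
  exact ⟨η, η.2, hη⟩

/-- a test function with prescribed value of one non-zero functional -/
theorem exists_test_eq_one {α β : ℝ} {D : ℝ → ℝ} (hD : ContinuousOn D (Ioo α β))
    (hne : ∃ x ∈ Ioo α β, D x ≠ 0) : ∃ η ∈ TF α β, ∫ x, η x * D x = 1 := by
  obtain ⟨η, hη, h⟩ := exists_test_all_ne (ι := Unit) (fun _ => D) (fun _ => hD) (fun _ => hne)
  have h1 := h ()
  refine ⟨(∫ x, η x * D x)⁻¹ • η, Submodule.smul_mem _ _ hη, ?_⟩
  have : ∀ x, ((∫ x, η x * D x)⁻¹ • η) x * D x = (∫ x, η x * D x)⁻¹ * (η x * D x) := fun x => by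
    simp [mul_assoc]
  simp only [this]
  rw [integral_const_mul, inv_mul_cancel₀ h1]

/-- **(2)** a test function in the kernel of one functional, on which all the others, which are not
proportional to it, are non-zero -/
theorem exists_test_ker {α β : ℝ} {ι : Type*} [Finite ι] (D0 : ℝ → ℝ)
    (hD0 : ContinuousOn D0 (Ioo α β)) (D : ι → ℝ → ℝ)
    (hD : ∀ i, ContinuousOn (D i) (Ioo α β))
    (hne : ∀ i, ¬ ∃ c : ℝ, ∀ x ∈ Ioo α β, D i x = c * D0 x) :
    ∃ η ∈ TF α β, ∫ x, η x * D0 x = 0 ∧ ∀ i, ∫ x, η x * D i x ≠ 0 := by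
  set f0 := fn α β D0 hD0 with hf0
  obtain ⟨η, hη⟩ := exists_forall_ne (W := LinearMap.ker f0)
    (fun i => (fn α β (D i) (hD i)).domRestrict (LinearMap.ker f0)) (fun i h0 => by
    have hle : LinearMap.ker f0 ≤ LinearMap.ker (fn α β (D i) (hD i)) := by
      intro w hw
      have := LinearMap.congr_fun h0 ⟨w, hw⟩
      simpa using this
    obtain ⟨c, hc⟩ := exists_eq_smul_of_ker_le _ _ hle
    refine hne i ⟨c, fun x hx => ?_⟩
    have hcont : ContinuousOn (fun x => D i x - c * D0 x) (Ioo α β) :=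
      (hD i).sub (continuousOn_const.mul hD0)
    have := eqOn_zero_of_fn hcont (fun η hη => ?_) x hx
    · linarith
    · have h1 := LinearMap.congr_fun hc ⟨η, hη⟩
      rw [LinearMap.smul_apply, hf0, fn_apply, fn_apply, smul_eq_mul] at h1
      have h2 : (fun x => η x * (D i x - c * D0 x)) =
          fun x => η x * D i x - c * (η x * D0 x) := by funext x; ring
      rw [h2, integral_sub (TF.integrable hη (hD i)) ((TF.integrable hη hD0).const_mul c),
        integral_const_mul]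
      simpa using sub_eq_zero.2 h1)
  refine ⟨η.1, η.1.2, ?_, fun i => ?_⟩
  · exact LinearMap.mem_ker.1 η.2
  · have := hη i
    simpa [fn_apply] using this

/-- integrals over larger intervals -/
theorem TF.setIntegral {α β a b : ℝ} {η D : ℝ → ℝ} (hη : η ∈ TF α β) (ha : a ≤ α) (hb : β ≤ b) :
    ∫ x in Ioo a b, η x * D x = ∫ x, η x * D x := by
  rw [← integral_indicator measurableSet_Ioo]
  refine integral_congr_ae (Filter.Eventually.of_forall fun x => ?_)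
  by_cases hx : x ∈ Ioo a b
  · simp only [indicator_of_mem hx]
  · rw [indicator_of_notMem hx]
    have : x ∉ Ioo α β := fun h => hx ⟨ha.trans_lt h.1, h.2.trans_le hb⟩
    simp only [TF.eq_zero hη this, zero_mul]

end Crest.Agent.R202.Link
end
end

-- ▼ part R202/LinkGate
section

/-!
# Row 202, PART C: the fields `link` and `gate` of the spindle family (helper225)

* `indep_of_exponents` : densities `(1-x²)^{s_i} B_i(x)`, `B_i(1) ≠ 0`, with distinct exponents are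
  linearly independent on every interval.
* `exists_test_dual` : a test function with `∫ η D₀ = 1`, `∫ η D_i = 0`.
* `link_field`, `gate_field` : exactly the fields (P5a), (P5b) of `SF.SpindleFamily` for coupling
  functionals that are non-zero multiples of `η ↦ ∫ η linkDen`, `η ↦ ∫ η linkDenP`.
-/

set_option autoImplicit false

open MeasureTheory Set Filter Topology
open scoped ContDiff

noncomputable section
namespace Crest.Agent.R202.Link

open Crest.Agent.R202.Lab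

open Polynomial in
/-- densities with distinct exponents at `x = 1` are linearly independent -/
theorem indep_of_exponents {ι : Type*} (I : Finset ι) (s : ι → ℝ) (B : ι → ℝ[X]) (κ : ι → ℝ)
    (hs : Set.InjOn s I) (hB : ∀ i ∈ I, (B i).eval 1 ≠ 0) {α β : ℝ} (hαβ : α < β)
    (hα : -1 ≤ α) (hβ : β ≤ 1)
    (h : ∀ x ∈ Ioo α β, ∑ i ∈ I, κ i * ((1 - x ^ 2) ^ (s i) * (B i).eval x) = 0) :
    ∀ i ∈ I, κ i = 0 := by
  have hpos : ∀ x ∈ Ioo (-1 : ℝ) 1, 0 < 1 - x ^ 2 := by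
    intro x hx
    have h1 := hx.1
    have h2 := hx.2
    nlinarith
  have han : AnalyticOnNhd ℝ (fun x : ℝ => ∑ i ∈ I, κ i * ((1 - x ^ 2) ^ (s i) * (B i).eval x))
      (Ioo (-1 : ℝ) 1) := by
    intro x hx
    refine Finset.analyticAt_fun_sum _ fun i _ => ?_
    exact analyticAt_const.mul ((rpow_analytic (s i) (hpos x hx)).mul (poly_analytic (B i) x))
  set z := (α + β) / 2 with hz
  have hz1 : z ∈ Ioo α β := ⟨by rw [hz]; linarith, by rw [hz]; linarith⟩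
  have hz2 : z ∈ Ioo (-1 : ℝ) 1 := ⟨lt_of_le_of_lt hα hz1.1, lt_of_lt_of_le hz1.2 hβ⟩
  have hev : (fun x : ℝ => ∑ i ∈ I, κ i * ((1 - x ^ 2) ^ (s i) * (B i).eval x)) =ᶠ[𝓝 z] 0 := by
    filter_upwards [isOpen_Ioo.mem_nhds hz1] with x hx
    rw [h x hx]; simp
  have hall := han.eqOn_zero_of_preconnected_of_eventuallyEq_zero isPreconnected_Ioo hz2 hev
  by_contra hcon
  push Not at hcon
  classical
  set J := I.filter fun i => κ i ≠ 0 with hJ
  have hJne : J.Nonempty := by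
    obtain ⟨i, hi, hk⟩ := hcon
    exact ⟨i, Finset.mem_filter.2 ⟨hi, hk⟩⟩
  obtain ⟨i0, hi0, hmin⟩ := Finset.exists_min_image J s hJne
  have hi0I : i0 ∈ I := (Finset.mem_filter.1 hi0).1
  have hk0 : κ i0 ≠ 0 := (Finset.mem_filter.1 hi0).2
  -- the function divided by the lowest power
  have hzero : ∀ x ∈ Ioo (-1 : ℝ) 1,
      ∑ i ∈ J, κ i * ((1 - x ^ 2) ^ (s i - s i0) * (B i).eval x) = 0 := by
    intro x hx
    have hp := hpos x hx
    have h1 := hall hx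
    simp only [Pi.zero_apply] at h1
    have h2 : ∑ i ∈ J, κ i * ((1 - x ^ 2) ^ (s i) * (B i).eval x) = 0 := by
      rw [← h1, hJ, Finset.sum_filter]
      refine Finset.sum_congr rfl fun i _ => ?_
      by_cases hk : κ i = 0
      · simp [hk]
      · simp [hk]
    have h3 : ∑ i ∈ J, κ i * ((1 - x ^ 2) ^ (s i - s i0) * (B i).eval x) =
        ((1 - x ^ 2) ^ (s i0))⁻¹ * ∑ i ∈ J, κ i * ((1 - x ^ 2) ^ (s i) * (B i).eval x) := by
      rw [Finset.mul_sum]
      refine Finset.sum_congr rfl fun i _ => ?_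
      rw [Real.rpow_sub hp]
      ring
    rw [h3, h2, mul_zero]
  have hcont : Continuous fun x : ℝ =>
      ∑ i ∈ J, κ i * ((1 - x ^ 2) ^ (s i - s i0) * (B i).eval x) := by
    refine continuous_finsetSum _ fun i hi => ?_
    exact continuous_const.mul ((Continuous.rpow_const (by fun_prop)
      (fun _ => Or.inr (sub_nonneg.2 (hmin i hi)))).mul (B i).continuous)
  have c2 := (hcont.tendsto 1).mono_left (nhdsWithin_le_nhds (s := Iio (1 : ℝ)))
  have hev2 : (fun x : ℝ => ∑ i ∈ J, κ i * ((1 - x ^ 2) ^ (s i - s i0) * (B i).eval x))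
      =ᶠ[𝓝[<] 1] fun _ => (0 : ℝ) := by
    have : Ioo (-1 : ℝ) 1 ∈ 𝓝[<] (1 : ℝ) := Ioo_mem_nhdsLT (by norm_num)
    filter_upwards [this] with x hx
    exact hzero x hx
  have h4 := tendsto_nhds_unique (c2.congr' hev2) tendsto_const_nhds
  have h5 : ∑ i ∈ J, κ i * ((1 - (1 : ℝ) ^ 2) ^ (s i - s i0) * (B i).eval 1) =
      κ i0 * (B i0).eval 1 := by
    rw [Finset.sum_eq_single i0]
    · simp
    · intro i hi hne
      have hs1 : s i - s i0 ≠ 0 := by
        intro h0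
        exact hne (hs (Finset.mem_filter.1 hi).1 hi0I (by linarith))
      rw [one_pow, sub_self, Real.zero_rpow hs1]
      ring
    · intro h0; exact absurd hi0 h0
  rw [h5] at h4
  exact mul_ne_zero hk0 (hB i0 hi0I) h4

/-- a test function dual to one density and orthogonal to finitely many others -/
theorem exists_test_dual {α β : ℝ} {ι : Type*} (I : Finset ι) (D0 : ℝ → ℝ)
    (hD0 : ContinuousOn D0 (Ioo α β)) (D : ι → ℝ → ℝ)
    (hD : ∀ i ∈ I, ContinuousOn (D i) (Ioo α β))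
    (hne : ∀ κ : ι → ℝ, ¬ ∀ x ∈ Ioo α β, D0 x = ∑ i ∈ I, κ i * D i x) :
    ∃ η ∈ TF α β, ∫ x, η x * D0 x = 1 ∧ ∀ i ∈ I, ∫ x, η x * D i x = 0 := by
  classical
  set L : I → TF α β →ₗ[ℝ] ℝ := fun i => fn α β (D i) (hD i i.2) with hL
  set K : TF α β →ₗ[ℝ] ℝ := fn α β D0 hD0 with hK
  by_cases hker : ⨅ i, LinearMap.ker (L i) ≤ LinearMap.ker K
  · exfalso
    have hmem := mem_span_of_iInf_ker_le_ker hker
    obtain ⟨c, hc⟩ := (Submodule.mem_span_range_iff_exists_fun ℝ).1 hmem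
    set κ : ι → ℝ := fun i => if h : i ∈ I then c ⟨i, h⟩ else 0 with hκ
    refine hne κ fun x hx => ?_
    have hcont : ContinuousOn (fun x => D0 x - ∑ i ∈ I, κ i * D i x) (Ioo α β) :=
      hD0.sub (continuousOn_finsetSum _ fun i hi => continuousOn_const.mul (hD i hi))
    have := eqOn_zero_of_fn hcont (fun η hη => ?_) x hx
    · linarith
    · have h1 := LinearMap.congr_fun hc ⟨η, hη⟩
      rw [LinearMap.sum_apply] at h1
      simp only [LinearMap.smul_apply, smul_eq_mul, hL, hK, fn_apply] at h1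
      have h2 : (fun x => η x * (D0 x - ∑ i ∈ I, κ i * D i x)) =
          fun x => η x * D0 x - ∑ i ∈ I, κ i * (η x * D i x) := by
        funext x
        rw [mul_sub, Finset.mul_sum]
        congr 1
        exact Finset.sum_congr rfl fun i _ => by ring
      rw [h2, integral_sub (TF.integrable hη hD0)
        (integrable_finsetSum _ fun i hi => (TF.integrable hη (hD i hi)).const_mul _),
        integral_finsetSum _ fun i hi => (TF.integrable hη (hD i hi)).const_mul _]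
      simp only [integral_const_mul]
      rw [← h1, sub_eq_zero]
      rw [← Finset.sum_coe_sort I (fun i => κ i * ∫ x, η x * D i x)]
      refine Finset.sum_congr rfl fun i _ => ?_
      rw [hκ]
      simp
  · obtain ⟨w, hw1, hw2⟩ := SetLike.not_le_iff_exists.1 hker
    rw [LinearMap.mem_ker] at hw2
    refine ⟨((K w)⁻¹ • w : TF α β), ((K w)⁻¹ • w).2, ?_, fun i hi => ?_⟩
    · have : K ((K w)⁻¹ • w) = 1 := by
        rw [map_smul, smul_eq_mul, inv_mul_cancel₀ hw2]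
      exact this
    · have h1 : L ⟨i, hi⟩ w = 0 := by
        have := (Submodule.mem_iInf _).1 hw1 ⟨i, hi⟩
        exact LinearMap.mem_ker.1 this
      have : L ⟨i, hi⟩ ((K w)⁻¹ • w) = 0 := by
        rw [map_smul, h1, smul_zero]
      exact this

/-- what we need to know about the coupling functionals: on test functions with support in
`(α, β)` they are non-zero multiples of the integrals against the link densities -/
structure Cpl (d : ℕ) {α β : ℝ} {T : Submodule ℝ (ℝ → ℝ)} (hT : TF α β ≤ T)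
    (A B : ℕ → ℝ → ℕ × ℕ → ℕ × ℕ → T →ₗ[ℝ] ℝ) : Prop where
  A_eq : ∀ q b, 0 < b → ∀ p p' : ℕ × ℕ, ∃ c : ℝ, c ≠ 0 ∧ ∀ η (hη : η ∈ TF α β),
    A q b p p' ⟨η, hT hη⟩ = c * ∫ x, η x * linkDen d q (b * p.1) p.2 (b * p'.1) p'.2 x
  B_eq : ∀ q b, 0 < b → ∀ p p' : ℕ × ℕ, ∃ c : ℝ, c ≠ 0 ∧ ∀ η (hη : η ∈ TF α β),
    B q b p p' ⟨η, hT hη⟩ = c * ∫ x, η x * linkDenP d q (b * p.1) p.2 (b * p'.1) p'.2 x

theorem den_cont {d q : ℕ} {μ : ℝ} {j : ℕ} {μ' : ℝ} {j' : ℕ} {α β : ℝ} (hα : 0 ≤ α) (hβ : β ≤ 1) :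
    ContinuousOn (linkDen d q μ j μ' j') (Ioo α β) :=
  (linkDen_continuousOn d q μ j μ' j').mono fun _ hx =>
    ⟨by have := hx.1; linarith, by have := hx.2; linarith⟩

theorem denP_cont {d q : ℕ} {μ : ℝ} {j : ℕ} {μ' : ℝ} {j' : ℕ} {α β : ℝ} (hα : 0 ≤ α)
    (hβ : β ≤ 1) : ContinuousOn (linkDenP d q μ j μ' j') (Ioo α β) :=
  (linkDenP_continuousOn d q μ j μ' j').mono fun _ hx =>
    ⟨by have := hx.1; linarith, by have := hx.2; linarith⟩

variable {d : ℕ} {α β : ℝ} {T : Submodule ℝ (ℝ → ℝ)} {hT : TF α β ≤ T}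
  {A B : ℕ → ℝ → ℕ × ℕ → ℕ × ℕ → T →ₗ[ℝ] ℝ}

/-- the density of the link `p → p + (a, -c)` -/
def lden (d : ℕ) (b : ℝ) (a c : ℕ) (z : ℕ × (ℕ × ℕ)) : ℝ → ℝ :=
  linkDen d z.1 (b * z.2.1) z.2.2 (b * ((z.2.1 + a : ℕ) : ℝ)) (z.2.2 - c)

theorem lden_ne {b : ℝ} (hb : 0 < b) {a c : ℕ} (ha : 0 < a) (hc : 0 < c)
    (z : ℕ × (ℕ × ℕ)) (hz : c ≤ z.2.2) (hαβ : α < β) (hα : 0 ≤ α) (hβ : β ≤ 1) :
    ∃ x ∈ Ioo α β, lden d b a c z x ≠ 0 := by
  refine linkDen_ne_zero d z.1 (by positivity) ?_ (by omega) _ hαβ hα hβ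
  have : (0 : ℝ) < ((z.2.1 + a : ℕ) : ℝ) := by exact_mod_cast (show 0 < z.2.1 + a by omega)
  positivity

theorem lden_not_prop {b : ℝ} (hb : 0 < b) {a c : ℕ} (ha : 0 < a) (hc : 0 < c)
    {z z' : ℕ × (ℕ × ℕ)} (hz : c ≤ z.2.2) (hz' : c ≤ z'.2.2)
    (hq : (z.1 ≤ 1 ∧ z'.1 ≤ 1) ∨ (1 ≤ z.1 ∧ 1 ≤ z'.1)) (hne : z ≠ z')
    (hαβ : α < β) (hα : 0 ≤ α) (hβ : β ≤ 1) :
    ¬ ∃ κ : ℝ, ∀ x ∈ Ioo α β, lden d b a c z x = κ * lden d b a c z' x := by
  rintro ⟨κ, hκ⟩
  obtain ⟨q, m, j⟩ := z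
  obtain ⟨q', m', j'⟩ := z'
  simp only at hz hz' hq
  obtain ⟨i, rfl⟩ := Nat.exists_eq_add_of_le' hz
  obtain ⟨i', rfl⟩ := Nat.exists_eq_add_of_le' hz'
  unfold lden at hκ
  simp only [Nat.add_sub_cancel] at hκ
  obtain ⟨h1, h2, h3⟩ := link_not_prop hb ha hc hq hαβ hα hβ hκ
  exact hne (by rw [h1, h2, h3])

/-- **(P5a)** -/
theorem link_field (h : Cpl d hT A B) (hαβ : α < β) (hα : 0 ≤ α) (hβ : β ≤ 1)
    {b0 b1 : ℝ} {OK : ℕ × ℕ → Prop} (a c : ℕ) (ha : 0 < a) (hc : 0 < c)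
    (_ : Nat.Coprime a c) (_ : 2 * (c : ℝ) / a ∈ Ioo b0 b1)
    (F : Finset (ℕ × (ℕ × ℕ))) (hF : ∀ z ∈ F, (∃ s, OK (z.1, s)) ∧ c ≤ z.2.2) :
    ∃ η : T, ∀ z ∈ F, A z.1 (2 * (c : ℝ) / a) z.2 (z.2.1 + a, z.2.2 - c) η ≠ 0 := by
  have hb : 0 < 2 * (c : ℝ) / a := by
    have h1 : (0 : ℝ) < a := by exact_mod_cast ha
    have h2 : (0 : ℝ) < c := by exact_mod_cast hc
    positivity
  obtain ⟨η, hη, h1⟩ := exists_test_all_ne (α := α) (β := β) (ι := F)
    (fun z => lden d (2 * (c : ℝ) / a) a c z) (fun z => den_cont hα hβ)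
    (fun z => lden_ne hb ha hc z (hF z z.2).2 hαβ hα hβ)
  refine ⟨⟨η, hT hη⟩, fun z hz => ?_⟩
  obtain ⟨k, hk, h2⟩ := h.A_eq z.1 _ hb z.2 (z.2.1 + a, z.2.2 - c)
  rw [h2 η hη]
  exact mul_ne_zero hk (h1 ⟨z, hz⟩)

theorem finite_tie {b : ℝ} (hb : 0 < b) (p : ℕ × ℕ) :
    ∃ I : Finset (ℕ × ℕ), ∀ p₁, mu b p₁ = mu b p ↔ p₁ ∈ I := by
  classical
  obtain ⟨N, hN⟩ := exists_nat_gt (mu b p / b + mu b p)
  refine ⟨(Finset.range N ×ˢ Finset.range N).filter fun p₁ => mu b p₁ = mu b p, fun p₁ => ?_⟩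
  rw [Finset.mem_filter, Finset.mem_product, Finset.mem_range, Finset.mem_range]
  refine ⟨fun h => ⟨⟨?_, ?_⟩, h⟩, fun h => h.2⟩
  · have h1 : (p₁.1 : ℝ) ≤ mu b p / b := by
      rw [le_div_iff₀ hb, ← h]
      unfold mu
      have : (0 : ℝ) ≤ p₁.2 := Nat.cast_nonneg _
      nlinarith
    have h2 := mu_nonneg hb.le p
    have : (p₁.1 : ℝ) < N := by linarith
    exact_mod_cast this
  · have h1 : (p₁.2 : ℝ) ≤ mu b p := by
      rw [← h]
      unfold mu
      have : (0 : ℝ) ≤ p₁.2 := Nat.cast_nonneg _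
      have h3 : (0 : ℝ) ≤ b * p₁.1 := by positivity
      linarith
    have h2 : 0 ≤ mu b p / b := div_nonneg (mu_nonneg hb.le p) hb.le
    have : (p₁.2 : ℝ) < N := by linarith
    exact_mod_cast this

theorem tie_fst {b : ℝ} {p p' : ℕ × ℕ} (h : mu b p = mu b p') (h1 : p.1 = p'.1) : p = p' := by
  unfold mu at h
  rw [h1] at h
  have : (p.2 : ℝ) = p'.2 := by linarith
  exact Prod.ext h1 (by exact_mod_cast this)

/-- the densities of the second family -/
def gden (d q : ℕ) (b : ℝ) (a c : ℕ) (i : (ℕ × ℕ) × Bool) : ℝ → ℝ :=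
  if i.2 then linkDenP d q (b * i.1.1) i.1.2 (b * i.1.1) i.1.2
  else lden d b a c (q, i.1)

/-- **(P5b)** -/
theorem gate_field (h : Cpl d hT A B) (hαβ : α < β) (hα : 0 ≤ α) (hβ : β ≤ 1)
    {b0 b1 : ℝ} {OK : ℕ × ℕ → Prop}
    (hOK : (∀ σ, OK σ → σ.1 ≤ 1) ∨ (∀ σ, OK σ → 1 ≤ σ.1)) (a c : ℕ) (ha : 0 < a) (hc : 0 < c)
    (_ : Nat.Coprime a c) (_ : 2 * (c : ℝ) / a ∈ Ioo b0 b1) (q : ℕ) (p : ℕ × ℕ)
    (hp : ∃ s, OK (q, s) ∧ s ≤ p.1) (hcp : c ≤ p.2) (_ : p.2 - c < c)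
    (F : Finset (ℕ × (ℕ × ℕ))) (hF : ∀ z ∈ F, (∃ s, OK (z.1, s)) ∧ c ≤ z.2.2) :
    ∃ ηA ηB ξ : T,
      (A q (2 * (c : ℝ) / a) p (p.1 + a, p.2 - c) ηA = 0) ∧
      (∀ z ∈ F, z ≠ (q, p) → A z.1 (2 * (c : ℝ) / a) z.2 (z.2.1 + a, z.2.2 - c) ηA ≠ 0) ∧
      (A q (2 * (c : ℝ) / a) p (p.1 + a, p.2 - c) ηB = 1) ∧
      (∀ p₁ : ℕ × ℕ, c ≤ p₁.2 → mu (2 * (c : ℝ) / a) p₁ = mu (2 * (c : ℝ) / a) p → p₁ ≠ p →
        A q (2 * (c : ℝ) / a) p₁ (p₁.1 + a, p₁.2 - c) ηB = 0) ∧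
      (∀ p₁ : ℕ × ℕ, mu (2 * (c : ℝ) / a) p₁ = mu (2 * (c : ℝ) / a) p → 2 * p₁.1 = a →
        B q (2 * (c : ℝ) / a) p₁ p₁ ηB = 0) ∧
      (B q (2 * (c : ℝ) / a) p (p.1 + a, p.2 - c) ξ = 1) := by
  classical
  have har : (0 : ℝ) < a := by exact_mod_cast ha
  have hcr : (0 : ℝ) < c := by exact_mod_cast hc
  set b : ℝ := 2 * (c : ℝ) / a with hbdef
  have hba : b * a = 2 * c := by rw [hbdef]; field_simp
  have hb : 0 < b := by positivity
  have hpa : ∀ n : ℕ, (0 : ℝ) < b * ((n + a : ℕ) : ℝ) := fun n => by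
    have : (0 : ℝ) < ((n + a : ℕ) : ℝ) := by exact_mod_cast (show 0 < n + a by omega)
    positivity
  -- `ηA`
  obtain ⟨ηA, hηA, hA0, hA1⟩ := exists_test_ker (α := α) (β := β) (ι := F.erase (q, p))
    (lden d b a c (q, p)) (den_cont hα hβ) (fun z => lden d b a c z) (fun z => den_cont hα hβ)
    (fun z => by
      have hz := Finset.mem_erase.1 z.2
      refine lden_not_prop hb ha hc (hF z hz.2).2 hcp ?_ hz.1 hαβ hα hβ
      obtain ⟨s, hs⟩ := (hF z hz.2).1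
      obtain ⟨s', hs', -⟩ := hp
      rcases hOK with hO | hO
      · exact Or.inl ⟨hO _ hs, hO _ hs'⟩
      · exact Or.inr ⟨hO _ hs, hO _ hs'⟩)
  -- `ηB`
  obtain ⟨I0, hI0⟩ := finite_tie hb p
  set I1 : Finset ((ℕ × ℕ) × Bool) :=
    ((I0.filter fun p₁ => c ≤ p₁.2 ∧ p₁ ≠ p).image fun p₁ => (p₁, false)) ∪
      ((I0.filter fun p₁ => 2 * p₁.1 = a).image fun p₁ => (p₁, true)) with hI1
  have hmemI : ∀ i : (ℕ × ℕ) × Bool, i ∈ I1 ↔
      (i.2 = false ∧ mu b i.1 = mu b p ∧ c ≤ i.1.2 ∧ i.1 ≠ p) ∨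
        (i.2 = true ∧ mu b i.1 = mu b p ∧ 2 * i.1.1 = a) := by
    rintro ⟨p₁, t⟩
    rw [hI1, Finset.mem_union, Finset.mem_image, Finset.mem_image]
    constructor
    · rintro (⟨p₂, h1, h2⟩ | ⟨p₂, h1, h2⟩)
      · rw [Prod.mk.injEq] at h2
        obtain ⟨rfl, rfl⟩ := h2
        rw [Finset.mem_filter, ← hI0] at h1
        exact Or.inl ⟨rfl, h1⟩
      · rw [Prod.mk.injEq] at h2
        obtain ⟨rfl, rfl⟩ := h2
        rw [Finset.mem_filter, ← hI0] at h1
        exact Or.inr ⟨rfl, h1⟩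
    · rintro (⟨h1, h2⟩ | ⟨h1, h2⟩)
      · simp only at h1 h2
        subst h1
        exact Or.inl ⟨p₁, by rw [Finset.mem_filter, ← hI0]; exact h2, rfl⟩
      · simp only at h1 h2
        subst h1
        exact Or.inr ⟨p₁, by rw [Finset.mem_filter, ← hI0]; exact h2, rfl⟩
  have hcontG : ∀ i, ContinuousOn (gden d q b a c i) (Ioo α β) := by
    rintro ⟨p₁, t⟩
    cases t
    · simp only [gden]; exact den_cont hα hβ
    · simp only [gden]; exact denP_cont hα hβ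
  -- exponents and polynomials
  set sE : (ℕ × ℕ) × Bool → ℝ := fun i =>
    if i.2 then (b * i.1.1 + b * i.1.1) / 2 - 1
    else (b * i.1.1 + b * ((i.1.1 + a : ℕ) : ℝ)) / 2 with hsE
  set PB : (ℕ × ℕ) × Bool → Polynomial ℝ := fun i =>
    if i.2 then linkBP d q (b * i.1.1) i.1.2 (b * i.1.1) i.1.2
    else linkB d q (b * i.1.1) i.1.2 (b * ((i.1.1 + a : ℕ) : ℝ)) (i.1.2 - c) with hPB
  have hpos : ∀ x ∈ Ioo α β, 0 < 1 - x ^ 2 := by
    intro x hx
    have h1 := hx.1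
    have h2 := hx.2
    nlinarith
  have hden : ∀ i, ∀ x ∈ Ioo α β, gden d q b a c i x =
      x ^ d * ((1 - x ^ 2) ^ (sE i) * (PB i).eval x) := by
    rintro ⟨p₁, t⟩ x hx
    cases t
    · exact linkDen_eq _ _ _ _ _ _ (hpos x hx)
    · exact linkDenP_eq _ _ _ _ _ _ (hpos x hx)
  set i0 : (ℕ × ℕ) × Bool := (p, false) with hi0
  have hi0n : i0 ∉ I1 := by
    rw [hmemI]
    rintro (h1 | h1)
    · exact h1.2.2.2 rfl
    · exact absurd h1.1 (by simp [hi0])
  have hmem' : ∀ i ∈ insert i0 I1,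
      (i.2 = false ∧ mu b i.1 = mu b p ∧ c ≤ i.1.2) ∨
        (i.2 = true ∧ mu b i.1 = mu b p ∧ 2 * i.1.1 = a) := by
    intro i hi
    rcases Finset.mem_insert.1 hi with rfl | hi
    · exact Or.inl ⟨rfl, rfl, hcp⟩
    · rcases (hmemI i).1 hi with h1 | h1
      · exact Or.inl ⟨h1.1, h1.2.1, h1.2.2.1⟩
      · exact Or.inr h1
  have hinj : Set.InjOn sE (insert i0 I1 : Finset ((ℕ × ℕ) × Bool)) := by
    rintro ⟨p₁, t₁⟩ h1 ⟨p₂, t₂⟩ h2 he
    have k1 := hmem' _ h1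
    have k2 := hmem' _ h2
    simp only at k1 k2
    rcases k1 with ⟨rfl, k1, k1'⟩ | ⟨rfl, k1, k1'⟩ <;> rcases k2 with ⟨rfl, k2, k2'⟩ | ⟨rfl, k2, k2'⟩
    · simp only [hsE, Bool.false_eq_true, if_false] at he
      push_cast at he
      have e1 : b * (p₁.1 : ℝ) = b * p₂.1 := by linarith
      have e2 : (p₁.1 : ℝ) = p₂.1 := mul_left_cancel₀ hb.ne' e1
      rw [tie_fst (k1.trans k2.symm) (by exact_mod_cast e2)]
    · exfalso
      simp only [hsE, Bool.false_eq_true, if_false, if_true] at he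
      push_cast at he
      have e2 : (2 : ℝ) * p₂.1 = a := by exact_mod_cast k2'
      have e3 : b * (p₂.1 : ℝ) = c := by
        have : b * (2 * (p₂.1 : ℝ)) = 2 * c := by rw [e2, hba]
        linarith
      have e4 : (0 : ℝ) ≤ b * p₁.1 := by positivity
      linarith
    · exfalso
      simp only [hsE, Bool.false_eq_true, if_false, if_true] at he
      push_cast at he
      have e2 : (2 : ℝ) * p₁.1 = a := by exact_mod_cast k1'
      have e3 : b * (p₁.1 : ℝ) = c := by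
        have : b * (2 * (p₁.1 : ℝ)) = 2 * c := by rw [e2, hba]
        linarith
      have e4 : (0 : ℝ) ≤ b * p₂.1 := by positivity
      linarith
    · have e2 : p₁.1 = p₂.1 := by omega
      rw [tie_fst (k1.trans k2.symm) e2]
  have hPB1 : ∀ i ∈ insert i0 I1, (PB i).eval 1 ≠ 0 := by
    rintro ⟨p₁, t₁⟩ h1
    have k1 := hmem' _ h1
    simp only at k1
    rcases k1 with ⟨rfl, k1, k1'⟩ | ⟨rfl, k1, k1'⟩
    · exact linkB_one_ne_zero d q (by positivity) (hpa _) (by simp only; omega) _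
    · have e3 : 0 < b * (p₁.1 : ℝ) := by
        have : 0 < p₁.1 := by omega
        have : (0 : ℝ) < p₁.1 := by exact_mod_cast this
        positivity
      exact linkBP_one_ne_zero d q e3 e3 _ _
  obtain ⟨ηB, hηB, hB0, hB1⟩ := exists_test_dual (α := α) (β := β) I1
    (gden d q b a c i0) (hcontG i0) (gden d q b a c) (fun i _ => hcontG i) (by
      intro κ hκ
      have hz := indep_of_exponents (insert i0 I1) sE PB (fun i => if i = i0 then -1 else κ i)
        hinj hPB1 hαβ (by linarith) hβ (by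
          intro x hx
          rw [Finset.sum_insert hi0n, if_pos rfl]
          have e1 : ∑ i ∈ I1, (if i = i0 then -1 else κ i) *
              ((1 - x ^ 2) ^ (sE i) * (PB i).eval x) =
              ∑ i ∈ I1, κ i * ((1 - x ^ 2) ^ (sE i) * (PB i).eval x) := by
            refine Finset.sum_congr rfl fun i hi => ?_
            rw [if_neg (fun h : i = i0 => hi0n (h ▸ hi))]
          rw [e1]
          have hx0 : x ≠ 0 := (lt_of_le_of_lt hα hx.1).ne'
          apply mul_left_cancel₀ (pow_ne_zero d hx0)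
          have e2 := hκ x hx
          rw [hden i0 x hx, Finset.sum_congr rfl fun i _ => by rw [hden i x hx]] at e2
          have e3 : ∑ i ∈ I1, κ i * (x ^ d * ((1 - x ^ 2) ^ (sE i) * (PB i).eval x)) =
              x ^ d * ∑ i ∈ I1, κ i * ((1 - x ^ 2) ^ (sE i) * (PB i).eval x) := by
            rw [Finset.mul_sum]
            exact Finset.sum_congr rfl fun i _ => by ring
          rw [e3] at e2
          linear_combination -e2)
      have := hz i0 (Finset.mem_insert_self _ _)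
      simp at this)
  -- `ξ`
  obtain ⟨ξ, hξ, hξ1⟩ := exists_test_eq_one (α := α) (β := β)
    (D := linkDenP d q (b * p.1) p.2 (b * ((p.1 + a : ℕ) : ℝ)) (p.2 - c)) (denP_cont hα hβ) (by
      by_cases hp0 : p.1 = 0
      · have e : linkDenP d q (b * p.1) p.2 (b * ((p.1 + a : ℕ) : ℝ)) (p.2 - c) =
            linkDen d q (b * p.1) p.2 (b * ((p.1 + a : ℕ) : ℝ)) (p.2 - c) := by
          funext x
          unfold linkDenP linkDen
          rw [hp0]
          simp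
        rw [e]
        exact linkDen_ne_zero d q (by positivity) (hpa _) (by omega) _ hαβ hα hβ
      · have : (0 : ℝ) < p.1 := by exact_mod_cast Nat.pos_of_ne_zero hp0
        exact linkDenP_ne_zero d q (by positivity) (hpa _) _ _ hαβ hα hβ)
  obtain ⟨k, hk, hAe⟩ := h.A_eq q b hb p (p.1 + a, p.2 - c)
  obtain ⟨k', hk', hBe⟩ := h.B_eq q b hb p (p.1 + a, p.2 - c)
  refine ⟨⟨ηA, hT hηA⟩, k⁻¹ • ⟨ηB, hT hηB⟩, k'⁻¹ • ⟨ξ, hT hξ⟩, ?_, ?_, ?_, ?_, ?_, ?_⟩
  · rw [hAe ηA hηA]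
    have : ∫ x, ηA x * linkDen d q (b * p.1) p.2 (b * ((p.1 + a : ℕ) : ℝ)) (p.2 - c) x = 0 := hA0
    rw [this, mul_zero]
  · intro z hz hne
    obtain ⟨k1, hk1, h2⟩ := h.A_eq z.1 _ hb z.2 (z.2.1 + a, z.2.2 - c)
    rw [h2 ηA hηA]
    exact mul_ne_zero hk1 (hA1 ⟨z, Finset.mem_erase.2 ⟨hne, hz⟩⟩)
  · rw [map_smul, hAe ηB hηB]
    have : ∫ x, ηB x * linkDen d q (b * p.1) p.2 (b * ((p.1 + a : ℕ) : ℝ)) (p.2 - c) x = 1 := hB0
    rw [this, mul_one, smul_eq_mul, inv_mul_cancel₀ hk]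
  · intro p₁ h1 h2 h3
    obtain ⟨k1, hk1, h4⟩ := h.A_eq q _ hb p₁ (p₁.1 + a, p₁.2 - c)
    rw [map_smul, h4 ηB hηB]
    have : ∫ x, ηB x * linkDen d q (b * p₁.1) p₁.2 (b * ((p₁.1 + a : ℕ) : ℝ)) (p₁.2 - c) x = 0 :=
      hB1 (p₁, false) ((hmemI _).2 (Or.inl ⟨rfl, h2, h1, h3⟩))
    rw [this, mul_zero, smul_zero]
  · intro p₁ h1 h2
    obtain ⟨k1, hk1, h4⟩ := h.B_eq q _ hb p₁ p₁
    rw [map_smul, h4 ηB hηB]
    have : ∫ x, ηB x * linkDenP d q (b * p₁.1) p₁.2 (b * p₁.1) p₁.2 x = 0 :=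
      hB1 (p₁, true) ((hmemI _).2 (Or.inr ⟨rfl, h1, h2⟩))
    rw [this, mul_zero, smul_zero]
  · rw [map_smul, hBe ξ hξ]
    have : ∫ x, ξ x * linkDenP d q (b * p.1) p.2 (b * ((p.1 + a : ℕ) : ℝ)) (p.2 - c) x = 1 := hξ1
    rw [this, mul_one, smul_eq_mul, inv_mul_cancel₀ hk']

end Crest.Agent.R202.Link
end
end

-- ▼ part R202/LinkClu
section

/-!
# Row 202, PART C: the fields `link`, `gate` for the concrete coupling functionals (helper225)
-/

set_option autoImplicit false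

open MeasureTheory Set Filter Topology
open scoped ContDiff
open Crest.Agent.R202.Lab

noncomputable section
namespace Crest.Agent.R202.Clu

theorem link_TF_le (Xa Xb : ℝ) : Link.TF Xa Xb ≤ TF Xa Xb := fun η hη =>
  ⟨hη.1, fun x hx => Link.TF.eq_zero hη fun h => hx (Ioo_subset_Icc_self h)⟩

theorem cpl_clu (d : ℕ) {Xa Xb : ℝ} (ha : 0 < Xa) (hb : Xb < 1) :
    Link.Cpl d (link_TF_le Xa Xb) (cplA Xa Xb d) (cplB Xa Xb d) := by
  have hc : ∀ (q : ℕ) (b : ℝ), 0 < b → ∀ p p' : ℕ × ℕ,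
      (Real.sqrt (nsq d q b p) * Real.sqrt (nsq d q b p'))⁻¹ * (Real.pi / 4) ≠ 0 := by
    intro q b hb p p'
    have h1 := Real.sqrt_pos.2 (nsq_pos d q hb.le p)
    have h2 := Real.sqrt_pos.2 (nsq_pos d q hb.le p')
    have := Real.pi_pos
    positivity
  constructor
  · intro q b hb0 p p'
    refine ⟨_, hc q b hb0 p p', fun η hη => ?_⟩
    rw [cplA_apply ha hb, Link.TF.setIntegral hη ha.le hb.le]
  · intro q b hb0 p p'
    refine ⟨_, hc q b hb0 p p', fun η hη => ?_⟩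
    rw [cplB_apply ha hb, Link.TF.setIntegral hη ha.le hb.le]

/-- field `link` of `SF.SpindleFamily` for `cplA` -/
theorem cpl_link {d : ℕ} {Xa Xb : ℝ} (ha : 0 < Xa) (hab : Xa < Xb) (hb : Xb < 1) {b0 b1 : ℝ}
    (OK : ℕ × ℕ → Prop) :
    ∀ (a c : ℕ), 0 < a → 0 < c → Nat.Coprime a c → 2 * (c : ℝ) / a ∈ Ioo b0 b1 →
    ∀ F : Finset (ℕ × (ℕ × ℕ)), (∀ z ∈ F, (∃ s, OK (z.1, s)) ∧ c ≤ z.2.2) →
    ∃ η : TF Xa Xb, ∀ z ∈ F,
      cplA Xa Xb d z.1 (2 * (c : ℝ) / a) z.2 (z.2.1 + a, z.2.2 - c) η ≠ 0 :=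
  Link.link_field (cpl_clu d ha hb) hab ha.le hb.le

/-- field `gate` of `SF.SpindleFamily` for `cplA`, `cplB` -/
theorem cpl_gate {d : ℕ} {Xa Xb : ℝ} (ha : 0 < Xa) (hab : Xa < Xb) (hb : Xb < 1) {b0 b1 : ℝ}
    {OK : ℕ × ℕ → Prop} (hOK : (∀ σ, OK σ → σ.1 ≤ 1) ∨ (∀ σ, OK σ → 1 ≤ σ.1)) :
    ∀ (a c : ℕ), 0 < a → 0 < c → Nat.Coprime a c → 2 * (c : ℝ) / a ∈ Ioo b0 b1 →
    ∀ (q : ℕ) (p : ℕ × ℕ), (∃ s, OK (q, s) ∧ s ≤ p.1) → c ≤ p.2 → p.2 - c < c →
    ∀ F : Finset (ℕ × (ℕ × ℕ)), (∀ z ∈ F, (∃ s, OK (z.1, s)) ∧ c ≤ z.2.2) →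
    ∃ ηA ηB ξ : TF Xa Xb,
      (cplA Xa Xb d q (2 * (c : ℝ) / a) p (p.1 + a, p.2 - c) ηA = 0) ∧
      (∀ z ∈ F, z ≠ (q, p) →
        cplA Xa Xb d z.1 (2 * (c : ℝ) / a) z.2 (z.2.1 + a, z.2.2 - c) ηA ≠ 0) ∧
      (cplA Xa Xb d q (2 * (c : ℝ) / a) p (p.1 + a, p.2 - c) ηB = 1) ∧
      (∀ p₁ : ℕ × ℕ, c ≤ p₁.2 → mu (2 * (c : ℝ) / a) p₁ = mu (2 * (c : ℝ) / a) p → p₁ ≠ p →
        cplA Xa Xb d q (2 * (c : ℝ) / a) p₁ (p₁.1 + a, p₁.2 - c) ηB = 0) ∧
      (∀ p₁ : ℕ × ℕ, mu (2 * (c : ℝ) / a) p₁ = mu (2 * (c : ℝ) / a) p → 2 * p₁.1 = a →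
        cplB Xa Xb d q (2 * (c : ℝ) / a) p₁ p₁ ηB = 0) ∧
      (cplB Xa Xb d q (2 * (c : ℝ) / a) p (p.1 + a, p.2 - c) ξ = 1) :=
  Link.gate_field (cpl_clu d ha hb) hab ha.le hb.le hOK

end Crest.Agent.R202.Clu
end
end

-- ▼ part R202/InstFam
section

/-!
# Row 202: the spindle family instance (helper98)
-/

set_option autoImplicit false

open MeasureTheory Set Filter
open scoped Topology ContDiff
open Crest.Agent.R202.Mod Crest.Agent.R202.Cut Crest.Agent.R202.PL Crest.Agent.R202.Clu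

noncomputable section

namespace Crest.Agent.R202.Inst

variable {Xa Xb : ℝ}

/-- the tip profiles of `CThm` -/
structure Tips (Xb : ℝ) (hs : ℕ → ℝ → ℝ) (ε : ℕ → ℝ) : Prop where
  meas : ∀ k, Measurable (hs k)
  nonneg : ∀ k x, 0 ≤ hs k x
  le_one : ∀ k x, hs k x ≤ 1
  lim : Tendsto ε atTop (𝓝 0)
  small : ∀ k, ∀ x ∈ Icc (0 : ℝ) 1, hs k x * (1 - x ^ 2) ≤ ε k

theorem Tips.int {Xb : ℝ} {hs : ℕ → ℝ → ℝ} {ε : ℕ → ℝ} (H : Tips Xb hs ε) (d : ℕ) :
    Tendsto (fun k => ∫ z, |hs k z.1| ∂(mu d)) atTop (𝓝 0) := by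
  have key : Tendsto (fun k => ∫ z, |hs k z.1| ∂(mu d)) atTop (𝓝 (∫ _, (0 : ℝ) ∂(mu d))) := by
    refine tendsto_integral_of_dominated_convergence (fun _ => (1 : ℝ))
      (fun k => (((H.meas k).comp measurable_fst).norm).aestronglyMeasurable)
      (integrable_const _) (fun k => Filter.Eventually.of_forall fun z => ?_) ?_
    · rw [Real.norm_eq_abs, abs_abs, abs_of_nonneg (H.nonneg k z.1)]
      exact H.le_one k z.1
    · filter_upwards [ae_mem_Om d] with z hz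
      have hx : 0 < 1 - z.1 ^ 2 := by have := sq_lt_one_of_mem hz.1; linarith
      have hlim : Tendsto (fun k => ε k / (1 - z.1 ^ 2)) atTop (𝓝 0) := by
        simpa using H.lim.div_const (1 - z.1 ^ 2)
      refine squeeze_zero (fun k => abs_nonneg _) (fun k => ?_) hlim
      rw [le_div_iff₀ hx, abs_of_nonneg (H.nonneg k z.1)]
      exact H.small k z.1 ⟨hz.1.1.le, hz.1.2.le⟩
  rwa [integral_zero] at key

theorem aform_one (d : ℕ) (σ : ℕ × ℕ) (b : ℝ) :
    aform d σ b (fun _ => 1) = Q σ.1 σ.2 (adm_one d) b := Clu.aform_eq σ b (adm_one d)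

/-- **the spindle family** -/
def fam (d : ℕ) {b0 b1 : ℝ} (hb0 : 1 ≤ b0) (hb01 : b0 ≤ b1) {hs : ℕ → ℝ → ℝ} {ε : ℕ → ℝ}
    (H : Tips Xb hs ε) (ha : 0 < Xa) (hab : Xa < Xb) (hb : Xb < 1) :
    SF.SpindleFamily d b0 b1 (Main.SecOK d) (TF Xa Xb) (fun σ => CT.VV σ) where
  g σ := g d σ.1 σ.2
  a σ b G k := aform d σ b (prof (hs k) b G)
  a0 σ b := a0form d σ b
  ψ σ b p := psiN d σ.1 σ.2 b p
  sz := jetN
  A := cplA Xa Xb d
  B := cplB Xa Xb d
  sz_nonneg := jetN_nonneg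
  sz_smul := jetN_smul
  sz_add := jetN_add
  symm σ _ b _ G _ k u v := aform_symm d σ b _ u v
  eig σ hσ b hbm := eig_psiN (fun h => hσ.2.1 h) (hb0.trans hbm.1)
  comp σ _ := aform_comp d σ hb0 hb01 H.meas H.nonneg H.le_one
  cons σ _ b' hb' p := by
    obtain ⟨C, hC, o, ho, hlim, h⟩ := aform_cons (Xa := Xa) (Xb := Xb) d σ hb0 H.meas H.nonneg
      H.le_one H.lim H.small hb' (psiN d σ.1 σ.2 b' p)
    exact ⟨C, hC, o, ho, hlim, fun b hbm G _ hG k v => h b hbm G hG k v⟩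
  first σ hσ b' hb' p p' hmu := by
    have he := eig_psiN (d := d) (q := σ.1) (par := σ.2) (fun h => hσ.2.1 h)
      (hb0.trans hb'.1.le)
    refine first_field hb0 ha hb hs H.meas (fun k x _ => ⟨H.nonneg k x, H.le_one k x⟩) (H.int d)
      jetN (fun G z _ => abs_Gf_le G z) σ hb' p p' hmu ?_
    rw [aform_one, he.eig]
    split_ifs with h
    · rw [h, he.one, mul_one]
    · rw [he.orth p p' h, mul_zero]
  A_symm := cplA_symm d
  B_symm := cplB_symm d
  B_eq_A q b p p' hp η := cplB_eq_cplA d q b p p' hp η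
  link := cpl_link ha hab hb (Main.SecOK d)
  gate := cpl_gate ha hab hb (by
    rcases Nat.eq_zero_or_pos d with h | h
    · exact Or.inl fun σ hσ => hσ.2.1 h
    · exact Or.inr fun σ hσ => hσ.2.2 h)

end Crest.Agent.R202.Inst
end
end

-- ▼ part R202/InstLoop

/-!
# Row 202: from the abstract gate output to the polygon and the loop (helper98)
-/

set_option autoImplicit false

open MeasureTheory Set Filter
open scoped Topology ContDiff
open Crest.Agent.R202.Mod Crest.Agent.R202.Cut Crest.Agent.R202.PL Crest.Agent.R202.Clu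

noncomputable section

namespace Crest.Agent.R202.Inst

variable {Xa Xb : ℝ} {d : ℕ} {b0 b1 : ℝ} {hb0 : 1 ≤ b0} {hb01 : b0 ≤ b1} {hs : ℕ → ℝ → ℝ}
  {ε : ℕ → ℝ} {H : Tips Xb hs ε} {ha : 0 < Xa} {hab : Xa < Xb} {hb : Xb < 1}
  {S : Finset (ℕ × ℕ)} {N : ℕ × ℕ → ℕ} {σs : ℕ × ℕ} {ls : ℕ} {δ : ℝ}

/-- the polygon of a gate -/
def poly (O : SF.GateOut (fam d hb0 hb01 H ha hab hb) S N σs ls δ) : Polygon Xa Xb b0 b1 where
  r := 2 * O.n + 4
  r_pos := by omega
  vb := O.vb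
  G0 := O.G0
  G1 := O.G1
  vb_mem i _ := O.mem i
  vb_zero := O.start_b
  vb_r := by
    have h := (O.pal O.n le_rfl).1
    have e : 2 * O.n + 4 = O.n + 4 + O.n := by ring
    rw [e, h, Nat.sub_self, O.start_b]
  G0_zero := O.start_G0
  G0_r := by
    have h := (O.pal O.n le_rfl).2.1
    have e : 2 * O.n + 4 = O.n + 4 + O.n := by ring
    rw [e, h, Nat.sub_self, O.start_G0]
  G1_zero := O.start_G1
  G1_r := by
    have h := (O.pal O.n le_rfl).2.2
    have e : 2 * O.n + 4 = O.n + 4 + O.n := by ring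
    rw [e, h]

theorem poly_small (O : SF.GateOut (fam d hb0 hb01 H ha hab hb) S N σs ls δ) {c : ℝ} (hδ : δ ≤ c) :
    ∀ κ ∈ Icc (-1 : ℝ) 1, ∀ i ≤ (poly O).r, jetN ((poly O).V κ i) ≤ c :=
  fun κ hκ i _ => (O.sz_le i κ hκ).trans hδ

/-- the form of the sector `σ` along the loop -/
def aPath (O : SF.GateOut (fam d hb0 hb01 H ha hab hb) S N σs ls δ) (k : ℕ) (σ : ℕ × ℕ)
    (τ κ : ℝ) : Bil (CT.VV σ) :=
  aform d σ ((poly O).y τ) (prof (hs k) ((poly O).y τ) ((poly O).G τ κ))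

/-- admissibility along the loop -/
theorem aPath_adm (O : SF.GateOut (fam d hb0 hb01 H ha hab hb) S N σs ls δ) (hδ : δ ≤ 1 / 2)
    (k : ℕ) (τ : ℝ) {κ : ℝ} (hκ : κ ∈ Icc (-1 : ℝ) 1) :
    Adm d (b1 + 2) (prof (hs k) ((poly O).y τ) ((poly O).G τ κ)) :=
  adm_prof d (H.meas k) (H.nonneg k) (H.le_one k) (hb0.trans ((poly O).y_mem τ).1)
    ((poly O).y_mem τ).2 ((poly O).jetN_le (poly_small O hδ κ hκ) τ)

/-- the span of the spindle functions -/
def spanPsi (d : ℕ) (σ : ℕ × ℕ) (b : ℝ) : Submodule ℝ (CT.VV σ) :=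
  Submodule.span ℝ (range fun p : SF.Lbl σ.2 => psiN d σ.1 σ.2 b p)

/-- openness of the cuts along the loop -/
theorem aPath_open (O : SF.GateOut (fam d hb0 hb01 H ha hab hb) S N σs ls δ) {k : ℕ}
    (hk : O.K ≤ k) {σ : ℕ × ℕ} (hσ : σ ∈ S) {l : ℕ} (hl : l ≤ N σ) {κ : ℝ}
    (hκ : κ ∈ Icc (-1 : ℝ) 1) (hg : (σ, l) ≠ (σs, ls + 1) ∨ κ = 1 ∨ κ = -1) (τ : ℝ) :
    ∃ b' ∈ Icc b0 b1, IsOpenIn (g d σ.1 σ.2) (aPath O k σ τ κ) (spanPsi d σ b') l := by
  obtain ⟨i, hi, s, hs', h1, h2⟩ := (poly O).exists_edge τ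
  obtain ⟨b', hb', h⟩ := O.isOpen k hk σ hσ l hl κ hκ hg i hi s hs'
  refine ⟨b', hb', ?_⟩
  unfold aPath
  rw [h1, h2 κ]
  exact h

end Crest.Agent.R202.Inst
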