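import Crest.Agent.R202.EllSeq
import Crest.Agent.R202.EllCube

-- ▼ part R202/EllEnergy
section

/-!
# Energy estimate at the sequence level: `h^s` solution, right side in `h^(s-1)` ⟹ `h^(s+1)`.
-/

set_option autoImplicit false

noncomputable section

open scoped BigOperators ComplexConjugate
open Filter

namespace Crest.Agent.R202.Ell

variable {n : ℕ}

/-- the weighted space `h^s`. -/
def HS (s : ℤ) (w : (Fin n → ℤ) → ℂ) : Prop := Summable fun k => (J k ^ s * ‖w k‖) ^ 2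

/-- shear equivalence `(m,l) ↦ (m, m+l)`. -/
def shear : ((Fin n → ℤ) × (Fin n → ℤ)) ≃ ((Fin n → ℤ) × (Fin n → ℤ)) where
  toFun p := (p.1, p.1 + p.2)
  invFun p := (p.1, p.2 - p.1)
  left_inv p := by simp
  right_inv p := by simp

lemma conv_bound {α : (Fin n → ℤ) → ℝ} (hα0 : ∀ m, 0 ≤ α m) (hα : Summable α)
    {γ β : (Fin n → ℤ) → ℝ} (hγ : Summable fun k => γ k ^ 2) (hβ : Summable fun k => β k ^ 2)
    {t : ℝ} (ht : 0 < t) :
    Summable (fun p : (Fin n → ℤ) × (Fin n → ℤ) => α p.1 * (|γ (p.1 + p.2)| * |β p.2|)) ∧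
    ∑' p : (Fin n → ℤ) × (Fin n → ℤ), α p.1 * (|γ (p.1 + p.2)| * |β p.2|) ≤
      (∑' m, α m) * (t / 2 * ∑' k, γ k ^ 2 + 1 / (2 * t) * ∑' k, β k ^ 2) := by
  have hγ' : Summable fun k => t / 2 * γ k ^ 2 := hγ.mul_left _
  have hβ' : Summable fun k => 1 / (2 * t) * β k ^ 2 := hβ.mul_left _
  have s1 : Summable fun p : (Fin n → ℤ) × (Fin n → ℤ) => α p.1 * (t / 2 * γ p.2 ^ 2) :=
    hα.mul_of_nonneg hγ' hα0 (fun k => by simp only [Pi.zero_apply]; positivity)
  have s1' : Summable fun p : (Fin n → ℤ) × (Fin n → ℤ) =>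
      α p.1 * (t / 2 * γ (p.1 + p.2) ^ 2) := (shear.summable_iff (f := fun p :
        (Fin n → ℤ) × (Fin n → ℤ) => α p.1 * (t / 2 * γ p.2 ^ 2))).2 s1
  have s2 : Summable fun p : (Fin n → ℤ) × (Fin n → ℤ) => α p.1 * (1 / (2 * t) * β p.2 ^ 2) :=
    hα.mul_of_nonneg hβ' hα0 (fun k => by simp only [Pi.zero_apply]; positivity)
  have hle : ∀ p : (Fin n → ℤ) × (Fin n → ℤ), α p.1 * (|γ (p.1 + p.2)| * |β p.2|) ≤
      α p.1 * (t / 2 * γ (p.1 + p.2) ^ 2) + α p.1 * (1 / (2 * t) * β p.2 ^ 2) := by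
    intro p
    rw [← mul_add]
    refine mul_le_mul_of_nonneg_left ?_ (hα0 _)
    rw [← sq_abs (γ _), ← sq_abs (β _)]
    set x := |γ (p.1 + p.2)|
    set y := |β p.2|
    have : t / 2 * x ^ 2 + 1 / (2 * t) * y ^ 2 - x * y = (t * x - y) ^ 2 / (2 * t) := by
      field_simp; ring
    have h2 : 0 ≤ (t * x - y) ^ 2 / (2 * t) := by positivity
    linarith
  have s3 := s1'.add s2
  have hs : Summable (fun p : (Fin n → ℤ) × (Fin n → ℤ) =>
      α p.1 * (|γ (p.1 + p.2)| * |β p.2|)) :=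
    Summable.of_nonneg_of_le (fun p => mul_nonneg (hα0 _) (by positivity)) hle s3
  refine ⟨hs, ?_⟩
  calc ∑' p : (Fin n → ℤ) × (Fin n → ℤ), α p.1 * (|γ (p.1 + p.2)| * |β p.2|)
      ≤ ∑' p : (Fin n → ℤ) × (Fin n → ℤ), (α p.1 * (t / 2 * γ (p.1 + p.2) ^ 2) +
          α p.1 * (1 / (2 * t) * β p.2 ^ 2)) := hs.tsum_le_tsum hle s3
    _ = ∑' p : (Fin n → ℤ) × (Fin n → ℤ), α p.1 * (t / 2 * γ (p.1 + p.2) ^ 2) +
        ∑' p : (Fin n → ℤ) × (Fin n → ℤ), α p.1 * (1 / (2 * t) * β p.2 ^ 2) := s1'.tsum_add s2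
    _ = ∑' p : (Fin n → ℤ) × (Fin n → ℤ), α p.1 * (t / 2 * γ p.2 ^ 2) +
        ∑' p : (Fin n → ℤ) × (Fin n → ℤ), α p.1 * (1 / (2 * t) * β p.2 ^ 2) := by
        congr 1
        exact shear.tsum_eq (f := fun p :
          (Fin n → ℤ) × (Fin n → ℤ) => α p.1 * (t / 2 * γ p.2 ^ 2))
    _ = (∑' m, α m) * (t / 2 * ∑' k, γ k ^ 2 + 1 / (2 * t) * ∑' k, β k ^ 2) := by
        rw [← hα.tsum_mul_tsum hγ' s1, ← hα.tsum_mul_tsum hβ' s2, tsum_mul_left, tsum_mul_left,
          mul_add]

/-- the coercivity hypothesis (Gårding with constant form). -/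
def Coercive (lam : ℝ) (a : Fin n → Fin n → (Fin n → ℤ) → ℂ) : Prop :=
  ∀ g : Fin n → (Fin n → ℤ) → ℂ, (∀ i, Summable fun k => ‖g i k‖ ^ 2) →
    lam * ∑ i, ∑' k, ‖g i k‖ ^ 2 ≤
      (∑ i, ∑ j, ∑' p : (Fin n → ℤ) × (Fin n → ℤ),
        conj (g j (p.1 + p.2)) * a i j p.1 * g i p.2).re

/-- the weighted gradient sequences. -/
def gg (s : ℤ) (ε : ℝ) (w : (Fin n → ℤ) → ℂ) (i : Fin n) (l : Fin n → ℤ) : ℂ :=
  ((l i : ℝ) : ℂ) * ((mu s ε l : ℝ) : ℂ) * w l

lemma norm_gg (s : ℤ) {ε : ℝ} (hε : 0 < ε) (w : (Fin n → ℤ) → ℂ) (i : Fin n) (l : Fin n → ℤ) :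
    ‖gg s ε w i l‖ = |(l i : ℝ)| * mu s ε l * ‖w l‖ := by
  unfold gg
  rw [norm_mul, norm_mul, Complex.norm_real, Complex.norm_real, Real.norm_eq_abs,
    Real.norm_eq_abs, abs_of_pos (mu_pos s hε l)]

lemma summable_gg {s : ℤ} {ε : ℝ} (hε : 0 < ε) {w : (Fin n → ℤ) → ℂ} (hw : HS s w) (i : Fin n) :
    Summable fun k => ‖gg s ε w i k‖ ^ 2 := by
  refine Summable.of_nonneg_of_le (fun k => by positivity) (fun k => ?_) (hw.mul_left ((1 / ε) ^ 2))
  rw [← mul_pow, norm_gg s hε]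
  refine pow_le_pow_left₀ (by have := mu_pos s hε k; positivity) ?_ 2
  have h1 := mu_mul_J_le s hε k
  have h2 := abs_le_J k i
  have h3 := mu_pos s hε k
  calc |(k i : ℝ)| * mu s ε k * ‖w k‖ ≤ J k * mu s ε k * ‖w k‖ := by gcongr
    _ = (mu s ε k * J k) * ‖w k‖ := by ring
    _ ≤ ((1 / ε) * J k ^ s) * ‖w k‖ := by gcongr
    _ = 1 / ε * (J k ^ s * ‖w k‖) := by ring

lemma sq_mu_J_le (s : ℤ) {ε : ℝ} (hε : 0 < ε) (w : (Fin n → ℤ) → ℂ) (k : Fin n → ℤ) :
    (mu s ε k * J k * ‖w k‖) ^ 2 ≤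
      2 * (J k ^ s * ‖w k‖) ^ 2 + 2 * n * ∑ i, ‖gg s ε w i k‖ ^ 2 := by
  have h1 := J_sq_le k
  have h3 := mu_pos s hε k
  have h4 := mu_le s hε k
  have e1 : ∑ i, ‖gg s ε w i k‖ ^ 2 = (mu s ε k * ‖w k‖) ^ 2 * ∑ i, (k i : ℝ) ^ 2 := by
    rw [Finset.mul_sum]
    refine Finset.sum_congr rfl fun i _ => ?_
    rw [norm_gg s hε, ← sq_abs (k i : ℝ)]
    ring
  rw [e1]
  calc (mu s ε k * J k * ‖w k‖) ^ 2 = (mu s ε k * ‖w k‖) ^ 2 * J k ^ 2 := by ring
    _ ≤ (mu s ε k * ‖w k‖) ^ 2 * (2 + 2 * n * ∑ i, (k i : ℝ) ^ 2) := by gcongr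
    _ = 2 * (mu s ε k * ‖w k‖) ^ 2 +
        2 * n * ((mu s ε k * ‖w k‖) ^ 2 * ∑ i, (k i : ℝ) ^ 2) := by ring
    _ ≤ _ := by gcongr

section step

variable {a : Fin n → Fin n → (Fin n → ℤ) → ℂ}

/-- the `X` terms. -/
def XX (a : Fin n → Fin n → (Fin n → ℤ) → ℂ) (s : ℤ) (ε : ℝ) (w : (Fin n → ℤ) → ℂ)
    (i j : Fin n) (p : (Fin n → ℤ) × (Fin n → ℤ)) : ℂ :=
  conj (gg s ε w j (p.1 + p.2)) * a i j p.1 * gg s ε w i p.2

/-- the `Y` terms (multiplier moved to the output frequency). -/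
def YY (a : Fin n → Fin n → (Fin n → ℤ) → ℂ) (s : ℤ) (ε : ℝ) (w : (Fin n → ℤ) → ℂ)
    (i j : Fin n) (p : (Fin n → ℤ) × (Fin n → ℤ)) : ℂ :=
  conj (gg s ε w j (p.1 + p.2)) * a i j p.1 *
    (((p.2 i : ℝ) : ℂ) * ((mu s ε (p.1 + p.2) : ℝ) : ℂ) * w p.2)

lemma summable_XX {s : ℤ} {ε : ℝ} (hε : 0 < ε) {w : (Fin n → ℤ) → ℂ} (hw : HS s w)
    (ha : ∀ i j, Summable fun m => ‖a i j m‖) (i j : Fin n) :
    Summable (XX a s ε w i j) := by
  have h := (conv_bound (α := fun m => ‖a i j m‖) (fun m => norm_nonneg _) (ha i j)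
    (γ := fun k => ‖gg s ε w j k‖) (β := fun k => ‖gg s ε w i k‖) (summable_gg hε hw j)
    (summable_gg hε hw i) one_pos).1
  refine Summable.of_norm_bounded h (fun p => ?_)
  unfold XX
  rw [norm_mul, norm_mul, RCLike.norm_conj, abs_norm, abs_norm]
  apply le_of_eq; ring

lemma norm_XX_sub_YY_le {s : ℤ} {ε : ℝ} (hε : 0 < ε) (w : (Fin n → ℤ) → ℂ) (i j : Fin n)
    (p : (Fin n → ℤ) × (Fin n → ℤ)) :
    ‖XX a s ε w i j p - YY a s ε w i j p‖ ≤
      ((s.natAbs + 1 : ℝ) * (J p.1 ^ (2 * s.natAbs + 2) * ‖a i j p.1‖)) *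
        (|‖gg s ε w j (p.1 + p.2)‖| * |J p.2 ^ s * ‖w p.2‖|) := by
  have e1 : XX a s ε w i j p - YY a s ε w i j p =
      conj (gg s ε w j (p.1 + p.2)) * a i j p.1 *
        (((p.2 i : ℝ) : ℂ) * ((mu s ε p.2 - mu s ε (p.1 + p.2) : ℝ) : ℂ) * w p.2) := by
    unfold XX YY gg
    push_cast
    ring
  have hJ : 0 < J p.2 ^ s := zpow_pos (J_pos _) _
  rw [e1, norm_mul, norm_mul, RCLike.norm_conj, norm_mul, norm_mul, Complex.norm_real,
    Complex.norm_real, Real.norm_eq_abs, Real.norm_eq_abs, abs_norm,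
    abs_of_nonneg (by positivity : 0 ≤ J p.2 ^ s * ‖w p.2‖), abs_sub_comm]
  have h1 := mu_diff s hε p.1 p.2
  have h2 := abs_le_J p.2 i
  have h3 : |(p.2 i : ℝ)| * |mu s ε (p.1 + p.2) - mu s ε p.2| ≤
      (s.natAbs + 1) * J p.1 ^ (2 * s.natAbs + 2) * J p.2 ^ s := by
    refine le_trans ?_ h1
    rw [mul_comm]
    gcongr
  calc ‖gg s ε w j (p.1 + p.2)‖ * ‖a i j p.1‖ *
        (|(p.2 i : ℝ)| * |mu s ε (p.1 + p.2) - mu s ε p.2| * ‖w p.2‖)
      ≤ ‖gg s ε w j (p.1 + p.2)‖ * ‖a i j p.1‖ *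
        (((s.natAbs + 1) * J p.1 ^ (2 * s.natAbs + 2) * J p.2 ^ s) * ‖w p.2‖) := by gcongr
    _ = _ := by ring

lemma summable_YY {s : ℤ} {ε : ℝ} (hε : 0 < ε) {w : (Fin n → ℤ) → ℂ} (hw : HS s w)
    (ha : ∀ i j (N : ℕ), Summable fun m => J m ^ N * ‖a i j m‖) (i j : Fin n) :
    Summable (YY a s ε w i j) := by
  have h := (conv_bound
    (α := fun m => (s.natAbs + 1 : ℝ) * (J m ^ (2 * s.natAbs + 2) * ‖a i j m‖))
    (fun m => by have := J_pos m; positivity) ((ha i j _).mul_left _)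
    (γ := fun k => ‖gg s ε w j k‖) (β := fun k => J k ^ s * ‖w k‖) (summable_gg hε hw j)
    hw one_pos).1
  have h1 : Summable fun p => XX a s ε w i j p - YY a s ε w i j p :=
    Summable.of_norm_bounded h (fun p => norm_XX_sub_YY_le hε w i j p)
  have h2 := summable_XX hε hw (fun i j => by simpa using ha i j 0) i j
  have h3 := h2.sub h1
  simpa using h3

/-- `∑ Y = ∑ μ² conj w · H`. -/
lemma tsum_YY {s : ℤ} {ε : ℝ} (hε : 0 < ε) {w H : (Fin n → ℤ) → ℂ} (hw : HS s w)
    (ha : ∀ i j (N : ℕ), Summable fun m => J m ^ N * ‖a i j m‖)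
    (heq : ∀ k, ∑ j, ((k j : ℝ) : ℂ) * ∑ i, ∑' m, a i j m * (((k - m) i : ℝ) : ℂ) * w (k - m) =
      H k) :
    ∑ i, ∑ j, ∑' p, YY a s ε w i j p =
      ∑' k, ((mu s ε k : ℝ) : ℂ) ^ 2 * conj (w k) * H k := by
  have key : ∀ i j, (∑' p, YY a s ε w i j p = ∑' k, conj (gg s ε w j k) * ((mu s ε k : ℝ) : ℂ) *
      ∑' m, a i j m * (((k - m) i : ℝ) : ℂ) * w (k - m)) ∧
      Summable fun k => conj (gg s ε w j k) * ((mu s ε k : ℝ) : ℂ) *
      ∑' m, a i j m * (((k - m) i : ℝ) : ℂ) * w (k - m) := by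
    intro i j
    let Y' : (Fin n → ℤ) × (Fin n → ℤ) → ℂ := fun q =>
      conj (gg s ε w j q.1) * ((mu s ε q.1 : ℝ) : ℂ) *
        (a i j q.2 * (((q.1 - q.2) i : ℝ) : ℂ) * w (q.1 - q.2))
    let e : ((Fin n → ℤ) × (Fin n → ℤ)) ≃ ((Fin n → ℤ) × (Fin n → ℤ)) :=
      shear.trans (Equiv.prodComm _ _)
    have hY : ∀ p, Y' (e p) = YY a s ε w i j p := by
      intro p
      have h1 : (e p).1 = p.1 + p.2 := rfl
      have h2 : (e p).2 = p.1 := rfl
      simp only [Y', YY, h1, h2, add_sub_cancel_left]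
      ring
    have hs : Summable Y' := by
      rw [← e.summable_iff]
      refine (summable_YY hε hw ha i j).congr (fun p => ?_)
      exact (hY p).symm
    have h1 : ∑' p, YY a s ε w i j p = ∑' q, Y' q := by
      rw [← e.tsum_eq Y']
      exact tsum_congr fun p => (hY p).symm
    have h2 : ∑' q, Y' q = ∑' k, ∑' m, Y' (k, m) := hs.tsum_prod
    have h3 : ∀ k, ∑' m, Y' (k, m) = conj (gg s ε w j k) * ((mu s ε k : ℝ) : ℂ) *
        ∑' m, a i j m * (((k - m) i : ℝ) : ℂ) * w (k - m) := by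
      intro k
      rw [← tsum_mul_left]
    have h4 : Summable fun k => ∑' m, Y' (k, m) := hs.prod
    refine ⟨?_, ?_⟩
    · rw [h1, h2]
      exact tsum_congr h3
    · exact h4.congr (fun k => (h3 k))
  calc ∑ i, ∑ j, ∑' p, YY a s ε w i j p
      = ∑ i, ∑ j, ∑' k, conj (gg s ε w j k) * ((mu s ε k : ℝ) : ℂ) *
          ∑' m, a i j m * (((k - m) i : ℝ) : ℂ) * w (k - m) := by
        refine Finset.sum_congr rfl fun i _ => Finset.sum_congr rfl fun j _ => (key i j).1
    _ = ∑' k, ∑ i, ∑ j, conj (gg s ε w j k) * ((mu s ε k : ℝ) : ℂ) *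
          ∑' m, a i j m * (((k - m) i : ℝ) : ℂ) * w (k - m) := by
        rw [Summable.tsum_finsetSum (fun i _ => summable_sum fun j _ => (key i j).2)]
        refine Finset.sum_congr rfl fun i _ => ?_
        rw [Summable.tsum_finsetSum (fun j _ => (key i j).2)]
    _ = ∑' k, ((mu s ε k : ℝ) : ℂ) ^ 2 * conj (w k) * H k := by
        refine tsum_congr fun k => ?_
        rw [← heq k, Finset.sum_comm, Finset.mul_sum]
        refine Finset.sum_congr rfl fun j _ => ?_
        rw [← Finset.mul_sum]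
        unfold gg
        simp only [map_mul, Complex.conj_ofReal]
        ring

/-- uniform bound for the weighted gradient energy. -/
lemma energy_bound (ha : ∀ i j (N : ℕ), Summable fun m => J m ^ N * ‖a i j m‖)
    {lam : ℝ} (hlam : 0 < lam) (hcoer : Coercive lam a) (s : ℤ) {w H : (Fin n → ℤ) → ℂ}
    (hw : HS s w) (hH : HS (s - 1) H)
    (heq : ∀ k, ∑ j, ((k j : ℝ) : ℂ) * ∑ i, ∑' m, a i j m * (((k - m) i : ℝ) : ℂ) * w (k - m) =
      H k) :
    ∃ K : ℝ, ∀ ε : ℝ, 0 < ε → ∑ i, ∑' k, ‖gg s ε w i k‖ ^ 2 ≤ K := by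
  set A : Fin n → Fin n → ℝ := fun i j =>
    ∑' m, ((s.natAbs + 1 : ℝ) * (J m ^ (2 * s.natAbs + 2) * ‖a i j m‖)) with hA
  have hA0 : ∀ i j, 0 ≤ A i j := fun i j => tsum_nonneg fun m => by
    have := J_pos m; positivity
  set D : ℝ := ∑ i, ∑ j, A i j with hD
  have hD0 : 0 ≤ D := Finset.sum_nonneg fun i _ => Finset.sum_nonneg fun j _ => hA0 i j
  set t : ℝ := lam / (2 * n + D + 1) with ht
  have hden : 0 < 2 * (n : ℝ) + D + 1 := by positivity
  have ht0 : 0 < t := div_pos hlam hden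
  set W : ℝ := ∑' k, (J k ^ s * ‖w k‖) ^ 2 with hW
  set Hh : ℝ := ∑' k, (J k ^ (s - 1) * ‖H k‖) ^ 2 with hHh
  refine ⟨(2 / lam) * (t * W + 1 / (2 * t) * Hh + D * (1 / (2 * t) * W)), fun ε hε => ?_⟩
  set G : ℝ := ∑ i, ∑' k, ‖gg s ε w i k‖ ^ 2 with hG
  have hGi : ∀ j, ∑' k, ‖gg s ε w j k‖ ^ 2 ≤ G := fun j =>
    Finset.single_le_sum (f := fun i => ∑' k, ‖gg s ε w i k‖ ^ 2)
      (fun i _ => tsum_nonneg fun k => by positivity) (Finset.mem_univ j)
  have hG0 : 0 ≤ G := Finset.sum_nonneg fun i _ => tsum_nonneg fun k => by positivity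
  have hW0 : 0 ≤ W := tsum_nonneg fun k => by positivity
  have hHh0 : 0 ≤ Hh := tsum_nonneg fun k => by positivity
  have hc := hcoer (gg s ε w) (summable_gg hε hw)
  have hXs : ∀ i j, Summable (XX a s ε w i j) :=
    summable_XX hε hw (fun i j => by simpa using ha i j 0)
  have hYs : ∀ i j, Summable (YY a s ε w i j) := summable_YY hε hw ha
  -- difference
  have hdiff : ∀ i j, ‖∑' p, XX a s ε w i j p - ∑' p, YY a s ε w i j p‖ ≤
      A i j * (t / 2 * G + 1 / (2 * t) * W) := by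
    intro i j
    have hcb := conv_bound
      (α := fun m => (s.natAbs + 1 : ℝ) * (J m ^ (2 * s.natAbs + 2) * ‖a i j m‖))
      (fun m => by have := J_pos m; positivity) ((ha i j _).mul_left _)
      (γ := fun k => ‖gg s ε w j k‖) (β := fun k => J k ^ s * ‖w k‖) (summable_gg hε hw j)
      hw ht0
    rw [← (hXs i j).tsum_sub (hYs i j)]
    refine (tsum_of_norm_bounded hcb.1.hasSum (fun p => norm_XX_sub_YY_le hε w i j p)).trans ?_
    refine hcb.2.trans ?_
    refine mul_le_mul_of_nonneg_left ?_ (hA0 i j)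
    have := hGi j
    gcongr
  have hYb : ‖∑ i, ∑ j, ∑' p, YY a s ε w i j p‖ ≤
      t / 2 * (2 * W + 2 * n * G) + 1 / (2 * t) * Hh := by
    rw [tsum_YY hε hw ha heq]
    have hsm : ∀ k, (mu s ε k * J k * ‖w k‖) ^ 2 ≤
        2 * (J k ^ s * ‖w k‖) ^ 2 + 2 * n * ∑ i, ‖gg s ε w i k‖ ^ 2 := sq_mu_J_le s hε w
    have hgs : Summable fun k => ∑ i, ‖gg s ε w i k‖ ^ 2 :=
      summable_sum fun i _ => summable_gg hε hw i
    have hmaj : Summable fun k => t / 2 * (2 * (J k ^ s * ‖w k‖) ^ 2 +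
        2 * n * ∑ i, ‖gg s ε w i k‖ ^ 2) + 1 / (2 * t) * (J k ^ (s - 1) * ‖H k‖) ^ 2 :=
      (((hw.mul_left _).add (hgs.mul_left _)).mul_left _).add (hH.mul_left _)
    have hb : ∀ k, ‖((mu s ε k : ℝ) : ℂ) ^ 2 * conj (w k) * H k‖ ≤
        t / 2 * (2 * (J k ^ s * ‖w k‖) ^ 2 +
        2 * n * ∑ i, ‖gg s ε w i k‖ ^ 2) + 1 / (2 * t) * (J k ^ (s - 1) * ‖H k‖) ^ 2 := by
      intro k
      have hJ := J_pos k
      have hμ := mu_pos s hε k
      have hμJ : mu s ε k ≤ J k * J k ^ (s - 1) := by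
        have h1 := mu_le s hε k
        have h2 : J k ^ s = J k * J k ^ (s - 1) := by
          rw [← zpow_one_add₀ hJ.ne']; congr 1; ring
        rw [← h2]; exact h1
      have e1 : ‖((mu s ε k : ℝ) : ℂ) ^ 2 * conj (w k) * H k‖ =
          mu s ε k ^ 2 * ‖w k‖ * ‖H k‖ := by
        rw [norm_mul, norm_mul, norm_pow, RCLike.norm_conj, Complex.norm_real, Real.norm_eq_abs,
          abs_of_pos hμ]
      rw [e1]
      set x := mu s ε k * J k * ‖w k‖ with hx
      set y := J k ^ (s - 1) * ‖H k‖ with hy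
      have h1 : mu s ε k ^ 2 * ‖w k‖ * ‖H k‖ ≤ x * y := by
        calc mu s ε k ^ 2 * ‖w k‖ * ‖H k‖ = mu s ε k * (mu s ε k) * ‖w k‖ * ‖H k‖ := by ring
          _ ≤ mu s ε k * (J k * J k ^ (s - 1)) * ‖w k‖ * ‖H k‖ := by gcongr
          _ = x * y := by rw [hx, hy]; ring
      have h2 : x * y ≤ t / 2 * x ^ 2 + 1 / (2 * t) * y ^ 2 := by
        have : t / 2 * x ^ 2 + 1 / (2 * t) * y ^ 2 - x * y = (t * x - y) ^ 2 / (2 * t) := by
          field_simp; ring
        have h2 : 0 ≤ (t * x - y) ^ 2 / (2 * t) := by positivity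
        linarith
      refine h1.trans (h2.trans ?_)
      have := hsm k
      gcongr
    refine (tsum_of_norm_bounded hmaj.hasSum hb).trans (le_of_eq ?_)
    rw [Summable.tsum_add (((hw.mul_left _).add (hgs.mul_left _)).mul_left _) (hH.mul_left _),
      tsum_mul_left, tsum_mul_left, Summable.tsum_add (hw.mul_left _) (hgs.mul_left _),
      tsum_mul_left, tsum_mul_left, Summable.tsum_finsetSum (fun i _ => summable_gg hε hw i)]
  have hXre : lam * G ≤ ‖∑ i, ∑ j, ∑' p, XX a s ε w i j p‖ := hc.trans (Complex.re_le_norm _)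
  have hXY : ‖∑ i, ∑ j, ∑' p, XX a s ε w i j p‖ ≤
      D * (t / 2 * G + 1 / (2 * t) * W) + (t / 2 * (2 * W + 2 * n * G) + 1 / (2 * t) * Hh) := by
    have e : ∑ i, ∑ j, ∑' p, XX a s ε w i j p =
        ∑ i, ∑ j, (∑' p, XX a s ε w i j p - ∑' p, YY a s ε w i j p) +
          ∑ i, ∑ j, ∑' p, YY a s ε w i j p := by
      simp only [Finset.sum_sub_distrib]; ring
    rw [e]
    refine (norm_add_le _ _).trans (add_le_add ?_ hYb)
    refine (norm_sum_le _ _).trans ?_
    rw [hD, Finset.sum_mul]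
    refine Finset.sum_le_sum fun i _ => ?_
    refine (norm_sum_le _ _).trans ?_
    rw [Finset.sum_mul]
    exact Finset.sum_le_sum fun j _ => hdiff i j
  have hfin := hXre.trans hXY
  have htlam : t * (2 * n + D + 1) = lam := by
    rw [ht]; field_simp
  have hGt : (D * (t / 2) + t * n) * G ≤ lam / 2 * G := by
    refine mul_le_mul_of_nonneg_right ?_ hG0
    nlinarith
  have h1 : lam / 2 * G ≤ t * W + 1 / (2 * t) * Hh + D * (1 / (2 * t) * W) := by
    have : D * (t / 2 * G + 1 / (2 * t) * W) + (t / 2 * (2 * W + 2 * n * G) + 1 / (2 * t) * Hh) =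
      (D * (t / 2) + t * n) * G + (t * W + 1 / (2 * t) * Hh + D * (1 / (2 * t) * W)) := by ring
    rw [this] at hfin
    linarith
  have h2 : G = (2 / lam) * (lam / 2 * G) := by field_simp
  rw [h2]
  gcongr

/-- **Regularity gain at the sequence level.** -/
theorem HS_step (ha : ∀ i j (N : ℕ), Summable fun m => J m ^ N * ‖a i j m‖)
    {lam : ℝ} (hlam : 0 < lam) (hcoer : Coercive lam a) (s : ℤ) {w H : (Fin n → ℤ) → ℂ}
    (hw : HS s w) (hH : HS (s - 1) H)
    (heq : ∀ k, ∑ j, ((k j : ℝ) : ℂ) * ∑ i, ∑' m, a i j m * (((k - m) i : ℝ) : ℂ) * w (k - m) =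
      H k) :
    HS (s + 1) w := by
  obtain ⟨K, hK⟩ := energy_bound ha hlam hcoer s hw hH heq
  have h1 : Summable fun k : Fin n → ℤ => (∑ i, (k i : ℝ) ^ 2) * (J k ^ s * ‖w k‖) ^ 2 := by
    refine summable_of_sum_le (c := K) (fun k => by positivity) (fun S => ?_)
    have hb : ∀ ε : ℝ, 0 < ε →
        ∑ k ∈ S, (∑ i, (k i : ℝ) ^ 2) * (mu s ε k * ‖w k‖) ^ 2 ≤ K := by
      intro ε hε
      refine le_trans ?_ (hK ε hε)
      have e : ∀ k, (∑ i, (k i : ℝ) ^ 2) * (mu s ε k * ‖w k‖) ^ 2 = ∑ i, ‖gg s ε w i k‖ ^ 2 := by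
        intro k
        rw [Finset.sum_mul]
        refine Finset.sum_congr rfl fun i _ => ?_
        rw [norm_gg s hε, ← sq_abs (k i : ℝ)]
        ring
      simp only [e]
      rw [Finset.sum_comm]
      refine Finset.sum_le_sum fun i _ => ?_
      exact (summable_gg hε hw i).sum_le_tsum S (fun k _ => by positivity)
    have hlim : Tendsto (fun ε : ℝ => ∑ k ∈ S, (∑ i, (k i : ℝ) ^ 2) * (mu s ε k * ‖w k‖) ^ 2)
        (nhdsWithin 0 (Set.Ioi 0)) (nhds (∑ k ∈ S, (∑ i, (k i : ℝ) ^ 2) * (J k ^ s * ‖w k‖) ^ 2)) := by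
      refine tendsto_finsetSum _ fun k _ => ?_
      refine Tendsto.const_mul _ (Tendsto.pow (Tendsto.mul_const _ ?_) 2)
      have h2 : ContinuousAt (fun ε : ℝ => mu s ε k) 0 := by
        unfold mu
        refine ContinuousAt.div (by fun_prop) (by fun_prop) (by simp)
      have h3 : mu s 0 k = J k ^ s := by simp [mu]
      have h4 := h2.tendsto
      rw [h3] at h4
      exact h4.mono_left nhdsWithin_le_nhds
    refine le_of_tendsto hlim ?_
    filter_upwards [self_mem_nhdsWithin] with ε hε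
    exact hb ε hε
  unfold HS
  refine Summable.of_nonneg_of_le (fun k => by positivity) (fun k => ?_)
    (Summable.add (hw.mul_left 2) (h1.mul_left (2 * (n : ℝ))))
  have hJ := J_pos k
  have h2 := J_sq_le k
  have e : (J k ^ (s + 1) * ‖w k‖) ^ 2 = J k ^ 2 * (J k ^ s * ‖w k‖) ^ 2 := by
    rw [zpow_add_one₀ hJ.ne']; ring
  rw [e]
  calc J k ^ 2 * (J k ^ s * ‖w k‖) ^ 2
      ≤ (2 + 2 * n * ∑ i, (k i : ℝ) ^ 2) * (J k ^ s * ‖w k‖) ^ 2 := by gcongr
    _ = _ := by ring

end step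

end Crest.Agent.R202.Ell
end
end

-- ▼ part R202/EllCoer
section

/-!
# Coercivity at the sequence level from pointwise ellipticity
-/

set_option autoImplicit false

noncomputable section

open scoped BigOperators ComplexConjugate FourierTransform ContDiff
open Filter MeasureTheory

namespace Crest.Agent.R202.Ell

variable {n : ℕ}

/-- the unit box centred at `c`. -/
def box (c : EuclideanSpace ℝ (Fin n)) : Set (Fin n → ℝ) :=
  {x : Fin n → ℝ | ∀ i, x i ∈ Set.Ioc (c i - 1 / 2) (c i - 1 / 2 + 1)}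

lemma box_eq_pi (c : EuclideanSpace ℝ (Fin n)) :
    box c = Set.univ.pi fun i => Set.Ioc (c i - 1 / 2) (c i - 1 / 2 + 1) := by
  ext x; simp [box]

lemma measurableSet_box (c : EuclideanSpace ℝ (Fin n)) : MeasurableSet (box c) := by
  rw [box_eq_pi]
  exact MeasurableSet.univ_pi fun i => measurableSet_Ioc

/-- integral of a function over the unit box. -/
def bi (c : EuclideanSpace ℝ (Fin n)) (F : EuclideanSpace ℝ (Fin n) → ℂ) : ℂ :=
  ∫ x in box c, F (WithLp.toLp 2 x)

lemma integrableOn_box (c : EuclideanSpace ℝ (Fin n)) {F : EuclideanSpace ℝ (Fin n) → ℂ}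
    (hF : Continuous F) : IntegrableOn (fun x => F (WithLp.toLp 2 x)) (box c) := by
  have hc : Continuous fun x : Fin n → ℝ => F (WithLp.toLp 2 x) :=
    hF.comp (PiLp.continuous_toLp 2 _)
  have hK : IsCompact (Set.univ.pi fun i : Fin n => Set.Icc (c i - 1 / 2) (c i - 1 / 2 + 1)) :=
    isCompact_univ_pi fun i => isCompact_Icc
  refine (hc.continuousOn.integrableOn_compact hK).mono_set ?_
  rw [box_eq_pi]
  exact Set.pi_mono fun i _ => Set.Ioc_subset_Icc_self

lemma bi_ee (c : EuclideanSpace ℝ (Fin n)) (m : Fin n → ℤ) :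
    bi c (fun x => ee (-m) x) = if m = 0 then 1 else 0 := by
  have h1 : bi c (fun x => ee (-m) x) =
      UnitAddTorus.mFourierCoeff (⇑(UnitAddTorus.mFourier (0 : Fin n → ℤ))) m := by
    rw [UnitAddTorus.mFourierCoeff_eq_integral _ m (fun i => c i - 1 / 2)]
    unfold bi
    refine setIntegral_congr_fun (measurableSet_box c) fun x _ => ?_
    have h1 : (fun i => ((x i : ℝ) : UnitAddCircle)) = prj (WithLp.toLp 2 x) := rfl
    simp only [h1]
    rw [mFourier_prj, mFourier_prj, ee_zero, smul_eq_mul, mul_one]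
  rw [h1]
  have h := UnitAddTorus.mFourierBasis_repr (UnitAddTorus.mFourierBasis (0 : Fin n → ℤ)) m
  rw [HilbertBasis.repr_self, UnitAddTorus.coe_mFourierBasis,
    UnitAddTorus.mFourierCoeff_toLp] at h
  rw [← h]
  by_cases hm : m = 0
  · subst hm; simp
  · simp [hm]

lemma bi_cf (c : EuclideanSpace ℝ (Fin n)) {ψ : EuclideanSpace ℝ (Fin n) → ℂ} {r : ℝ}
    (hr : r < 1 / 2) (hsupp : ∀ x, r ≤ ‖x - c‖ → ψ x = 0) (m : Fin n → ℤ) :
    bi c (fun x => ψ x * ee (-m) x) = cf ψ m := by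
  unfold bi
  rw [setIntegral_eq_integral_of_forall_compl_eq_zero]
  · rw [cf]
    exact (PiLp.volume_preserving_toLp (Fin n)).integral_comp
      (MeasurableEquiv.toLp 2 (Fin n → ℝ)).measurableEmbedding
      (fun y : EuclideanSpace ℝ (Fin n) => ψ y * ee (-m) y)
  · intro x hx
    have : ψ (WithLp.toLp 2 x) = 0 := by
      apply hsupp
      by_contra hlt
      push Not at hlt
      exact hx fun i => mem_box_of_norm_lt (x := WithLp.toLp 2 x) (hlt.trans hr) i
    simp [this]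

/-- Fourier coefficients of the matrix field `δ + B`. -/
def am (B : Fin n → Fin n → EuclideanSpace ℝ (Fin n) → ℂ) (i j : Fin n) (m : Fin n → ℤ) : ℂ :=
  (if i = j ∧ m = 0 then 1 else 0) + cf (B i j) m

lemma bi_am (c : EuclideanSpace ℝ (Fin n)) {B : Fin n → Fin n → EuclideanSpace ℝ (Fin n) → ℂ}
    {r : ℝ} (hr : r < 1 / 2) (hcont : ∀ i j, Continuous (B i j))
    (hsupp : ∀ i j x, r ≤ ‖x - c‖ → B i j x = 0) (i j : Fin n) (m : Fin n → ℤ) :
    bi c (fun x => ((if i = j then 1 else 0) + B i j x) * ee (-m) x) = am B i j m := by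
  have h1 : bi c (fun x => ((if i = j then 1 else 0) + B i j x) * ee (-m) x) =
      bi c (fun x => (if i = j then 1 else 0) * ee (-m) x) + bi c (fun x => B i j x * ee (-m) x) := by
    have i1 := integrableOn_box c (F := fun x => (if i = j then 1 else 0) * ee (-m) x)
      (continuous_const.mul (contDiff_ee _).continuous)
    have i2 := integrableOn_box c (F := fun x => B i j x * ee (-m) x)
      ((hcont i j).mul (contDiff_ee _).continuous)
    have := integral_add i1 i2
    unfold bi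
    rw [← this]
    refine integral_congr_ae (Eventually.of_forall fun x => ?_)
    simp only
    ring
  rw [h1, bi_cf c hr (hsupp i j)]
  unfold am
  congr 1
  have h2 : bi c (fun x => (if i = j then 1 else 0) * ee (-m) x) =
      (if i = j then 1 else 0) * bi c (fun x => ee (-m) x) := by
    unfold bi
    rw [← integral_const_mul]
  rw [h2, bi_ee]
  by_cases h : i = j <;> by_cases hm : m = 0 <;> simp [h, hm]

/-- trigonometric polynomial. -/
def tp (S : Finset (Fin n → ℤ)) (g : (Fin n → ℤ) → ℂ) (x : EuclideanSpace ℝ (Fin n)) : ℂ :=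
  ∑ l ∈ S, g l * ee l x

lemma continuous_tp (S : Finset (Fin n → ℤ)) (g : (Fin n → ℤ) → ℂ) : Continuous (tp S g) := by
  unfold tp
  exact continuous_finsetSum _ fun l _ => continuous_const.mul (contDiff_ee l).continuous

lemma bi_tp (c : EuclideanSpace ℝ (Fin n)) {B : Fin n → Fin n → EuclideanSpace ℝ (Fin n) → ℂ}
    {r : ℝ} (hr : r < 1 / 2) (hcont : ∀ i j, Continuous (B i j))
    (hsupp : ∀ i j x, r ≤ ‖x - c‖ → B i j x = 0) (i j : Fin n) (S : Finset (Fin n → ℤ))
    (g h : (Fin n → ℤ) → ℂ) :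
    bi c (fun x => ((if i = j then 1 else 0) + B i j x) * tp S g x * conj (tp S h x)) =
      ∑ k ∈ S, ∑ l ∈ S, conj (h k) * am B i j (k - l) * g l := by
  have hexp : ∀ x, ((if i = j then 1 else 0) + B i j x) * tp S g x * conj (tp S h x) =
      ∑ k ∈ S, ∑ l ∈ S, (conj (h k) * g l) *
        (((if i = j then 1 else 0) + B i j x) * ee (-(k - l)) x) := by
    intro x
    unfold tp
    rw [map_sum, Finset.mul_sum]
    refine Finset.sum_congr rfl fun k _ => ?_
    rw [Finset.mul_sum, Finset.sum_mul]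
    refine Finset.sum_congr rfl fun l _ => ?_
    have : -(k - l) = l + (-k) := by abel
    rw [this, ee_add, ee_neg, map_mul]
    ring
  have hint : ∀ k l, IntegrableOn (fun x => (fun y : EuclideanSpace ℝ (Fin n) =>
      (conj (h k) * g l) * (((if i = j then 1 else 0) + B i j y) * ee (-(k - l)) y))
        (WithLp.toLp 2 x)) (box c) := by
    intro k l
    exact integrableOn_box c (F := fun y : EuclideanSpace ℝ (Fin n) =>
      (conj (h k) * g l) * (((if i = j then 1 else 0) + B i j y) * ee (-(k - l)) y))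
      (continuous_const.mul ((continuous_const.add (hcont i j)).mul (contDiff_ee _).continuous))
  simp only [hexp]
  unfold bi
  rw [integral_finsetSum _ fun k _ => integrable_finsetSum _ fun l _ => hint k l]
  refine Finset.sum_congr rfl fun k _ => ?_
  rw [integral_finsetSum _ fun l _ => hint k l]
  refine Finset.sum_congr rfl fun l _ => ?_
  rw [integral_const_mul]
  have := bi_am c hr hcont hsupp i j (k - l)
  unfold bi at this
  rw [this]
  ring

/-- pointwise ellipticity, real form. -/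
def Elliptic (lam : ℝ) (B : Fin n → Fin n → EuclideanSpace ℝ (Fin n) → ℝ) : Prop :=
  ∀ x, ∀ ξ : Fin n → ℝ, lam * ∑ i, ξ i ^ 2 ≤
    ∑ i, ∑ j, ((if i = j then 1 else 0) + B i j x) * ξ i * ξ j

lemma elliptic_complex {lam : ℝ} {B : Fin n → Fin n → EuclideanSpace ℝ (Fin n) → ℝ}
    (h : Elliptic lam B) (x : EuclideanSpace ℝ (Fin n)) (z : Fin n → ℂ) :
    lam * ∑ i, ‖z i‖ ^ 2 ≤
      (∑ i, ∑ j, ((if i = j then 1 else 0) + ((B i j x : ℝ) : ℂ)) * z i * conj (z j)).re := by
  have h1 := h x fun i => (z i).re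
  have h2 := h x fun i => (z i).im
  have e1 : ∑ i, ‖z i‖ ^ 2 = ∑ i, (z i).re ^ 2 + ∑ i, (z i).im ^ 2 := by
    rw [← Finset.sum_add_distrib]
    refine Finset.sum_congr rfl fun i _ => ?_
    rw [← Complex.normSq_eq_norm_sq, Complex.normSq_apply]; ring
  have e2 : (∑ i, ∑ j, ((if i = j then 1 else 0) + ((B i j x : ℝ) : ℂ)) * z i * conj (z j)).re =
      ∑ i, ∑ j, ((if i = j then 1 else 0) + B i j x) * (z i).re * (z j).re +
      ∑ i, ∑ j, ((if i = j then 1 else 0) + B i j x) * (z i).im * (z j).im := by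
    rw [← Finset.sum_add_distrib, Complex.re_sum]
    refine Finset.sum_congr rfl fun i _ => ?_
    rw [← Finset.sum_add_distrib, Complex.re_sum]
    refine Finset.sum_congr rfl fun j _ => ?_
    have : ((if i = j then 1 else 0) + ((B i j x : ℝ) : ℂ)) =
        (((if i = j then 1 else 0) + B i j x : ℝ) : ℂ) := by
      push_cast
      split_ifs <;> simp
    rw [this, mul_assoc, Complex.re_ofReal_mul]
    simp [Complex.mul_re]
    ring
  rw [e1, e2, mul_add]
  exact add_le_add h1 h2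

lemma coercive_finite (c : EuclideanSpace ℝ (Fin n))
    {B : Fin n → Fin n → EuclideanSpace ℝ (Fin n) → ℝ}
    {r : ℝ} (hr : r < 1 / 2) (hcont : ∀ i j, Continuous (B i j))
    (hsupp : ∀ i j x, r ≤ ‖x - c‖ → B i j x = 0) {lam : ℝ} (hell : Elliptic lam B)
    (S : Finset (Fin n → ℤ)) (g : Fin n → (Fin n → ℤ) → ℂ) :
    lam * ∑ i, ∑ l ∈ S, ‖g i l‖ ^ 2 ≤
      (∑ i, ∑ j, ∑ k ∈ S, ∑ l ∈ S, conj (g j k) *
        am (fun i j x => ((B i j x : ℝ) : ℂ)) i j (k - l) * g i l).re := by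
  set Bc : Fin n → Fin n → EuclideanSpace ℝ (Fin n) → ℂ := fun i j x => ((B i j x : ℝ) : ℂ)
    with hBc
  have hcontc : ∀ i j, Continuous (Bc i j) := fun i j =>
    Complex.continuous_ofReal.comp (hcont i j)
  have hsuppc : ∀ i j x, r ≤ ‖x - c‖ → Bc i j x = 0 := fun i j x hx => by
    simp [hBc, hsupp i j x hx]
  have h0 : ∀ i, bi c (fun x => tp S (g i) x * conj (tp S (g i) x)) =
      ((∑ l ∈ S, ‖g i l‖ ^ 2 : ℝ) : ℂ) := by
    intro i
    have := bi_tp c (B := fun _ _ _ => 0) (r := r) hr (fun _ _ => continuous_const)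
      (fun _ _ _ _ => rfl) i i S (g i) (g i)
    simp only [if_true, add_zero, one_mul] at this
    rw [this]
    push_cast
    refine Finset.sum_congr rfl fun k hk => ?_
    rw [Finset.sum_eq_single k]
    · simp only [am, sub_self, true_and, if_true]
      have : cf (fun _ : EuclideanSpace ℝ (Fin n) => (0 : ℂ)) 0 = 0 := by simp [cf]
      rw [this, add_zero, mul_one, ← Complex.normSq_eq_conj_mul_self, Complex.normSq_eq_norm_sq]
      push_cast; rfl
    · intro l _ hl
      have h1 : k - l ≠ 0 := sub_ne_zero.2 (Ne.symm hl)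
      have : cf (fun _ : EuclideanSpace ℝ (Fin n) => (0 : ℂ)) (k - l) = 0 := by simp [cf]
      simp [am, h1, this]
    · intro h; exact absurd hk h
  have h1 : ∀ i j, bi c (fun x => ((if i = j then 1 else 0) + Bc i j x) * tp S (g i) x *
      conj (tp S (g j) x)) = ∑ k ∈ S, ∑ l ∈ S, conj (g j k) * am Bc i j (k - l) * g i l :=
    fun i j => bi_tp c hr hcontc hsuppc i j S (g i) (g j)
  have hc1 : ∀ i j, Continuous (fun x => ((if i = j then 1 else 0) + Bc i j x) * tp S (g i) x *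
      conj (tp S (g j) x)) := fun i j =>
    ((continuous_const.add (hcontc i j)).mul (continuous_tp S (g i))).mul
      (Complex.continuous_conj.comp (continuous_tp S (g j)))
  have hc0 : ∀ i, Continuous (fun x => tp S (g i) x * conj (tp S (g i) x)) := fun i =>
    (continuous_tp S (g i)).mul (Complex.continuous_conj.comp (continuous_tp S (g i)))
  have hI1 : bi c (fun x => ∑ i, ∑ j, ((if i = j then 1 else 0) + Bc i j x) * tp S (g i) x *
      conj (tp S (g j) x)) = ∑ i, ∑ j, ∑ k ∈ S, ∑ l ∈ S, conj (g j k) *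
        am Bc i j (k - l) * g i l := by
    have e : bi c (fun x => ∑ i, ∑ j, ((if i = j then 1 else 0) + Bc i j x) * tp S (g i) x *
        conj (tp S (g j) x)) = ∑ i, ∑ j, bi c (fun x => ((if i = j then 1 else 0) + Bc i j x) *
          tp S (g i) x * conj (tp S (g j) x)) := by
      unfold bi
      rw [integral_finsetSum _ fun i _ => integrable_finsetSum _ fun j _ =>
        integrableOn_box c (hc1 i j)]
      refine Finset.sum_congr rfl fun i _ => ?_
      rw [integral_finsetSum _ fun j _ => integrableOn_box c (hc1 i j)]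
    rw [e]
    exact Finset.sum_congr rfl fun i _ => Finset.sum_congr rfl fun j _ => h1 i j
  have hI0 : bi c (fun x => ∑ i, tp S (g i) x * conj (tp S (g i) x)) =
      ((∑ i, ∑ l ∈ S, ‖g i l‖ ^ 2 : ℝ) : ℂ) := by
    have e : bi c (fun x => ∑ i, tp S (g i) x * conj (tp S (g i) x)) =
        ∑ i, bi c (fun x => tp S (g i) x * conj (tp S (g i) x)) := by
      unfold bi
      rw [integral_finsetSum _ fun i _ => integrableOn_box c (hc0 i)]
    rw [e]
    push_cast
    refine Finset.sum_congr rfl fun i _ => ?_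
    rw [h0 i]; push_cast; rfl
  have hint1 : IntegrableOn (fun x : Fin n → ℝ => (∑ i, ∑ j, ((if i = j then 1 else 0) +
      Bc i j (WithLp.toLp 2 x)) * tp S (g i) (WithLp.toLp 2 x) *
      conj (tp S (g j) (WithLp.toLp 2 x)))) (box c) :=
    integrable_finsetSum _ fun i _ => integrable_finsetSum _ fun j _ => integrableOn_box c (hc1 i j)
  have hint0 : IntegrableOn (fun x : Fin n → ℝ => (∑ i, tp S (g i) (WithLp.toLp 2 x) *
      conj (tp S (g i) (WithLp.toLp 2 x)))) (box c) :=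
    integrable_finsetSum _ fun i _ => integrableOn_box c (hc0 i)
  have hR1 : (bi c (fun x => ∑ i, ∑ j, ((if i = j then 1 else 0) + Bc i j x) * tp S (g i) x *
      conj (tp S (g j) x))).re = ∫ x in box c, (∑ i, ∑ j, ((if i = j then 1 else 0) +
      Bc i j (WithLp.toLp 2 x)) * tp S (g i) (WithLp.toLp 2 x) *
      conj (tp S (g j) (WithLp.toLp 2 x))).re := by
    unfold bi
    exact (integral_re hint1).symm
  have hR0 : (bi c (fun x => ∑ i, tp S (g i) x * conj (tp S (g i) x))).re =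
      ∫ x in box c, (∑ i, tp S (g i) (WithLp.toLp 2 x) *
      conj (tp S (g i) (WithLp.toLp 2 x))).re := by
    unfold bi
    exact (integral_re hint0).symm
  rw [← hI1, hR1]
  have e0 : ∑ i, ∑ l ∈ S, ‖g i l‖ ^ 2 = ∫ x in box c, (∑ i, tp S (g i) (WithLp.toLp 2 x) *
      conj (tp S (g i) (WithLp.toLp 2 x))).re := by
    rw [← hR0, hI0, Complex.ofReal_re]
  rw [e0, ← integral_const_mul]
  refine integral_mono (hint0.re.const_mul lam) hint1.re fun x => ?_
  have h2 := elliptic_complex hell (WithLp.toLp 2 x) fun i => tp S (g i) (WithLp.toLp 2 x)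
  refine le_trans (le_of_eq ?_) h2
  congr 1
  rw [Complex.re_sum]
  refine Finset.sum_congr rfl fun i _ => ?_
  rw [Complex.mul_conj, Complex.ofReal_re, Complex.normSq_eq_norm_sq]

lemma tendsto_prod_self :
    Tendsto (fun S : Finset (Fin n → ℤ) => S ×ˢ S) atTop atTop := by
  refine tendsto_atTop.2 fun T => ?_
  filter_upwards [eventually_ge_atTop (T.image Prod.fst ∪ T.image Prod.snd)] with S hS
  intro p hp
  rw [Finset.mem_product]
  exact ⟨hS (Finset.mem_union_left _ (Finset.mem_image_of_mem _ hp)),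
    hS (Finset.mem_union_right _ (Finset.mem_image_of_mem _ hp))⟩

/-- **Coercivity** on `ℓ²` from pointwise ellipticity. -/
theorem coercive_am (c : EuclideanSpace ℝ (Fin n))
    {B : Fin n → Fin n → EuclideanSpace ℝ (Fin n) → ℝ}
    {r : ℝ} (hr : r < 1 / 2) (hcont : ∀ i j, Continuous (B i j))
    (hsupp : ∀ i j x, r ≤ ‖x - c‖ → B i j x = 0) {lam : ℝ} (hell : Elliptic lam B)
    (hsum : ∀ i j, Summable fun m => ‖am (fun i j x => ((B i j x : ℝ) : ℂ)) i j m‖) :
    Coercive lam (am fun i j x => ((B i j x : ℝ) : ℂ)) := by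
  intro g hg
  set a := am (fun i j (x : EuclideanSpace ℝ (Fin n)) => ((B i j x : ℝ) : ℂ)) with ha
  have hfin := coercive_finite c hr hcont hsupp hell
  have hL : Tendsto (fun S : Finset (Fin n → ℤ) => lam * ∑ i, ∑ l ∈ S, ‖g i l‖ ^ 2) atTop
      (nhds (lam * ∑ i, ∑' k, ‖g i k‖ ^ 2)) :=
    Tendsto.const_mul _ (tendsto_finsetSum _ fun i _ => (hg i).hasSum)
  have hR : Tendsto (fun S : Finset (Fin n → ℤ) => (∑ i, ∑ j, ∑ k ∈ S, ∑ l ∈ S, conj (g j k) *
        a i j (k - l) * g i l).re) atTop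
      (nhds (∑ i, ∑ j, ∑' p : (Fin n → ℤ) × (Fin n → ℤ),
        conj (g j (p.1 + p.2)) * a i j p.1 * g i p.2).re) := by
    refine (Complex.continuous_re.tendsto _).comp ?_
    refine tendsto_finsetSum _ fun i _ => tendsto_finsetSum _ fun j _ => ?_
    let X : (Fin n → ℤ) × (Fin n → ℤ) → ℂ := fun p =>
      conj (g j (p.1 + p.2)) * a i j p.1 * g i p.2
    let F : (Fin n → ℤ) × (Fin n → ℤ) → ℂ := fun q =>
      conj (g j q.1) * a i j (q.1 - q.2) * g i q.2
    let e : ((Fin n → ℤ) × (Fin n → ℤ)) ≃ ((Fin n → ℤ) × (Fin n → ℤ)) :=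
      { toFun := fun p => (p.1 + p.2, p.2)
        invFun := fun q => (q.1 - q.2, q.2)
        left_inv := fun p => by simp
        right_inv := fun q => by simp }
    have hFe : ∀ p, F (e p) = X p := by
      intro p
      have h1 : (e p).1 = p.1 + p.2 := rfl
      have h2 : (e p).2 = p.2 := rfl
      simp only [F, X, h1, h2, add_sub_cancel_right]
    have hX : Summable X := by
      have h := (conv_bound (α := fun m => ‖a i j m‖) (fun m => norm_nonneg _) (hsum i j)
        (γ := fun k => ‖g j k‖) (β := fun k => ‖g i k‖) (hg j) (hg i) one_pos).1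
      refine Summable.of_norm_bounded h (fun p => ?_)
      simp only [X]
      rw [norm_mul, norm_mul, RCLike.norm_conj, abs_norm, abs_norm]
      apply le_of_eq; ring
    have hF : Summable F := by
      rw [← e.summable_iff]
      exact hX.congr fun p => (hFe p).symm
    have hts : ∑' p, X p = ∑' q, F q := by
      rw [← e.tsum_eq F]
      exact tsum_congr fun p => (hFe p).symm
    change Tendsto _ atTop (nhds (∑' p, X p))
    rw [hts]
    have h3 := hF.hasSum.comp tendsto_prod_self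
    refine h3.congr fun S => ?_
    simp only [Function.comp]
    rw [Finset.sum_product]
  exact le_of_tendsto_of_tendsto' hL hR fun S => hfin S g

end Crest.Agent.R202.Ell
end
end

-- ▼ part R202/EllDer
section

/-!
# Derivatives and Fourier coefficients
-/

set_option autoImplicit false

noncomputable section

open scoped BigOperators ComplexConjugate FourierTransform ContDiff
open Filter MeasureTheory

namespace Crest.Agent.R202.Ell

variable {n : ℕ}

/-- complex valued partial derivative. -/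
def cd (j : Fin n) (ψ : EuclideanSpace ℝ (Fin n) → ℂ) (x : EuclideanSpace ℝ (Fin n)) : ℂ :=
  fderiv ℝ ψ x (EuclideanSpace.single j 1)

/-- the linear phase. -/
def phase (k : Fin n → ℤ) : EuclideanSpace ℝ (Fin n) →L[ℝ] ℂ :=
  (2 * Real.pi * Complex.I : ℂ) • ∑ i, ((k i : ℝ) : ℂ) •
    (Complex.ofRealCLM.comp (EuclideanSpace.proj i : EuclideanSpace ℝ (Fin n) →L[ℝ] ℝ))

lemma phase_apply (k : Fin n → ℤ) (x : EuclideanSpace ℝ (Fin n)) :
    phase k x = 2 * Real.pi * Complex.I * ∑ i, ((k i : ℝ) : ℂ) * ((x i : ℝ) : ℂ) := by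
  simp [phase]

lemma ee_eq_phase (k : Fin n → ℤ) : ee k = fun x => Complex.exp (phase k x) := by
  funext x
  rw [phase_apply, ee]

lemma hasFDerivAt_ee (k : Fin n → ℤ) (x : EuclideanSpace ℝ (Fin n)) :
    HasFDerivAt (ee k) (ee k x • phase k) x := by
  rw [ee_eq_phase]
  exact (phase k).hasFDerivAt.cexp

lemma cd_ee (k : Fin n → ℤ) (j : Fin n) (x : EuclideanSpace ℝ (Fin n)) :
    cd j (ee k) x = 2 * Real.pi * Complex.I * ((k j : ℝ) : ℂ) * ee k x := by
  unfold cd
  rw [(hasFDerivAt_ee k x).fderiv]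
  simp only [smul_apply, phase_apply, smul_eq_mul]
  have : ∑ i, ((k i : ℝ) : ℂ) * (((EuclideanSpace.single j (1 : ℝ) : EuclideanSpace ℝ (Fin n)) i : ℝ) : ℂ)
      = ((k j : ℝ) : ℂ) := by
    rw [Finset.sum_eq_single j]
    · simp
    · intro i _ hi
      simp [hi]
    · simp
  rw [this]
  ring

lemma cd_mul {ψ χ : EuclideanSpace ℝ (Fin n) → ℂ} {x : EuclideanSpace ℝ (Fin n)} (j : Fin n)
    (h1 : DifferentiableAt ℝ ψ x) (h2 : DifferentiableAt ℝ χ x) :
    cd j (fun y => ψ y * χ y) x = cd j ψ x * χ x + ψ x * cd j χ x := by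
  unfold cd
  rw [fderiv_fun_mul h1 h2]
  simp
  ring

lemma cd_add {ψ χ : EuclideanSpace ℝ (Fin n) → ℂ} {x : EuclideanSpace ℝ (Fin n)} (j : Fin n)
    (h1 : DifferentiableAt ℝ ψ x) (h2 : DifferentiableAt ℝ χ x) :
    cd j (fun y => ψ y + χ y) x = cd j ψ x + cd j χ x := by
  unfold cd
  rw [fderiv_fun_add h1 h2]
  simp

lemma cd_sum {ι : Type*} (s : Finset ι) {ψ : ι → EuclideanSpace ℝ (Fin n) → ℂ}
    {x : EuclideanSpace ℝ (Fin n)} (j : Fin n)
    (h : ∀ i ∈ s, DifferentiableAt ℝ (ψ i) x) :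
    cd j (fun y => ∑ i ∈ s, ψ i y) x = ∑ i ∈ s, cd j (ψ i) x := by
  unfold cd
  rw [fderiv_fun_sum h]
  simp

lemma cd_const_mul {ψ : EuclideanSpace ℝ (Fin n) → ℂ} {x : EuclideanSpace ℝ (Fin n)} (j : Fin n)
    (a : ℂ) (h1 : DifferentiableAt ℝ ψ x) :
    cd j (fun y => a * ψ y) x = a * cd j ψ x := by
  unfold cd
  rw [fderiv_const_mul h1]
  simp

lemma contDiff_cd {ψ : EuclideanSpace ℝ (Fin n) → ℂ} (h : ContDiff ℝ ∞ ψ) (j : Fin n) :
    ContDiff ℝ ∞ (cd j ψ) := by
  unfold cd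
  exact (h.fderiv_right (m := ∞) (by simp)).clm_apply contDiff_const

lemma hasCompactSupport_cd {ψ : EuclideanSpace ℝ (Fin n) → ℂ} (h : HasCompactSupport ψ)
    (j : Fin n) : HasCompactSupport (cd j ψ) := by
  have := h.fderiv (𝕜 := ℝ)
  exact this.comp_left (g := fun L : EuclideanSpace ℝ (Fin n) →L[ℝ] ℂ =>
    L (EuclideanSpace.single j 1)) (by simp)

lemma tsupport_cd_subset (ψ : EuclideanSpace ℝ (Fin n) → ℂ) (j : Fin n) :
    tsupport (cd j ψ) ⊆ tsupport ψ := by
  refine (closure_mono ?_).trans (tsupport_fderiv_subset ℝ (f := ψ))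
  intro x hx
  rw [Function.mem_support] at hx ⊢
  intro h
  apply hx
  unfold cd
  rw [h]; simp

lemma integrable_of_cs {ψ : EuclideanSpace ℝ (Fin n) → ℂ} (h1 : HasCompactSupport ψ)
    (h2 : ContDiff ℝ ∞ ψ) : Integrable ψ := h2.continuous.integrable_of_hasCompactSupport h1

/-- integration by parts against an exponential. -/
lemma cf_cd {ψ : EuclideanSpace ℝ (Fin n) → ℂ} (h1 : HasCompactSupport ψ)
    (h2 : ContDiff ℝ ∞ ψ) (j : Fin n) (k : Fin n → ℤ) :
    cf (cd j ψ) k = 2 * Real.pi * Complex.I * ((k j : ℝ) : ℂ) * cf ψ k := by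
  unfold cf
  have hE : ContDiff ℝ ∞ (ee (-k)) := contDiff_ee (-k)
  have hd : ∀ x, cd j (ee (-k)) x = -(2 * Real.pi * Complex.I * ((k j : ℝ) : ℂ)) * ee (-k) x := by
    intro x
    rw [cd_ee]
    push_cast
    simp
  have i1 : Integrable (fun x => cd j ψ x * ee (-k) x) :=
    integrable_of_cs ((hasCompactSupport_cd h1 j).mul_right) ((contDiff_cd h2 j).mul hE)
  have i2 : Integrable (fun x => ψ x * cd j (ee (-k)) x) :=
    integrable_of_cs (h1.mul_right) (h2.mul (contDiff_cd hE j))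
  have i3 : Integrable (fun x => ψ x * ee (-k) x) :=
    integrable_of_cs (h1.mul_right) (h2.mul hE)
  have h := integral_mul_fderiv_eq_neg_fderiv_mul_of_integrable (μ := volume) (f := ψ)
    (g := ee (-k)) (v := EuclideanSpace.single j (1 : ℝ)) i1 i2 i3
    (fun x _ => (h2.differentiable (by simp)) x) (fun x _ => (hE.differentiable (by simp)) x)
  have h' : ∫ x, ψ x * cd j (ee (-k)) x = -∫ x, cd j ψ x * ee (-k) x := h
  have h'' : ∫ x, cd j ψ x * ee (-k) x = -∫ x, ψ x * cd j (ee (-k)) x := by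
    rw [h', neg_neg]
  rw [h'', ← integral_const_mul, ← integral_neg]
  refine integral_congr_ae (Eventually.of_forall fun x => ?_)
  simp only [hd]
  ring

lemma integrable_mul_ee {w : EuclideanSpace ℝ (Fin n) → ℂ} (hw : Integrable w)
    (k : Fin n → ℤ) : Integrable (fun x => w x * ee k x) := by
  refine hw.mul_bdd (c := 1) (contDiff_ee k).continuous.aestronglyMeasurable ?_
  exact Eventually.of_forall fun x => (norm_ee k x).le

lemma norm_cf_le {w : EuclideanSpace ℝ (Fin n) → ℂ} (k : Fin n → ℤ) :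
    ‖cf w k‖ ≤ ∫ x, ‖w x‖ := by
  unfold cf
  refine (norm_integral_le_integral_norm _).trans (le_of_eq ?_)
  refine integral_congr_ae (Eventually.of_forall fun x => ?_)
  simp only [norm_mul, norm_ee, mul_one]

/-- the key product formula: `∫ w ∂_i (B ee(-k)) = -∑ B̂(m) 2πi (k-m)_i ŵ(k-m)`. -/
lemma integral_mul_cd {w : EuclideanSpace ℝ (Fin n) → ℂ} (hw : Integrable w)
    (c : EuclideanSpace ℝ (Fin n)) {r : ℝ} (hr : r < 1 / 2)
    (hws : ∀ x, r ≤ ‖x - c‖ → w x = 0) {B : EuclideanSpace ℝ (Fin n) → ℂ}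
    (hB1 : HasCompactSupport B) (hB2 : ContDiff ℝ ∞ B)
    (hBs : ∀ x, r ≤ ‖x - c‖ → B x = 0) (hBd : ∀ j x, r ≤ ‖x - c‖ → cd j B x = 0)
    (i : Fin n) (k : Fin n → ℤ) :
    ∫ x, w x * cd i (fun y => B y * ee (-k) y) x =
      -∑' m, cf B m * (2 * Real.pi * Complex.I * (((k - m) i : ℝ) : ℂ)) * cf w (k - m) := by
  set F : (Fin n → ℤ) → EuclideanSpace ℝ (Fin n) → ℂ := fun m x =>
    (cf B m * (2 * Real.pi * Complex.I * (((k - m) i : ℝ) : ℂ))) * (w x * ee (-(k - m)) x) with hF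
  have hFi : ∀ m, Integrable (F m) := fun m => (integrable_mul_ee hw _).const_mul _
  have hnorm : ∀ m, ∫ x, ‖F m x‖ = ‖cf B m‖ * (2 * Real.pi * |((k - m) i : ℝ)|) * ∫ x, ‖w x‖ := by
    intro m
    rw [← integral_const_mul]
    refine integral_congr_ae (Eventually.of_forall fun x => ?_)
    simp only [hF, norm_mul, norm_ee, mul_one, Complex.norm_real, Complex.norm_I,
      Real.norm_eq_abs, Complex.norm_ofNat, abs_of_pos Real.pi_pos]
  have hsum : Summable fun m => ∫ x, ‖F m x‖ := by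
    simp only [hnorm]
    refine Summable.mul_right _ ?_
    refine Summable.of_nonneg_of_le (fun m => by positivity) (fun m => ?_)
      ((summable_cf hB1 hB2 1).mul_left (2 * Real.pi * J k))
    have h1 : |((k - m) i : ℝ)| ≤ J k * J m := by
      have h2 := abs_le_J (k - m) i
      have h3 : J (k - m) ≤ J k * J (-m) := by
        have := J_add_le k (-m)
        rwa [← sub_eq_add_neg] at this
      rw [J_neg] at h3
      exact h2.trans h3
    have hpi := Real.pi_pos
    calc ‖cf B m‖ * (2 * Real.pi * |((k - m) i : ℝ)|)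
        ≤ ‖cf B m‖ * (2 * Real.pi * (J k * J m)) := by gcongr
      _ = 2 * Real.pi * J k * (J m ^ 1 * ‖cf B m‖) := by ring
  have hmain := hasSum_integral_of_summable_integral_norm hFi hsum
  have hpt : ∀ x, w x * cd i (fun y => B y * ee (-k) y) x = -∑' m, F m x := by
    intro x
    by_cases hx : r ≤ ‖x - c‖
    · rw [hws x hx]
      simp [hF, hws x hx]
    · push Not at hx
      have hx' : ‖x - c‖ < 1 / 2 := hx.trans hr
      have e1 := hasSum_cf hB1 hB2 c hr hBs hx'
      have e2 := hasSum_cf (hasCompactSupport_cd hB1 i) (contDiff_cd hB2 i) c hr (hBd i) hx'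
      rw [cd_mul i (hB2.differentiable (by simp) x) ((contDiff_ee (-k)).differentiable (by simp) x),
        cd_ee]
      have e3 := ((e2.mul_right (ee (-k) x)).add (e1.mul_right
        (2 * Real.pi * Complex.I * (((-k) i : ℝ) : ℂ) * ee (-k) x))).mul_left (w x)
      rw [← e3.tsum_eq, ← tsum_neg]
      refine tsum_congr fun m => ?_
      simp only [hF]
      rw [cf_cd hB1 hB2]
      have e4 : ee (-(k - m)) x = ee m x * ee (-k) x := by
        rw [← ee_add]; congr 1; abel
      rw [e4]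
      push_cast
      simp only [Pi.neg_apply, Pi.sub_apply]
      push_cast
      ring
  calc ∫ x, w x * cd i (fun y => B y * ee (-k) y) x = ∫ x, -∑' m, F m x :=
        integral_congr_ae (Eventually.of_forall hpt)
    _ = -∫ x, ∑' m, F m x := integral_neg _
    _ = -∑' m, ∫ x, F m x := by rw [hmain.tsum_eq]
    _ = _ := by
        congr 1
        refine tsum_congr fun m => ?_
        simp only [hF]
        rw [integral_const_mul]
        rfl

end Crest.Agent.R202.Ell
end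
end

-- ▼ part R202/EllLocal
section

/-!
# Local regularity: coefficients of `χ u` decay rapidly.
-/

set_option autoImplicit false

noncomputable section

open scoped BigOperators ComplexConjugate FourierTransform ContDiff
open Filter MeasureTheory

namespace Crest.Agent.R202.Ell

variable {n : ℕ}

/-! ### closure properties of `HS` -/

lemma HS.mono {s s' : ℤ} (h : s' ≤ s) {w : (Fin n → ℤ) → ℂ} (hw : HS s w) : HS s' w := by
  unfold HS at *
  refine Summable.of_nonneg_of_le (fun k => by positivity) (fun k => ?_) hw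
  have hJ := one_le_J k
  have h1 : J k ^ s' ≤ J k ^ s := zpow_le_zpow_right₀ hJ h
  have h2 : 0 < J k ^ s' := zpow_pos (J_pos k) _
  gcongr

lemma HS.add {s : ℤ} {w w' : (Fin n → ℤ) → ℂ} (hw : HS s w) (hw' : HS s w') :
    HS s (fun k => w k + w' k) := by
  unfold HS at *
  refine Summable.of_nonneg_of_le (fun k => by positivity) (fun k => ?_)
    (Summable.add (hw.mul_left 2) (hw'.mul_left 2))
  have h2 : 0 < J k ^ s := zpow_pos (J_pos k) _
  have h3 : ‖w k + w' k‖ ≤ ‖w k‖ + ‖w' k‖ := norm_add_le _ _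
  calc (J k ^ s * ‖w k + w' k‖) ^ 2 ≤ (J k ^ s * (‖w k‖ + ‖w' k‖)) ^ 2 := by gcongr
    _ ≤ 2 * (J k ^ s * ‖w k‖) ^ 2 + 2 * (J k ^ s * ‖w' k‖) ^ 2 := by
        nlinarith [sq_nonneg (J k ^ s * ‖w k‖ - J k ^ s * ‖w' k‖)]

lemma HS.const_mul {s : ℤ} {w : (Fin n → ℤ) → ℂ} (hw : HS s w) (a : ℂ) :
    HS s (fun k => a * w k) := by
  unfold HS at *
  refine (hw.mul_left (‖a‖ ^ 2)).congr fun k => ?_
  rw [norm_mul]; ring

lemma HS.zero (s : ℤ) : HS s (fun _ : Fin n → ℤ => (0 : ℂ)) := by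
  unfold HS; simp

lemma HS.sum {s : ℤ} {ι : Type*} (S : Finset ι) {w : ι → (Fin n → ℤ) → ℂ}
    (hw : ∀ i ∈ S, HS s (w i)) : HS s (fun k => ∑ i ∈ S, w i k) := by
  classical
  induction S using Finset.induction_on with
  | empty => simpa using HS.zero s
  | insert a S ha ih =>
    simp only [Finset.sum_insert ha]
    exact (hw a (Finset.mem_insert_self a S)).add
      (ih fun i hi => hw i (Finset.mem_insert_of_mem hi))

lemma HS.coord_mul {s : ℤ} {w : (Fin n → ℤ) → ℂ} (hw : HS s w) (j : Fin n) :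
    HS (s - 1) (fun k => ((k j : ℝ) : ℂ) * w k) := by
  unfold HS at *
  refine Summable.of_nonneg_of_le (fun k => by positivity) (fun k => ?_) hw
  have hJ := J_pos k
  have h1 := abs_le_J k j
  have h2 : J k ^ s = J k ^ (s - 1) * J k := by
    rw [← zpow_add_one₀ hJ.ne']; congr 1; ring
  rw [norm_mul, Complex.norm_real, Real.norm_eq_abs, h2]
  have h3 : 0 < J k ^ (s - 1) := zpow_pos hJ _
  calc (J k ^ (s - 1) * (|(k j : ℝ)| * ‖w k‖)) ^ 2 ≤ (J k ^ (s - 1) * (J k * ‖w k‖)) ^ 2 := by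
        gcongr
    _ = _ := by ring

lemma HS.of_decay {w : (Fin n → ℤ) → ℂ} (hw : ∀ N : ℕ, ∃ C, ∀ k, J k ^ N * ‖w k‖ ≤ C) (s : ℤ) :
    HS s w := by
  obtain ⟨C, hC⟩ := hw (s.natAbs + n)
  have hC0 : 0 ≤ C := le_trans (by have := J_pos (0 : Fin n → ℤ); positivity) (hC 0)
  unfold HS
  refine Summable.of_nonneg_of_le (fun k => by positivity) (fun k => ?_)
    ((summable_J_inv (n := n) (M := 2 * n) le_rfl).mul_left (C ^ 2))
  have hJ := J_pos k
  have h1 : J k ^ s ≤ J k ^ s.natAbs := by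
    rw [← zpow_natCast]
    exact zpow_le_zpow_right₀ (one_le_J k) (by omega)
  have h2 := hC k
  have h3 : J k ^ n * (J k ^ s * ‖w k‖) ≤ C := by
    refine le_trans ?_ h2
    calc J k ^ n * (J k ^ s * ‖w k‖) ≤ J k ^ n * (J k ^ s.natAbs * ‖w k‖) := by gcongr
      _ = _ := by ring
  have h4 : 0 < J k ^ s := zpow_pos hJ _
  rw [← div_eq_mul_inv, le_div_iff₀ (by positivity)]
  calc (J k ^ s * ‖w k‖) ^ 2 * J k ^ (2 * n) = (J k ^ n * (J k ^ s * ‖w k‖)) ^ 2 := by ring
    _ ≤ C ^ 2 := by gcongr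

lemma HS.decay {w : (Fin n → ℤ) → ℂ} (hw : ∀ s : ℤ, HS s w) (N : ℕ) :
    ∃ C, ∀ k, J k ^ N * ‖w k‖ ≤ C := by
  have h := hw (N : ℤ)
  unfold HS at h
  refine ⟨1 + ∑' k, (J k ^ (N : ℤ) * ‖w k‖) ^ 2, fun k => ?_⟩
  have h1 := h.le_tsum k (fun j _ => by positivity)
  rw [zpow_natCast] at h1
  nlinarith [sq_nonneg (J k ^ N * ‖w k‖ - 1)]

lemma HS.of_bdd {w : (Fin n → ℤ) → ℂ} {C : ℝ} (hw : ∀ k, ‖w k‖ ≤ C) : HS (-(n : ℤ)) w := by
  have hC0 : 0 ≤ C := le_trans (norm_nonneg _) (hw 0)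
  unfold HS
  refine Summable.of_nonneg_of_le (fun k => by positivity) (fun k => ?_)
    ((summable_J_inv (n := n) (M := 2 * n) le_rfl).mul_left (C ^ 2))
  have hJ := J_pos k
  have h1 := hw k
  have h3 : 0 < J k ^ (-(n : ℤ)) := zpow_pos hJ _
  calc (J k ^ (-(n : ℤ)) * ‖w k‖) ^ 2 ≤ (J k ^ (-(n : ℤ)) * C) ^ 2 := by gcongr
    _ = C ^ 2 * (J k ^ (2 * n))⁻¹ := by
        rw [zpow_neg, zpow_natCast]
        field_simp
        ring

/-! ### the operator -/

/-- complexified coefficient. -/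
def ac (B : Fin n → Fin n → EuclideanSpace ℝ (Fin n) → ℝ) (i j : Fin n)
    (x : EuclideanSpace ℝ (Fin n)) : ℂ := (if i = j then 1 else 0) + ((B i j x : ℝ) : ℂ)

/-- complexified operator. -/
def LC (B : Fin n → Fin n → EuclideanSpace ℝ (Fin n) → ℝ)
    (φ : EuclideanSpace ℝ (Fin n) → ℂ) (x : EuclideanSpace ℝ (Fin n)) : ℂ :=
  ∑ i, cd i (fun y => ∑ j, ac B i j y * cd j φ y) x

lemma contDiff_ofReal' {g : EuclideanSpace ℝ (Fin n) → ℝ} (h : ContDiff ℝ ∞ g) :
    ContDiff ℝ ∞ (fun x => ((g x : ℝ) : ℂ)) := Complex.ofRealCLM.contDiff.comp h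

lemma contDiff_ac {B : Fin n → Fin n → EuclideanSpace ℝ (Fin n) → ℝ}
    (hB : ∀ i j, ContDiff ℝ ∞ (B i j)) (i j : Fin n) : ContDiff ℝ ∞ (ac B i j) := by
  unfold ac
  exact contDiff_const.add (contDiff_ofReal' (hB i j))

lemma contDiff_flux {B : Fin n → Fin n → EuclideanSpace ℝ (Fin n) → ℝ}
    (hB : ∀ i j, ContDiff ℝ ∞ (B i j)) {φ : EuclideanSpace ℝ (Fin n) → ℂ}
    (hφ : ContDiff ℝ ∞ φ) (i : Fin n) :
    ContDiff ℝ ∞ (fun y => ∑ j, ac B i j y * cd j φ y) :=
  ContDiff.sum fun j _ => (contDiff_ac hB i j).mul (contDiff_cd hφ j)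

lemma contDiff_LC {B : Fin n → Fin n → EuclideanSpace ℝ (Fin n) → ℝ}
    (hB : ∀ i j, ContDiff ℝ ∞ (B i j)) {φ : EuclideanSpace ℝ (Fin n) → ℂ}
    (hφ : ContDiff ℝ ∞ φ) : ContDiff ℝ ∞ (LC B φ) :=
  ContDiff.sum fun i _ => contDiff_cd (contDiff_flux hB hφ i) i

lemma cd_eq_zero_of_notMem {ψ : EuclideanSpace ℝ (Fin n) → ℂ} {x : EuclideanSpace ℝ (Fin n)}
    (hx : x ∉ tsupport ψ) (j : Fin n) : cd j ψ x = 0 := by
  have h := tsupport_cd_subset ψ j
  exact image_eq_zero_of_notMem_tsupport fun h' => hx (h h')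

lemma tsupport_sum_mul_cd (B : Fin n → Fin n → EuclideanSpace ℝ (Fin n) → ℝ)
    (φ : EuclideanSpace ℝ (Fin n) → ℂ) (i : Fin n) :
    tsupport (fun y => ∑ j, ac B i j y * cd j φ y) ⊆ tsupport φ := by
  refine closure_minimal ?_ (isClosed_tsupport φ)
  intro x hx
  by_contra h
  apply hx
  simp only
  refine Finset.sum_eq_zero fun j _ => ?_
  rw [cd_eq_zero_of_notMem h, mul_zero]

lemma tsupport_LC (B : Fin n → Fin n → EuclideanSpace ℝ (Fin n) → ℝ)
    (φ : EuclideanSpace ℝ (Fin n) → ℂ) : tsupport (LC B φ) ⊆ tsupport φ := by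
  refine closure_minimal ?_ (isClosed_tsupport φ)
  intro x hx
  by_contra h
  apply hx
  unfold LC
  refine Finset.sum_eq_zero fun i _ => ?_
  exact cd_eq_zero_of_notMem (fun h' => h (tsupport_sum_mul_cd B φ i h')) i

/-- the symmetrised drift `X_j = ∑_i (A_ji + A_ij) ∂_i χ`. -/
def XX1 (B : Fin n → Fin n → EuclideanSpace ℝ (Fin n) → ℝ)
    (χ : EuclideanSpace ℝ (Fin n) → ℂ) (j : Fin n) (x : EuclideanSpace ℝ (Fin n)) : ℂ :=
  ∑ i, ac B j i x * cd i χ x + ∑ i, ac B i j x * cd i χ x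

lemma contDiff_XX1 {B : Fin n → Fin n → EuclideanSpace ℝ (Fin n) → ℝ}
    (hB : ∀ i j, ContDiff ℝ ∞ (B i j)) {χ : EuclideanSpace ℝ (Fin n) → ℂ}
    (hχ : ContDiff ℝ ∞ χ) (j : Fin n) : ContDiff ℝ ∞ (XX1 B χ j) :=
  (ContDiff.sum fun i _ => (contDiff_ac hB j i).mul (contDiff_cd hχ i)).add
    (ContDiff.sum fun i _ => (contDiff_ac hB i j).mul (contDiff_cd hχ i))

lemma tsupport_XX1 (B : Fin n → Fin n → EuclideanSpace ℝ (Fin n) → ℝ)
    (χ : EuclideanSpace ℝ (Fin n) → ℂ) (j : Fin n) : tsupport (XX1 B χ j) ⊆ tsupport χ := by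
  refine closure_minimal ?_ (isClosed_tsupport χ)
  intro x hx
  by_contra h
  apply hx
  unfold XX1
  rw [Finset.sum_eq_zero fun i _ => ?_, Finset.sum_eq_zero fun i _ => ?_, add_zero]
  · rw [cd_eq_zero_of_notMem h, mul_zero]
  · rw [cd_eq_zero_of_notMem h, mul_zero]

/-- Leibniz rule for `L (χ e_{-k})`. -/
lemma LC_mul_ee {B : Fin n → Fin n → EuclideanSpace ℝ (Fin n) → ℝ}
    (hB : ∀ i j, ContDiff ℝ ∞ (B i j)) {χ : EuclideanSpace ℝ (Fin n) → ℂ}
    (hχ : ContDiff ℝ ∞ χ) (k : Fin n → ℤ) (x : EuclideanSpace ℝ (Fin n)) :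
    LC B (fun y => χ y * ee (-k) y) x =
      χ x * (∑ i, ∑ j, (-(2 * Real.pi * Complex.I * ((k j : ℝ) : ℂ))) *
        cd i (fun y => ac B i j y * ee (-k) y) x) +
      (∑ j, (-(2 * Real.pi * Complex.I * ((k j : ℝ) : ℂ))) * (XX1 B χ j x * ee (-k) x)) +
      LC B χ x * ee (-k) x := by
  set cc : Fin n → ℂ := fun j => -(2 * Real.pi * Complex.I * ((k j : ℝ) : ℂ)) with hcc
  have dE : ∀ y, DifferentiableAt ℝ (ee (-k)) y := fun y =>
    (contDiff_ee (-k)).differentiable (by simp) y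
  have dχ : ∀ y, DifferentiableAt ℝ χ y := fun y => hχ.differentiable (by simp) y
  have dac : ∀ i j y, DifferentiableAt ℝ (ac B i j) y := fun i j y =>
    (contDiff_ac hB i j).differentiable (by simp) y
  have dcd : ∀ j y, DifferentiableAt ℝ (cd j χ) y := fun j y =>
    (contDiff_cd hχ j).differentiable (by simp) y
  have hE : ∀ j y, cd j (ee (-k)) y = cc j * ee (-k) y := by
    intro j y
    rw [cd_ee]
    simp [hcc]
  have h1 : ∀ j y, cd j (fun y => χ y * ee (-k) y) y =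
      cd j χ y * ee (-k) y + χ y * (cc j * ee (-k) y) := by
    intro j y
    rw [cd_mul j (dχ y) (dE y), hE]
  have h2 : ∀ i, (fun y => ∑ j, ac B i j y * cd j (fun y => χ y * ee (-k) y) y) =
      fun y => (∑ j, ac B i j y * cd j χ y) * ee (-k) y +
        ∑ j, (cc j * (χ y * (ac B i j y * ee (-k) y))) := by
    intro i
    funext y
    rw [Finset.sum_mul, ← Finset.sum_add_distrib]
    refine Finset.sum_congr rfl fun j _ => ?_
    rw [h1]; ring
  have dP : ∀ i y, DifferentiableAt ℝ (fun y => ∑ j, ac B i j y * cd j χ y) y := fun i y =>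
    (contDiff_flux hB hχ i).differentiable (by simp) y
  have dQ : ∀ i j y, DifferentiableAt ℝ (fun y => ac B i j y * ee (-k) y) y := fun i j y =>
    (dac i j y).mul (dE y)
  have h3 : ∀ i, cd i (fun y => ∑ j, ac B i j y * cd j (fun y => χ y * ee (-k) y) y) x =
      cd i (fun y => ∑ j, ac B i j y * cd j χ y) x * ee (-k) x +
      (∑ j, ac B i j x * cd j χ x) * (cc i * ee (-k) x) +
      ∑ j, cc j * (cd i χ x * (ac B i j x * ee (-k) x) +
        χ x * cd i (fun y => ac B i j y * ee (-k) y) x) := by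
    intro i
    have d1 : DifferentiableAt ℝ (fun y => (∑ j, ac B i j y * cd j χ y) * ee (-k) y) x :=
      (dP i x).mul (dE x)
    have d2 : ∀ j, DifferentiableAt ℝ (fun y => χ y * (ac B i j y * ee (-k) y)) x := fun j =>
      (dχ x).mul (dQ i j x)
    have d3 : ∀ j ∈ Finset.univ, DifferentiableAt ℝ
        (fun y => cc j * (χ y * (ac B i j y * ee (-k) y))) x := fun j _ => (d2 j).const_mul _
    have d4 : DifferentiableAt ℝ
        (fun y => ∑ j, cc j * (χ y * (ac B i j y * ee (-k) y))) x :=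
      DifferentiableAt.fun_sum d3
    rw [h2 i, cd_add i d1 d4, cd_mul i (dP i x) (dE x), hE, cd_sum _ i d3]
    congr 1
    refine Finset.sum_congr rfl fun j _ => ?_
    rw [cd_const_mul i _ (d2 j), cd_mul i (dχ x) (dQ i j x)]
  unfold LC
  simp only [h3]
  rw [Finset.sum_add_distrib, Finset.sum_add_distrib, ← Finset.sum_mul]
  have h4 : ∑ i, ∑ j, cc j * (cd i χ x * (ac B i j x * ee (-k) x) +
        χ x * cd i (fun y => ac B i j y * ee (-k) y) x) =
      (∑ j, cc j * ((∑ i, ac B i j x * cd i χ x) * ee (-k) x)) +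
      χ x * ∑ i, ∑ j, cc j * cd i (fun y => ac B i j y * ee (-k) y) x := by
    have : ∑ j, cc j * ((∑ i, ac B i j x * cd i χ x) * ee (-k) x) =
        ∑ i, ∑ j, cc j * (cd i χ x * (ac B i j x * ee (-k) x)) := by
      rw [Finset.sum_comm]
      refine Finset.sum_congr rfl fun j _ => ?_
      rw [Finset.sum_mul, Finset.mul_sum]
      refine Finset.sum_congr rfl fun i _ => ?_
      ring
    rw [this, Finset.mul_sum, ← Finset.sum_add_distrib]
    refine Finset.sum_congr rfl fun i _ => ?_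
    rw [Finset.mul_sum, ← Finset.sum_add_distrib]
    refine Finset.sum_congr rfl fun j _ => ?_
    ring
  rw [h4]
  have h5 : ∑ j, cc j * (XX1 B χ j x * ee (-k) x) =
      ∑ i, (∑ j, ac B i j x * cd j χ x) * (cc i * ee (-k) x) +
      ∑ j, cc j * ((∑ i, ac B i j x * cd i χ x) * ee (-k) x) := by
    rw [← Finset.sum_add_distrib]
    refine Finset.sum_congr rfl fun j _ => ?_
    unfold XX1
    ring
  rw [h5]
  ring

end Crest.Agent.R202.Ell
end
end

-- ▼ part R202/EllStep
section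

/-!
# The coefficient equation and the induction on `s`
-/

set_option autoImplicit false

noncomputable section

open scoped BigOperators ComplexConjugate FourierTransform ContDiff
open Filter MeasureTheory

namespace Crest.Agent.R202.Ell

variable {n : ℕ}

/-- local data: smooth perturbation of the identity supported in a small ball, elliptic. -/
structure LocData (c : EuclideanSpace ℝ (Fin n)) (r lam : ℝ)
    (B : Fin n → Fin n → EuclideanSpace ℝ (Fin n) → ℝ) : Prop where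
  hr : r < 1 / 2
  hB : ∀ i j, ContDiff ℝ ∞ (B i j)
  hs : ∀ i j, tsupport (B i j) ⊆ Metric.ball c r
  hlam : 0 < lam
  hell : Elliptic lam B

lemma hasCompactSupport_of_ball {F : Type*} [NormedAddCommGroup F]
    {c : EuclideanSpace ℝ (Fin n)} {r : ℝ} {ψ : EuclideanSpace ℝ (Fin n) → F}
    (h : tsupport ψ ⊆ Metric.ball c r) : HasCompactSupport ψ :=
  (isCompact_closedBall c r).of_isClosed_subset (isClosed_tsupport ψ)
    (h.trans Metric.ball_subset_closedBall)

lemma zero_of_ball {F : Type*} [NormedAddCommGroup F]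
    {c : EuclideanSpace ℝ (Fin n)} {r : ℝ} {ψ : EuclideanSpace ℝ (Fin n) → F}
    (h : tsupport ψ ⊆ Metric.ball c r) (x : EuclideanSpace ℝ (Fin n)) (hx : r ≤ ‖x - c‖) :
    ψ x = 0 := by
  refine image_eq_zero_of_notMem_tsupport fun h' => ?_
  have := h h'
  rw [Metric.mem_ball, dist_eq_norm] at this
  linarith

lemma integrable_mul_cs {u g : EuclideanSpace ℝ (Fin n) → ℂ} (hu : Integrable u)
    (hg : Continuous g) (hgc : HasCompactSupport g) : Integrable (fun x => u x * g x) := by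
  obtain ⟨C, hC⟩ := hgc.exists_bound_of_continuous hg
  exact hu.mul_bdd hg.aestronglyMeasurable (Eventually.of_forall hC)

lemma tsupport_ofReal (g : EuclideanSpace ℝ (Fin n) → ℝ) :
    tsupport (fun x => ((g x : ℝ) : ℂ)) ⊆ tsupport g := by
  refine closure_mono fun x hx => ?_
  rw [Function.mem_support] at hx ⊢
  intro h; apply hx; simp [h]

lemma summable_am_term {c : EuclideanSpace ℝ (Fin n)} {r lam : ℝ}
    {B : Fin n → Fin n → EuclideanSpace ℝ (Fin n) → ℝ} (hD : LocData c r lam B)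
    {w : EuclideanSpace ℝ (Fin n) → ℂ} (i j : Fin n) (k : Fin n → ℤ) :
    Summable fun m => cf (fun x => ((B i j x : ℝ) : ℂ)) m * (((k - m) i : ℝ) : ℂ) *
      cf w (k - m) := by
  have hcs : HasCompactSupport (fun x => ((B i j x : ℝ) : ℂ)) :=
    hasCompactSupport_of_ball ((tsupport_ofReal _).trans (hD.hs i j))
  have h := summable_cf hcs (contDiff_ofReal' (hD.hB i j)) 1
  refine Summable.of_norm_bounded ((h.mul_left (J k)).mul_right (∫ x, ‖w x‖)) fun m => ?_
  rw [norm_mul, norm_mul, Complex.norm_real, Real.norm_eq_abs]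
  have h1 : |((k - m) i : ℝ)| ≤ J k * J m := by
    have h2 := abs_le_J (k - m) i
    have h3 : J (k - m) ≤ J k * J (-m) := by
      have := J_add_le k (-m)
      rwa [← sub_eq_add_neg] at this
    rw [J_neg] at h3
    exact h2.trans h3
  have h4 := norm_cf_le (w := w) (k - m)
  have h5 : 0 ≤ J k * J m := mul_nonneg (J_pos k).le (J_pos m).le
  calc ‖cf (fun x => ((B i j x : ℝ) : ℂ)) m‖ * |((k - m) i : ℝ)| * ‖cf w (k - m)‖
      ≤ ‖cf (fun x => ((B i j x : ℝ) : ℂ)) m‖ * (J k * J m) * ∫ x, ‖w x‖ := by gcongr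
    _ = _ := by ring

lemma tsum_am {c : EuclideanSpace ℝ (Fin n)} {r lam : ℝ}
    {B : Fin n → Fin n → EuclideanSpace ℝ (Fin n) → ℝ} (hD : LocData c r lam B)
    {w : EuclideanSpace ℝ (Fin n) → ℂ} (i j : Fin n) (k : Fin n → ℤ) :
    ∑' m, am (fun i j x => ((B i j x : ℝ) : ℂ)) i j m * (((k - m) i : ℝ) : ℂ) * cf w (k - m) =
      (if i = j then 1 else 0) * ((k i : ℝ) : ℂ) * cf w k +
      ∑' m, cf (fun x => ((B i j x : ℝ) : ℂ)) m * (((k - m) i : ℝ) : ℂ) * cf w (k - m) := by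
  have h1 : HasSum (fun m : Fin n → ℤ => (if i = j ∧ m = 0 then (1 : ℂ) else 0) *
      (((k - m) i : ℝ) : ℂ) * cf w (k - m)) ((if i = j then 1 else 0) * ((k i : ℝ) : ℂ) *
        cf w k) := by
    have := hasSum_single (f := fun m : Fin n → ℤ => (if i = j ∧ m = 0 then (1 : ℂ) else 0) *
      (((k - m) i : ℝ) : ℂ) * cf w (k - m)) 0 (fun m hm => by simp [hm])
    simpa using this
  have h2 := (summable_am_term hD (w := w) i j k).hasSum
  have h3 := h1.add h2
  rw [← h3.tsum_eq]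
  refine tsum_congr fun m => ?_
  unfold am
  ring

/-- `∫ w ∂_i (A_ij e_{-k})`. -/
lemma integral_flux {c : EuclideanSpace ℝ (Fin n)} {r lam : ℝ}
    {B : Fin n → Fin n → EuclideanSpace ℝ (Fin n) → ℝ} (hD : LocData c r lam B)
    {w : EuclideanSpace ℝ (Fin n) → ℂ} (hw : Integrable w)
    (hws : ∀ x, r ≤ ‖x - c‖ → w x = 0) (i j : Fin n) (k : Fin n → ℤ) :
    ∫ x, w x * cd i (fun y => ac B i j y * ee (-k) y) x =
      -(2 * Real.pi * Complex.I) *
      ∑' m, am (fun i j x => ((B i j x : ℝ) : ℂ)) i j m * (((k - m) i : ℝ) : ℂ) * cf w (k - m) := by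
  have hts : tsupport (fun x => ((B i j x : ℝ) : ℂ)) ⊆ Metric.ball c r :=
    (tsupport_ofReal _).trans (hD.hs i j)
  have hcs : HasCompactSupport (fun x => ((B i j x : ℝ) : ℂ)) := hasCompactSupport_of_ball hts
  have hBc := contDiff_ofReal' (hD.hB i j)
  have hBd : ∀ l x, r ≤ ‖x - c‖ → cd l (fun x => ((B i j x : ℝ) : ℂ)) x = 0 := by
    intro l x hx
    exact zero_of_ball ((tsupport_cd_subset _ l).trans hts) x hx
  have hmain := integral_mul_cd hw c hD.hr hws hcs hBc (zero_of_ball hts) hBd i k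
  have hE := contDiff_ee (n := n) (-k)
  have h1 : ∀ x, w x * cd i (fun y => ac B i j y * ee (-k) y) x =
      (if i = j then 1 else 0) * (-(2 * Real.pi * Complex.I * ((k i : ℝ) : ℂ))) *
        (w x * ee (-k) x) +
      w x * cd i (fun y => ((B i j y : ℝ) : ℂ) * ee (-k) y) x := by
    intro x
    have e1 : (fun y => ac B i j y * ee (-k) y) = fun y => (if i = j then 1 else 0) * ee (-k) y +
        ((B i j y : ℝ) : ℂ) * ee (-k) y := by
      funext y; unfold ac; ring
    rw [e1, cd_add i (((hE.differentiable (by simp)) x).const_mul _)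
      (((hBc.mul hE).differentiable (by simp)) x), cd_const_mul i _ ((hE.differentiable (by simp)) x),
      cd_ee]
    push_cast
    simp only [Pi.neg_apply]
    push_cast
    ring
  simp only [h1]
  have hi2 : Integrable (fun x => w x * cd i (fun y => ((B i j y : ℝ) : ℂ) * ee (-k) y) x) := by
    refine integrable_mul_cs hw (contDiff_cd (hBc.mul hE) i).continuous ?_
    exact hasCompactSupport_cd (hcs.mul_right) i
  rw [integral_add ((integrable_mul_ee hw _).const_mul _) hi2, integral_const_mul, hmain,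
    tsum_am hD i j k, mul_add, ← tsum_mul_left, ← tsum_neg]
  have h2 : ∫ x, w x * ee (-k) x = cf w k := rfl
  rw [h2]
  congr 1
  · split_ifs <;> ring
  · refine tsum_congr fun m => ?_
    ring

/-- complex distributional equation on the ball. -/
def CEq (c : EuclideanSpace ℝ (Fin n)) (r : ℝ)
    (B : Fin n → Fin n → EuclideanSpace ℝ (Fin n) → ℝ) (u f : EuclideanSpace ℝ (Fin n) → ℂ) : Prop :=
  ∀ Φ : EuclideanSpace ℝ (Fin n) → ℂ, ContDiff ℝ ∞ Φ → tsupport Φ ⊆ Metric.ball c r →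
    ∫ x, u x * LC B Φ x = ∫ x, f x * Φ x

/-- **coefficient equation**. -/
lemma coeff_eq {c : EuclideanSpace ℝ (Fin n)} {r r1 lam : ℝ} (hr1 : r1 ≤ r)
    {B : Fin n → Fin n → EuclideanSpace ℝ (Fin n) → ℝ} (hD : LocData c r lam B)
    {u f : EuclideanSpace ℝ (Fin n) → ℂ} (hu : Integrable u)
    (hEq : CEq c r1 B u f) {χ : EuclideanSpace ℝ (Fin n) → ℂ} (hχ : ContDiff ℝ ∞ χ)
    (hχs : tsupport χ ⊆ Metric.ball c r1) (k : Fin n → ℤ) :
    (-(2 * Real.pi * Complex.I)) ^ 2 * ∑ j, ((k j : ℝ) : ℂ) * ∑ i, ∑' m,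
      am (fun i j x => ((B i j x : ℝ) : ℂ)) i j m * (((k - m) i : ℝ) : ℂ) *
        cf (fun x => u x * χ x) (k - m) =
      cf (fun x => f x * χ x) k -
        ∑ j, (-(2 * Real.pi * Complex.I * ((k j : ℝ) : ℂ))) * cf (fun x => u x * XX1 B χ j x) k -
        cf (fun x => u x * LC B χ x) k := by
  have hcs : HasCompactSupport χ := hasCompactSupport_of_ball hχs
  have hE := contDiff_ee (n := n) (-k)
  have hw : Integrable (fun x => u x * χ x) := integrable_mul_cs hu hχ.continuous hcs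
  have hws : ∀ x, r ≤ ‖x - c‖ → u x * χ x = 0 := fun x hx => by
    rw [zero_of_ball hχs x (hr1.trans hx), mul_zero]
  set cc : Fin n → ℂ := fun j => -(2 * Real.pi * Complex.I * ((k j : ℝ) : ℂ)) with hcc
  have hts : tsupport (fun y => χ y * ee (-k) y) ⊆ tsupport χ := tsupport_mul_subset_left
  have h0 := hEq (fun y => χ y * ee (-k) y) (hχ.mul hE) (hts.trans hχs)
  have h1 : ∀ x, u x * LC B (fun y => χ y * ee (-k) y) x =
      (∑ i, ∑ j, cc j * ((u x * χ x) * cd i (fun y => ac B i j y * ee (-k) y) x)) +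
      (∑ j, cc j * ((u x * XX1 B χ j x) * ee (-k) x)) + (u x * LC B χ x) * ee (-k) x := by
    intro x
    rw [LC_mul_ee hD.hB hχ k x, mul_add, mul_add]
    congr 1
    · congr 1
      · rw [Finset.mul_sum, Finset.mul_sum]
        refine Finset.sum_congr rfl fun i _ => ?_
        rw [Finset.mul_sum, Finset.mul_sum]
        refine Finset.sum_congr rfl fun j _ => ?_
        simp only [hcc]
        ring
      · rw [Finset.mul_sum]
        refine Finset.sum_congr rfl fun j _ => ?_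
        simp only [hcc]
        ring
    · ring
  have iA : ∀ i j, Integrable (fun x => (u x * χ x) *
      cd i (fun y => ac B i j y * ee (-k) y) x) := by
    intro i j
    have := integrable_mul_cs hu (g := fun x => χ x * cd i (fun y => ac B i j y * ee (-k) y) x)
      (hχ.continuous.mul (contDiff_cd ((contDiff_ac hD.hB i j).mul hE) i).continuous)
      hcs.mul_right
    refine this.congr (Eventually.of_forall fun x => ?_)
    simp only
    ring
  have iX : ∀ j, Integrable (fun x => (u x * XX1 B χ j x) * ee (-k) x) := fun j =>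
    integrable_mul_ee (integrable_mul_cs hu (contDiff_XX1 hD.hB hχ j).continuous
      (hasCompactSupport_of_ball ((tsupport_XX1 B χ j).trans hχs))) _
  have iL : Integrable (fun x => (u x * LC B χ x) * ee (-k) x) :=
    integrable_mul_ee (integrable_mul_cs hu (contDiff_LC hD.hB hχ).continuous
      (hasCompactSupport_of_ball ((tsupport_LC B χ).trans hχs))) _
  have h2 : ∫ x, u x * LC B (fun y => χ y * ee (-k) y) x =
      (∑ i, ∑ j, cc j * ∫ x, (u x * χ x) * cd i (fun y => ac B i j y * ee (-k) y) x) +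
      (∑ j, cc j * cf (fun x => u x * XX1 B χ j x) k) + cf (fun x => u x * LC B χ x) k := by
    simp only [h1]
    have i1 : Integrable (fun x => ∑ i, ∑ j, cc j * ((u x * χ x) *
        cd i (fun y => ac B i j y * ee (-k) y) x)) :=
      integrable_finsetSum _ fun i _ => integrable_finsetSum _ fun j _ => (iA i j).const_mul _
    have i2 : Integrable (fun x => ∑ j, cc j * ((u x * XX1 B χ j x) * ee (-k) x)) :=
      integrable_finsetSum _ fun j _ => (iX j).const_mul _
    have i12 : Integrable (fun x => (∑ i, ∑ j, cc j * ((u x * χ x) *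
        cd i (fun y => ac B i j y * ee (-k) y) x)) +
        ∑ j, cc j * ((u x * XX1 B χ j x) * ee (-k) x)) := i1.add i2
    rw [integral_add i12 iL, integral_add i1 i2,
      integral_finsetSum _ fun i _ => integrable_finsetSum _ fun j _ => (iA i j).const_mul _,
      integral_finsetSum _ fun j _ => (iX j).const_mul _]
    congr 1
    congr 1
    · refine Finset.sum_congr rfl fun i _ => ?_
      rw [integral_finsetSum _ fun j _ => (iA i j).const_mul _]
      exact Finset.sum_congr rfl fun j _ => integral_const_mul _ _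
    · exact Finset.sum_congr rfl fun j _ => integral_const_mul _ _
  have h3 : ∀ i j, ∫ x, (u x * χ x) * cd i (fun y => ac B i j y * ee (-k) y) x =
      -(2 * Real.pi * Complex.I) * ∑' m, am (fun i j x => ((B i j x : ℝ) : ℂ)) i j m *
        (((k - m) i : ℝ) : ℂ) * cf (fun x => u x * χ x) (k - m) := fun i j =>
    integral_flux hD hw hws i j k
  have h4 : ∫ x, f x * (χ x * ee (-k) x) = cf (fun x => f x * χ x) k := by
    unfold cf
    refine integral_congr_ae (Eventually.of_forall fun x => ?_)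
    simp only
    ring
  rw [h2, h4] at h0
  simp only [h3] at h0
  rw [← h0]
  have h5 : (-(2 * Real.pi * Complex.I)) ^ 2 * ∑ j, ((k j : ℝ) : ℂ) * ∑ i, ∑' m,
      am (fun i j x => ((B i j x : ℝ) : ℂ)) i j m * (((k - m) i : ℝ) : ℂ) *
        cf (fun x => u x * χ x) (k - m) =
      ∑ i, ∑ j, cc j * (-(2 * Real.pi * Complex.I) * ∑' m,
        am (fun i j x => ((B i j x : ℝ) : ℂ)) i j m *
        (((k - m) i : ℝ) : ℂ) * cf (fun x => u x * χ x) (k - m)) := by
    rw [Finset.sum_comm, Finset.mul_sum]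
    refine Finset.sum_congr rfl fun j _ => ?_
    rw [Finset.mul_sum, Finset.mul_sum]
    refine Finset.sum_congr rfl fun i _ => ?_
    simp only [hcc]
    ring
  rw [h5]
  ring

lemma summable_am {c : EuclideanSpace ℝ (Fin n)} {r lam : ℝ}
    {B : Fin n → Fin n → EuclideanSpace ℝ (Fin n) → ℝ} (hD : LocData c r lam B)
    (i j : Fin n) (N : ℕ) :
    Summable fun m => J m ^ N * ‖am (fun i j x => ((B i j x : ℝ) : ℂ)) i j m‖ := by
  have hcs : HasCompactSupport (fun x => ((B i j x : ℝ) : ℂ)) :=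
    hasCompactSupport_of_ball ((tsupport_ofReal _).trans (hD.hs i j))
  have h := summable_cf hcs (contDiff_ofReal' (hD.hB i j)) N
  have h1 : Summable fun m : Fin n → ℤ => J m ^ N * ‖(if i = j ∧ m = 0 then (1 : ℂ) else 0)‖ := by
    refine summable_of_ne_finset_zero (s := {0}) fun m hm => ?_
    simp only [Finset.mem_singleton] at hm
    simp [hm]
  refine Summable.of_nonneg_of_le (fun m => by have := J_pos m; positivity) (fun m => ?_)
    (h1.add h)
  rw [← mul_add]
  refine mul_le_mul_of_nonneg_left ?_ (pow_nonneg (J_pos m).le N)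
  exact norm_add_le _ _

/-- **Induction**: all weighted norms of the coefficients of `u χ` are finite. -/
theorem HS_all {c : EuclideanSpace ℝ (Fin n)} {r r1 lam : ℝ} (hr1 : r1 ≤ r)
    {B : Fin n → Fin n → EuclideanSpace ℝ (Fin n) → ℝ} (hD : LocData c r lam B)
    {u f : EuclideanSpace ℝ (Fin n) → ℂ} (hu : Integrable u) (hf : ContDiff ℝ ∞ f)
    (hEq : CEq c r1 B u f) (s : ℤ) :
    ∀ χ : EuclideanSpace ℝ (Fin n) → ℂ, ContDiff ℝ ∞ χ → tsupport χ ⊆ Metric.ball c r1 →
      HS s (cf fun x => u x * χ x) := by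
  have key : ∀ q : ℕ, ∀ χ : EuclideanSpace ℝ (Fin n) → ℂ, ContDiff ℝ ∞ χ →
      tsupport χ ⊆ Metric.ball c r1 → HS (-(n : ℤ) + q) (cf fun x => u x * χ x) := by
    intro q
    induction q with
    | zero =>
      intro χ hχ hχs
      simp only [Nat.cast_zero, add_zero]
      exact HS.of_bdd (fun k => norm_cf_le k)
    | succ q ih =>
      intro χ hχ hχs
      set s : ℤ := -(n : ℤ) + q with hs
      have hcs : HasCompactSupport χ := hasCompactSupport_of_ball hχs
      set H : (Fin n → ℤ) → ℂ := fun k => ((-(2 * Real.pi * Complex.I)) ^ 2)⁻¹ *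
        (cf (fun x => f x * χ x) k -
        ∑ j, (-(2 * Real.pi * Complex.I * ((k j : ℝ) : ℂ))) * cf (fun x => u x * XX1 B χ j x) k -
        cf (fun x => u x * LC B χ x) k) with hH
      have hpi : (-(2 * Real.pi * Complex.I : ℂ)) ^ 2 ≠ 0 := by
        refine pow_ne_zero 2 (neg_ne_zero.2 ?_)
        simp [Real.pi_ne_zero]
      have heq : ∀ k, ∑ j, ((k j : ℝ) : ℂ) * ∑ i, ∑' m,
          am (fun i j x => ((B i j x : ℝ) : ℂ)) i j m * (((k - m) i : ℝ) : ℂ) *
            cf (fun x => u x * χ x) (k - m) = H k := by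
        intro k
        have := coeff_eq hr1 hD hu hEq hχ hχs k
        simp only [hH]
        rw [← this, inv_mul_cancel_left₀ hpi]
      have hw := ih χ hχ hχs
      have hHs : HS (s - 1) H := by
        simp only [hH]
        refine HS.const_mul ?_ _
        have e : (fun k => cf (fun x => f x * χ x) k -
          ∑ j, (-(2 * Real.pi * Complex.I * ((k j : ℝ) : ℂ))) * cf (fun x => u x * XX1 B χ j x) k -
          cf (fun x => u x * LC B χ x) k) = fun k => (cf (fun x => f x * χ x) k +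
          ∑ j, ((k j : ℝ) : ℂ) * ((2 * Real.pi * Complex.I) *
            cf (fun x => u x * XX1 B χ j x) k)) + (-1) * cf (fun x => u x * LC B χ x) k := by
          funext k
          have : ∑ j, (-(2 * Real.pi * Complex.I * ((k j : ℝ) : ℂ))) *
              cf (fun x => u x * XX1 B χ j x) k = -∑ j, ((k j : ℝ) : ℂ) *
              ((2 * Real.pi * Complex.I) * cf (fun x => u x * XX1 B χ j x) k) := by
            rw [← Finset.sum_neg_distrib]
            refine Finset.sum_congr rfl fun j _ => ?_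
            ring
          rw [this]; ring
        rw [e]
        refine HS.add (HS.add ?_ ?_) ?_
        · refine HS.of_decay (cf_decay (HasCompactSupport.mul_left hcs) (hf.mul hχ)) _
        · refine HS.sum _ fun j _ => ?_
          refine HS.coord_mul ?_ j
          exact HS.const_mul (ih _ (contDiff_XX1 hD.hB hχ j) ((tsupport_XX1 B χ j).trans hχs)) _
        · exact HS.const_mul ((ih _ (contDiff_LC hD.hB hχ) ((tsupport_LC B χ).trans hχs)).mono
            (by omega)) _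
      have hcoer := coercive_am c hD.hr (fun i j => (hD.hB i j).continuous)
        (fun i j => zero_of_ball (hD.hs i j)) hD.hell
        (fun i j => by simpa using summable_am hD i j 0)
      have := HS_step (summable_am hD) hD.hlam hcoer s hw hHs heq
      have e : (-(n : ℤ) + ((q + 1 : ℕ) : ℤ)) = s + 1 := by rw [hs]; push_cast; ring
      rw [e]
      exact this
  intro χ hχ hχs
  refine (key (s + n).toNat χ hχ hχs).mono ?_
  omega

end Crest.Agent.R202.Ell
end
end

-- ▼ part R202/EllRecon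

/-!
# Reconstruction: rapidly decaying coefficients give a smooth function
-/

set_option autoImplicit false

noncomputable section

open scoped BigOperators ComplexConjugate FourierTransform ContDiff
open Filter MeasureTheory

namespace Crest.Agent.R202.Ell

variable {n : ℕ}

/-- the real linear phase. -/
def rphase (k : Fin n → ℤ) : EuclideanSpace ℝ (Fin n) →L[ℝ] ℝ :=
  (2 * Real.pi) • ∑ i, (k i : ℝ) • (EuclideanSpace.proj i : EuclideanSpace ℝ (Fin n) →L[ℝ] ℝ)

lemma rphase_apply (k : Fin n → ℤ) (x : EuclideanSpace ℝ (Fin n)) :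
    rphase k x = 2 * Real.pi * ∑ i, (k i : ℝ) * x i := by
  simp [rphase]

lemma norm_rphase_le (k : Fin n → ℤ) : ‖rphase k‖ ≤ 2 * Real.pi * J k := by
  have hJ := J_pos k
  have hpi := Real.pi_pos
  refine ContinuousLinearMap.opNorm_le_bound _ (by positivity) fun x => ?_
  rw [rphase_apply, Real.norm_eq_abs, abs_mul, abs_of_pos (by positivity : 0 < 2 * Real.pi),
    mul_assoc (2 * Real.pi)]
  refine mul_le_mul_of_nonneg_left ?_ (by positivity)
  have h1 : |∑ i, (k i : ℝ) * x i| ≤ ∑ i, |(k i : ℝ)| * ‖x‖ := by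
    refine (Finset.abs_sum_le_sum_abs _ _).trans (Finset.sum_le_sum fun i _ => ?_)
    rw [abs_mul]
    refine mul_le_mul_of_nonneg_left ?_ (abs_nonneg _)
    have := PiLp.norm_apply_le x i
    simpa using this
  refine h1.trans ?_
  rw [← Finset.sum_mul]
  refine mul_le_mul_of_nonneg_right ?_ (norm_nonneg x)
  unfold J
  linarith

/-- `t ↦ exp(i t)`. -/
def ei (t : ℝ) : ℂ := Complex.exp ((t : ℂ) * Complex.I)

lemma hasDerivAt_ei (t : ℝ) : HasDerivAt ei (Complex.I * ei t) t := by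
  unfold ei
  have h := ((Complex.ofRealCLM.hasDerivAt (x := t)).mul_const Complex.I).cexp
  simp only [Complex.ofRealCLM_apply, Complex.ofReal_one, one_mul] at h
  rw [mul_comm]
  exact h

lemma contDiff_ei : ContDiff ℝ ∞ ei := by
  unfold ei
  exact (Complex.ofRealCLM.contDiff.mul contDiff_const).cexp

lemma iteratedDeriv_ei (m : ℕ) : iteratedDeriv m ei = fun t => Complex.I ^ m * ei t := by
  induction m with
  | zero => simp
  | succ m ih =>
    rw [iteratedDeriv_succ, ih]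
    funext t
    rw [((hasDerivAt_ei t).const_mul _).deriv]
    ring

lemma norm_ei (t : ℝ) : ‖ei t‖ = 1 := by
  unfold ei; rw [Complex.norm_exp_ofReal_mul_I]

lemma ee_eq_comp (k : Fin n → ℤ) : ee k = ei ∘ rphase k := by
  funext x
  rw [ee_eq_real, Function.comp_apply, rphase_apply, ei]

lemma norm_iteratedFDeriv_ee (k : Fin n → ℤ) (m : ℕ) (x : EuclideanSpace ℝ (Fin n)) :
    ‖iteratedFDeriv ℝ m (ee k) x‖ ≤ (2 * Real.pi * J k) ^ m := by
  rw [ee_eq_comp, ContinuousLinearMap.iteratedFDeriv_comp_right (rphase k) contDiff_ei x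
    (i := m) (by exact_mod_cast le_top)]
  refine (ContinuousMultilinearMap.norm_compContinuousLinearMap_le _ _).trans ?_
  rw [norm_iteratedFDeriv_eq_norm_iteratedDeriv, iteratedDeriv_ei]
  simp only [norm_mul, norm_pow, Complex.norm_I, one_pow, norm_ei, mul_one, one_mul,
    Finset.prod_const, Finset.card_univ, Fintype.card_fin]
  exact pow_le_pow_left₀ (norm_nonneg _) (norm_rphase_le k) m

/-- the smooth function with coefficients `w`. -/
def rec (w : (Fin n → ℤ) → ℂ) (x : EuclideanSpace ℝ (Fin n)) : ℂ := ∑' k, w k * ee k x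

lemma contDiff_rec {w : (Fin n → ℤ) → ℂ} (hw : ∀ N : ℕ, ∃ C, ∀ k, J k ^ N * ‖w k‖ ≤ C) :
    ContDiff ℝ ∞ (rec w) := by
  unfold rec
  refine contDiff_tsum (N := ⊤) (v := fun m k => ‖w k‖ * (2 * Real.pi * J k) ^ m)
    (fun k => contDiff_const.mul (contDiff_ee k)) (fun m _ => ?_) (fun m k x _ => ?_)
  · refine ((summable_of_decay hw m).mul_left ((2 * Real.pi) ^ m)).congr fun k => ?_
    rw [mul_pow]; ring
  · have : (fun x => w k * ee k x) = fun x => w k • ee k x := rfl
    rw [this, iteratedFDeriv_const_smul_apply' ((contDiff_ee k).contDiffAt.of_le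
      (by exact_mod_cast le_top)), norm_smul]
    exact mul_le_mul_of_nonneg_left (norm_iteratedFDeriv_ee k m x) (norm_nonneg _)

lemma integral_rec_mul {a : (Fin n → ℤ) → ℂ} (ha : Summable fun k => ‖a k‖)
    {W : EuclideanSpace ℝ (Fin n) → ℂ} (hW : Integrable W) :
    ∫ x, rec a x * W x = ∑' k, a k * cf W (-k) := by
  set F : (Fin n → ℤ) → EuclideanSpace ℝ (Fin n) → ℂ := fun k x => a k * (W x * ee k x) with hF
  have hFi : ∀ k, Integrable (F k) := fun k => (integrable_mul_ee hW k).const_mul _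
  have hnorm : ∀ k, ∫ x, ‖F k x‖ = ‖a k‖ * ∫ x, ‖W x‖ := by
    intro k
    rw [← integral_const_mul]
    refine integral_congr_ae (Eventually.of_forall fun x => ?_)
    simp only [hF, norm_mul, norm_ee, mul_one]
  have hsum : Summable fun k => ∫ x, ‖F k x‖ := by
    simp only [hnorm]
    exact ha.mul_right _
  have hmain := hasSum_integral_of_summable_integral_norm hFi hsum
  have hpt : ∀ x, rec a x * W x = ∑' k, F k x := by
    intro x
    unfold rec
    rw [← tsum_mul_right]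
    refine tsum_congr fun k => ?_
    simp only [hF]; ring
  rw [integral_congr_ae (Eventually.of_forall hpt), ← hmain.tsum_eq]
  refine tsum_congr fun k => ?_
  simp only [hF]
  rw [integral_const_mul]
  unfold cf
  rw [neg_neg]

lemma decay_norm_zero {w : (Fin n → ℤ) → ℂ} (hw : ∀ N : ℕ, ∃ C, ∀ k, J k ^ N * ‖w k‖ ≤ C) :
    Summable fun k => ‖w k‖ := by
  simpa using summable_of_decay hw 0

/-- **Reconstruction.** -/
theorem rec_ae {c : EuclideanSpace ℝ (Fin n)} {r : ℝ} (hr : r < 1 / 2)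
    {W : EuclideanSpace ℝ (Fin n) → ℂ} (hW : Integrable W) (hWs : ∀ x, r ≤ ‖x - c‖ → W x = 0)
    (hdec : ∀ N : ℕ, ∃ C, ∀ k, J k ^ N * ‖cf W k‖ ≤ C) :
    ∀ᵐ x, x ∈ Metric.ball c r → rec (cf W) x = W x := by
  have hVs := contDiff_rec hdec
  have hVint : LocallyIntegrable (fun x => rec (cf W) x - W x) :=
    hVs.continuous.locallyIntegrable.sub hW.locallyIntegrable
  have key := IsOpen.ae_eq_zero_of_integral_contDiff_smul_eq_zero (μ := volume)
    (U := Metric.ball c r) Metric.isOpen_ball (f := fun x => rec (cf W) x - W x)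
    (hVint.locallyIntegrableOn _) ?_
  · filter_upwards [key] with x hx hxb
    exact sub_eq_zero.1 (hx hxb)
  intro g hg hgc hgs
  set G : EuclideanSpace ℝ (Fin n) → ℂ := fun x => ((g x : ℝ) : ℂ) with hG
  have hGc : ContDiff ℝ ∞ G := contDiff_ofReal' hg
  have hGs : tsupport G ⊆ Metric.ball c r := (tsupport_ofReal g).trans hgs
  have hGcs : HasCompactSupport G := hasCompactSupport_of_ball hGs
  have hGi : Integrable G := integrable_of_cs hGcs hGc
  have e1 : ∫ x, rec (cf W) x * G x = ∑' k, cf W k * cf G (-k) :=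
    integral_rec_mul (decay_norm_zero hdec) hGi
  have e2 : ∫ x, rec (cf G) x * W x = ∑' k, cf G k * cf W (-k) :=
    integral_rec_mul (decay_norm_zero (cf_decay hGcs hGc)) hW
  have e3 : ∫ x, rec (cf G) x * W x = ∫ x, G x * W x := by
    refine integral_congr_ae (Eventually.of_forall fun x => ?_)
    simp only
    by_cases hx : r ≤ ‖x - c‖
    · rw [hWs x hx]; simp
    · push Not at hx
      unfold rec
      rw [(hasSum_cf hGcs hGc c hr (zero_of_ball hGs) (hx.trans hr)).tsum_eq]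
  have e4 : ∑' k, cf G k * cf W (-k) = ∑' k, cf W k * cf G (-k) := by
    rw [← (Equiv.neg (Fin n → ℤ)).tsum_eq]
    refine tsum_congr fun k => ?_
    simp only [Equiv.neg_apply, neg_neg]
    ring
  have i1 : Integrable (fun x => rec (cf W) x * G x) :=
    integrable_of_cs hGcs.mul_left (hVs.mul hGc)
  have i2 : Integrable (fun x => G x * W x) := by
    have := integrable_mul_cs hW hGc.continuous hGcs
    refine this.congr (Eventually.of_forall fun x => ?_)
    simp only; ring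
  have e5 : ∫ x, g x • (rec (cf W) x - W x) =
      ∫ x, rec (cf W) x * G x - G x * W x := by
    refine integral_congr_ae (Eventually.of_forall fun x => ?_)
    simp only [hG, Complex.real_smul]
    ring
  rw [e5, integral_sub i1 i2, e1, ← e3, e2, e4, sub_self]

/-- **Local regularity, complex form.** -/
theorem local_smooth {c : EuclideanSpace ℝ (Fin n)} {r r1 lam : ℝ} (hr1 : r1 ≤ r)
    {B : Fin n → Fin n → EuclideanSpace ℝ (Fin n) → ℝ} (hD : LocData c r lam B)
    {u f : EuclideanSpace ℝ (Fin n) → ℂ} (hu : Integrable u) (hf : ContDiff ℝ ∞ f)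
    (hEq : CEq c r1 B u f) (χ : EuclideanSpace ℝ (Fin n) → ℂ) (hχ : ContDiff ℝ ∞ χ)
    (hχs : tsupport χ ⊆ Metric.ball c r1) :
    ∃ V : EuclideanSpace ℝ (Fin n) → ℂ, ContDiff ℝ ∞ V ∧
      ∀ᵐ x, x ∈ Metric.ball c r1 → V x = u x * χ x := by
  have hcs := hasCompactSupport_of_ball hχs
  have hdec : ∀ N : ℕ, ∃ C, ∀ k, J k ^ N * ‖cf (fun x => u x * χ x) k‖ ≤ C := fun N =>
    HS.decay (fun s => HS_all hr1 hD hu hf hEq s χ hχ hχs) N
  refine ⟨_, contDiff_rec hdec, ?_⟩
  exact rec_ae (hr1.trans_lt hD.hr) (integrable_mul_cs hu hχ.continuous hcs)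
    (fun x hx => by rw [zero_of_ball hχs x hx, mul_zero]) hdec

end Crest.Agent.R202.Ell
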