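import Crest.Agent.R202.GateMatDefs

-- ▼ part R202/GateUnif
section

/-!
# Row 202, PART C: uniform openness on compact sets of directions at one scale `ε`
-/

set_option autoImplicit false

noncomputable section

open Filter Topology Set Module
open scoped InnerProductSpace
open Crest.Agent.R202.Lab Crest.Agent.R202.Cut Crest.Agent.R202.Jac

namespace Crest.Agent.R202.SF

variable {d : ℕ} {b0 b1 : ℝ} {OK : ℕ × ℕ → Prop} {T : Type*} [AddCommGroup T] [Module ℝ T]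
  {V : ℕ × ℕ → Type*} [∀ σ, AddCommGroup (V σ)] [∀ σ, Module ℝ (V σ)]
  (F : SpindleFamily d b0 b1 OK T V)

theorem SpindleFamily.Xmat_affine (σ : ℕ × ℕ) (b' : ℝ) {L : ℕ} (e : Fin L → Lbl σ.2) (x t : ℝ)
    (G0 G1 : ℕ →₀ T) :
    F.Xmat σ b' e x (G0 + t • G1) =
      F.Xmat σ b' e 0 G0 + x • F.Xmat σ b' e 1 0 + t • F.Xmat σ b' e 0 G1 := by
  ext i j
  simp only [SpindleFamily.Xmat, firstVar_add, firstVar_smul, firstVar_zero, Matrix.add_apply,
    Matrix.smul_apply, smul_eq_mul, zero_mul, one_mul, add_zero]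
  split_ifs <;> ring

theorem SpindleFamily.continuous_op (σ : ℕ × ℕ) (b' : ℝ) {L : ℕ} (e : Fin L → Lbl σ.2)
    (G0 G1 : ℕ →₀ T) :
    Continuous fun z : ℝ × ℝ => op (F.Xmat σ b' e z.1 (G0 + z.2 • G1)) := by
  have h1 : (fun z : ℝ × ℝ => op (F.Xmat σ b' e z.1 (G0 + z.2 • G1))) = fun z : ℝ × ℝ =>
      op (F.Xmat σ b' e 0 G0) + z.1 • op (F.Xmat σ b' e 1 0) + z.2 • op (F.Xmat σ b' e 0 G1) := by
    funext z
    rw [F.Xmat_affine, op_add, op_add, op_smul, op_smul]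
  rw [h1]
  fun_prop

theorem SpindleFamily.sz_affine_le (G0 G1 : ℕ →₀ T) (t : ℝ) :
    F.sz (G0 + t • G1) ≤ F.sz G0 + |t| * F.sz G1 := by
  have := F.sz_add G0 (t • G1)
  rwa [F.sz_smul] at this


theorem chE_injective {a c : ℕ} (ha : 0 < a) {s : ℕ} (p : Lbl s) (P : ℕ) :
    Function.Injective (chE a c p P) := by
  intro i j hij
  have h1 : p.1.1 + i * a = p.1.1 + j * a := congrArg (fun q : Lbl s => q.1.1) hij
  exact Fin.ext (Nat.eq_of_mul_eq_mul_right ha (Nat.add_left_cancel h1))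

/-- blow-up at one direction, uniformly nearby -/
theorem SpindleFamily.unif_local (hb0 : 0 < b0) {a c : ℕ} (ha : 0 < a)
    (hb' : 2 * (c : ℝ) / a ∈ Ioo b0 b1) {q s l : ℕ} (hσ : OK (q, s)) (C : Cls a c s l)
    (G0 G1 : ℕ →₀ T) (h0 : G0 0 = 0) (h1 : G1 0 = 0) (z0 : ℝ × ℝ)
    (hop : F.MOpen q C z0.1 (G0 + z0.2 • G1)) :
    ∃ U ∈ 𝓝 z0, ∀ᶠ ε in 𝓝[>] (0 : ℝ), ∀ᶠ k in atTop, ∀ z ∈ U,
      F.OpenAt (q, s) (2 * (c : ℝ) / a + ε * z.1) (ε • (G0 + z.2 • G1)) k l := by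
  classical
  obtain ⟨f, A, B, hf⟩ := hop
  set b' : ℝ := 2 * (c : ℝ) / a with hb'def
  have hb'0 : 0 < b' := hb0.trans hb'.1
  have hAB := hf.lt
  set τ : ℝ := (B - A) / 4 with hτ
  have hτ0 : 0 < τ := by rw [hτ]; linarith
  have hcont := F.continuous_op (q, s) b' C.e G0 G1
  set R : ℝ := |A| + |B| + τ + |z0.1| + 1 + (F.sz G0 + (|z0.2| + 1) * F.sz G1) with hR
  have hsz : 0 ≤ F.sz G0 + (|z0.2| + 1) * F.sz G1 := by
    have := F.sz_nonneg G0; have := F.sz_nonneg G1; positivity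
  have hR0 : 0 ≤ R := by positivity
  obtain ⟨ε0, hε0, hblow⟩ := F.blowup hb0 (σ := (q, s)) hσ (b' := b') hb' (J := mu b' C.p)
    (mu_nonneg hb'0.le _) (S := C.S) C.mem_S (L := C.P + 1) (e := C.e)
    (chE_injective ha C.p _) C.cls R (2 * τ) hR0 (by positivity)
  have hU : {z : ℝ × ℝ | ‖op (F.Xmat (q, s) b' C.e z.1 (G0 + z.2 • G1)) -
      op (F.Xmat (q, s) b' C.e z0.1 (G0 + z0.2 • G1))‖ < τ} ∩ Metric.ball z0 1 ∈ 𝓝 z0 := by
    refine inter_mem ?_ (Metric.ball_mem_nhds z0 one_pos)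
    have h2 : Tendsto (fun z : ℝ × ℝ => ‖op (F.Xmat (q, s) b' C.e z.1 (G0 + z.2 • G1)) -
      op (F.Xmat (q, s) b' C.e z0.1 (G0 + z0.2 • G1))‖) (𝓝 z0) (𝓝 0) := by
      have h3 := (hcont.sub continuous_const).norm.tendsto (x := z0)
        (f := fun z : ℝ × ℝ => ‖op (F.Xmat (q, s) b' C.e z.1 (G0 + z.2 • G1)) -
          op (F.Xmat (q, s) b' C.e z0.1 (G0 + z0.2 • G1))‖)
      simpa using h3
    exact (tendsto_order.1 h2).2 τ hτ0
  refine ⟨_, hU, ?_⟩
  have hev : ∀ᶠ ε in 𝓝[>] (0 : ℝ), 0 < ε ∧ ε ≤ ε0 := by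
    have := Ioc_mem_nhdsGT hε0
    filter_upwards [this] with ε hε using hε
  filter_upwards [hev] with ε hε
  obtain ⟨K, hK⟩ := hblow ε hε.1 hε.2
  filter_upwards [eventually_ge_atTop K] with k hk
  rintro z ⟨hz1, hz2⟩
  rw [Metric.mem_ball, Prod.dist_eq, max_lt_iff, Real.dist_eq, Real.dist_eq] at hz2
  have hx : |z.1| ≤ R := by
    have h3 : |z.1| ≤ |z.1 - z0.1| + |z0.1| := by
      have := abs_add_le (z.1 - z0.1) z0.1; simpa using this
    have := abs_nonneg A; have := abs_nonneg B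
    rw [hR]; linarith [hz2.1]
  have hGz : F.sz (G0 + z.2 • G1) ≤ R := by
    have h3 : |z.2| ≤ |z0.2| + 1 := by
      have := abs_add_le (z.2 - z0.2) z0.2
      simp only [sub_add_cancel] at this
      linarith [hz2.2]
    have h4 := F.sz_affine_le G0 G1 z.2
    have h5 : |z.2| * F.sz G1 ≤ (|z0.2| + 1) * F.sz G1 :=
      mul_le_mul_of_nonneg_right h3 (F.sz_nonneg _)
    have := abs_nonneg A; have := abs_nonneg B; have := abs_nonneg z0.1
    rw [hR]; linarith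
  have hf' : SepF (op (F.Xmat (q, s) b' C.e z.1 (G0 + z.2 • G1))) f (A + τ) (B - τ) :=
    SepF.perturb_norm hf hz1.le (by rw [hτ]; linarith)
  have hG00 : (G0 + z.2 • G1) 0 = 0 := by simp [h0, h1]
  obtain ⟨-, -, hli, hsep⟩ := hK k hk z.1 hx (G0 + z.2 • G1) hG00 hGz _ f (A + τ) (B - τ)
    (by
      have h3 := abs_add_le A τ
      rw [abs_of_pos hτ0] at h3
      have := abs_nonneg B; have := abs_nonneg z0.1
      rw [hR]; linarith)
    (by
      have h3 := abs_sub B τ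
      rw [abs_of_pos hτ0] at h3
      have := abs_nonneg A; have := abs_nonneg z0.1
      rw [hR]; linarith)
    (by rw [hτ]; linarith) hf'
  refine ⟨b', ⟨hb'.1.le, hb'.2.le⟩, _, _, _, frm_le_span _ _ _,
    FiniteDimensional.span_of_finite ℝ (Set.finite_range _), ?_, hsep⟩
  rw [finrank_span_eq_card hli]
  simp [C.card]

/-- uniform openness of one closed cut over a compact set of directions -/
theorem SpindleFamily.unif_cls (hb0 : 0 < b0) {a c : ℕ} (ha : 0 < a)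
    (hb' : 2 * (c : ℝ) / a ∈ Ioo b0 b1) {q s l : ℕ} (hσ : OK (q, s)) (C : Cls a c s l)
    {Z : Set (ℝ × ℝ)} (hZ : IsCompact Z) (G0 G1 : ℕ →₀ T) (h0 : G0 0 = 0) (h1 : G1 0 = 0)
    (hop : ∀ z ∈ Z, F.MOpen q C z.1 (G0 + z.2 • G1)) :
    ∀ᶠ ε in 𝓝[>] (0 : ℝ), ∀ᶠ k in atTop, ∀ z ∈ Z,
      F.OpenAt (q, s) (2 * (c : ℝ) / a + ε * z.1) (ε • (G0 + z.2 • G1)) k l := by
  refine hZ.induction_on (p := fun s' => ∀ᶠ ε in 𝓝[>] (0 : ℝ), ∀ᶠ k in atTop, ∀ z ∈ s',
      F.OpenAt (q, s) (2 * (c : ℝ) / a + ε * z.1) (ε • (G0 + z.2 • G1)) k l)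
    ?_ ?_ ?_ ?_
  · exact Eventually.of_forall fun ε => Eventually.of_forall fun k z hz =>
      absurd hz (Set.notMem_empty z)
  · intro s' t hst h
    filter_upwards [h] with ε hε
    filter_upwards [hε] with k hk z hz using hk z (hst hz)
  · intro s' t h h'
    filter_upwards [h, h'] with ε hε hε'
    filter_upwards [hε, hε'] with k hk hk' z hz
    rcases hz with hz | hz
    · exact hk z hz
    · exact hk' z hz
  · intro z hz
    obtain ⟨U, hU, h⟩ := F.unif_local hb0 ha hb' hσ C G0 G1 h0 h1 z (hop z hz)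
    exact ⟨U, mem_nhdsWithin_of_mem_nhds hU, h⟩

/-- **uniform openness of all cuts over a compact set of directions at a resonance** -/
theorem SpindleFamily.unif_all (hb0 : 0 < b0) {a c : ℕ} (ha : 0 < a) (hcop : Nat.Coprime a c)
    (hb' : 2 * (c : ℝ) / a ∈ Ioo b0 b1) (S : Finset (ℕ × ℕ)) (N : ℕ × ℕ → ℕ)
    (hS : ∀ σ ∈ S, OK σ ∧ σ.2 ≤ 1) (pr : ℕ × ℕ → ℕ → Prop) {Z : Set (ℝ × ℝ)} (hZ : IsCompact Z)
    (G0 G1 : ℕ →₀ T) (h0 : G0 0 = 0) (h1 : G1 0 = 0)
    (hop : ∀ σ ∈ S, ∀ l ≤ N σ, pr σ l → ∀ C : Cls a c σ.2 l, ∀ z ∈ Z,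
      F.MOpen σ.1 C z.1 (G0 + z.2 • G1)) {δ : ℝ} (hδ : 0 < δ) :
    ∃ ε0 : ℝ, 0 < ε0 ∧ ∀ ε : ℝ, 0 < ε → ε ≤ ε0 → ∃ K : ℕ, ∀ k, K ≤ k → ∀ z ∈ Z,
      (2 * (c : ℝ) / a + ε * z.1 ∈ Icc b0 b1) ∧ F.sz (ε • (G0 + z.2 • G1)) ≤ δ ∧
      ∀ σ ∈ S, ∀ l ≤ N σ, pr σ l → 
        F.OpenAt σ (2 * (c : ℝ) / a + ε * z.1) (ε • (G0 + z.2 • G1)) k l := by
  classical
  set b' : ℝ := 2 * (c : ℝ) / a with hb'def
  have hb'0 : 0 < b' := hb0.trans hb'.1
  have hbI : b' ∈ Icc b0 b1 := ⟨hb'.1.le, hb'.2.le⟩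
  -- a bound for `Z`
  obtain ⟨R, hR⟩ := hZ.isBounded.exists_norm_le
  set R' : ℝ := |R| + 1 with hR'
  have hR'0 : 0 < R' := by positivity
  have hZR : ∀ z ∈ Z, |z.1| ≤ R' ∧ |z.2| ≤ R' := by
    intro z hz
    have h2 := (hR z hz).trans (le_abs_self R)
    have h3 : |z.1| ≤ ‖z‖ := norm_fst_le z
    have h4 : |z.2| ≤ ‖z‖ := norm_snd_le z
    exact ⟨by rw [hR']; linarith, by rw [hR']; linarith⟩
  set M : ℝ := F.sz G0 + R' * F.sz G1 + 1 with hM
  have hM0 : 0 < M := by have := F.sz_nonneg G0; have := F.sz_nonneg G1; positivity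
  -- smallness facts valid for small `ε`
  have hsm : ∀ η : ℝ, 0 < η → ∀ᶠ ε in 𝓝[>] (0 : ℝ), 0 < ε ∧ ε ≤ η := fun η hη => by
    filter_upwards [Ioc_mem_nhdsGT hη] with ε hε using hε
  have hszle : ∀ ε : ℝ, 0 < ε → ∀ z ∈ Z, F.sz (ε • (G0 + z.2 • G1)) ≤ ε * M := by
    intro ε hε z hz
    rw [F.sz_smul, abs_of_pos hε]
    refine mul_le_mul_of_nonneg_left ?_ hε.le
    have h2 := F.sz_affine_le G0 G1 z.2
    have h3 := mul_le_mul_of_nonneg_right (hZR z hz).2 (F.sz_nonneg G1)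
    rw [hM]; linarith
  have hIcc : ∀ᶠ ε in 𝓝[>] (0 : ℝ), ∀ z ∈ Z, b' + ε * z.1 ∈ Icc b0 b1 := by
    filter_upwards [hsm (min ((b' - b0) / R') ((b1 - b') / R')) (lt_min
      (div_pos (sub_pos.2 hb'.1) hR'0) (div_pos (sub_pos.2 hb'.2) hR'0))] with ε hε z hz
    have h2 := hε.2.trans (min_le_left _ _)
    have h3 := hε.2.trans (min_le_right _ _)
    rw [le_div_iff₀ hR'0] at h2 h3
    have h4 : |ε * z.1| ≤ ε * R' := by
      rw [abs_mul, abs_of_pos hε.1]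
      exact mul_le_mul_of_nonneg_left (hZR z hz).1 hε.1.le
    have h5 := abs_le.1 h4
    constructor
    · linarith [h5.1]
    · linarith [h5.2]
  have hszδ : ∀ δ' : ℝ, 0 < δ' → ∀ᶠ ε in 𝓝[>] (0 : ℝ), ∀ z ∈ Z,
      F.sz (ε • (G0 + z.2 • G1)) ≤ δ' := by
    intro δ' hδ'
    filter_upwards [hsm (δ' / M) (by positivity)] with ε hε z hz
    refine (hszle ε hε.1 z hz).trans ?_
    have := hε.2
    rwa [le_div_iff₀ hM0] at this
  -- openness
  have hopen : ∀ᶠ ε in 𝓝[>] (0 : ℝ), ∀ᶠ k in atTop, ∀ σ ∈ S, ∀ l ≤ N σ, pr σ l → ∀ z ∈ Z,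
      F.OpenAt σ (b' + ε * z.1) (ε • (G0 + z.2 • G1)) k l := by
    have h2 : ∀ σ ∈ S, ∀ l ∈ Finset.range (N σ + 1), ∀ᶠ ε in 𝓝[>] (0 : ℝ), ∀ᶠ k in atTop,
        pr σ l → ∀ z ∈ Z,
        F.OpenAt σ (b' + ε * z.1) (ε • (G0 + z.2 • G1)) k l := by
      intro σ hσ l hl
      by_cases hp : pr σ l
      swap
      · exact Eventually.of_forall fun ε => Eventually.of_forall fun k h => absurd h hp
      by_cases hcl : Closed b' σ.2 l
      · obtain ⟨a', c', ha', hc', hcop', hbe, ⟨C⟩⟩ := exists_cls hb'0 hcl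
        obtain ⟨rfl, rfl⟩ := ac_unique ha ha' hcop hcop' hbe
        filter_upwards [F.unif_cls hb0 ha hb' (q := σ.1) (s := σ.2) (hS σ hσ).1 C hZ G0 G1 h0 h1
          (hop σ hσ l (by simpa [Nat.lt_succ_iff] using hl) hp C)] with ε hε
        filter_upwards [hε] with k hk _ z hz using hk z hz
      · obtain ⟨δ1, hδ1, K, hK⟩ := F.local_open hb0 (hS σ hσ).1 hbI hcl
        filter_upwards [hIcc, hszδ δ1 hδ1, hsm (δ1 / R') (by positivity)] with ε e1 e2 e3
        filter_upwards [eventually_ge_atTop K] with k hk _ z hz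
        refine hK _ (e1 z hz) ?_ _ (by simp [h0, h1]) (e2 z hz) k hk
        have h4 : |ε * z.1| ≤ ε * R' := by
          rw [abs_mul, abs_of_pos e3.1]
          exact mul_le_mul_of_nonneg_left (hZR z hz).1 e3.1.le
        have h5 := e3.2
        rw [le_div_iff₀ hR'0] at h5
        have h6 : b' + ε * z.1 - b' = ε * z.1 := by ring
        rw [h6]; linarith
    have h3 : ∀ᶠ ε in 𝓝[>] (0 : ℝ), ∀ σ ∈ S, ∀ l ∈ Finset.range (N σ + 1), ∀ᶠ k in atTop,
        pr σ l → ∀ z ∈ Z,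
        F.OpenAt σ (b' + ε * z.1) (ε • (G0 + z.2 • G1)) k l := by
      rw [Filter.eventually_all_finset]
      intro σ hσ
      rw [Filter.eventually_all_finset]
      exact fun l hl => h2 σ hσ l hl
    filter_upwards [h3] with ε hε
    have h4 : ∀ᶠ k in atTop, ∀ σ ∈ S, ∀ l ∈ Finset.range (N σ + 1), pr σ l → ∀ z ∈ Z,
        F.OpenAt σ (b' + ε * z.1) (ε • (G0 + z.2 • G1)) k l := by
      rw [Filter.eventually_all_finset]
      intro σ hσ
      rw [Filter.eventually_all_finset]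
      exact fun l hl => hε σ hσ l hl
    filter_upwards [h4] with k hk σ hσ l hl hp z hz
    exact hk σ hσ l (by simpa [Nat.lt_succ_iff] using hl) hp z hz
  have hall : ∀ᶠ ε in 𝓝[>] (0 : ℝ), ∀ᶠ k in atTop, ∀ z ∈ Z,
      (b' + ε * z.1 ∈ Icc b0 b1) ∧ F.sz (ε • (G0 + z.2 • G1)) ≤ δ ∧
      ∀ σ ∈ S, ∀ l ≤ N σ, pr σ l → 
        F.OpenAt σ (b' + ε * z.1) (ε • (G0 + z.2 • G1)) k l := by
    filter_upwards [hopen, hIcc, hszδ δ hδ] with ε e1 e2 e3
    filter_upwards [e1] with k hk z hz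
    exact ⟨e2 z hz, e3 z hz, fun σ hσ l hl hp => hk σ hσ l hl hp z hz⟩
  rw [eventually_nhdsWithin_iff, Metric.eventually_nhds_iff] at hall
  obtain ⟨ε1, hε1, hall⟩ := hall
  refine ⟨ε1 / 2, by positivity, fun ε hε hεle => ?_⟩
  have h2 := hall (y := ε) (by rw [Real.dist_eq, sub_zero, abs_of_pos hε]; linarith) hε
  obtain ⟨K, hK⟩ := eventually_atTop.1 h2
  exact ⟨K, fun k hk => hK k hk⟩

end Crest.Agent.R202.SF
end
end

-- ▼ part R202/GateAux

/-!
# Row 202, PART C: auxiliary facts for the gate assembly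

uniqueness of class descriptions, finiteness of resonances, bounds for `SepF`, the rotation curve
and the window frames.
-/

set_option autoImplicit false

noncomputable section

open Filter Topology Set Module
open scoped InnerProductSpace
open Crest.Agent.R202.Lab Crest.Agent.R202.Cut Crest.Agent.R202.Jac

namespace Crest.Agent.R202.SF

theorem Cls.mu_not_lt {a c s l : ℕ} (ha : 0 < a) (C C' : Cls a c s l) :
    ¬ mu (2 * (c : ℝ) / a) C.p < mu (2 * (c : ℝ) / a) C'.p := by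
  classical
  intro hlt
  have hinj := chE_injective ha C.p C.P (c := c)
  have hsub : C.S ∪ Finset.univ.image C.e ⊆ C'.S := by
    intro q hq
    rw [C'.mem_S]
    rcases Finset.mem_union.1 hq with hq | hq
    · exact ((C.mem_S q).1 hq).trans hlt
    · have : q ∈ Set.range C.e := by simpa using hq
      rw [(C.cls q).2 this]; exact hlt
  have hdisj : Disjoint C.S (Finset.univ.image C.e) := by
    rw [Finset.disjoint_left]
    intro q hq hq'
    have h1 : q ∈ Set.range C.e := by simpa using hq'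
    have h2 := (C.mem_S q).1 hq
    rw [(C.cls q).2 h1] at h2
    exact lt_irrefl _ h2
  have h1 := Finset.card_le_card hsub
  rw [Finset.card_union_of_disjoint hdisj, Finset.card_image_of_injective _ hinj,
    Finset.card_univ, Fintype.card_fin] at h1
  have h2 := C.card
  have h3 := C'.card
  have h4 := C.kk_le
  have h5 := C'.kk_pos
  have h6 : C.P = C.p.1.2 / c := rfl
  omega

/-- two descriptions of the same closed cut agree -/
theorem Cls.unique {a c s l : ℕ} (ha : 0 < a) (C C' : Cls a c s l) : C = C' := by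
  classical
  have hl : mu (2 * (c : ℝ) / a) C.p = mu (2 * (c : ℝ) / a) C'.p :=
    le_antisymm (not_lt.1 (C'.mu_not_lt ha C)) (not_lt.1 (C.mu_not_lt ha C'))
  have hp : C.p = C'.p := by
    obtain ⟨i, hi⟩ := (C.cls C'.p).1 hl.symm
    obtain ⟨j, hj⟩ := (C'.cls C.p).1 hl
    have hi1 : C.p.1.1 + i * a = C'.p.1.1 := congrArg (fun q : Lbl s => q.1.1) hi
    have hj1 : C'.p.1.1 + j * a = C.p.1.1 := congrArg (fun q : Lbl s => q.1.1) hj
    have h0 : (i : ℕ) * a = 0 := by omega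
    have hi0 : (i : ℕ) = 0 := (Nat.mul_eq_zero.1 h0).resolve_right (by omega)
    rw [← hi]
    apply Subtype.ext
    show C.p.1 = chainLab a c C.p.1 i
    rw [hi0, chainLab_zero]
  have hS : C.S = C'.S := by
    ext q
    rw [C.mem_S, C'.mem_S, hp]
  have hk : C.kk = C'.kk := by
    have h1 := C.card
    have h2 := C'.card
    rw [hS] at h1
    omega
  obtain ⟨p, h1, h2, S, h3, kk, h4, h5, h6⟩ := C
  obtain ⟨p', h1', h2', S', h3', kk', h4', h5', h6'⟩ := C'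
  simp only at hp hS hk
  subst hp hS hk
  rfl

/-- finitely many parameters in `[b0, b1]` with a closed cut `≤ N` -/
theorem finite_closed_le {b0 b1 : ℝ} (h0 : 0 < b0) (N : ℕ) :
    {b : ℝ | b ∈ Icc b0 b1 ∧ ∃ s ≤ 1, ∃ l ≤ N, Closed b s l}.Finite := by
  classical
  refine (finite_resonances (b1 := b1) h0 (finite_le h0 (b1 + 2 * N)).toFinset).subset ?_
  rintro b ⟨hb, s, hs, l, hl, hcl⟩
  have hb0 : 0 < b := h0.trans_le hb.1
  obtain ⟨p, hp, q, hq, hpq, hmu, hc1, hc2⟩ := hcl.exists_pair hb0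
  refine ⟨hb, p, ?_, q, ?_, hmu.symm⟩
  · simp only [Set.Finite.mem_toFinset, mem_ofPred_eq]
    have h1 : mu b p ≤ b1 + 2 * N := by
      by_contra hcon
      push Not at hcon
      have hsub : (Finset.range (N + 1)).image (fun j => (s, j)) ⊆ lows b s (mu b p) := by
        intro r hr
        obtain ⟨j, hj, rfl⟩ := Finset.mem_image.1 hr
        refine (mem_lows hb0).2 ⟨le_refl s, lt_of_le_of_lt ?_ hcon⟩
        unfold mu
        simp only
        have h2 : (s : ℝ) ≤ 1 := by exact_mod_cast hs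
        have h3 : (j : ℝ) ≤ N := by
          have := Finset.mem_range.1 hj
          exact_mod_cast Nat.lt_succ_iff.1 this
        have h4 : b * s ≤ b1 * 1 := mul_le_mul hb.2 h2 (by positivity) (by linarith [hb.2])
        linarith
      have h2 := Finset.card_le_card hsub
      rw [Finset.card_image_of_injective _ (fun i j h => (Prod.ext_iff.1 h).2),
        Finset.card_range] at h2
      omega
    exact (mu_mono hb.1 p).trans h1
  · rintro rfl
    exact lt_irrefl _ hpq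

/-- near a resonance (on the left, excluding it) there is no resonance -/
theorem eventually_not_closed {b0 b1 : ℝ} (h0 : 0 < b0) {bs : ℝ} (hbs : bs ∈ Ioo b0 b1)
    {Sg : ℝ} (hSg : 0 < Sg) (N : ℕ) :
    ∀ᶠ ε in 𝓝[>] (0 : ℝ), ∀ s ≤ 1, ∀ l ≤ N, ¬ Closed (bs - ε * Sg) s l := by
  have hfin := finite_closed_le (b1 := b1) h0 N
  have hev : ∀ᶠ b in 𝓝[≠] bs, b ∉ {b : ℝ | b ∈ Icc b0 b1 ∧ ∃ s ≤ 1, ∃ l ≤ N, Closed b s l} := by
    have h1 := hfin.isClosed.isOpen_compl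
    have h2 : ({b : ℝ | b ∈ Icc b0 b1 ∧ ∃ s ≤ 1, ∃ l ≤ N, Closed b s l} \ {bs})ᶜ ∈ 𝓝 bs :=
      (hfin.subset sdiff_subset).isClosed.isOpen_compl.mem_nhds (by simp)
    filter_upwards [mem_nhdsWithin_of_mem_nhds h2, self_mem_nhdsWithin] with b hb hb'
    intro hb''
    exact hb ⟨hb'', hb'⟩
  have ht : Tendsto (fun ε : ℝ => bs - ε * Sg) (𝓝[>] 0) (𝓝[≠] bs) := by
    refine tendsto_nhdsWithin_iff.2 ⟨?_, ?_⟩
    · have : Tendsto (fun ε : ℝ => bs - ε * Sg) (𝓝 0) (𝓝 (bs - 0 * Sg)) := by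
        exact Continuous.tendsto (by fun_prop) 0
      rw [zero_mul, sub_zero] at this
      exact this.mono_left nhdsWithin_le_nhds
    · filter_upwards [self_mem_nhdsWithin] with ε hε
      have : 0 < ε * Sg := mul_pos hε hSg
      simp only [mem_compl_iff, mem_singleton_iff]
      linarith
  have hI : ∀ᶠ ε in 𝓝[>] (0 : ℝ), bs - ε * Sg ∈ Icc b0 b1 := by
    have h3 : Tendsto (fun ε : ℝ => bs - ε * Sg) (𝓝[>] 0) (𝓝 bs) :=
      ht.mono_right nhdsWithin_le_nhds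
    exact h3.eventually (Icc_mem_nhds hbs.1 hbs.2)
  filter_upwards [ht.eventually hev, hI] with ε h1 h2 s hs l hl hcl
  exact h1 ⟨h2, s, hs, l, hl, hcl⟩

/-- bounds of the separating constants by the norm -/
theorem sepF_bounds {E : Type*} [NormedAddCommGroup E] [InnerProductSpace ℝ E]
    [FiniteDimensional ℝ E] {l : ℕ} {T : E →L[ℝ] E} {f : Fin l → E} {A B : ℝ}
    (h : SepF T f A B) (hl : 0 < l) (hd : l < finrank ℝ E) : -‖T‖ ≤ A ∧ B ≤ ‖T‖ := by
  have hT : ∀ v : E, |⟪T v, v⟫_ℝ| ≤ ‖T‖ * ‖v‖ ^ 2 := fun v => by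
    calc |⟪T v, v⟫_ℝ| ≤ ‖T v‖ * ‖v‖ := abs_real_inner_le_norm _ _
      _ ≤ (‖T‖ * ‖v‖) * ‖v‖ := by gcongr; exact T.le_opNorm v
      _ = ‖T‖ * ‖v‖ ^ 2 := by ring
  constructor
  · set w := f ⟨0, hl⟩ with hw
    have hw0 : w ≠ 0 := h.li.ne_zero _
    have h1 := h.le w (Submodule.subset_span ⟨_, rfl⟩)
    have h2 := (abs_le.1 (hT w)).1
    have h3 : 0 < ‖w‖ ^ 2 := by positivity
    have h4 : -‖T‖ * ‖w‖ ^ 2 ≤ A * ‖w‖ ^ 2 := by linarith
    exact le_of_mul_le_mul_right h4 h3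
  · set W := Submodule.span ℝ (Set.range f) with hW
    have hne : Wᗮ ≠ ⊥ := by
      intro hbot
      have h1 := Submodule.finrank_add_finrank_orthogonal W
      rw [hbot, finrank_bot, add_zero, hW, finrank_span_eq_card h.li, Fintype.card_fin] at h1
      omega
    obtain ⟨v, hv, hv0⟩ := (Submodule.ne_bot_iff _).1 hne
    have h1 := h.ge v fun i => (Submodule.mem_orthogonal W v).1 hv _ (Submodule.subset_span ⟨i, rfl⟩)
    have h2 := (abs_le.1 (hT v)).2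
    have h3 : 0 < ‖v‖ ^ 2 := by positivity
    exact le_of_mul_le_mul_right (h1.trans h2) h3

/-- span of a frame `u, w` -/
theorem span_snoc {W : Type*} [AddCommGroup W] [Module ℝ W] {n : ℕ} (u : Fin n → W) (w : W) :
    Submodule.span ℝ (Set.range (Fin.snoc (α := fun _ => W) u w)) =
      Submodule.span ℝ (Set.range u) ⊔ Submodule.span ℝ {w} := by
  rw [Fin.range_snoc, Set.insert_eq, Submodule.span_union, sup_comm]

theorem span_neg_singleton {W : Type*} [AddCommGroup W] [Module ℝ W] (w : W) :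
    Submodule.span ℝ {-w} = Submodule.span ℝ {w} := by
  rw [← Set.neg_singleton, Submodule.span_neg]

/-! ### the rotation curve -/

/-- clamp to `[0,1]` -/
def cl01 (x : ℝ) : ℝ := max 0 (min 1 x)

theorem continuous_cl01 : Continuous cl01 := by unfold cl01; fun_prop

theorem cl01_of_le {x : ℝ} (h : x ≤ 0) : cl01 x = 0 := by
  unfold cl01
  rw [min_eq_right (by linarith), max_eq_left h]

theorem cl01_of_ge {x : ℝ} (h : 1 ≤ x) : cl01 x = 1 := by
  unfold cl01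
  rw [min_eq_left h, max_eq_right (by norm_num)]

theorem cl01_of_mem {x : ℝ} (h : x ∈ Icc (0 : ℝ) 1) : cl01 x = x := by
  unfold cl01
  rw [min_eq_right h.2, max_eq_right h.1]

/-- the angle `α` of the rotation: `κ = 1`: `π/2 → 0 → π/2`; `κ = -1`: `π/2 → 0 → -π/2` -/
def ang (κ τ : ℝ) : ℝ :=
  Real.pi / 2 * (1 - cl01 (τ - 1) + (if κ = -1 then -1 else 1) * cl01 (τ - 3))

/-- the rotation curve -/
def rotc (κ τ : ℝ) : ℝ × ℝ :=
  ((if κ = -1 then -1 else 1) * Real.cos (ang κ τ), -Real.sin (ang κ τ))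

theorem continuous_rotc (κ : ℝ) : Continuous (rotc κ) := by
  unfold rotc ang
  have h1 := continuous_cl01
  fun_prop

theorem rotc_circle (κ τ : ℝ) : (rotc κ τ).1 ^ 2 + (rotc κ τ).2 ^ 2 = 1 := by
  unfold rotc
  have := Real.sin_sq_add_cos_sq (ang κ τ)
  split_ifs <;> nlinarith

theorem rotc_zero (κ : ℝ) : rotc κ 0 = (0, -1) := by
  unfold rotc ang
  rw [cl01_of_le (by norm_num), cl01_of_le (by norm_num)]
  simp

theorem rotc_four {κ : ℝ} (h : κ = 1 ∨ κ = -1) : rotc κ 4 = (0, -κ) := by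
  unfold rotc ang
  rw [cl01_of_ge (by norm_num), cl01_of_ge (by norm_num)]
  rcases h with rfl | rfl
  · norm_num
  · norm_num

/-- first edge -/
theorem rotc_edge0 (κ : ℝ) {s : ℝ} (hs : s ∈ Icc (0 : ℝ) 1) : rotc κ ((0 : ℕ) + s) = (0, -1) := by
  unfold rotc ang
  have h0 := hs.1
  have h1 := hs.2
  rw [cl01_of_le (by push_cast; linarith), cl01_of_le (by push_cast; linarith)]
  simp

/-- second edge: `cos α B - κ sin α E` up to the sign `κ`, `α = (π/2) (1 - s)` -/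
theorem rotc_edge1 {κ : ℝ} (h : κ = 1 ∨ κ = -1) {s : ℝ} (hs : s ∈ Icc (0 : ℝ) 1) :
    rotc κ ((1 : ℕ) + s) = (κ * Real.cos (Real.pi / 2 * (1 - s)),
      - Real.sin (Real.pi / 2 * (1 - s))) := by
  unfold rotc ang
  have h0 := hs.1
  have h1 := hs.2
  have e : ((1 : ℕ) : ℝ) + s - 1 = s := by push_cast; ring
  rw [e, cl01_of_mem hs, cl01_of_le (by push_cast; linarith)]
  rcases h with rfl | rfl
  · norm_num
  · norm_num

theorem rotc_edge2 {κ : ℝ} (h : κ = 1 ∨ κ = -1) {s : ℝ} (hs : s ∈ Icc (0 : ℝ) 1) :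
    rotc κ ((2 : ℕ) + s) = (κ, 0) := by
  unfold rotc ang
  have h0 := hs.1
  have h1 := hs.2
  rw [cl01_of_ge (by push_cast; linarith), cl01_of_le (by push_cast; linarith)]
  rcases h with rfl | rfl
  · norm_num
  · norm_num

theorem rotc_edge3 {κ : ℝ} (h : κ = 1 ∨ κ = -1) {s : ℝ} (hs : s ∈ Icc (0 : ℝ) 1) :
    rotc κ ((3 : ℕ) + s) = (κ * Real.cos (Real.pi / 2 * s), - (κ * Real.sin (Real.pi / 2 * s))) := by
  unfold rotc ang
  have h0 := hs.1
  have h1 := hs.2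
  have e : ((3 : ℕ) : ℝ) + s - 3 = s := by push_cast; ring
  rw [cl01_of_ge (by push_cast; linarith), e, cl01_of_mem hs]
  rcases h with rfl | rfl
  · norm_num
  · norm_num

end Crest.Agent.R202.SF
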