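import Crest.Agent.R202.SpFam
import Crest.Agent.R202.JacTri

/-!
# Row 202, PART C: local openness of cuts (LL) and the blow-up lemma (BL)
-/

set_option autoImplicit false

noncomputable section

open Filter Topology Set Module
open scoped InnerProductSpace
open Crest.Agent.R202.Lab Crest.Agent.R202.Cut

/-- the cut `l` of `a` is open, with a trial space inside `D` -/
def Crest.Agent.R202.Cut.IsOpenIn {V : Type*} [AddCommGroup V] [Module ℝ V] (g a : Bil V)
    (D : Submodule ℝ V) (l : ℕ) : Prop :=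
  ∃ (W : Submodule ℝ V) (A B : ℝ), W ≤ D ∧ FiniteDimensional ℝ W ∧ Module.finrank ℝ W = l ∧
    Sep g a W A B


namespace Crest.Agent.R202.SF

/-! ### generalities on `Eig` -/

section eig

variable {V : Type*} [AddCommGroup V] [Module ℝ V] {g a : Bil V} {ι : Type*} {ψ : ι → V} {E : ι → ℝ}

theorem eig_li (h : Eig g a ψ E) : LinearIndependent ℝ ψ := by
  classical
  rw [linearIndependent_iff']
  intro s x hx i hi
  have h1 : g (ψ i) (comb ψ s x) = x i := by rw [h.g_psi_comb, if_pos hi]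
  have h2 : comb ψ s x = 0 := hx
  rw [h2, map_zero] at h1
  exact h1.symm

theorem eig_li_sub (h : Eig g a ψ E) (S : Finset ι) : LinearIndependent ℝ (fun i : S => ψ i) :=
  (eig_li h).comp _ Subtype.val_injective

omit [AddCommGroup V] [Module ℝ V] in
theorem range_sub (S : Finset ι) : Set.range (fun i : S => ψ i) = ψ '' (S : Set ι) := by
  ext v
  simp only [mem_range, Subtype.exists, mem_image, Finset.mem_coe]
  constructor
  · rintro ⟨i, hi, rfl⟩; exact ⟨i, hi, rfl⟩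
  · rintro ⟨i, hi, rfl⟩; exact ⟨i, hi, rfl⟩

/-- the linear combinations of the cluster vectors -/
def Jmap {L : ℕ} (ψ : ι → V) (e : Fin L → ι) : EuclideanSpace ℝ (Fin L) →ₗ[ℝ] V where
  toFun x := ∑ i, x i • ψ (e i)
  map_add' x y := by simp [add_smul, Finset.sum_add_distrib]
  map_smul' r x := by simp [mul_smul, Finset.smul_sum]

theorem Jmap_apply {L : ℕ} (e : Fin L → ι) (x : EuclideanSpace ℝ (Fin L)) :
    Jmap ψ e x = ∑ i, x i • ψ (e i) := rfl

theorem g_Jmap (h : Eig g a ψ E) {L : ℕ} {e : Fin L → ι} (he : Function.Injective e)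
    (x y : EuclideanSpace ℝ (Fin L)) : g (Jmap ψ e x) (Jmap ψ e y) = ⟪x, y⟫_ℝ := by
  rw [Jmap_apply, Jmap_apply, PiLp.inner_apply]
  simp only [map_sum, map_smul, LinearMap.sum_apply, LinearMap.smul_apply, smul_eq_mul,
    RCLike.inner_apply, conj_trivial]
  refine Finset.sum_congr rfl fun i _ => ?_
  rw [Finset.sum_eq_single i]
  · rw [h.one]; ring
  · intro j _ hj
    rw [h.orth _ _ (fun hh => hj (he hh)), mul_zero]
  · intro hh; exact absurd (Finset.mem_univ i) hh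

theorem Jmap_mem {L : ℕ} (e : Fin L → ι) [DecidableEq ι] (x : EuclideanSpace ℝ (Fin L)) :
    Jmap ψ e x ∈ Submodule.span ℝ (ψ '' (Finset.univ.image e : Finset ι)) := by
  rw [Jmap_apply]
  refine Submodule.sum_mem _ fun i _ => Submodule.smul_mem _ _ (Submodule.subset_span ?_)
  exact ⟨e i, by simp, rfl⟩

theorem Jmap_mem_range {L : ℕ} (e : Fin L → ι) (x : EuclideanSpace ℝ (Fin L)) :
    Jmap ψ e x ∈ Submodule.span ℝ (Set.range ψ) := by
  rw [Jmap_apply]
  exact Submodule.sum_mem _ fun i _ => Submodule.smul_mem _ _ (Submodule.subset_span ⟨e i, rfl⟩)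

theorem exists_Jmap_of_mem {L : ℕ} {e : Fin L → ι} [DecidableEq ι] {v : V}
    (hv : v ∈ Submodule.span ℝ (ψ '' (Finset.univ.image e : Finset ι))) :
    ∃ x, v = Jmap ψ e x := by
  induction hv using Submodule.span_induction with
  | mem y hy =>
    obtain ⟨i, hi, rfl⟩ := hy
    simp only [Finset.coe_image, Finset.coe_univ, image_univ, mem_range] at hi
    obtain ⟨j, rfl⟩ := hi
    refine ⟨EuclideanSpace.single j 1, ?_⟩
    rw [Jmap_apply, Finset.sum_eq_single j]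
    · simp
    · intro i _ hij; simp [hij]
    · intro hh; exact absurd (Finset.mem_univ j) hh
  | zero => exact ⟨0, by simp⟩
  | add y z _ _ hy hz =>
    obtain ⟨x, rfl⟩ := hy
    obtain ⟨x', rfl⟩ := hz
    exact ⟨x + x', by rw [map_add]⟩
  | smul c y _ hy =>
    obtain ⟨x, rfl⟩ := hy
    exact ⟨c • x, by rw [map_smul]⟩

theorem Jmap_injective (h : Eig g a ψ E) {L : ℕ} {e : Fin L → ι} (he : Function.Injective e) :
    Function.Injective (Jmap ψ e) := by
  rw [injective_iff_map_eq_zero]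
  intro x hx
  have h1 := g_Jmap h he x x
  rw [hx, map_zero] at h1
  exact inner_self_eq_zero.1 h1.symm

/-- the frame `(ψ p)_{p ∈ S}, (J f_i)_i` -/
def frm {L k : ℕ} (ψ : ι → V) (S : Finset ι) (e : Fin L → ι)
    (f : Fin k → EuclideanSpace ℝ (Fin L)) : S ⊕ Fin k → V :=
  Sum.elim (fun p => ψ p) (fun i => Jmap ψ e (f i))

theorem frm_le_span {L k : ℕ} (S : Finset ι) (e : Fin L → ι)
    (f : Fin k → EuclideanSpace ℝ (Fin L)) :
    Submodule.span ℝ (Set.range (frm ψ S e f)) ≤ Submodule.span ℝ (Set.range ψ) := by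
  rw [Submodule.span_le]
  rintro _ ⟨x, rfl⟩
  rcases x with p | i
  · exact Submodule.subset_span ⟨p, rfl⟩
  · exact Jmap_mem_range e (f i)

theorem span_frm {L k : ℕ} (S : Finset ι) (e : Fin L → ι)
    (f : Fin k → EuclideanSpace ℝ (Fin L)) :
    Submodule.span ℝ (Set.range (frm ψ S e f)) =
      Submodule.span ℝ (ψ '' (S : Set ι)) ⊔ (Submodule.span ℝ (Set.range f)).map (Jmap ψ e) := by
  unfold frm
  rw [Set.Sum.elim_range, Submodule.span_union, range_sub, Submodule.map_span]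
  congr 1
  congr 1
  ext v
  simp

theorem li_frm (h : Eig g a ψ E) {L k : ℕ} {S : Finset ι} {e : Fin L → ι}
    (he : Function.Injective e) (hdisj : ∀ i, e i ∉ S)
    {f : Fin k → EuclideanSpace ℝ (Fin L)} (hf : LinearIndependent ℝ f) :
    LinearIndependent ℝ (frm ψ S e f) := by
  classical
  unfold frm
  refine LinearIndependent.sum_type (eig_li_sub h S) (hf.map' (Jmap ψ e) ?_) ?_
  · exact LinearMap.ker_eq_bot.2 (Jmap_injective h he)
  · rw [Submodule.disjoint_def]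
    intro v hv hv'
    rw [range_sub] at hv
    have hv2 : v ∈ Submodule.span ℝ (ψ '' (Finset.univ.image e : Finset ι)) := by
      refine Submodule.span_le.2 ?_ hv'
      rintro _ ⟨i, rfl⟩
      exact Jmap_mem e _
    obtain ⟨x, rfl⟩ := exists_Jmap_of_mem hv2
    have h0 : g (Jmap ψ e x) (Jmap ψ e x) = 0 := by
      refine h.g_eq_zero_of_mem hv fun p hp => ?_
      rw [Jmap_apply]
      simp only [map_sum, map_smul, smul_eq_mul]
      refine Finset.sum_eq_zero fun i _ => ?_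
      rw [h.orth _ _ (fun hh => hdisj i (by rw [← hh]; exact hp)), mul_zero]
    rw [g_Jmap h he] at h0
    rw [inner_self_eq_zero.1 h0, map_zero]

end eig

/-! ### the family -/

variable {d : ℕ} {b0 b1 : ℝ} {OK : ℕ × ℕ → Prop} {T : Type*} [AddCommGroup T] [Module ℝ T]
  {V : ℕ × ℕ → Type*} [∀ σ, AddCommGroup (V σ)] [∀ σ, Module ℝ (V σ)]
  (F : SpindleFamily d b0 b1 OK T V)

/-- consistency on the span of finitely many eigenfunctions -/
theorem SpindleFamily.consT {σ : ℕ × ℕ} (hσ : OK σ) {b' : ℝ} (hb' : b' ∈ Icc b0 b1)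
    (P : Finset (Lbl σ.2)) :
    ∃ C : ℝ, 0 ≤ C ∧ ∃ o : ℕ → ℝ, (∀ k, 0 ≤ o k) ∧ Tendsto o atTop (𝓝 0) ∧
      ∀ b ∈ Icc b0 b1, ∀ G : ℕ →₀ T, G 0 = 0 → F.sz G ≤ 1 / 2 → ∀ k,
        ∀ u ∈ Submodule.span ℝ (F.ψ σ b' '' P), ∀ v,
        (F.a σ b G k u v - F.a0 σ b' u v) ^ 2 ≤
          ((C * (|b - b'| + F.sz G) + o k) ^ 2 * F.g σ u u) * (F.a0 σ b' v v + F.g σ v v) := by
  classical
  have h := F.eig σ hσ b' hb'
  choose C hC0 o ho0 ho hc using fun p => F.cons σ hσ b' hb' p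
  refine ⟨∑ p ∈ P, C p, Finset.sum_nonneg fun p _ => hC0 p, fun k => ∑ p ∈ P, o p k,
    fun k => Finset.sum_nonneg fun p _ => ho0 p k, ?_, ?_⟩
  · have : Tendsto (fun k => ∑ p ∈ P, o p k) atTop (𝓝 (∑ _p ∈ P, (0 : ℝ))) :=
      tendsto_finsetSum _ fun p _ => ho p
    simpa using this
  intro b hb G hG0 hG k u hu v
  obtain ⟨x, rfl⟩ := (mem_span_iff P u).1 hu
  set t : Lbl σ.2 → ℝ := fun p => F.a σ b G k (F.ψ σ b' p) v - F.a0 σ b' (F.ψ σ b' p) v with ht
  set η : Lbl σ.2 → ℝ := fun p => C p * (|b - b'| + F.sz G) + o p k with hη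
  set hh := F.a0 σ b' v v + F.g σ v v with hhh
  have hh0 : 0 ≤ hh := add_nonneg (h.ann v) (h.gnn v)
  have hη0 : ∀ p, 0 ≤ η p := fun p => add_nonneg (mul_nonneg (hC0 p)
    (add_nonneg (abs_nonneg _) (F.sz_nonneg G))) (ho0 p k)
  have e1 : F.a σ b G k (comb (F.ψ σ b') P x) v - F.a0 σ b' (comb (F.ψ σ b') P x) v
      = ∑ p ∈ P, x p * t p := by
    simp only [comb, map_sum, map_smul, LinearMap.sum_apply, LinearMap.smul_apply, smul_eq_mul, ht]
    rw [← Finset.sum_sub_distrib]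
    exact Finset.sum_congr rfl fun p _ => by ring
  have e2 : (∑ p ∈ P, x p * t p) ^ 2 ≤ (∑ p ∈ P, x p ^ 2) * ∑ p ∈ P, t p ^ 2 :=
    Finset.sum_mul_sq_le_sq_mul_sq P x t
  have e3 : ∑ p ∈ P, t p ^ 2 ≤ ∑ p ∈ P, η p ^ 2 * hh :=
    Finset.sum_le_sum fun p _ => hc p b hb G hG0 hG k v
  have e4 : ∑ p ∈ P, η p ^ 2 ≤ (∑ p ∈ P, η p) ^ 2 :=
    Finset.sum_sq_le_sq_sum_of_nonneg fun p _ => hη0 p
  have e5 : ∑ p ∈ P, η p = (∑ p ∈ P, C p) * (|b - b'| + F.sz G) + ∑ p ∈ P, o p k := by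
    rw [hη, Finset.sum_add_distrib, Finset.sum_mul]
  rw [e1, ← e5, h.g_comb_self]
  have hx0 : 0 ≤ ∑ p ∈ P, x p ^ 2 := Finset.sum_nonneg fun p _ => sq_nonneg _
  have e6 : (∑ p ∈ P, η p ^ 2 * hh) = (∑ p ∈ P, η p ^ 2) * hh := (Finset.sum_mul _ _ _).symm
  rw [e6] at e3
  have e7 : (∑ p ∈ P, x p ^ 2) * (∑ p ∈ P, t p ^ 2) ≤
      (∑ p ∈ P, x p ^ 2) * ((∑ p ∈ P, η p) ^ 2 * hh) :=
    mul_le_mul_of_nonneg_left (e3.trans (mul_le_mul_of_nonneg_right e4 hh0)) hx0
  have e8 : (∑ p ∈ P, x p ^ 2) * ((∑ p ∈ P, η p) ^ 2 * hh) =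
      (∑ p ∈ P, η p) ^ 2 * (∑ p ∈ P, x p ^ 2) * hh := by ring
  exact (e2.trans e7).trans_eq e8

/-- the block lemma in the family, all constants explicit except `C, o` -/
theorem SpindleFamily.blkFam {σ : ℕ × ℕ} (hσ : OK σ) {b' : ℝ} (hb' : b' ∈ Icc b0 b1)
    {S Cl : Finset (Lbl σ.2)} {lam γ : ℝ} (hlam : 0 ≤ lam) (hγ : 0 < γ)
    (hS : ∀ p ∈ S, lev d σ.1 b' p ≤ lam - γ) (hC : ∀ p ∈ Cl, lev d σ.1 b' p = lam)
    (hrest : ∀ p : Lbl σ.2, p ∉ S → p ∉ Cl → lam + γ ≤ lev d σ.1 b' p) :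
    ∃ N0 : ℝ, 0 < N0 ∧ ∃ K : ℝ, 0 ≤ K ∧ ∃ C : ℝ, 0 ≤ C ∧ ∃ o : ℕ → ℝ, (∀ k, 0 ≤ o k) ∧
      Tendsto o atTop (𝓝 0) ∧
      ∀ b ∈ Icc b0 b1, ∀ G : ℕ →₀ T, G 0 = 0 → F.sz G ≤ 1 / 2 → ∀ k,
        ∀ η, η = C * (|b - b'| + F.sz G) + o k → η ≤ N0 →
        ∀ WC : Submodule ℝ (V σ), WC ≤ Submodule.span ℝ (F.ψ σ b' '' Cl) → ∀ A B : ℝ,
        lam - γ / 2 ≤ A → B ≤ lam + γ / 2 →
        (∀ w ∈ WC, F.a σ b G k w w ≤ A * F.g σ w w) →
        (∀ z ∈ Submodule.span ℝ (F.ψ σ b' '' Cl), (∀ w ∈ WC, F.g σ z w = 0) →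
          B * F.g σ z z ≤ F.a σ b G k z z) →
        A + K * η ^ 2 < B - K * η ^ 2 →
        Sep (F.g σ) (F.a σ b G k) (Submodule.span ℝ (F.ψ σ b' '' S) ⊔ WC)
          (A + K * η ^ 2) (B - K * η ^ 2) := by
  classical
  have h := F.eig σ hσ b' hb'
  obtain ⟨c, hc0, hc1, hcmp⟩ := F.comp σ hσ
  set Λ : ℝ := 2 * (lam + γ) / c with hΛ
  set P : Finset (Lbl σ.2) := (h.fin Λ).toFinset with hP
  obtain ⟨C, hC0, o, ho0, ho, hcons⟩ := F.consT hσ hb' P
  have hq : 0 < lam + γ + 1 := by positivity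
  refine ⟨c * γ / (16 * (lam + γ + 1)), by positivity, 8 * (lam + γ + 1) / (c * γ), by positivity,
    C, hC0, o, ho0, ho, ?_⟩
  intro b hb G hG0 hG k η hη hηN WC hWC A B hA hB hle hge hlt
  have hη0 : 0 ≤ η := by
    rw [hη]
    exact add_nonneg (mul_nonneg hC0 (add_nonneg (abs_nonneg _) (F.sz_nonneg G))) (ho0 k)
  refine blk h (F.symm σ hσ b hb G hG k) (Λ := Λ) (T := P) hlam hγ hc0 hc1 ?_ ?_ hS hC hrest
    hη0 ?_ (hcmp b hb b' hb' G hG k) ?_ hWC hA hB hle hge hlt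
  · rw [hΛ]; field_simp; exact le_rfl
  · intro p hp
    simpa [hP] using hp
  · rw [le_div_iff₀ (by positivity)] at hηN
    exact hηN
  · intro u hu v
    rw [hη]
    exact hcons b hb G hG0 hG k u hu v

/-- levels are ordered as `mu` -/
theorem lev_lt {d q : ℕ} {b : ℝ} (hb : 0 < b) {p p' : ℕ × ℕ} (h : mu b p < mu b p') :
    lev d q b p < lev d q b p' := by
  unfold lev
  have h0 := mu_nonneg hb.le p
  have hq : (0:ℝ) ≤ q := by positivity
  have hd : (0:ℝ) ≤ d := by positivity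
  apply mul_lt_mul (by linarith) (by linarith) (by linarith) (by linarith)

theorem lev_le {d q : ℕ} {b : ℝ} (hb : 0 < b) {p p' : ℕ × ℕ} (h : mu b p ≤ mu b p') :
    lev d q b p ≤ lev d q b p' := by
  rcases h.lt_or_eq with h | h
  · exact (lev_lt hb h).le
  · unfold lev; rw [h]

theorem lev_nonneg {d q : ℕ} {b : ℝ} (hb : 0 < b) (p : ℕ × ℕ) : 0 ≤ lev d q b p := by
  unfold lev
  have h0 := mu_nonneg hb.le p
  positivity

/-- gap of levels: a finite low set `S`, a class `Cl` at level `J`, everything else above -/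
theorem exists_gap {d q s : ℕ} {b : ℝ} (hb : 0 < b) {S Cl : Finset (Lbl s)} {J : ℝ} (hJ : 0 ≤ J)
    (hS : ∀ p ∈ S, mu b p < J) (hCl : ∀ p ∈ Cl, mu b p = J)
    (hrest : ∀ p : Lbl s, p ∉ S → p ∉ Cl → J < mu b p) :
    ∃ γ : ℝ, 0 < γ ∧ (∀ p ∈ S, lev d q b p ≤ (J + q) * (J + q + d + 1) - γ) ∧
      (∀ p ∈ Cl, lev d q b p = (J + q) * (J + q + d + 1)) ∧
      (∀ p : Lbl s, p ∉ S → p ∉ Cl → (J + q) * (J + q + d + 1) + γ ≤ lev d q b p) := by
  classical
  -- the levels up to `J + 1` form a finite set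
  have hfin : {p : Lbl s | mu b p ≤ J + 1}.Finite := by
    refine Set.Finite.of_finite_image (f := Subtype.val) ((finite_le hb (J + 1)).subset ?_)
      (Subtype.val_injective.injOn)
    rintro _ ⟨p, hp, rfl⟩; exact hp
  set R : Finset (Lbl s) := hfin.toFinset with hR
  set lam := (J + q) * (J + q + d + 1) with hlam
  have hqd : (0:ℝ) ≤ q := by positivity
  have hd : (0:ℝ) ≤ d := by positivity
  have hmono : ∀ p : ℕ × ℕ, mu b p < J → lev d q b p < lam := fun p hp => by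
    unfold lev
    have h0 := mu_nonneg hb.le p
    exact mul_lt_mul (by linarith) (by linarith) (by linarith) (by linarith)
  have hmono' : ∀ p : ℕ × ℕ, J < mu b p → lam < lev d q b p := fun p hp => by
    unfold lev
    exact mul_lt_mul (by linarith) (by linarith) (by linarith) (by linarith)
  -- finitely many positive gaps
  have hex : ∀ P : Finset (Lbl s), ∃ γ : ℝ, 0 < γ ∧ ∀ p ∈ P, mu b p ≠ J →
      γ ≤ |lev d q b p - lam| := by
    intro P
    induction P using Finset.induction_on with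
    | empty => exact ⟨1, one_pos, by simp⟩
    | insert p P _ ih =>
      obtain ⟨γ, hγ, h1⟩ := ih
      by_cases hp : mu b p = J
      · refine ⟨γ, hγ, fun p' hp' hne => ?_⟩
        rcases Finset.mem_insert.1 hp' with rfl | h2
        · exact absurd hp hne
        · exact h1 p' h2 hne
      · have hpos : 0 < |lev d q b p - lam| := by
          rw [abs_pos]
          rcases lt_or_gt_of_ne hp with h2 | h2
          · exact (sub_neg.2 (hmono p h2)).ne
          · exact (sub_pos.2 (hmono' p h2)).ne'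
        refine ⟨min γ |lev d q b p - lam|, lt_min hγ hpos, fun p' hp' hne => ?_⟩
        rcases Finset.mem_insert.1 hp' with rfl | h2
        · exact min_le_right _ _
        · exact (min_le_left _ _).trans (h1 p' h2 hne)
  obtain ⟨γ, hγ, hg⟩ := hex (S ∪ R)
  have hfar : ∀ p : ℕ × ℕ, J + 1 < mu b p → lam + 1 ≤ lev d q b p := fun p hp => by
    unfold lev
    rw [hlam]
    nlinarith
  refine ⟨min γ 1, lt_min hγ one_pos, fun p hp => ?_, fun p hp => ?_, fun p hpS hpC => ?_⟩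
  · have h1 := hg p (Finset.mem_union_left _ hp) (hS p hp).ne
    rw [abs_of_neg (sub_neg.2 (hmono p (hS p hp)))] at h1
    have := min_le_left γ 1
    linarith
  · unfold lev; rw [hCl p hp]
  · have hJp := hrest p hpS hpC
    by_cases h2 : mu b p ≤ J + 1
    · have h1 := hg p (Finset.mem_union_right _ (by simpa [hR] using h2)) hJp.ne'
      rw [abs_of_pos (sub_pos.2 (hmono' p hJp))] at h1
      have := min_le_left γ 1
      linarith
    · have h1 := hfar p (not_le.1 h2)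
      have := min_le_right γ 1
      linarith

end Crest.Agent.R202.SF
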