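import Mathlib
import Crest.Prelude.Def_CoordMetric
import Crest.Prelude.Def_ChartCurvature
import Crest.Agent.R202.GeoDefs

-- ▼ part R202/GeoDiag
section

/-!
Row 202, Part D: Ricci curvature of diagonal coordinate metrics
`g = ∑ exp (2 a_i) (dx^i)^2`.
-/

set_option autoImplicit false

open scoped ContDiff Topology
open Crest.GeometryTopology.CoordMetric Crest.GeometryTopology.ChartCurvature

namespace Crest.Agent.R202.Geo

noncomputable section

variable {n : ℕ}

/-! ### Calculus of `pderiv` -/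

theorem pderiv_congr {i : Fin n} {f h : EuclideanSpace ℝ (Fin n) → ℝ}
    {x : EuclideanSpace ℝ (Fin n)} (e : f =ᶠ[𝓝 x] h) : pderiv i f x = pderiv i h x := by
  unfold pderiv; rw [e.fderiv_eq]

theorem pderiv_add {i : Fin n} {f h : EuclideanSpace ℝ (Fin n) → ℝ}
    {x : EuclideanSpace ℝ (Fin n)} (hf : DifferentiableAt ℝ f x) (hh : DifferentiableAt ℝ h x) :
    pderiv i (fun y => f y + h y) x = pderiv i f x + pderiv i h x := by
  unfold pderiv; rw [fderiv_fun_add hf hh]; rfl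

theorem pderiv_sub {i : Fin n} {f h : EuclideanSpace ℝ (Fin n) → ℝ}
    {x : EuclideanSpace ℝ (Fin n)} (hf : DifferentiableAt ℝ f x) (hh : DifferentiableAt ℝ h x) :
    pderiv i (fun y => f y - h y) x = pderiv i f x - pderiv i h x := by
  unfold pderiv; rw [fderiv_fun_sub hf hh]; rfl

theorem pderiv_mul {i : Fin n} {f h : EuclideanSpace ℝ (Fin n) → ℝ}
    {x : EuclideanSpace ℝ (Fin n)} (hf : DifferentiableAt ℝ f x) (hh : DifferentiableAt ℝ h x) :
    pderiv i (fun y => f y * h y) x = pderiv i f x * h x + f x * pderiv i h x := by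
  unfold pderiv; rw [fderiv_fun_mul hf hh]
  simp [smul_eq_mul]; ring

theorem pderiv_const_mul {i : Fin n} {f : EuclideanSpace ℝ (Fin n) → ℝ} (c : ℝ)
    {x : EuclideanSpace ℝ (Fin n)} (hf : DifferentiableAt ℝ f x) :
    pderiv i (fun y => c * f y) x = c * pderiv i f x := by
  unfold pderiv; rw [fderiv_const_mul hf]; rfl

@[simp] theorem pderiv_const {i : Fin n} (c : ℝ) {x : EuclideanSpace ℝ (Fin n)} :
    pderiv i (fun _ => c) x = 0 := by
  unfold pderiv; simp

theorem pderiv_exp {i : Fin n} {f : EuclideanSpace ℝ (Fin n) → ℝ}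
    {x : EuclideanSpace ℝ (Fin n)} (hf : DifferentiableAt ℝ f x) :
    pderiv i (fun y => Real.exp (f y)) x = Real.exp (f x) * pderiv i f x := by
  unfold pderiv; rw [fderiv_exp hf]; rfl

theorem pderiv_sum {i : Fin n} {ι : Type*} {s : Finset ι}
    {f : ι → EuclideanSpace ℝ (Fin n) → ℝ}
    {x : EuclideanSpace ℝ (Fin n)} (hf : ∀ k ∈ s, DifferentiableAt ℝ (f k) x) :
    pderiv i (fun y => ∑ k ∈ s, f k y) x = ∑ k ∈ s, pderiv i (f k) x := by
  unfold pderiv; rw [fderiv_fun_sum hf]; simp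

theorem differentiableAt_pderiv {i : Fin n} {f : EuclideanSpace ℝ (Fin n) → ℝ}
    {x : EuclideanSpace ℝ (Fin n)} (hf : ContDiffAt ℝ 2 f x) :
    DifferentiableAt ℝ (pderiv i f) x := by
  have h1 : ContDiffAt ℝ 1 (fderiv ℝ f) x := hf.fderiv_right (by norm_num)
  have h2 : ContDiffAt ℝ 1 (fun y => fderiv ℝ f y (EuclideanSpace.single i 1)) x :=
    h1.clm_apply contDiffAt_const
  exact h2.differentiableAt (by norm_num)


/-- Symmetry of second derivatives. -/
theorem pderiv_comm {i j : Fin n} {f : EuclideanSpace ℝ (Fin n) → ℝ}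
    {x : EuclideanSpace ℝ (Fin n)} (hf : ContDiffAt ℝ 2 f x) :
    pderiv i (pderiv j f) x = pderiv j (pderiv i f) x := by
  have hs : IsSymmSndFDerivAt ℝ f x := hf.isSymmSndFDerivAt (by simp)
  have hd : DifferentiableAt ℝ (fderiv ℝ f) x :=
    (hf.fderiv_right (m := 1) (by norm_num)).differentiableAt (by norm_num)
  have key : ∀ p q : Fin n, pderiv p (pderiv q f) x =
      fderiv ℝ (fderiv ℝ f) x (EuclideanSpace.single p 1) (EuclideanSpace.single q 1) := by
    intro p q
    unfold pderiv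
    have := (hd.hasFDerivAt.clm_apply (hasFDerivAt_const (EuclideanSpace.single q (1:ℝ)) x)).fderiv
    rw [this]; simp
  rw [key, key]
  exact hs _ _

/-! ### Diagonal metrics -/

/-- The diagonal metric field with entries `exp (2 a_i)`. -/
def diagMetric (a : Fin n → EuclideanSpace ℝ (Fin n) → ℝ) : MetricField n :=
  fun x => Matrix.diagonal fun i => Real.exp (2 * a i x)

variable {a : Fin n → EuclideanSpace ℝ (Fin n) → ℝ}

theorem diagMetric_apply (x : EuclideanSpace ℝ (Fin n)) (i j : Fin n) :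
    diagMetric a x i j = if i = j then Real.exp (2 * a i x) else 0 := by
  simp [diagMetric, Matrix.diagonal_apply]

theorem inverseField_diagMetric (x : EuclideanSpace ℝ (Fin n)) (i j : Fin n) :
    inverseField (diagMetric a) x i j = if i = j then Real.exp (-(2 * a i x)) else 0 := by
  have h : (diagMetric a x)⁻¹ = Matrix.diagonal fun i => Real.exp (-(2 * a i x)) := by
    apply Matrix.inv_eq_right_inv
    rw [diagMetric, Matrix.diagonal_mul_diagonal]
    have : (fun i => Real.exp (2 * a i x) * Real.exp (-(2 * a i x))) = fun _ => (1:ℝ) := by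
      funext i; rw [← Real.exp_add]; simp
    rw [this, Matrix.diagonal_one]
  simp [inverseField, h, Matrix.diagonal_apply]

theorem pderiv_diagMetric {x : EuclideanSpace ℝ (Fin n)} (ha : ∀ i, DifferentiableAt ℝ (a i) x)
    (k i j : Fin n) :
    pderiv k (fun y => diagMetric a y i j) x =
      if i = j then 2 * Real.exp (2 * a i x) * pderiv k (a i) x else 0 := by
  by_cases h : i = j
  · subst h
    simp only [diagMetric_apply, if_true]
    rw [pderiv_exp ((ha i).const_mul 2), pderiv_const_mul 2 (ha i)]; ring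
  · simp [diagMetric_apply, h]

/-- Christoffel symbols of a diagonal metric. -/
theorem christoffel_diagMetric {x : EuclideanSpace ℝ (Fin n)}
    (ha : ∀ i, DifferentiableAt ℝ (a i) x) (k i j : Fin n) :
    christoffel (diagMetric a) x k i j =
      (if j = k then pderiv i (a k) x else 0) + (if i = k then pderiv j (a k) x else 0)
        - (if i = j then Real.exp (2 * (a i x - a k x)) * pderiv k (a i) x else 0) := by
  unfold christoffel
  have h1 : ∀ l, inverseField (diagMetric a) x k l *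
      (pderiv i (fun y => diagMetric a y j l) x + pderiv j (fun y => diagMetric a y i l) x
        - pderiv l (fun y => diagMetric a y i j) x) =
      if k = l then Real.exp (-(2 * a k x)) *
      (pderiv i (fun y => diagMetric a y j l) x + pderiv j (fun y => diagMetric a y i l) x
        - pderiv l (fun y => diagMetric a y i j) x) else 0 := by
    intro l; rw [inverseField_diagMetric]; split_ifs <;> simp
  rw [Finset.sum_congr rfl fun l _ => h1 l, Finset.sum_ite_eq Finset.univ k]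
  simp only [Finset.mem_univ, if_true]
  rw [pderiv_diagMetric ha, pderiv_diagMetric ha, pderiv_diagMetric ha]
  have e1 : Real.exp (-(2 * a k x)) * Real.exp (2 * a k x) = 1 := by
    rw [← Real.exp_add]; simp
  have e2 : Real.exp (2 * (a i x - a k x)) = Real.exp (-(2 * a k x)) * Real.exp (2 * a i x) := by
    rw [← Real.exp_add]; congr 1; ring
  by_cases hjk : j = k
  · subst hjk
    by_cases hij : i = j
    · subst hij
      simp only [if_true, sub_self, mul_zero, Real.exp_zero]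
      linear_combination (pderiv i (a i) x) * e1
    · simp only [if_true, if_neg hij]
      linear_combination (pderiv i (a j) x) * e1
  · by_cases hik : i = k
    · subst hik
      have hij : ¬ i = j := fun h => hjk h.symm
      simp only [if_neg hjk, if_true, if_neg hij]
      linear_combination (pderiv j (a i) x) * e1
    · by_cases hij : i = j
      · subst hij
        simp only [if_neg hjk, if_true]
        rw [e2]; ring
      · simp only [if_neg hjk, if_neg hik, if_neg hij]; ring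

theorem sum_christoffel_diagMetric {x : EuclideanSpace ℝ (Fin n)}
    (ha : ∀ i, DifferentiableAt ℝ (a i) x) (i : Fin n) :
    ∑ k, christoffel (diagMetric a) x k k i = ∑ k, pderiv i (a k) x := by
  have : ∀ k, christoffel (diagMetric a) x k k i = pderiv i (a k) x := by
    intro k
    rw [christoffel_diagMetric ha]
    by_cases hik : i = k
    · subst hik; simp
    · have h' : ¬ k = i := fun h => hik h.symm
      simp [hik, h']
  exact Finset.sum_congr rfl fun k _ => this k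

theorem pderiv_christoffel_diagMetric {x : EuclideanSpace ℝ (Fin n)}
    (ha : ∀ i, ContDiffAt ℝ 2 (a i) x) (p k i j : Fin n) :
    pderiv p (fun y => christoffel (diagMetric a) y k i j) x =
      (if j = k then pderiv p (pderiv i (a k)) x else 0)
        + (if i = k then pderiv p (pderiv j (a k)) x else 0)
        - (if i = j then Real.exp (2 * (a i x - a k x)) *
            (pderiv p (pderiv k (a i)) x
              + 2 * (pderiv p (a i) x - pderiv p (a k) x) * pderiv k (a i) x) else 0) := by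
  have hev : ∀ᶠ y in 𝓝 x, ∀ i, DifferentiableAt ℝ (a i) y := by
    rw [Filter.eventually_all]
    intro i
    have := (ha i).eventually (by simp)
    filter_upwards [this] with y hy
    exact hy.differentiableAt (by norm_num)
  have hda : ∀ i, DifferentiableAt ℝ (a i) x := fun i => (ha i).differentiableAt (by norm_num)
  have hdp : ∀ i k, DifferentiableAt ℝ (pderiv k (a i)) x := fun i k =>
    differentiableAt_pderiv (ha i)
  have e : (fun y => christoffel (diagMetric a) y k i j) =ᶠ[𝓝 x] fun y =>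
      (if j = k then pderiv i (a k) y else 0) + (if i = k then pderiv j (a k) y else 0)
        - (if i = j then Real.exp (2 * (a i y - a k y)) * pderiv k (a i) y else 0) := by
    filter_upwards [hev] with y hy
    exact christoffel_diagMetric hy k i j
  rw [pderiv_congr e]
  have d1 : DifferentiableAt ℝ (fun y => if j = k then pderiv i (a k) y else 0) x := by
    split_ifs
    · exact hdp _ _
    · exact differentiableAt_const _
  have d2 : DifferentiableAt ℝ (fun y => if i = k then pderiv j (a k) y else 0) x := by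
    split_ifs
    · exact hdp _ _
    · exact differentiableAt_const _
  have d0 : DifferentiableAt ℝ (fun y => a i y - a k y) x := (hda i).fun_sub (hda k)
  have d00 : DifferentiableAt ℝ (fun y => 2 * (a i y - a k y)) x := d0.const_mul 2
  have dexp : DifferentiableAt ℝ (fun y => Real.exp (2 * (a i y - a k y))) x := d00.exp
  have d3 : DifferentiableAt ℝ (fun y => if i = j then
      Real.exp (2 * (a i y - a k y)) * pderiv k (a i) y else 0) x := by
    split_ifs
    · exact dexp.mul (hdp _ _)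
    · exact differentiableAt_const _
  rw [pderiv_sub (d1.fun_add d2) d3, pderiv_add d1 d2]
  congr 1
  · congr 1
    · split_ifs
      · rfl
      · simp
    · split_ifs
      · rfl
      · simp
  · split_ifs
    · rw [pderiv_mul dexp (hdp _ _), pderiv_exp d00,
        pderiv_const_mul 2 d0, pderiv_sub (hda i) (hda k)]
      ring
    · simp

/-- **Ricci tensor of a diagonal metric** `∑ exp (2 a_i) (dx^i)^2`. -/
theorem ricci_diagMetric {x : EuclideanSpace ℝ (Fin n)}
    (ha : ∀ i, ContDiffAt ℝ 2 (a i) x) (i j : Fin n) :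
    ricci (diagMetric a) x i j =
      pderiv i (pderiv j (a i)) x + pderiv i (pderiv j (a j)) x
        - (∑ k, pderiv i (pderiv j (a k)) x)
        + (∑ k, pderiv j (a k) x) * pderiv i (a j) x
        + (∑ k, pderiv i (a k) x) * pderiv j (a i) x
        - (∑ k, pderiv i (a k) x * pderiv j (a k) x)
        - 2 * (pderiv i (a j) x * pderiv j (a i) x)
        - (if i = j then ∑ k, Real.exp (2 * (a i x - a k x)) *
            (pderiv k (pderiv k (a i)) x
              + ((∑ l, pderiv k (a l) x) - 2 * pderiv k (a k) x) * pderiv k (a i) x) else 0) := by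
  have hda : ∀ i, DifferentiableAt ℝ (a i) x := fun i => (ha i).differentiableAt (by norm_num)
  have hev : ∀ᶠ y in 𝓝 x, ∀ i, DifferentiableAt ℝ (a i) y := by
    rw [Filter.eventually_all]
    intro i
    have := (ha i).eventually (by simp)
    filter_upwards [this] with y hy
    exact hy.differentiableAt (by norm_num)
  have hdp : ∀ i k, DifferentiableAt ℝ (pderiv k (a i)) x := fun i k =>
    differentiableAt_pderiv (ha i)
  unfold ricci
  -- first term
  have T1 : ∑ k, pderiv k (fun y => christoffel (diagMetric a) y k i j) x =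
      pderiv i (pderiv j (a j)) x + pderiv i (pderiv j (a i)) x
        - (if i = j then ∑ k, Real.exp (2 * (a i x - a k x)) *
            (pderiv k (pderiv k (a i)) x
              + 2 * (pderiv k (a i) x - pderiv k (a k) x) * pderiv k (a i) x) else 0) := by
    simp_rw [pderiv_christoffel_diagMetric ha]
    rw [Finset.sum_sub_distrib, Finset.sum_add_distrib, Finset.sum_ite_eq, Finset.sum_ite_eq]
    simp only [Finset.mem_univ, if_true]
    rw [pderiv_comm (i := j) (j := i) (ha j)]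
    split_ifs
    · rfl
    · simp
  -- second term
  have T2 : pderiv j (fun y => ∑ k, christoffel (diagMetric a) y k k i) x =
      ∑ k, pderiv i (pderiv j (a k)) x := by
    have e : (fun y => ∑ k, christoffel (diagMetric a) y k k i) =ᶠ[𝓝 x]
        fun y => ∑ k, pderiv i (a k) y := by
      filter_upwards [hev] with y hy
      exact sum_christoffel_diagMetric hy i
    rw [pderiv_congr e, pderiv_sum fun k _ => hdp _ _]
    exact Finset.sum_congr rfl fun k _ => pderiv_comm (ha k)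
  -- third term
  have T3 : ∑ k, ∑ l, christoffel (diagMetric a) x k k l * christoffel (diagMetric a) x l i j =
      (∑ k, pderiv j (a k) x) * pderiv i (a j) x + (∑ k, pderiv i (a k) x) * pderiv j (a i) x
        - (if i = j then ∑ l, Real.exp (2 * (a i x - a l x)) *
            ((∑ k, pderiv l (a k) x) * pderiv l (a i) x) else 0) := by
    rw [Finset.sum_comm]
    simp_rw [← Finset.sum_mul, sum_christoffel_diagMetric hda, christoffel_diagMetric hda, mul_sub,
      mul_add, mul_ite, mul_zero]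
    rw [Finset.sum_sub_distrib, Finset.sum_add_distrib, Finset.sum_ite_eq, Finset.sum_ite_eq]
    simp only [Finset.mem_univ, if_true]
    congr 1
    split_ifs
    · exact Finset.sum_congr rfl fun l _ => by ring
    · simp
  -- fourth term
  have T4 : ∑ k, ∑ l, christoffel (diagMetric a) x k j l * christoffel (diagMetric a) x l k i =
      (∑ k, pderiv i (a k) x * pderiv j (a k) x) + 2 * (pderiv i (a j) x * pderiv j (a i) x)
        - (if i = j then ∑ k, Real.exp (2 * (a i x - a k x)) *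
            (2 * (pderiv k (a i) x * pderiv k (a i) x)) else 0) := by
    have s1 : ∀ k, ∑ l, christoffel (diagMetric a) x k j l * christoffel (diagMetric a) x l k i =
        pderiv j (a k) x * christoffel (diagMetric a) x k k i
          + (if j = k then ∑ l, pderiv l (a j) x * christoffel (diagMetric a) x l j i else 0)
          - Real.exp (2 * (a j x - a k x)) * pderiv k (a j) x *
              christoffel (diagMetric a) x j k i := by
      intro k
      have s2 : ∀ l, christoffel (diagMetric a) x k j l * christoffel (diagMetric a) x l k i =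
          (if l = k then pderiv j (a k) x * christoffel (diagMetric a) x k k i else 0)
          + (if j = k then pderiv l (a j) x * christoffel (diagMetric a) x l j i else 0)
          - (if j = l then Real.exp (2 * (a j x - a k x)) * pderiv k (a j) x *
              christoffel (diagMetric a) x j k i else 0) := by
        intro l
        rw [christoffel_diagMetric hda k j l]
        by_cases h1 : l = k
        · subst h1
          by_cases h2 : j = l
          · subst h2; simp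
          · simp [h2]
        · by_cases h2 : j = k
          · subst h2
            have h3 : ¬ j = l := fun h => h1 h.symm
            simp [h1, h3]
          · by_cases h3 : j = l
            · subst h3
              simp [h1]
            · simp [h1, h2, h3]
      simp_rw [s2]
      rw [Finset.sum_sub_distrib, Finset.sum_add_distrib]
      congr 1
      · congr 1
        · rw [Finset.sum_ite_eq']; simp
        · split_ifs
          · rfl
          · simp
      · rw [Finset.sum_ite_eq]; simp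
    simp_rw [s1]
    rw [Finset.sum_sub_distrib, Finset.sum_add_distrib, Finset.sum_ite_eq]
    simp only [Finset.mem_univ, if_true]
    have q1 : ∀ k, christoffel (diagMetric a) x k k i = pderiv i (a k) x := by
      intro k
      rw [christoffel_diagMetric hda]
      by_cases hik : i = k
      · subst hik; simp
      · have h' : ¬ k = i := fun h => hik h.symm
        simp [hik, h']
    have q2 : ∑ l, pderiv l (a j) x * christoffel (diagMetric a) x l j i =
        pderiv i (a j) x * pderiv j (a i) x + pderiv j (a j) x * pderiv i (a j) x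
          - (if i = j then ∑ l, Real.exp (2 * (a i x - a l x)) *
              (pderiv l (a i) x * pderiv l (a i) x) else 0) := by
      simp_rw [christoffel_diagMetric hda, mul_sub, mul_add, mul_ite, mul_zero]
      rw [Finset.sum_sub_distrib, Finset.sum_add_distrib, Finset.sum_ite_eq, Finset.sum_ite_eq]
      simp only [Finset.mem_univ, if_true]
      congr 1
      by_cases hij : i = j
      · subst hij
        simp only [if_true]
        exact Finset.sum_congr rfl fun l _ => by ring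
      · have h' : ¬ j = i := fun h => hij h.symm
        simp [hij, h']
    have q3 : ∑ k, Real.exp (2 * (a j x - a k x)) * pderiv k (a j) x *
              christoffel (diagMetric a) x j k i =
        (if i = j then ∑ k, Real.exp (2 * (a i x - a k x)) *
              (pderiv k (a i) x * pderiv k (a i) x) else 0)
          + pderiv j (a j) x * pderiv i (a j) x - pderiv i (a j) x * pderiv j (a i) x := by
      simp_rw [christoffel_diagMetric hda, mul_sub, mul_add, mul_ite, mul_zero]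
      rw [Finset.sum_sub_distrib, Finset.sum_add_distrib, Finset.sum_ite_eq', Finset.sum_ite_eq']
      simp only [Finset.mem_univ, if_true, sub_self, Real.exp_zero, one_mul]
      have e3 : Real.exp (2 * a j x - 2 * a i x) * Real.exp (2 * a i x - 2 * a j x) = 1 := by
        rw [← Real.exp_add]
        have : 2 * a j x - 2 * a i x + (2 * a i x - 2 * a j x) = 0 := by ring
        rw [this, Real.exp_zero]
      congr 1
      · congr 1
        by_cases hij : i = j
        · subst hij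
          simp only [if_true]
          exact Finset.sum_congr rfl fun l _ => by ring
        · simp [hij]
      · linear_combination (pderiv i (a j) x * pderiv j (a i) x) * e3
    rw [q2, q3]
    simp_rw [q1]
    have q4 : ∑ k, pderiv j (a k) x * pderiv i (a k) x = ∑ k, pderiv i (a k) x * pderiv j (a k) x :=
      Finset.sum_congr rfl fun k _ => by ring
    rw [q4]
    by_cases hij : i = j
    · subst hij
      simp only [if_true]
      have q5 : ∑ k, Real.exp (2 * (a i x - a k x)) * (2 * (pderiv k (a i) x * pderiv k (a i) x))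
          = 2 * ∑ k, Real.exp (2 * (a i x - a k x)) * (pderiv k (a i) x * pderiv k (a i) x) := by
        rw [Finset.mul_sum]
        exact Finset.sum_congr rfl fun l _ => by ring
      rw [q5]; ring
    · simp only [if_neg hij]; ring
  rw [T1, T2, T3, T4]
  by_cases hij : i = j
  · subst hij
    simp only [if_true]
    have q6 : ∑ k, Real.exp (2 * (a i x - a k x)) *
            (pderiv k (pderiv k (a i)) x
              + ((∑ l, pderiv k (a l) x) - 2 * pderiv k (a k) x) * pderiv k (a i) x) =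
        (∑ k, Real.exp (2 * (a i x - a k x)) *
            (pderiv k (pderiv k (a i)) x
              + 2 * (pderiv k (a i) x - pderiv k (a k) x) * pderiv k (a i) x))
        + (∑ l, Real.exp (2 * (a i x - a l x)) *
            ((∑ k, pderiv l (a k) x) * pderiv l (a i) x))
        - ∑ k, Real.exp (2 * (a i x - a k x)) *
            (2 * (pderiv k (a i) x * pderiv k (a i) x)) := by
      rw [← Finset.sum_add_distrib, ← Finset.sum_sub_distrib]
      exact Finset.sum_congr rfl fun l _ => by ring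
    rw [q6]; ring
  · simp only [if_neg hij]; ring

end

end Crest.Agent.R202.Geo
end

-- ▼ part R202/GeoPolar

/-!
Row 202, Part D: polar type coordinates `(t, X, φ, η)` and the pullback of `gfam`.
-/

set_option autoImplicit false

open scoped ContDiff Topology
open Crest.GeometryTopology.CoordMetric Crest.GeometryTopology.ChartCurvature

namespace Crest.Agent.R202.Geo

noncomputable section

variable {m : ℕ}

/-- `|η|²`, `η_k = q (k+3)`. -/
def NN (q : EuclideanSpace ℝ (Fin (m + 3))) : ℝ := ∑ k : Fin m, q k.succ.succ.succ ^ 2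

theorem NN_nonneg (q : EuclideanSpace ℝ (Fin (m + 3))) : 0 ≤ NN q :=
  Finset.sum_nonneg fun _ _ => sq_nonneg _

theorem NN_pos' (q : EuclideanSpace ℝ (Fin (m + 3))) : 0 < 1 + NN q := by
  have := NN_nonneg q; linarith

/-- Polar coordinates `q = (t, X, φ, η)`; `ε = ±1` chooses the hemisphere of the `y`-sphere. -/
def Psi (ε : ℝ) (q : EuclideanSpace ℝ (Fin (m + 3))) : EuclideanSpace ℝ (Fin (m + 3)) :=
  WithLp.toLp 2
    (Fin.cons (Real.exp (q 0) * (Real.sqrt (1 - q 1 ^ 2) * Real.cos (q 2)))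
    (Fin.cons (Real.exp (q 0) * (Real.sqrt (1 - q 1 ^ 2) * Real.sin (q 2)))
    (Fin.cons (Real.exp (q 0) * (q 1 * (ε * (2 / (1 + NN q) - 1))))
      fun k : Fin m => Real.exp (q 0) * (q 1 * (ε * (2 * q k.succ.succ.succ / (1 + NN q)))))))

theorem Psi_zero (ε : ℝ) (q : EuclideanSpace ℝ (Fin (m + 3))) :
    Psi ε q 0 = Real.exp (q 0) * (Real.sqrt (1 - q 1 ^ 2) * Real.cos (q 2)) := rfl

theorem Psi_one (ε : ℝ) (q : EuclideanSpace ℝ (Fin (m + 3))) :
    Psi ε q 1 = Real.exp (q 0) * (Real.sqrt (1 - q 1 ^ 2) * Real.sin (q 2)) := rfl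

theorem Psi_two (ε : ℝ) (q : EuclideanSpace ℝ (Fin (m + 3))) :
    Psi ε q 2 = Real.exp (q 0) * (q 1 * (ε * (2 / (1 + NN q) - 1))) := rfl

theorem Psi_succ (ε : ℝ) (q : EuclideanSpace ℝ (Fin (m + 3))) (k : Fin m) :
    Psi ε q k.succ.succ.succ =
      Real.exp (q 0) * (q 1 * (ε * (2 * q k.succ.succ.succ / (1 + NN q)))) := rfl

/-- Sums over `Fin (m+3)`. -/
theorem sum3 {M : Type*} [AddCommMonoid M] (f : Fin (m + 3) → M) :
    ∑ i, f i = f 0 + (f 1 + (f 2 + ∑ k : Fin m, f k.succ.succ.succ)) := by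
  rw [Fin.sum_univ_succ, Fin.sum_univ_succ, Fin.sum_univ_succ]; rfl

/-- The domain of the polar coordinates. -/
def VV (m : ℕ) : Set (EuclideanSpace ℝ (Fin (m + 3))) := {q | 0 < q 1 ∧ q 1 < 1}

theorem isOpen_VV : IsOpen (VV m) := by
  have h1 : Continuous fun q : EuclideanSpace ℝ (Fin (m + 3)) => q 1 := by fun_prop
  exact (isOpen_lt continuous_const h1).inter (isOpen_lt h1 continuous_const)

theorem one_sub_sq_pos {q : EuclideanSpace ℝ (Fin (m + 3))} (hq : q ∈ VV m) :
    0 < 1 - q 1 ^ 2 := by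
  obtain ⟨h0, h1⟩ := hq
  nlinarith

/-- Projection as a continuous linear map. -/
abbrev pr (i : Fin (m + 3)) : EuclideanSpace ℝ (Fin (m + 3)) →L[ℝ] ℝ := EuclideanSpace.proj i

theorem hasFDerivAt_pr (i : Fin (m + 3)) (q : EuclideanSpace ℝ (Fin (m + 3))) :
    HasFDerivAt (fun q : EuclideanSpace ℝ (Fin (m + 3)) => q i) (pr i) q :=
  (pr i).hasFDerivAt

/-- `∑ η_k v_k`. -/
def ev (q v : EuclideanSpace ℝ (Fin (m + 3))) : ℝ :=
  ∑ k : Fin m, q k.succ.succ.succ * v k.succ.succ.succ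

theorem hasFDerivAt_NN (q : EuclideanSpace ℝ (Fin (m + 3))) :
    HasFDerivAt (NN (m := m)) (∑ k : Fin m, (2 * q k.succ.succ.succ) • pr k.succ.succ.succ) q := by
  unfold NN
  refine HasFDerivAt.fun_sum fun k _ => ?_
  have := (hasFDerivAt_pr k.succ.succ.succ q).pow 2
  refine this.congr_fderiv ?_
  ext v; simp

theorem fderiv_NN (q v : EuclideanSpace ℝ (Fin (m + 3))) :
    fderiv ℝ (NN (m := m)) q v = 2 * ev q v := by
  rw [(hasFDerivAt_NN q).fderiv]
  simp only [sum_apply, smul_apply, ev, Finset.mul_sum]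
  exact Finset.sum_congr rfl fun k _ => by simp; ring

theorem hasFDerivAt_exp (q : EuclideanSpace ℝ (Fin (m + 3))) :
    HasFDerivAt (fun q : EuclideanSpace ℝ (Fin (m + 3)) => Real.exp (q 0))
      (Real.exp (q 0) • pr 0) q := (hasFDerivAt_pr 0 q).exp

theorem hasFDerivAt_rt {q : EuclideanSpace ℝ (Fin (m + 3))} (hq : q ∈ VV m) :
    HasFDerivAt (fun q : EuclideanSpace ℝ (Fin (m + 3)) => Real.sqrt (1 - q 1 ^ 2))
      ((-(q 1 / Real.sqrt (1 - q 1 ^ 2))) • pr 1) q := by
  have h := ((hasFDerivAt_pr (m := m) 1 q).pow 2).const_sub 1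
  have h2 := h.sqrt (one_sub_sq_pos hq).ne'
  refine h2.congr_fderiv ?_
  ext v
  simp
  ring

theorem fderiv_Psi_zero (ε : ℝ) {q : EuclideanSpace ℝ (Fin (m + 3))} (hq : q ∈ VV m)
    (v : EuclideanSpace ℝ (Fin (m + 3))) :
    fderiv ℝ (fun q => Psi ε q 0) q v =
      Real.exp (q 0) * (Real.sqrt (1 - q 1 ^ 2) * Real.cos (q 2) * v 0
        - q 1 / Real.sqrt (1 - q 1 ^ 2) * Real.cos (q 2) * v 1
        - Real.sqrt (1 - q 1 ^ 2) * Real.sin (q 2) * v 2) := by
  have h := (hasFDerivAt_exp q).fun_mul ((hasFDerivAt_rt hq).fun_mul (hasFDerivAt_pr 2 q).cos)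
  have : HasFDerivAt (fun q => Psi ε q 0) _ q := h
  rw [this.fderiv]
  simp
  ring

theorem fderiv_Psi_one (ε : ℝ) {q : EuclideanSpace ℝ (Fin (m + 3))} (hq : q ∈ VV m)
    (v : EuclideanSpace ℝ (Fin (m + 3))) :
    fderiv ℝ (fun q => Psi ε q 1) q v =
      Real.exp (q 0) * (Real.sqrt (1 - q 1 ^ 2) * Real.sin (q 2) * v 0
        - q 1 / Real.sqrt (1 - q 1 ^ 2) * Real.sin (q 2) * v 1
        + Real.sqrt (1 - q 1 ^ 2) * Real.cos (q 2) * v 2) := by
  have h := (hasFDerivAt_exp q).fun_mul ((hasFDerivAt_rt hq).fun_mul (hasFDerivAt_pr 2 q).sin)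
  have : HasFDerivAt (fun q => Psi ε q 1) _ q := h
  rw [this.fderiv]
  simp
  ring

theorem hasFDerivAt_invN (q : EuclideanSpace ℝ (Fin (m + 3))) :
    HasFDerivAt (fun q : EuclideanSpace ℝ (Fin (m + 3)) => (1 + NN q)⁻¹)
      ((-((1 + NN q) ^ 2)⁻¹) • (∑ k : Fin m, (2 * q k.succ.succ.succ) • pr k.succ.succ.succ)) q := by
  have h := (hasFDerivAt_NN q).const_add 1
  have h2 := (hasDerivAt_inv (NN_pos' q).ne').comp_hasFDerivAt q h
  exact h2

theorem fderiv_Psi_two (ε : ℝ) (q : EuclideanSpace ℝ (Fin (m + 3)))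
    (v : EuclideanSpace ℝ (Fin (m + 3))) :
    fderiv ℝ (fun q => Psi ε q 2) q v =
      Real.exp (q 0) * (ε * ((2 / (1 + NN q) - 1) * (q 1 * v 0 + v 1)
        - q 1 * (4 / (1 + NN q) ^ 2 * ev q v))) := by
  have h1 := ((hasFDerivAt_invN q).const_mul 2).sub_const 1
  have h := (hasFDerivAt_exp q).fun_mul ((hasFDerivAt_pr 1 q).fun_mul (h1.const_mul ε))
  have : HasFDerivAt (fun q => Psi ε q 2) _ q := h
  rw [this.fderiv]
  have e : (∑ k : Fin m, (2 * q k.succ.succ.succ) • pr k.succ.succ.succ) v = 2 * ev q v := by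
    rw [← (hasFDerivAt_NN q).fderiv, fderiv_NN]
  simp only [add_apply, smul_apply, e, smul_eq_mul]
  have e0 : (pr 0 : EuclideanSpace ℝ (Fin (m + 3)) →L[ℝ] ℝ) v = v 0 := rfl
  have e1 : (pr 1 : EuclideanSpace ℝ (Fin (m + 3)) →L[ℝ] ℝ) v = v 1 := rfl
  rw [e0, e1]
  field_simp
  ring

theorem fderiv_Psi_succ (ε : ℝ) (q : EuclideanSpace ℝ (Fin (m + 3))) (k : Fin m)
    (v : EuclideanSpace ℝ (Fin (m + 3))) :
    fderiv ℝ (fun q => Psi ε q k.succ.succ.succ) q v =
      Real.exp (q 0) * (ε * (2 * q k.succ.succ.succ / (1 + NN q) * (q 1 * v 0 + v 1)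
        + q 1 * (2 * v k.succ.succ.succ / (1 + NN q)
          - 4 * q k.succ.succ.succ / (1 + NN q) ^ 2 * ev q v))) := by
  have h1 := ((hasFDerivAt_pr k.succ.succ.succ q).const_mul 2).fun_mul (hasFDerivAt_invN q)
  have h := (hasFDerivAt_exp q).fun_mul ((hasFDerivAt_pr 1 q).fun_mul (h1.const_mul ε))
  have : HasFDerivAt (fun q => Psi ε q k.succ.succ.succ) _ q := h
  rw [this.fderiv]
  have e : (∑ k : Fin m, (2 * q k.succ.succ.succ) • pr k.succ.succ.succ) v = 2 * ev q v := by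
    rw [← (hasFDerivAt_NN q).fderiv, fderiv_NN]
  simp only [add_apply, smul_apply, e, smul_eq_mul]
  have e0 : (pr 0 : EuclideanSpace ℝ (Fin (m + 3)) →L[ℝ] ℝ) v = v 0 := rfl
  have e1 : (pr 1 : EuclideanSpace ℝ (Fin (m + 3)) →L[ℝ] ℝ) v = v 1 := rfl
  have e2 : (pr k.succ.succ.succ : EuclideanSpace ℝ (Fin (m + 3)) →L[ℝ] ℝ) v
    = v k.succ.succ.succ := rfl
  rw [e0, e1, e2]
  field_simp
  ring

/-! ### Values of the geometric functions at `Psi ε q` -/

theorem w_sq (q : EuclideanSpace ℝ (Fin (m + 3))) :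
    (2 / (1 + NN q) - 1) ^ 2 + ∑ k : Fin m, (2 * q k.succ.succ.succ / (1 + NN q)) ^ 2 = 1 := by
  have h : ∀ c : ℝ, ∑ k : Fin m, (2 * q k.succ.succ.succ / c) ^ 2 = 4 / c ^ 2 * NN q := by
    intro c
    rw [NN, Finset.mul_sum]
    exact Finset.sum_congr rfl fun k _ => by ring
  rw [h]
  have := (NN_pos' q).ne'
  field_simp
  ring

theorem rho_Psi (ε : ℝ) {q : EuclideanSpace ℝ (Fin (m + 3))} (hq : q ∈ VV m) :
    rho (Psi ε q) = Real.exp (q 0) * Real.sqrt (1 - q 1 ^ 2) := by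
  unfold rho
  rw [Psi_zero, Psi_one]
  have h1 := one_sub_sq_pos hq
  have e : (Real.exp (q 0) * (Real.sqrt (1 - q 1 ^ 2) * Real.cos (q 2))) ^ 2
      + (Real.exp (q 0) * (Real.sqrt (1 - q 1 ^ 2) * Real.sin (q 2))) ^ 2
      = (Real.exp (q 0) * Real.sqrt (1 - q 1 ^ 2)) ^ 2 := by
    have := Real.sin_sq_add_cos_sq (q 2)
    linear_combination (Real.exp (q 0) * Real.sqrt (1 - q 1 ^ 2)) ^ 2 * this
  rw [e, Real.sqrt_sq (by positivity)]

theorem sig_Psi {ε : ℝ} (hε : ε ^ 2 = 1) {q : EuclideanSpace ℝ (Fin (m + 3))} (hq : q ∈ VV m) :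
    sig (Psi ε q) = Real.exp (q 0) * q 1 := by
  unfold sig
  rw [Fin.sum_univ_succ]
  have e0 : Psi ε q (Fin.succ (Fin.succ (0 : Fin (m + 1)))) = Psi ε q 2 := rfl
  rw [e0, Psi_two]
  simp_rw [Psi_succ]
  have e : (Real.exp (q 0) * (q 1 * (ε * (2 / (1 + NN q) - 1)))) ^ 2
      + ∑ k : Fin m, (Real.exp (q 0) * (q 1 * (ε * (2 * q k.succ.succ.succ / (1 + NN q))))) ^ 2
      = (Real.exp (q 0) * q 1) ^ 2 := by
    have h := w_sq q
    have h2 : ∑ k : Fin m, (Real.exp (q 0) * (q 1 * (ε * (2 * q k.succ.succ.succ / (1 + NN q))))) ^ 2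
        = (Real.exp (q 0) * q 1) ^ 2 * ε ^ 2 *
          ∑ k : Fin m, (2 * q k.succ.succ.succ / (1 + NN q)) ^ 2 := by
      rw [Finset.mul_sum]
      exact Finset.sum_congr rfl fun k _ => by ring
    rw [h2, hε]
    linear_combination (Real.exp (q 0) * q 1) ^ 2 * h +
      (Real.exp (q 0) * q 1) ^ 2 * (2 / (1 + NN q) - 1) ^ 2 * hε
  rw [e, Real.sqrt_sq (mul_nonneg (Real.exp_pos _).le hq.1.le)]

theorem norm_sq_eq (x : EuclideanSpace ℝ (Fin (m + 3))) :
    ‖x‖ ^ 2 = rho x ^ 2 + sig x ^ 2 := by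
  rw [EuclideanSpace.norm_sq_eq, Fin.sum_univ_succ, Fin.sum_univ_succ]
  unfold rho sig
  rw [Real.sq_sqrt (by positivity), Real.sq_sqrt (Finset.sum_nonneg fun _ _ => sq_nonneg _)]
  simp only [Real.norm_eq_abs, sq_abs]
  have : x (Fin.succ (0 : Fin (m + 2))) = x 1 := rfl
  rw [this]; ring

theorem norm_Psi {ε : ℝ} (hε : ε ^ 2 = 1) {q : EuclideanSpace ℝ (Fin (m + 3))} (hq : q ∈ VV m) :
    ‖Psi ε q‖ = Real.exp (q 0) := by
  have h := norm_sq_eq (Psi ε q)
  rw [rho_Psi ε hq, sig_Psi hε hq] at h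
  have h1 := one_sub_sq_pos hq
  have h2 : ‖Psi ε q‖ ^ 2 = Real.exp (q 0) ^ 2 := by
    rw [h, mul_pow, mul_pow, Real.sq_sqrt h1.le]; ring
  exact (pow_left_inj₀ (norm_nonneg _) (Real.exp_pos _).le two_ne_zero).1 h2

theorem XX_Psi {ε : ℝ} (hε : ε ^ 2 = 1) {q : EuclideanSpace ℝ (Fin (m + 3))} (hq : q ∈ VV m) :
    XX (Psi ε q) = q 1 := by
  unfold XX
  rw [sig_Psi hε hq, norm_Psi hε hq]
  have := (Real.exp_pos (q 0)).ne'
  field_simp

theorem log_norm_Psi {ε : ℝ} (hε : ε ^ 2 = 1) {q : EuclideanSpace ℝ (Fin (m + 3))}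
    (hq : q ∈ VV m) : Real.log ‖Psi ε q‖ = q 0 := by
  rw [norm_Psi hε hq, Real.log_exp]

theorem uu_Psi (ε : ℝ) {q : EuclideanSpace ℝ (Fin (m + 3))} (hq : q ∈ VV m) :
    uu (Psi ε q) = Complex.exp ((q 2 : ℂ) * Complex.I) := by
  unfold uu
  rw [rho_Psi ε hq, Psi_zero, Psi_one, Complex.exp_mul_I]
  have h1 : ((Real.exp (q 0) * Real.sqrt (1 - q 1 ^ 2) : ℝ) : ℂ) ≠ 0 := by
    have := Real.sqrt_pos.2 (one_sub_sq_pos hq)
    have h2 := Real.exp_pos (q 0)
    exact Complex.ofReal_ne_zero.2 (mul_pos h2 this).ne'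
  rw [div_eq_iff h1]
  push_cast
  ring

theorem Psi_ne_zero {ε : ℝ} (hε : ε ^ 2 = 1) {q : EuclideanSpace ℝ (Fin (m + 3))}
    (hq : q ∈ VV m) : Psi ε q ≠ 0 := by
  intro h
  have := norm_Psi hε hq
  rw [h, norm_zero] at this
  exact (Real.exp_pos (q 0)).ne this

/-- The derivative of `Psi` applied to a vector, as a vector (component by component). -/
def dPsi (ε : ℝ) (q v : EuclideanSpace ℝ (Fin (m + 3))) (a : Fin (m + 3)) : ℝ :=
  fderiv ℝ (fun q => Psi ε q a) q v

theorem sum_prod (q v w : EuclideanSpace ℝ (Fin (m + 3))) (A A' B B' : ℝ) :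
    ∑ k : Fin m, (A * q k.succ.succ.succ + B * v k.succ.succ.succ) *
      (A' * q k.succ.succ.succ + B' * w k.succ.succ.succ) =
    A * A' * NN q + A * B' * ev q w + A' * B * ev q v
      + B * B' * ∑ k : Fin m, v k.succ.succ.succ * w k.succ.succ.succ := by
  simp only [NN, ev, Finset.mul_sum, ← Finset.sum_add_distrib]
  exact Finset.sum_congr rfl fun k _ => by ring

theorem dPsi_zero (ε : ℝ) {q : EuclideanSpace ℝ (Fin (m + 3))} (hq : q ∈ VV m)
    (v : EuclideanSpace ℝ (Fin (m + 3))) :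
    dPsi ε q v 0 = Real.exp (q 0) * (
      (Real.sqrt (1 - q 1 ^ 2) * v 0 - q 1 / Real.sqrt (1 - q 1 ^ 2) * v 1) * Real.cos (q 2)
        - Real.sqrt (1 - q 1 ^ 2) * v 2 * Real.sin (q 2)) := by
  unfold dPsi; rw [fderiv_Psi_zero ε hq]; ring

theorem dPsi_one (ε : ℝ) {q : EuclideanSpace ℝ (Fin (m + 3))} (hq : q ∈ VV m)
    (v : EuclideanSpace ℝ (Fin (m + 3))) :
    dPsi ε q v 1 = Real.exp (q 0) * (
      (Real.sqrt (1 - q 1 ^ 2) * v 0 - q 1 / Real.sqrt (1 - q 1 ^ 2) * v 1) * Real.sin (q 2)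
        + Real.sqrt (1 - q 1 ^ 2) * v 2 * Real.cos (q 2)) := by
  unfold dPsi; rw [fderiv_Psi_one ε hq]; ring

theorem dPsi_two (ε : ℝ) (q v : EuclideanSpace ℝ (Fin (m + 3))) :
    dPsi ε q v 2 = Real.exp (q 0) * (ε * ((2 / (1 + NN q) - 1) * (q 1 * v 0 + v 1)
        - q 1 * (4 / (1 + NN q) ^ 2 * ev q v))) := by
  unfold dPsi; rw [fderiv_Psi_two]

theorem dPsi_succ (ε : ℝ) (q v : EuclideanSpace ℝ (Fin (m + 3))) (k : Fin m) :
    dPsi ε q v k.succ.succ.succ = (Real.exp (q 0) * ε) *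
      ((2 / (1 + NN q) * (q 1 * v 0 + v 1) - q 1 * (4 / (1 + NN q) ^ 2 * ev q v))
          * q k.succ.succ.succ + q 1 * (2 / (1 + NN q)) * v k.succ.succ.succ) := by
  unfold dPsi; rw [fderiv_Psi_succ]; ring

theorem dPsi_inner {ε : ℝ} (hε : ε ^ 2 = 1) {q : EuclideanSpace ℝ (Fin (m + 3))}
    (hq : q ∈ VV m) (v w : EuclideanSpace ℝ (Fin (m + 3))) :
    ∑ a, dPsi ε q v a * dPsi ε q w a =
      Real.exp (q 0) ^ 2 * (v 0 * w 0 + v 1 * w 1 / (1 - q 1 ^ 2) + (1 - q 1 ^ 2) * (v 2 * w 2)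
        + q 1 ^ 2 * (4 / (1 + NN q) ^ 2 *
          ∑ k : Fin m, v k.succ.succ.succ * w k.succ.succ.succ)) := by
  rw [sum3, dPsi_zero ε hq, dPsi_zero ε hq, dPsi_one ε hq, dPsi_one ε hq, dPsi_two, dPsi_two]
  have hS : ∑ k : Fin m, dPsi ε q v k.succ.succ.succ * dPsi ε q w k.succ.succ.succ =
      (Real.exp (q 0) * ε) ^ 2 *
        ∑ k : Fin m, ((2 / (1 + NN q) * (q 1 * v 0 + v 1) - q 1 * (4 / (1 + NN q) ^ 2 * ev q v))
          * q k.succ.succ.succ + q 1 * (2 / (1 + NN q)) * v k.succ.succ.succ) *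
          ((2 / (1 + NN q) * (q 1 * w 0 + w 1) - q 1 * (4 / (1 + NN q) ^ 2 * ev q w))
          * q k.succ.succ.succ + q 1 * (2 / (1 + NN q)) * w k.succ.succ.succ) := by
    rw [Finset.mul_sum]
    exact Finset.sum_congr rfl fun k _ => by rw [dPsi_succ, dPsi_succ]; ring
  rw [hS, sum_prod, mul_pow, hε]
  have hr2 : Real.sqrt (1 - q 1 ^ 2) ^ 2 = 1 - q 1 ^ 2 := Real.sq_sqrt (one_sub_sq_pos hq).le
  have hr0 : Real.sqrt (1 - q 1 ^ 2) ≠ 0 := (Real.sqrt_pos.2 (one_sub_sq_pos hq)).ne'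
  have hcs := Real.sin_sq_add_cos_sq (q 2)
  generalize Real.sqrt (1 - q 1 ^ 2) = r at *
  rw [← hr2]
  have hN : NN q = (1 + NN q) - 1 := by ring
  have hc0 : 1 + NN q ≠ 0 := (NN_pos' q).ne'
  generalize ev q v = a
  generalize ev q w = b
  generalize (∑ k : Fin m, v k.succ.succ.succ * w k.succ.succ.succ) = d
  generalize hcc : 1 + NN q = c at *
  rw [show NN q = c - 1 by linarith]
  generalize q 1 = X at *
  have hX : X ^ 2 = 1 - r ^ 2 := by linarith
  generalize Real.exp (q 0) = e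
  generalize Real.cos (q 2) = C at *
  generalize Real.sin (q 2) = S at *
  have hcs' : S ^ 2 = 1 - C ^ 2 := by linarith
  have key1 : (e * ((r * v 0 - X / r * v 1) * C - r * v 2 * S)) *
      (e * ((r * w 0 - X / r * w 1) * C - r * w 2 * S)) +
      (e * ((r * v 0 - X / r * v 1) * S + r * v 2 * C)) *
      (e * ((r * w 0 - X / r * w 1) * S + r * w 2 * C)) =
      e ^ 2 * ((r * v 0 - X / r * v 1) * (r * w 0 - X / r * w 1) + r ^ 2 * (v 2 * w 2)) := by
    linear_combination e ^ 2 * ((r * v 0 - X / r * v 1) * (r * w 0 - X / r * w 1)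
      + r ^ 2 * (v 2 * w 2)) * hcs
  have key2 : (r * v 0 - X / r * v 1) * (r * w 0 - X / r * w 1) =
      r ^ 2 * (v 0 * w 0) - X * (v 0 * w 1 + v 1 * w 0) + X ^ 2 * (v 1 * w 1) / r ^ 2 := by
    field_simp
    ring
  have key3 : (ε * ((2 / c - 1) * (X * v 0 + v 1) - X * (4 / c ^ 2 * a))) *
      (ε * ((2 / c - 1) * (X * w 0 + w 1) - X * (4 / c ^ 2 * b))) +
      ((2 / c * (X * v 0 + v 1) - X * (4 / c ^ 2 * a)) *
        (2 / c * (X * w 0 + w 1) - X * (4 / c ^ 2 * b)) * (c - 1) +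
      (2 / c * (X * v 0 + v 1) - X * (4 / c ^ 2 * a)) * (X * (2 / c)) * b +
      (2 / c * (X * w 0 + w 1) - X * (4 / c ^ 2 * b)) * (X * (2 / c)) * a +
      X * (2 / c) * (X * (2 / c)) * d) =
      (X * v 0 + v 1) * (X * w 0 + w 1) + X ^ 2 * (4 / c ^ 2 * d) := by
    have : (ε * ((2 / c - 1) * (X * v 0 + v 1) - X * (4 / c ^ 2 * a))) *
      (ε * ((2 / c - 1) * (X * w 0 + w 1) - X * (4 / c ^ 2 * b))) =
      ((2 / c - 1) * (X * v 0 + v 1) - X * (4 / c ^ 2 * a)) *
      ((2 / c - 1) * (X * w 0 + w 1) - X * (4 / c ^ 2 * b)) := by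
      linear_combination ((2 / c - 1) * (X * v 0 + v 1) - X * (4 / c ^ 2 * a)) *
      ((2 / c - 1) * (X * w 0 + w 1) - X * (4 / c ^ 2 * b)) * hε
    rw [this]
    field_simp
    ring
  have key4 : r ^ 2 * (v 0 * w 0) - X * (v 0 * w 1 + v 1 * w 0) + X ^ 2 * (v 1 * w 1) / r ^ 2
      + (X * v 0 + v 1) * (X * w 0 + w 1) = v 0 * w 0 + v 1 * w 1 / r ^ 2 := by
    field_simp
    linear_combination (v 0 * w 0 * r ^ 2 + v 1 * w 1) * hX
  linear_combination key1 + e ^ 2 * key2 + e ^ 2 * key3 + e ^ 2 * key4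

/-! ### The frame in polar coordinates -/

theorem forall_fin3 {p : Fin (m + 3) → Prop} (h0 : p 0) (h1 : p 1) (h2 : p 2)
    (hk : ∀ k : Fin m, p k.succ.succ.succ) : ∀ a, p a := by
  intro a
  refine Fin.cases h0 (fun a => ?_) a
  refine Fin.cases h1 (fun a => ?_) a
  refine Fin.cases h2 (fun a => ?_) a
  exact hk a

theorem one_ne_zero3 : (1 : Fin (m + 3)) ≠ 0 := by
  intro h; have := congrArg Fin.val h; simp at this

theorem two_ne_zero3 : (2 : Fin (m + 3)) ≠ 0 := by
  intro h; have := congrArg Fin.val h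
  rw [show ((2 : Fin (m + 3)) : ℕ) = 2 from rfl] at this
  simp at this

theorem two_ne_one3 : (2 : Fin (m + 3)) ≠ 1 := by
  intro h; have := congrArg Fin.val h
  rw [show ((2 : Fin (m + 3)) : ℕ) = 2 from rfl, show ((1 : Fin (m + 3)) : ℕ) = 1 from rfl] at this
  simp at this

theorem succ3_ne_zero (k : Fin m) : (k.succ.succ.succ : Fin (m + 3)) ≠ 0 := Fin.succ_ne_zero _

theorem succ3_ne_one (k : Fin m) : (k.succ.succ.succ : Fin (m + 3)) ≠ 1 := by
  intro h; have := congrArg Fin.val h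
  rw [show ((1 : Fin (m + 3)) : ℕ) = 1 from rfl] at this
  simp at this

theorem succ3_ne_two (k : Fin m) : (k.succ.succ.succ : Fin (m + 3)) ≠ 2 := by
  intro h; have := congrArg Fin.val h
  rw [show ((2 : Fin (m + 3)) : ℕ) = 2 from rfl] at this
  simp at this

/-- Standard basis vector. -/
abbrev bv (i : Fin (m + 3)) : EuclideanSpace ℝ (Fin (m + 3)) := EuclideanSpace.single i 1

theorem bv_apply (i j : Fin (m + 3)) : bv i j = if j = i then 1 else 0 := by
  simp [bv]

theorem ev_bv_zero (q : EuclideanSpace ℝ (Fin (m + 3))) : ev q (bv 0) = 0 := by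
  unfold ev; apply Finset.sum_eq_zero; intro k _; rw [bv_apply, if_neg (succ3_ne_zero k), mul_zero]

theorem ev_bv_one (q : EuclideanSpace ℝ (Fin (m + 3))) : ev q (bv 1) = 0 := by
  unfold ev; apply Finset.sum_eq_zero; intro k _; rw [bv_apply, if_neg (succ3_ne_one k), mul_zero]

theorem ev_bv_two (q : EuclideanSpace ℝ (Fin (m + 3))) : ev q (bv 2) = 0 := by
  unfold ev; apply Finset.sum_eq_zero; intro k _; rw [bv_apply, if_neg (succ3_ne_two k), mul_zero]

theorem dPsi_bv_zero (ε : ℝ) {q : EuclideanSpace ℝ (Fin (m + 3))} (hq : q ∈ VV m) :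
    ∀ a, dPsi ε q (bv 0) a = Psi ε q a := by
  have b0 : (bv 0 : EuclideanSpace ℝ (Fin (m + 3))) 0 = 1 := by rw [bv_apply, if_pos rfl]
  have b1 : (bv 0 : EuclideanSpace ℝ (Fin (m + 3))) 1 = 0 := by
    rw [bv_apply, if_neg one_ne_zero3]
  have b2 : (bv 0 : EuclideanSpace ℝ (Fin (m + 3))) 2 = 0 := by
    rw [bv_apply, if_neg two_ne_zero3]
  have bk : ∀ k : Fin m, (bv 0 : EuclideanSpace ℝ (Fin (m + 3))) k.succ.succ.succ = 0 := by
    intro k; rw [bv_apply, if_neg (succ3_ne_zero k)]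
  apply forall_fin3
  · rw [dPsi_zero ε hq, b0, b1, b2, Psi_zero]; ring
  · rw [dPsi_one ε hq, b0, b1, b2, Psi_one]; ring
  · rw [dPsi_two, b0, b1, ev_bv_zero, Psi_two]; ring
  · intro k; rw [dPsi_succ, b0, b1, bk, ev_bv_zero, Psi_succ]; ring

theorem e1_zero (x : EuclideanSpace ℝ (Fin (m + 3))) : e1 x 0 = -(sig x / ‖x‖) * (x 0 / rho x) := rfl
theorem e1_one (x : EuclideanSpace ℝ (Fin (m + 3))) : e1 x 1 = -(sig x / ‖x‖) * (x 1 / rho x) := rfl
theorem e1_two (x : EuclideanSpace ℝ (Fin (m + 3))) : e1 x 2 = (rho x / ‖x‖) * (x 2 / sig x) := rfl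
theorem e1_succ (x : EuclideanSpace ℝ (Fin (m + 3))) (k : Fin m) :
    e1 x k.succ.succ.succ = (rho x / ‖x‖) * (x k.succ.succ.succ / sig x) := rfl
theorem e2_zero (x : EuclideanSpace ℝ (Fin (m + 3))) : e2 x 0 = -(x 1) / rho x := rfl
theorem e2_one (x : EuclideanSpace ℝ (Fin (m + 3))) : e2 x 1 = x 0 / rho x := rfl
theorem e2_two (x : EuclideanSpace ℝ (Fin (m + 3))) : e2 x 2 = 0 := rfl
theorem e2_succ (x : EuclideanSpace ℝ (Fin (m + 3))) (k : Fin m) :
    e2 x k.succ.succ.succ = 0 := rfl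

theorem dPsi_bv_one {ε : ℝ} (hε : ε ^ 2 = 1) {q : EuclideanSpace ℝ (Fin (m + 3))} (hq : q ∈ VV m) :
    ∀ a, dPsi ε q (bv 1) a = Real.exp (q 0) / Real.sqrt (1 - q 1 ^ 2) * e1 (Psi ε q) a := by
  have b0 : (bv 1 : EuclideanSpace ℝ (Fin (m + 3))) 0 = 0 := by
    rw [bv_apply, if_neg one_ne_zero3.symm]
  have b1 : (bv 1 : EuclideanSpace ℝ (Fin (m + 3))) 1 = 1 := by rw [bv_apply, if_pos rfl]
  have b2 : (bv 1 : EuclideanSpace ℝ (Fin (m + 3))) 2 = 0 := by
    rw [bv_apply, if_neg two_ne_one3]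
  have bk : ∀ k : Fin m, (bv 1 : EuclideanSpace ℝ (Fin (m + 3))) k.succ.succ.succ = 0 := by
    intro k; rw [bv_apply, if_neg (succ3_ne_one k)]
  have hr0 : Real.sqrt (1 - q 1 ^ 2) ≠ 0 := (Real.sqrt_pos.2 (one_sub_sq_pos hq)).ne'
  have he : Real.exp (q 0) ≠ 0 := (Real.exp_pos _).ne'
  have hX : q 1 ≠ 0 := hq.1.ne'
  apply forall_fin3
  · rw [dPsi_zero ε hq, b0, b1, b2, e1_zero, sig_Psi hε hq, norm_Psi hε hq, rho_Psi ε hq, Psi_zero]
    field_simp; ring
  · rw [dPsi_one ε hq, b0, b1, b2, e1_one, sig_Psi hε hq, norm_Psi hε hq, rho_Psi ε hq, Psi_one]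
    field_simp; ring
  · rw [dPsi_two, b0, b1, ev_bv_one, e1_two, sig_Psi hε hq, norm_Psi hε hq, rho_Psi ε hq, Psi_two]
    field_simp; ring
  · intro k
    rw [dPsi_succ, b0, b1, bk, ev_bv_one, e1_succ, sig_Psi hε hq, norm_Psi hε hq, rho_Psi ε hq,
      Psi_succ]
    have hN : 1 + NN q ≠ 0 := (NN_pos' q).ne'
    generalize 1 + NN q = c at *
    field_simp; ring

theorem dPsi_bv_two (ε : ℝ) {q : EuclideanSpace ℝ (Fin (m + 3))} (hq : q ∈ VV m) :
    ∀ a, dPsi ε q (bv 2) a = Real.exp (q 0) * Real.sqrt (1 - q 1 ^ 2) * e2 (Psi ε q) a := by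
  have b0 : (bv 2 : EuclideanSpace ℝ (Fin (m + 3))) 0 = 0 := by
    rw [bv_apply, if_neg two_ne_zero3.symm]
  have b1 : (bv 2 : EuclideanSpace ℝ (Fin (m + 3))) 1 = 0 := by
    rw [bv_apply, if_neg two_ne_one3.symm]
  have b2 : (bv 2 : EuclideanSpace ℝ (Fin (m + 3))) 2 = 1 := by
    rw [bv_apply, if_pos rfl]
  have bk : ∀ k : Fin m, (bv 2 : EuclideanSpace ℝ (Fin (m + 3))) k.succ.succ.succ = 0 := by
    intro k; rw [bv_apply, if_neg (succ3_ne_two k)]
  have hr0 : Real.sqrt (1 - q 1 ^ 2) ≠ 0 := (Real.sqrt_pos.2 (one_sub_sq_pos hq)).ne'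
  have he : Real.exp (q 0) ≠ 0 := (Real.exp_pos _).ne'
  apply forall_fin3
  · rw [dPsi_zero ε hq, b0, b1, b2, e2_zero, rho_Psi ε hq, Psi_one]
    field_simp; ring
  · rw [dPsi_one ε hq, b0, b1, b2, e2_one, rho_Psi ε hq, Psi_zero]
    field_simp; ring
  · rw [dPsi_two, b0, b1, ev_bv_two, e2_two]; ring
  · intro k
    rw [dPsi_succ, b0, b1, bk, ev_bv_two, e2_succ]; ring

theorem nu_dPsi {ε : ℝ} (hε : ε ^ 2 = 1) {q : EuclideanSpace ℝ (Fin (m + 3))} (hq : q ∈ VV m)
    (v : EuclideanSpace ℝ (Fin (m + 3))) :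
    ∑ a, nu (Psi ε q) a * dPsi ε q v a = Real.exp (q 0) * v 0 := by
  have h : ∀ a, nu (Psi ε q) a * dPsi ε q v a =
      (Real.exp (q 0))⁻¹ * (dPsi ε q (bv 0) a * dPsi ε q v a) := by
    intro a
    rw [dPsi_bv_zero ε hq]
    simp [nu, norm_Psi hε hq]; ring
  simp_rw [h]
  rw [← Finset.mul_sum, dPsi_inner hε hq]
  have b0 : (bv 0 : EuclideanSpace ℝ (Fin (m + 3))) 0 = 1 := by rw [bv_apply, if_pos rfl]
  have b1 : (bv 0 : EuclideanSpace ℝ (Fin (m + 3))) 1 = 0 := by
    rw [bv_apply, if_neg one_ne_zero3]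
  have b2 : (bv 0 : EuclideanSpace ℝ (Fin (m + 3))) 2 = 0 := by
    rw [bv_apply, if_neg two_ne_zero3]
  have bk : ∀ k : Fin m, (bv 0 : EuclideanSpace ℝ (Fin (m + 3))) k.succ.succ.succ = 0 := by
    intro k; rw [bv_apply, if_neg (succ3_ne_zero k)]
  simp only [b0, b1, b2, bk, zero_mul, Finset.sum_const_zero]
  have he : Real.exp (q 0) ≠ 0 := (Real.exp_pos _).ne'
  field_simp
  ring

theorem e1_dPsi {ε : ℝ} (hε : ε ^ 2 = 1) {q : EuclideanSpace ℝ (Fin (m + 3))} (hq : q ∈ VV m)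
    (v : EuclideanSpace ℝ (Fin (m + 3))) :
    ∑ a, e1 (Psi ε q) a * dPsi ε q v a = Real.exp (q 0) / Real.sqrt (1 - q 1 ^ 2) * v 1 := by
  have hr0 : Real.sqrt (1 - q 1 ^ 2) ≠ 0 := (Real.sqrt_pos.2 (one_sub_sq_pos hq)).ne'
  have hr2 : Real.sqrt (1 - q 1 ^ 2) ^ 2 = 1 - q 1 ^ 2 := Real.sq_sqrt (one_sub_sq_pos hq).le
  have he : Real.exp (q 0) ≠ 0 := (Real.exp_pos _).ne'
  have h : ∀ a, e1 (Psi ε q) a * dPsi ε q v a =
      (Real.sqrt (1 - q 1 ^ 2) / Real.exp (q 0)) * (dPsi ε q (bv 1) a * dPsi ε q v a) := by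
    intro a
    rw [dPsi_bv_one hε hq]
    field_simp
  simp_rw [h]
  rw [← Finset.mul_sum, dPsi_inner hε hq]
  have b0 : (bv 1 : EuclideanSpace ℝ (Fin (m + 3))) 0 = 0 := by
    rw [bv_apply, if_neg one_ne_zero3.symm]
  have b1 : (bv 1 : EuclideanSpace ℝ (Fin (m + 3))) 1 = 1 := by rw [bv_apply, if_pos rfl]
  have b2 : (bv 1 : EuclideanSpace ℝ (Fin (m + 3))) 2 = 0 := by
    rw [bv_apply, if_neg two_ne_one3]
  have bk : ∀ k : Fin m, (bv 1 : EuclideanSpace ℝ (Fin (m + 3))) k.succ.succ.succ = 0 := by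
    intro k; rw [bv_apply, if_neg (succ3_ne_one k)]
  simp only [b0, b1, b2, bk, zero_mul, Finset.sum_const_zero]
  rw [← hr2]
  field_simp
  rw [Real.sqrt_sq (Real.sqrt_nonneg _)]
  field_simp
  ring

theorem e2_dPsi {ε : ℝ} (hε : ε ^ 2 = 1) {q : EuclideanSpace ℝ (Fin (m + 3))} (hq : q ∈ VV m)
    (v : EuclideanSpace ℝ (Fin (m + 3))) :
    ∑ a, e2 (Psi ε q) a * dPsi ε q v a = Real.exp (q 0) * Real.sqrt (1 - q 1 ^ 2) * v 2 := by
  have hr0 : Real.sqrt (1 - q 1 ^ 2) ≠ 0 := (Real.sqrt_pos.2 (one_sub_sq_pos hq)).ne'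
  have hr2 : Real.sqrt (1 - q 1 ^ 2) ^ 2 = 1 - q 1 ^ 2 := Real.sq_sqrt (one_sub_sq_pos hq).le
  have he : Real.exp (q 0) ≠ 0 := (Real.exp_pos _).ne'
  have h : ∀ a, e2 (Psi ε q) a * dPsi ε q v a =
      (1 / (Real.sqrt (1 - q 1 ^ 2) * Real.exp (q 0))) * (dPsi ε q (bv 2) a * dPsi ε q v a) := by
    intro a
    rw [dPsi_bv_two ε hq]
    field_simp
  simp_rw [h]
  rw [← Finset.mul_sum, dPsi_inner hε hq]
  have b0 : (bv 2 : EuclideanSpace ℝ (Fin (m + 3))) 0 = 0 := by
    rw [bv_apply, if_neg two_ne_zero3.symm]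
  have b1 : (bv 2 : EuclideanSpace ℝ (Fin (m + 3))) 1 = 0 := by
    rw [bv_apply, if_neg two_ne_one3.symm]
  have b2 : (bv 2 : EuclideanSpace ℝ (Fin (m + 3))) 2 = 1 := by
    rw [bv_apply, if_pos rfl]
  have bk : ∀ k : Fin m, (bv 2 : EuclideanSpace ℝ (Fin (m + 3))) k.succ.succ.succ = 0 := by
    intro k; rw [bv_apply, if_neg (succ3_ne_two k)]
  simp only [b0, b1, b2, bk, zero_mul, Finset.sum_const_zero]
  generalize Real.sqrt (1 - q 1 ^ 2) = r at *
  rw [← hr2]
  field_simp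
  ring

/-! ### Bilinear forms of matrices -/

/-- The bilinear form of a matrix. -/
def bil {n : ℕ} (M : Matrix (Fin n) (Fin n) ℝ) (v w : Fin n → ℝ) : ℝ :=
  ∑ i, ∑ j, M i j * v i * w j

theorem bil_add {n : ℕ} (M N : Matrix (Fin n) (Fin n) ℝ) (v w : Fin n → ℝ) :
    bil (M + N) v w = bil M v w + bil N v w := by
  simp only [bil, Matrix.add_apply, add_mul, Finset.sum_add_distrib]

theorem bil_sub {n : ℕ} (M N : Matrix (Fin n) (Fin n) ℝ) (v w : Fin n → ℝ) :
    bil (M - N) v w = bil M v w - bil N v w := by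
  simp only [bil, Matrix.sub_apply, sub_mul, Finset.sum_sub_distrib]

theorem bil_smul {n : ℕ} (c : ℝ) (M : Matrix (Fin n) (Fin n) ℝ) (v w : Fin n → ℝ) :
    bil (c • M) v w = c * bil M v w := by
  simp only [bil, Matrix.smul_apply, smul_eq_mul, Finset.mul_sum, mul_assoc]

theorem bil_one {n : ℕ} (v w : Fin n → ℝ) :
    bil (1 : Matrix (Fin n) (Fin n) ℝ) v w = ∑ i, v i * w i := by
  simp only [bil, Matrix.one_apply, ite_mul, one_mul, zero_mul, Finset.sum_ite_eq,
    Finset.mem_univ, if_true]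

theorem bil_outer {n : ℕ} (u : EuclideanSpace ℝ (Fin n)) (v w : Fin n → ℝ) :
    bil (outer u) v w = (∑ i, u i * v i) * ∑ i, u i * w i := by
  simp only [bil, outer, Finset.sum_mul_sum]
  exact Finset.sum_congr rfl fun i _ => Finset.sum_congr rfl fun j _ => by ring

/-- `λ² = e^{-2s} θ^{-2/(n-1)}`. -/
def lam2 (m : ℕ) (s θ : ℝ → ℝ) (t : ℝ) : ℝ :=
  Real.exp (-2 * s t) * (θ t) ^ (-(2 : ℝ) / ((m : ℝ) + 2))

/-- **Pullback of the metric** in polar coordinates (bilinear form version). -/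
theorem bil_gfam_Psi {ε : ℝ} (hε : ε ^ 2 = 1) (s θ : ℝ → ℝ) (P : ℝ → ℝ → ℂ → ℝ)
    {q : EuclideanSpace ℝ (Fin (m + 3))} (hq : q ∈ VV m)
    (hP : P (q 0) (q 1) (Complex.exp ((q 2 : ℂ) * Complex.I)) ≠ 0)
    (v w : EuclideanSpace ℝ (Fin (m + 3))) :
    bil (gfam s θ P (Psi ε q)) (dPsi ε q v) (dPsi ε q w) =
      Real.exp (q 0) ^ 2 * (v 0 * w 0 + lam2 m s θ (q 0) * (
        (P (q 0) (q 1) (Complex.exp ((q 2 : ℂ) * Complex.I)))⁻¹ / (1 - q 1 ^ 2) * (v 1 * w 1)
        + (θ (q 0)) ^ 2 * P (q 0) (q 1) (Complex.exp ((q 2 : ℂ) * Complex.I)) * (1 - q 1 ^ 2) *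
          (v 2 * w 2)
        + q 1 ^ 2 * (4 / (1 + NN q) ^ 2 *
          ∑ k : Fin m, v k.succ.succ.succ * w k.succ.succ.succ))) := by
  have hne : Psi ε q ≠ 0 := Psi_ne_zero hε hq
  have hr0 : Real.sqrt (1 - q 1 ^ 2) ≠ 0 := (Real.sqrt_pos.2 (one_sub_sq_pos hq)).ne'
  have hr2 : Real.sqrt (1 - q 1 ^ 2) ^ 2 = 1 - q 1 ^ 2 := Real.sq_sqrt (one_sub_sq_pos hq).le
  have he : Real.exp (q 0) ≠ 0 := (Real.exp_pos _).ne'
  have hrho : rho (Psi ε q) ≠ 0 := by rw [rho_Psi ε hq]; exact mul_ne_zero he hr0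
  unfold gfam gRad
  rw [if_neg hne]
  unfold Afam
  rw [if_neg hrho]
  rw [log_norm_Psi hε hq, XX_Psi hε hq, uu_Psi ε hq, add_sub_cancel_left]
  simp only [bil_add, bil_smul, bil_sub, bil_one, bil_outer]
  rw [nu_dPsi hε hq, nu_dPsi hε hq, e1_dPsi hε hq, e1_dPsi hε hq, e2_dPsi hε hq, e2_dPsi hε hq,
    dPsi_inner hε hq]
  unfold lam2
  generalize (θ (q 0)) ^ (-(2 : ℝ) / ((m : ℝ) + 2)) = c
  generalize Real.exp (-2 * s (q 0)) = d
  generalize Real.sqrt (1 - q 1 ^ 2) = r at *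
  rw [← hr2]
  generalize (4 / (1 + NN q) ^ 2 * ∑ k : Fin m, v k.succ.succ.succ * w k.succ.succ.succ) = D
  generalize P (q 0) (q 1) (Complex.exp ((q 2 : ℂ) * Complex.I)) = p at *
  field_simp
  ring

/-! ### The diagonal form -/

/-- `P` in polar coordinates. -/
def pp (P : ℝ → ℝ → ℂ → ℝ) (q : EuclideanSpace ℝ (Fin (m + 3))) : ℝ :=
  P (q 0) (q 1) (Complex.exp ((q 2 : ℂ) * Complex.I))

/-- Exponent of `dX²`. -/
def aX (s θ : ℝ → ℝ) (P : ℝ → ℝ → ℂ → ℝ) (q : EuclideanSpace ℝ (Fin (m + 3))) : ℝ :=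
  q 0 - s (q 0) - Real.log (θ (q 0)) / ((m : ℝ) + 2) - 1 / 2 * Real.log (pp P q)
    - 1 / 2 * Real.log (1 - q 1 ^ 2)

/-- Exponent of `dφ²`. -/
def aphi (s θ : ℝ → ℝ) (P : ℝ → ℝ → ℂ → ℝ) (q : EuclideanSpace ℝ (Fin (m + 3))) : ℝ :=
  q 0 - s (q 0) + (1 - 1 / ((m : ℝ) + 2)) * Real.log (θ (q 0)) + 1 / 2 * Real.log (pp P q)
    + 1 / 2 * Real.log (1 - q 1 ^ 2)

/-- Exponent of `dη²`. -/
def aeta (s θ : ℝ → ℝ) (q : EuclideanSpace ℝ (Fin (m + 3))) : ℝ :=
  q 0 - s (q 0) - Real.log (θ (q 0)) / ((m : ℝ) + 2) + Real.log (q 1)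
    + (Real.log 2 - Real.log (1 + NN q))

/-- All exponents. -/
def aa (s θ : ℝ → ℝ) (P : ℝ → ℝ → ℂ → ℝ) :
    Fin (m + 3) → EuclideanSpace ℝ (Fin (m + 3)) → ℝ :=
  Fin.cons (fun q => q 0) (Fin.cons (aX s θ P) (Fin.cons (aphi s θ P) fun _ => aeta s θ))

theorem aa_zero (s θ : ℝ → ℝ) (P : ℝ → ℝ → ℂ → ℝ) :
    aa (m := m) s θ P 0 = fun q => q 0 := rfl
theorem aa_one (s θ : ℝ → ℝ) (P : ℝ → ℝ → ℂ → ℝ) : aa (m := m) s θ P 1 = aX s θ P := rfl
theorem aa_two (s θ : ℝ → ℝ) (P : ℝ → ℝ → ℂ → ℝ) : aa (m := m) s θ P 2 = aphi s θ P := rfl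
theorem aa_succ (s θ : ℝ → ℝ) (P : ℝ → ℝ → ℂ → ℝ) (k : Fin m) :
    aa (m := m) s θ P k.succ.succ.succ = aeta s θ := rfl

/-- The pulled back metric field. -/
def gpull (ε : ℝ) (s θ : ℝ → ℝ) (P : ℝ → ℝ → ℂ → ℝ) : MetricField (m + 3) := fun q i j =>
  bil (gfam s θ P (Psi ε q)) (dPsi ε q (bv i)) (dPsi ε q (bv j))


theorem gpull_eq {ε : ℝ} (hε : ε ^ 2 = 1) {s θ : ℝ → ℝ} {P : ℝ → ℝ → ℂ → ℝ}
    {q : EuclideanSpace ℝ (Fin (m + 3))} (hq : q ∈ VV m) (hP : 0 < pp P q) (hθ : 0 < θ (q 0)) :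
    gpull ε s θ P q = diagMetric (aa s θ P) q := by
  have key := fun i j => bil_gfam_Psi hε s θ P hq hP.ne' (bv i) (bv j)
  have hX := one_sub_sq_pos hq
  have hlam : lam2 m s θ (q 0) =
      Real.exp (-2 * s (q 0)) * Real.exp (Real.log (θ (q 0)) * (-(2 : ℝ) / ((m : ℝ) + 2))) := by
    unfold lam2; rw [Real.rpow_def_of_pos hθ]
  ext i j
  rw [diagMetric_apply]
  show bil (gfam s θ P (Psi ε q)) (dPsi ε q (bv i)) (dPsi ε q (bv j)) = _
  rw [key i j]
  by_cases hij : i = j
  · subst hij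
    rw [if_pos rfl]
    have hm : (m : ℝ) + 2 ≠ 0 := by positivity
    revert i
    apply forall_fin3
    · have b0 : (bv 0 : EuclideanSpace ℝ (Fin (m + 3))) 0 = 1 := by rw [bv_apply, if_pos rfl]
      have b1 : (bv 0 : EuclideanSpace ℝ (Fin (m + 3))) 1 = 0 := by
        rw [bv_apply, if_neg one_ne_zero3]
      have b2 : (bv 0 : EuclideanSpace ℝ (Fin (m + 3))) 2 = 0 := by
        rw [bv_apply, if_neg two_ne_zero3]
      have bk : ∀ k : Fin m, (bv 0 : EuclideanSpace ℝ (Fin (m + 3))) k.succ.succ.succ = 0 := by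
        intro k; rw [bv_apply, if_neg (succ3_ne_zero k)]
      simp only [b0, b1, b2, bk, mul_zero, Finset.sum_const_zero, aa_zero]
      rw [← Real.exp_nat_mul]
      simp
    · have b0 : (bv 1 : EuclideanSpace ℝ (Fin (m + 3))) 0 = 0 := by
        rw [bv_apply, if_neg one_ne_zero3.symm]
      have b1 : (bv 1 : EuclideanSpace ℝ (Fin (m + 3))) 1 = 1 := by rw [bv_apply, if_pos rfl]
      have b2 : (bv 1 : EuclideanSpace ℝ (Fin (m + 3))) 2 = 0 := by
        rw [bv_apply, if_neg two_ne_one3]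
      have bk : ∀ k : Fin m, (bv 1 : EuclideanSpace ℝ (Fin (m + 3))) k.succ.succ.succ = 0 := by
        intro k; rw [bv_apply, if_neg (succ3_ne_one k)]
      simp only [b0, b1, b2, bk, mul_zero, Finset.sum_const_zero, aa_one]
      have e : 2 * aX s θ P q = (2 : ℕ) * q 0 + (-2 * s (q 0)
          + Real.log (θ (q 0)) * (-(2 : ℝ) / ((m : ℝ) + 2)))
          + -Real.log (pp P q) + -Real.log (1 - q 1 ^ 2) := by
        unfold aX; push_cast; ring
      rw [e, Real.exp_add, Real.exp_add, Real.exp_add, Real.exp_neg, Real.exp_neg, Real.exp_log hP,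
        Real.exp_log hX, Real.exp_nat_mul, Real.exp_add, ← hlam]
      unfold pp
      field_simp
      ring
    · have b0 : (bv 2 : EuclideanSpace ℝ (Fin (m + 3))) 0 = 0 := by
        rw [bv_apply, if_neg two_ne_zero3.symm]
      have b1 : (bv 2 : EuclideanSpace ℝ (Fin (m + 3))) 1 = 0 := by
        rw [bv_apply, if_neg two_ne_one3.symm]
      have b2 : (bv 2 : EuclideanSpace ℝ (Fin (m + 3))) 2 = 1 := by
        rw [bv_apply, if_pos rfl]
      have bk : ∀ k : Fin m, (bv 2 : EuclideanSpace ℝ (Fin (m + 3))) k.succ.succ.succ = 0 := by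
        intro k; rw [bv_apply, if_neg (succ3_ne_two k)]
      simp only [b0, b1, b2, bk, mul_zero, Finset.sum_const_zero, aa_two]
      have e : 2 * aphi s θ P q = (2 : ℕ) * q 0 + (-2 * s (q 0)
          + Real.log (θ (q 0)) * (-(2 : ℝ) / ((m : ℝ) + 2))) + (2 : ℕ) * Real.log (θ (q 0))
          + Real.log (pp P q) + Real.log (1 - q 1 ^ 2) := by
        unfold aphi; push_cast; ring
      rw [e, Real.exp_add, Real.exp_add, Real.exp_add, Real.exp_add, Real.exp_log hP,
        Real.exp_log hX, Real.exp_nat_mul, Real.exp_nat_mul, Real.exp_add, ← hlam,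
        Real.exp_log hθ]
      unfold pp
      ring
    · intro k
      have b0 : (bv k.succ.succ.succ : EuclideanSpace ℝ (Fin (m + 3))) 0 = 0 := by
        rw [bv_apply, if_neg (succ3_ne_zero k).symm]
      have b1 : (bv k.succ.succ.succ : EuclideanSpace ℝ (Fin (m + 3))) 1 = 0 := by
        rw [bv_apply, if_neg (succ3_ne_one k).symm]
      have b2 : (bv k.succ.succ.succ : EuclideanSpace ℝ (Fin (m + 3))) 2 = 0 := by
        rw [bv_apply, if_neg (succ3_ne_two k).symm]
      have bs : ∑ l : Fin m, (bv k.succ.succ.succ : EuclideanSpace ℝ (Fin (m + 3))) l.succ.succ.succ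
          * (bv k.succ.succ.succ : EuclideanSpace ℝ (Fin (m + 3))) l.succ.succ.succ = 1 := by
        rw [Finset.sum_eq_single k]
        · rw [bv_apply, if_pos rfl, one_mul]
        · intro l _ hl
          rw [bv_apply, if_neg, zero_mul]
          intro h; apply hl
          exact Fin.succ_injective _ (Fin.succ_injective _ (Fin.succ_injective _ h))
        · intro h; exact absurd (Finset.mem_univ _) h
      simp only [b0, b1, b2, bs, aa_succ]
      have hN := NN_pos' q
      have e : 2 * aeta s θ q = (2 : ℕ) * q 0 + (-2 * s (q 0)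
          + Real.log (θ (q 0)) * (-(2 : ℝ) / ((m : ℝ) + 2))) + (2 : ℕ) * Real.log (q 1)
          + (2 : ℕ) * Real.log 2 + -((2 : ℕ) * Real.log (1 + NN q)) := by
        unfold aeta; push_cast; ring
      rw [e, Real.exp_add, Real.exp_add, Real.exp_add, Real.exp_add, Real.exp_neg,
        Real.exp_nat_mul, Real.exp_nat_mul, Real.exp_nat_mul, Real.exp_nat_mul, Real.exp_add,
        ← hlam, Real.exp_log hN, Real.exp_log hq.1, Real.exp_log two_pos]
      field_simp
      ring
  · rw [if_neg hij]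
    have hz : ∀ a, (bv i : EuclideanSpace ℝ (Fin (m + 3))) a * (bv j) a = 0 := by
      intro a
      rw [bv_apply, bv_apply]
      by_cases h1 : a = i
      · subst h1; rw [if_neg hij, mul_zero]
      · rw [if_neg h1, zero_mul]
    have hs : ∑ k : Fin m, (bv i : EuclideanSpace ℝ (Fin (m + 3))) k.succ.succ.succ *
        (bv j) k.succ.succ.succ = 0 := Finset.sum_eq_zero fun k _ => hz _
    rw [hz 0, hz 1, hz 2, hs]
    ring

end

end Crest.Agent.R202.Geo
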