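import Crest.Agent.R202.JacTri

-- ▼ part R202/JacBlock
section

/-!
# Row 202, matrix part: block lemma
-/

set_option autoImplicit false

open Filter Topology Module Matrix
open scoped InnerProductSpace

noncomputable section

namespace Crest.Agent.R202.Jac

variable {E : Type*} [NormedAddCommGroup E] [InnerProductSpace ℝ E]

theorem abs_inner_N_le (N : E →L[ℝ] E) {ν : ℝ} (hN : ‖N‖ ≤ ν) (v w : E) :
    |⟪N v, w⟫_ℝ| ≤ ν * (‖v‖ * ‖w‖) := by
  calc |⟪N v, w⟫_ℝ| ≤ ‖N v‖ * ‖w‖ := abs_real_inner_le_norm _ _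
    _ ≤ (‖N‖ * ‖v‖) * ‖w‖ := by gcongr; exact N.le_opNorm v
    _ ≤ (ν * ‖v‖) * ‖w‖ := by gcongr
    _ = ν * (‖v‖ * ‖w‖) := by ring

/-- block lemma, upper half: `v1` is a low vector, `v2` a vector of the cluster at level `lam` -/
theorem block_le {T0 N : E →L[ℝ] E} (hNs : ∀ v w, ⟪N v, w⟫_ℝ = ⟪v, N w⟫_ℝ)
    {lam g ν A : ℝ} (hg : 0 < g) (hν : 0 ≤ ν) (h4 : 4 * ν ≤ g) (hA : |A| ≤ ν) (hN : ‖N‖ ≤ ν)
    {v1 v2 : E} (h12 : ⟪v1, v2⟫_ℝ = 0)
    (h0 : ⟪T0 (v1 + v2), v1 + v2⟫_ℝ ≤ (lam - g) * ‖v1‖ ^ 2 + lam * ‖v2‖ ^ 2)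
    (h2 : ⟪N v2, v2⟫_ℝ ≤ A * ‖v2‖ ^ 2) :
    ⟪(T0 + N) (v1 + v2), v1 + v2⟫_ℝ ≤ (lam + (A + 2 * ν ^ 2 / g)) * ‖v1 + v2‖ ^ 2 := by
  have hn : ‖v1 + v2‖ ^ 2 = ‖v1‖ ^ 2 + ‖v2‖ ^ 2 := by
    have := norm_add_sq_real v1 v2
    rw [h12] at this
    linarith
  have e1 : ⟪N (v1 + v2), v1 + v2⟫_ℝ = ⟪N v1, v1⟫_ℝ + 2 * ⟪N v1, v2⟫_ℝ + ⟪N v2, v2⟫_ℝ := by
    rw [map_add, inner_add_left, inner_add_right, inner_add_right]
    have : ⟪N v2, v1⟫_ℝ = ⟪N v1, v2⟫_ℝ := by rw [hNs v2 v1, real_inner_comm]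
    rw [this]
    ring
  have h11 := (abs_le.1 (abs_inner_N_le N hN v1 v1)).2
  have h12' := (abs_le.1 (abs_inner_N_le N hN v1 v2)).2
  have hs := block_scalar (a := ‖v1‖) (b := ‖v2‖) hg hν h4 hA
  rw [abs_of_nonneg (norm_nonneg v1), abs_of_nonneg (norm_nonneg v2)] at hs
  rw [_root_.add_apply, inner_add_left, hn, e1]
  nlinarith

/-- block lemma, lower half -/
theorem block_ge {T0 N : E →L[ℝ] E} (hNs : ∀ v w, ⟪N v, w⟫_ℝ = ⟪v, N w⟫_ℝ)
    {lam g ν B : ℝ} (hg : 0 < g) (hν : 0 ≤ ν) (h4 : 4 * ν ≤ g) (hB : |B| ≤ ν) (hN : ‖N‖ ≤ ν)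
    {v3 v2 : E} (h12 : ⟪v3, v2⟫_ℝ = 0)
    (h0 : (lam + g) * ‖v3‖ ^ 2 + lam * ‖v2‖ ^ 2 ≤ ⟪T0 (v3 + v2), v3 + v2⟫_ℝ)
    (h2 : B * ‖v2‖ ^ 2 ≤ ⟪N v2, v2⟫_ℝ) :
    (lam + (B - 2 * ν ^ 2 / g)) * ‖v3 + v2‖ ^ 2 ≤ ⟪(T0 + N) (v3 + v2), v3 + v2⟫_ℝ := by
  have hneg := block_le (T0 := -T0) (N := -N) (lam := -lam) (A := -B)
    (fun v w => by simp [hNs v w]) hg hν h4 (by rwa [abs_neg]) (by rwa [norm_neg]) h12
    (by
      have : ⟪(-T0) (v3 + v2), v3 + v2⟫_ℝ = -⟪T0 (v3 + v2), v3 + v2⟫_ℝ :=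
        inner_neg_left _ _
      rw [this]
      nlinarith)
    (by
      have : ⟪(-N) v2, v2⟫_ℝ = -⟪N v2, v2⟫_ℝ := inner_neg_left _ _
      rw [this]
      nlinarith)
  have e : ⟪(-T0 + -N) (v3 + v2), v3 + v2⟫_ℝ = -⟪(T0 + N) (v3 + v2), v3 + v2⟫_ℝ := by
    rw [← inner_neg_left]
    congr 1
    show -T0 (v3 + v2) + -N (v3 + v2) = -(T0 (v3 + v2) + N (v3 + v2))
    abel
  rw [e] at hneg
  nlinarith

theorem SepF.weaken {l : ℕ} {T : E →L[ℝ] E} {F : Fin l → E} {A B A' B' : ℝ}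
    (h : SepF T F A B) (hA : A ≤ A') (hB : B' ≤ B) (hAB : A' < B') : SepF T F A' B' where
  li := h.li
  lt := hAB
  le := fun w hw => by
    have h1 := h.le w hw
    have : A * ‖w‖ ^ 2 ≤ A' * ‖w‖ ^ 2 := by gcongr
    linarith
  ge := fun v hv => by
    have h1 := h.ge v hv
    have : B' * ‖v‖ ^ 2 ≤ B * ‖v‖ ^ 2 := by gcongr
    linarith

theorem exists_perp [FiniteDimensional ℝ E] {n : ℕ} (hn : finrank ℝ E = n)
    {k : Fin n} (φ : Fin n → E) : ∃ v : E, v ≠ 0 ∧ ∀ i, i ≠ k → ⟪φ i, v⟫_ℝ = 0 := by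
  classical
  let f : E →ₗ[ℝ] ({i : Fin n // i ≠ k} → ℝ) :=
    LinearMap.pi fun i => (innerSL ℝ (φ i.1) : E →ₗ[ℝ] ℝ)
  have hk : LinearMap.ker f ≠ ⊥ := by
    apply LinearMap.ker_ne_bot_of_finrank_lt
    rw [hn, Module.finrank_fintype_fun_eq_card]
    have : Fintype.card {i : Fin n // i ≠ k} = n - 1 := by
      rw [Fintype.card_subtype_compl]
      simp
    rw [this]
    have := k.2
    omega
  obtain ⟨v, hv, hv0⟩ := (Submodule.ne_bot_iff _).1 hk
  refine ⟨v, hv0, fun i hi => ?_⟩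
  have := congrFun (LinearMap.mem_ker.1 hv) ⟨i, hi⟩
  simpa [f] using this

/-- comparison of sorted spectra through a sign form: `Φ` has the sign pattern of the sorted
numbers `τ - τ k` in the (non orthonormal) dual family `g`. -/
theorem eig_eq_of_signs [FiniteDimensional ℝ E] {n : ℕ} (hn : finrank ℝ E = n)
    (b : OrthonormalBasis (Fin n) ℝ E) {T : E →L[ℝ] E} {μ : Fin n → ℝ} (hμ : Monotone μ)
    (hb : ∀ i, T (b i) = μ i • b i) {τ : Fin n → ℝ} (hτ : Monotone τ) (g : Fin n → E)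
    {a : ℝ} (k : Fin n)
    (hΦ : ∀ v, ⟪T v, v⟫_ℝ - a * ‖v‖ ^ 2 = ∑ m, (τ m - τ k) * ⟪g m, v⟫_ℝ ^ 2) : μ k = a := by
  have hT : ∀ v, ⟪T v, v⟫_ℝ = ∑ i, μ i * ⟪b i, v⟫_ℝ ^ 2 := fun v =>
    inner_T_self_eq_sum b (T := (T : E →ₗ[ℝ] E)) hb v
  have hpos : ∀ v : E, v ≠ 0 → 0 < ‖v‖ ^ 2 := fun v hv => by
    have := norm_pos_iff.2 hv
    positivity
  apply le_antisymm
  · -- μ k ≤ a
    by_contra hcon
    push Not at hcon
    obtain ⟨v, hv0, hv⟩ := exists_perp (k := k) hn (fun i => if i < k then b i else g i)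
    have h1 : a * ‖v‖ ^ 2 < ⟪T v, v⟫_ℝ := by
      have : μ k * ‖v‖ ^ 2 ≤ ⟪T v, v⟫_ℝ := by
        rw [hT, norm_sq_eq_sum b v, Finset.mul_sum]
        refine Finset.sum_le_sum fun i _ => ?_
        by_cases hi : i < k
        · have := hv i hi.ne
          simp only [hi, if_true] at this
          rw [this]
          simp
        · exact mul_le_mul_of_nonneg_right (hμ (not_lt.1 hi)) (sq_nonneg _)
      nlinarith [hpos v hv0]
    have h2 : ⟪T v, v⟫_ℝ - a * ‖v‖ ^ 2 ≤ 0 := by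
      rw [hΦ]
      refine Finset.sum_nonpos fun m _ => ?_
      by_cases hm : m ≤ k
      · exact mul_nonpos_of_nonpos_of_nonneg (by linarith [hτ hm]) (sq_nonneg _)
      · push Not at hm
        have := hv m hm.ne'
        simp only [not_lt.2 hm.le, if_false] at this
        rw [this]
        simp
    linarith
  · by_contra hcon
    push Not at hcon
    obtain ⟨v, hv0, hv⟩ := exists_perp (k := k) hn (fun i => if k < i then b i else g i)
    have h1 : ⟪T v, v⟫_ℝ < a * ‖v‖ ^ 2 := by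
      have : ⟪T v, v⟫_ℝ ≤ μ k * ‖v‖ ^ 2 := by
        rw [hT, norm_sq_eq_sum b v, Finset.mul_sum]
        refine Finset.sum_le_sum fun i _ => ?_
        by_cases hi : k < i
        · have := hv i hi.ne'
          simp only [hi, if_true] at this
          rw [this]
          simp
        · exact mul_le_mul_of_nonneg_right (hμ (not_lt.1 hi)) (sq_nonneg _)
      nlinarith [hpos v hv0]
    have h2 : 0 ≤ ⟪T v, v⟫_ℝ - a * ‖v‖ ^ 2 := by
      rw [hΦ]
      refine Finset.sum_nonneg fun m _ => ?_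
      by_cases hm : k ≤ m
      · exact mul_nonneg (by linarith [hτ hm]) (sq_nonneg _)
      · push Not at hm
        have := hv m hm.ne
        simp only [not_lt.2 hm.le, if_false] at this
        rw [this]
        simp
    linarith

end Crest.Agent.R202.Jac
end
end

-- ▼ part R202/JacRect
section

/-!
# Row 202, matrix part: the conical crossing rectangle (isolated first label)
-/

set_option autoImplicit false

open Filter Topology Module Matrix
open scoped InnerProductSpace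

noncomputable section

namespace Crest.Agent.R202.Jac

/-- the link matrix between labels `0` and `1` -/
def Y01 (q : ℕ) : Matrix (Fin (q + 2)) (Fin (q + 2)) ℝ :=
  fun i j => if (i = 0 ∧ j = 1) ∨ (i = 1 ∧ j = 0) then 1 else 0

/-- the pencil `x D + J + y Y` -/
def Mxy {q : ℕ} (D : Fin (q + 2) → ℝ) (J : Matrix (Fin (q + 2)) (Fin (q + 2)) ℝ) (x y : ℝ) :
    Matrix (Fin (q + 2)) (Fin (q + 2)) ℝ := x • Matrix.diagonal D + J + y • Y01 q

/-- the restriction to the labels `≥ 1` -/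
def rest {q : ℕ} (J : Matrix (Fin (q + 2)) (Fin (q + 2)) ℝ) : Matrix (Fin (q + 1)) (Fin (q + 1)) ℝ :=
  fun i j => J i.succ j.succ

/-- hypotheses on the cluster matrices: label `0` isolated -/
structure Iso {q : ℕ} (D : Fin (q + 2) → ℝ) (J : Matrix (Fin (q + 2)) (Fin (q + 2)) ℝ) : Prop where
  lt : ∀ i : Fin (q + 1), D 0 < D i.succ
  symm : ∀ i j, J i j = J j i
  iso : ∀ i : Fin (q + 1), J 0 i.succ = 0
  tri : Tri (rest J)

abbrev ES (n : ℕ) := EuclideanSpace ℝ (Fin n)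

/-- embedding of the rest -/
def inc {q : ℕ} (v : ES (q + 1)) : ES (q + 2) := WithLp.toLp 2 (Fin.cons 0 v.ofLp)

/-- the isolated label -/
def e0 {q : ℕ} : ES (q + 2) := EuclideanSpace.single 0 1

@[simp] theorem inc_zero {q : ℕ} (v : ES (q + 1)) : inc v 0 = 0 := by simp [inc]
@[simp] theorem inc_succ {q : ℕ} (v : ES (q + 1)) (i : Fin (q + 1)) : inc v i.succ = v i := by
  simp [inc]
@[simp] theorem e0_zero {q : ℕ} : (e0 : ES (q + 2)) 0 = 1 := by simp [e0]
@[simp] theorem e0_succ {q : ℕ} (i : Fin (q + 1)) : (e0 : ES (q + 2)) i.succ = 0 := by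
  simp [e0, Fin.succ_ne_zero]

theorem inner_eq {n : ℕ} (v w : ES n) : ⟪v, w⟫_ℝ = ∑ i, v i * w i := by
  rw [PiLp.inner_apply]
  refine Finset.sum_congr rfl fun i _ => ?_
  simp [mul_comm]

theorem inner_inc {q : ℕ} (v w : ES (q + 1)) : ⟪inc v, inc w⟫_ℝ = ⟪v, w⟫_ℝ := by
  rw [inner_eq, inner_eq, Fin.sum_univ_succ]
  simp

theorem inner_e0_inc {q : ℕ} (v : ES (q + 1)) : ⟪(e0 : ES (q + 2)), inc v⟫_ℝ = 0 := by
  rw [inner_eq, Fin.sum_univ_succ]
  simp

theorem inner_e0_e0 {q : ℕ} : ⟪(e0 : ES (q + 2)), e0⟫_ℝ = 1 := by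
  rw [inner_eq, Fin.sum_univ_succ]
  simp

theorem norm_e0 {q : ℕ} : ‖(e0 : ES (q + 2))‖ = 1 := by
  have h : ‖(e0 : ES (q + 2))‖ ^ 2 = 1 := by
    rw [← real_inner_self_eq_norm_sq]; exact inner_e0_e0
  nlinarith [norm_nonneg (e0 : ES (q + 2))]

theorem op_inc {q : ℕ} {D : Fin (q + 2) → ℝ} {J : Matrix (Fin (q + 2)) (Fin (q + 2)) ℝ}
    (h : Iso D J) (x : ℝ) (v : ES (q + 1)) :
    op (Mxy D J x 0) (inc v) = inc (op (rest (Mxy D J x 0)) v) := by
  ext i
  rw [op_apply, Fin.sum_univ_succ]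
  refine Fin.cases ?_ (fun i => ?_) i
  · simp only [inc_zero, mul_zero, zero_add, inc_succ]
    refine Finset.sum_eq_zero fun j _ => ?_
    have : Mxy D J x 0 0 j.succ = 0 := by
      simp [Mxy, h.iso j, Matrix.diagonal_apply, (Fin.succ_ne_zero j).symm]
    rw [this, zero_mul]
  · simp only [inc_zero, mul_zero, zero_add, inc_succ, op_apply]
    rfl

theorem op_e0 {q : ℕ} {D : Fin (q + 2) → ℝ} {J : Matrix (Fin (q + 2)) (Fin (q + 2)) ℝ}
    (h : Iso D J) (x : ℝ) :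
    op (Mxy D J x 0) e0 = (x * D 0 + J 0 0) • (e0 : ES (q + 2)) := by
  ext i
  rw [op_apply, Fin.sum_univ_succ]
  simp only [e0_zero, mul_one, e0_succ, mul_zero, Finset.sum_const_zero, add_zero]
  refine Fin.cases ?_ (fun i => ?_) i
  · simp [Mxy]
  · have : J i.succ 0 = 0 := by rw [h.symm]; exact h.iso i
    simp [Mxy, this, Matrix.diagonal_apply]

theorem tri_rest {q : ℕ} {D : Fin (q + 2) → ℝ} {J : Matrix (Fin (q + 2)) (Fin (q + 2)) ℝ}
    (h : Iso D J) (x : ℝ) : Tri (rest (Mxy D J x 0)) where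
  symm := fun i j => by
    have := h.symm i.succ j.succ
    simp only [rest, Mxy, Matrix.add_apply, Matrix.smul_apply, this, zero_smul]
    rw [Matrix.diagonal_apply, Matrix.diagonal_apply]
    by_cases hij : i = j
    · subst hij; rfl
    · have h1 : i.succ ≠ j.succ := fun hh => hij (Fin.succ_injective _ hh)
      simp [h1, h1.symm]
  far := fun i j hij => by
    have h0 := h.tri.far i j hij
    have h1 : i.succ ≠ j.succ := fun hh => by
      have := Fin.succ_injective _ hh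
      subst this
      omega
    simp only [rest] at h0
    simp [rest, Mxy, h0, Matrix.diagonal_apply, h1]
  link := fun i j hij => by
    have h0 := h.tri.link i j hij
    have h1 : i.succ ≠ j.succ := fun hh => by
      have := Fin.succ_injective _ hh
      subst this
      omega
    simp only [rest] at h0
    simpa [rest, Mxy, Matrix.diagonal_apply, h1] using h0

theorem inner_diag_inc {q : ℕ} (D : Fin (q + 2) → ℝ) (v w : ES (q + 1)) :
    ⟪op (Matrix.diagonal D) (inc v), inc w⟫_ℝ = ∑ i, D i.succ * v i * w i := by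
  rw [inner_eq, Fin.sum_univ_succ]
  simp [op_apply, Matrix.diagonal_apply]

theorem inner_diag_e0_inc {q : ℕ} (D : Fin (q + 2) → ℝ) (v : ES (q + 1)) :
    ⟪op (Matrix.diagonal D) e0, inc v⟫_ℝ = 0 := by
  rw [inner_eq, Fin.sum_univ_succ]
  simp [op_apply, Matrix.diagonal_apply]

theorem inner_diag_e0_e0 {q : ℕ} (D : Fin (q + 2) → ℝ) :
    ⟪op (Matrix.diagonal D) (e0 : ES (q + 2)), e0⟫_ℝ = D 0 := by
  rw [inner_eq, Fin.sum_univ_succ]
  simp [op_apply, Matrix.diagonal_apply]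

theorem op_Y_inc {q : ℕ} (v : ES (q + 1)) : op (Y01 q) (inc v) = (v 0) • e0 := by
  ext i
  rw [op_apply, Fin.sum_univ_succ, Fin.sum_univ_succ]
  have h1 : (Fin.succ (0 : Fin (q + 1))) = (1 : Fin (q + 2)) := rfl
  simp only [inc_zero, mul_zero, zero_add, inc_succ]
  refine Fin.cases ?_ (fun i => ?_) i
  · have : ∑ j : Fin q, Y01 q 0 j.succ.succ * v j.succ = 0 := by
      refine Finset.sum_eq_zero fun j _ => ?_
      have : Y01 q 0 j.succ.succ = 0 := by
        unfold Y01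
        rw [if_neg]
        rintro (⟨_, h⟩ | ⟨h, _⟩)
        · rw [← h1] at h
          exact Fin.succ_ne_zero _ (Fin.succ_injective _ h)
        · rw [← h1] at h
          exact Fin.succ_ne_zero _ h.symm
      rw [this, zero_mul]
    rw [this, h1]
    simp [Y01]
  · have hz : ∀ j : Fin (q + 1), Y01 q i.succ j.succ = 0 := by
      intro j
      unfold Y01
      rw [if_neg]
      rintro (⟨h, _⟩ | ⟨_, h⟩)
      · exact Fin.succ_ne_zero _ h
      · exact Fin.succ_ne_zero _ h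
    rw [hz 0]
    simp only [hz]
    simp

theorem Y01_symm (q : ℕ) (i j : Fin (q + 2)) : Y01 q i j = Y01 q j i := by
  unfold Y01
  by_cases h : (i = 0 ∧ j = 1) ∨ (i = 1 ∧ j = 0)
  · rw [if_pos h, if_pos (by tauto)]
  · rw [if_neg h, if_neg (by tauto)]

theorem op_Y_e0_inner {q : ℕ} (v : ES (q + 1)) : ⟪op (Y01 q) e0, inc v⟫_ℝ = v 0 := by
  rw [op_symm (Y01_symm q), op_Y_inc, inner_smul_right, inner_e0_e0, mul_one]

theorem e0_one {q : ℕ} : (e0 : ES (q + 2)) 1 = 0 := e0_succ 0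

theorem op_Y_e0_e0 {q : ℕ} : ⟪op (Y01 q) e0, (e0 : ES (q + 2))⟫_ℝ = 0 := by
  rw [inner_eq, Fin.sum_univ_succ]
  simp [op_apply, Y01, Fin.sum_univ_succ, e0_one]

end Crest.Agent.R202.Jac
end
end

-- ▼ part R202/JacCross
section

/-!
# Row 202, matrix part: existence and simplicity of the crossings
-/

set_option autoImplicit false

open Filter Topology Module Matrix
open scoped InnerProductSpace

noncomputable section

namespace Crest.Agent.R202.Jac

/-- the weight of the generalised eigenvalue problem -/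
def rr {q : ℕ} (D : Fin (q + 2) → ℝ) (i : Fin (q + 1)) : ℝ := √(D i.succ - D 0)

theorem rr_pos {q : ℕ} {D : Fin (q + 2) → ℝ} {J : Matrix (Fin (q + 2)) (Fin (q + 2)) ℝ}
    (h : Iso D J) (i : Fin (q + 1)) : 0 < rr D i :=
  Real.sqrt_pos.2 (sub_pos.2 (h.lt i))

theorem rr_sq {q : ℕ} {D : Fin (q + 2) → ℝ} {J : Matrix (Fin (q + 2)) (Fin (q + 2)) ℝ}
    (h : Iso D J) (i : Fin (q + 1)) : rr D i ^ 2 = D i.succ - D 0 :=
  Real.sq_sqrt (sub_pos.2 (h.lt i)).le

/-- the Jacobi matrix of the crossings -/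
def KK {q : ℕ} (D : Fin (q + 2) → ℝ) (J : Matrix (Fin (q + 2)) (Fin (q + 2)) ℝ) :
    Matrix (Fin (q + 1)) (Fin (q + 1)) ℝ :=
  fun i j => (rr D i)⁻¹ * (J i.succ j.succ - if i = j then J 0 0 else 0) * (rr D j)⁻¹

theorem tri_KK {q : ℕ} {D : Fin (q + 2) → ℝ} {J : Matrix (Fin (q + 2)) (Fin (q + 2)) ℝ}
    (h : Iso D J) : Tri (KK D J) where
  symm := fun i j => by
    simp only [KK]
    rw [h.symm i.succ j.succ]
    by_cases hij : i = j
    · subst hij; ring
    · rw [if_neg hij, if_neg (fun hh => hij hh.symm)]; ring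
  far := fun i j hij => by
    have h0 := h.tri.far i j hij
    have hne : i ≠ j := fun hh => by subst hh; omega
    simp only [rest] at h0
    simp [KK, h0, hne]
  link := fun i j hij => by
    have h0 := h.tri.link i j hij
    have hne : i ≠ j := fun hh => by subst hh; omega
    simp only [rest] at h0
    simp only [KK, hne, if_false, sub_zero]
    exact mul_ne_zero (mul_ne_zero (inv_ne_zero (rr_pos h i).ne') h0)
      (inv_ne_zero (rr_pos h j).ne')

theorem exists_cross {q : ℕ} {D : Fin (q + 2) → ℝ} {J : Matrix (Fin (q + 2)) (Fin (q + 2)) ℝ}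
    (h : Iso D J) (k : Fin (q + 1)) :
    ∃ (xc : ℝ) (b : OrthonormalBasis (Fin (q + 1)) ℝ (ES (q + 1))) (μ : Fin (q + 1) → ℝ),
      StrictMono μ ∧ (∀ i, op (rest (Mxy D J xc 0)) (b i) = μ i • b i) ∧ (∀ i, 0 < b i 0) ∧
      μ k = xc * D 0 + J 0 0 := by
  obtain ⟨κb, τ, hτ, hκb, -⟩ := (tri_KK h).exists_basis
  obtain ⟨b, μ, hμ, hb, hb0⟩ := (tri_rest h (-τ k)).exists_basis
  refine ⟨-τ k, b, μ, hμ, hb, hb0, ?_⟩
  refine eig_eq_of_signs (n := q + 1) (by simp) b hμ.monotone hb hτ.monotone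
    (fun m => WithLp.toLp 2 (fun i => rr D i * κb m i)) k (fun v => ?_)
  set z : ES (q + 1) := WithLp.toLp 2 (fun i => rr D i * v i) with hz
  have hgz : ∀ m, ⟪(WithLp.toLp 2 (fun i => rr D i * κb m i) : ES (q + 1)), v⟫_ℝ
      = ⟪κb m, z⟫_ℝ := by
    intro m
    rw [inner_eq, inner_eq]
    refine Finset.sum_congr rfl fun i _ => ?_
    simp [hz]
    ring
  have hR : ∑ m, (τ m - τ k) * ⟪(WithLp.toLp 2 (fun i => rr D i * κb m i) : ES (q + 1)), v⟫_ℝ ^ 2
      = ⟪op (KK D J) z, z⟫_ℝ - τ k * ‖z‖ ^ 2 := by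
    have h1 := inner_T_self_eq_sum κb (T := (op (KK D J) : ES (q + 1) →ₗ[ℝ] ES (q + 1))) hκb z
    have h1' : ⟪op (KK D J) z, z⟫_ℝ = ∑ m, τ m * ⟪κb m, z⟫_ℝ ^ 2 := h1
    rw [h1', norm_sq_eq_sum κb z, Finset.mul_sum, ← Finset.sum_sub_distrib]
    refine Finset.sum_congr rfl fun m _ => ?_
    rw [hgz]
    ring
  rw [hR, inner_op, inner_op]
  have hnv : ‖v‖ ^ 2 = ∑ i, v i ^ 2 := by
    rw [EuclideanSpace.norm_sq_eq]
    refine Finset.sum_congr rfl fun i _ => by rw [Real.norm_eq_abs, sq_abs]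
  have hnz : ‖z‖ ^ 2 = ∑ i, (D i.succ - D 0) * v i ^ 2 := by
    rw [EuclideanSpace.norm_sq_eq]
    refine Finset.sum_congr rfl fun i _ => ?_
    rw [Real.norm_eq_abs, sq_abs]
    simp only [hz]
    rw [← rr_sq h i]
    ring
  have hK : ∑ i, ∑ j, KK D J i j * z j * z i
      = ∑ i, ∑ j, J i.succ j.succ * v j * v i - J 0 0 * ∑ i, v i ^ 2 := by
    have : ∀ i j, KK D J i j * z j * z i
        = J i.succ j.succ * v j * v i - (if i = j then J 0 0 * v i ^ 2 else 0) := by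
      intro i j
      have hi := (rr_pos h i).ne'
      have hj := (rr_pos h j).ne'
      simp only [KK, hz]
      by_cases hij : i = j
      · subst hij
        simp only [if_true]
        field_simp
      · simp only [hij, if_false]
        field_simp
        ring
    simp only [this, Finset.sum_sub_distrib, Finset.sum_ite_eq, Finset.mem_univ, if_true]
    rw [Finset.mul_sum]
  have hM : ∑ i, ∑ j, rest (Mxy D J (-τ k) 0) i j * v j * v i
      = ∑ i, ∑ j, J i.succ j.succ * v j * v i - τ k * ∑ i, D i.succ * v i ^ 2 := by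
    have : ∀ i j, rest (Mxy D J (-τ k) 0) i j * v j * v i
        = J i.succ j.succ * v j * v i - (if i = j then τ k * (D i.succ * v i ^ 2) else 0) := by
      intro i j
      simp only [rest, Mxy, Matrix.add_apply, Matrix.smul_apply, zero_smul, Matrix.diagonal_apply,
        add_zero, smul_eq_mul]
      by_cases hij : i = j
      · subst hij
        simp
        ring
      · have : i.succ ≠ j.succ := fun hh => hij (Fin.succ_injective _ hh)
        simp [this, hij]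
    simp only [this, Finset.sum_sub_distrib, Finset.sum_ite_eq, Finset.mem_univ, if_true]
    rw [Finset.mul_sum]
  rw [hnv, hnz, hK, hM]
  have : ∑ i : Fin (q + 1), (D i.succ - D 0) * v i ^ 2
      = ∑ i : Fin (q + 1), D i.succ * v i ^ 2 - D 0 * ∑ i, v i ^ 2 := by
    rw [Finset.mul_sum, ← Finset.sum_sub_distrib]
    refine Finset.sum_congr rfl fun i _ => by ring
  rw [this]
  ring

end Crest.Agent.R202.Jac
end
end

-- ▼ part R202/JacFrame
section

/-!
# Row 202, matrix part: separation by the rotating trial frame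
-/

set_option autoImplicit false

open Filter Topology Module Matrix
open scoped InnerProductSpace

noncomputable section

namespace Crest.Agent.R202.Jac

/-- tail of a vector -/
def tl {q : ℕ} (w : ES (q + 2)) : ES (q + 1) := WithLp.toLp 2 (fun i => w i.succ)

theorem decomp {q : ℕ} (w : ES (q + 2)) : w = (w 0) • e0 + inc (tl w) := by
  ext i
  refine Fin.cases ?_ (fun i => ?_) i
  · simp
  · simp [tl]

theorem inner_e0 {q : ℕ} (w : ES (q + 2)) : ⟪e0, w⟫_ℝ = w 0 := by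
  rw [inner_eq, Fin.sum_univ_succ]
  simp

theorem inner_inc_right {q : ℕ} (v : ES (q + 1)) (w : ES (q + 2)) : ⟪inc v, w⟫_ℝ = ⟪v, tl w⟫_ℝ := by
  rw [inner_eq, inner_eq, Fin.sum_univ_succ]
  simp [tl]

theorem norm_sq_decomp {q : ℕ} (w : ES (q + 2)) : ‖w‖ ^ 2 = ⟪e0, w⟫_ℝ ^ 2 + ‖tl w‖ ^ 2 := by
  rw [EuclideanSpace.norm_sq_eq, EuclideanSpace.norm_sq_eq, Fin.sum_univ_succ, inner_e0]
  simp [tl]

theorem T0_decomp {q : ℕ} {D : Fin (q + 2) → ℝ} {J : Matrix (Fin (q + 2)) (Fin (q + 2)) ℝ}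
    (h : Iso D J) (x : ℝ) (w : ES (q + 2)) :
    ⟪op (Mxy D J x 0) w, w⟫_ℝ = (x * D 0 + J 0 0) * ⟪e0, w⟫_ℝ ^ 2
      + ⟪op (rest (Mxy D J x 0)) (tl w), tl w⟫_ℝ := by
  conv_lhs => rw [decomp w]
  rw [map_add, map_smul, op_e0 h, op_inc h]
  simp only [inner_add_left, inner_add_right, inner_smul_left, inner_smul_right, inner_e0_e0,
    inner_e0_inc, inner_inc, inner_e0]
  have : ⟪inc (op (rest (Mxy D J x 0)) (tl w)), (e0 : ES (q + 2))⟫_ℝ = 0 := by
    rw [real_inner_comm]; exact inner_e0_inc _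
  rw [this]
  simp
  ring

/-- lower vector of the two dimensional cluster -/
def ff {q : ℕ} (bk : ES (q + 1)) (α κ : ℝ) : ES (q + 2) :=
  Real.cos α • inc bk - (κ * Real.sin α) • e0

/-- upper vector of the two dimensional cluster -/
def fp {q : ℕ} (bk : ES (q + 1)) (α κ : ℝ) : ES (q + 2) :=
  (κ * Real.sin α) • inc bk + Real.cos α • e0

/-- the trial frame -/
def frm {q : ℕ} (b : Fin (q + 1) → ES (q + 1)) (k : Fin (q + 1)) (α κ : ℝ) :
    Fin (k.1 + 1) → ES (q + 2) :=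
  fun i => if h : i.1 < k.1 then inc (b ⟨i.1, by have := k.2; omega⟩) else ff (b k) α κ

section

variable {q : ℕ} (b : OrthonormalBasis (Fin (q + 1)) ℝ (ES (q + 1))) (k : Fin (q + 1)) {α κ : ℝ}

theorem kap_sq (hκ : κ = 1 ∨ κ = -1) : κ ^ 2 = 1 := by
  rcases hκ with h | h <;> rw [h] <;> norm_num

theorem inner_bk_bk : ⟪b k, b k⟫_ℝ = 1 := by
  rw [real_inner_self_eq_norm_sq, b.orthonormal.1 k]; norm_num

theorem inner_ff_ff (hκ : κ = 1 ∨ κ = -1) : ⟪ff (b k) α κ, ff (b k) α κ⟫_ℝ = 1 := by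
  have h1 := kap_sq hκ
  have h2 : ⟪inc (b k), (e0 : ES (q + 2))⟫_ℝ = 0 := by rw [real_inner_comm]; exact inner_e0_inc _
  simp only [ff, inner_sub_left, inner_sub_right, inner_smul_left, inner_smul_right, inner_inc,
    inner_bk_bk, inner_e0_e0, inner_e0_inc, h2]
  simp
  nlinarith [Real.sin_sq_add_cos_sq α]

theorem inner_fp_fp (hκ : κ = 1 ∨ κ = -1) : ⟪fp (b k) α κ, fp (b k) α κ⟫_ℝ = 1 := by
  have h1 := kap_sq hκ
  have h2 : ⟪inc (b k), (e0 : ES (q + 2))⟫_ℝ = 0 := by rw [real_inner_comm]; exact inner_e0_inc _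
  simp only [fp, inner_add_left, inner_add_right, inner_smul_left, inner_smul_right, inner_inc,
    inner_bk_bk, inner_e0_e0, inner_e0_inc, h2]
  simp
  nlinarith [Real.sin_sq_add_cos_sq α]

theorem inner_ff_fp : ⟪ff (b k) α κ, fp (b k) α κ⟫_ℝ = 0 := by
  have h2 : ⟪inc (b k), (e0 : ES (q + 2))⟫_ℝ = 0 := by rw [real_inner_comm]; exact inner_e0_inc _
  simp only [ff, fp, inner_sub_left, inner_add_right, inner_smul_left, inner_smul_right, inner_inc,
    inner_bk_bk, inner_e0_e0, inner_e0_inc, h2]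
  simp
  ring

/-- the rotation identity -/
theorem rot (hκ : κ = 1 ∨ κ = -1) (w : ES (q + 2)) :
    ⟪e0, w⟫_ℝ ^ 2 + ⟪inc (b k), w⟫_ℝ ^ 2
      = ⟪ff (b k) α κ, w⟫_ℝ ^ 2 + ⟪fp (b k) α κ, w⟫_ℝ ^ 2 := by
  have h1 := kap_sq hκ
  simp only [ff, fp, inner_sub_left, inner_add_left, inner_smul_left]
  simp
  have h3 := Real.sin_sq_add_cos_sq α
  set s := Real.sin α
  set c := Real.cos α
  set A := ⟪e0, w⟫_ℝ
  set B := ⟪inc (b k), w⟫_ℝ
  have : (c * B - κ * s * A) ^ 2 + (κ * s * B + c * A) ^ 2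
      = (κ ^ 2 * s ^ 2 + c ^ 2) * (A ^ 2 + B ^ 2) := by ring
  rw [this, h1]
  rw [one_mul, h3, one_mul]

theorem inner_ff_inc (i : Fin (q + 1)) (hi : i ≠ k) : ⟪ff (b k) α κ, inc (b i)⟫_ℝ = 0 := by
  simp only [ff, inner_sub_left, inner_smul_left, inner_inc, inner_e0_inc]
  rw [b.orthonormal.2 hi.symm]
  simp

theorem inner_fp_inc (i : Fin (q + 1)) (hi : i ≠ k) : ⟪fp (b k) α κ, inc (b i)⟫_ℝ = 0 := by
  simp only [fp, inner_add_left, inner_smul_left, inner_inc, inner_e0_inc]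
  rw [b.orthonormal.2 hi.symm]
  simp

theorem frm_orthonormal (hκ : κ = 1 ∨ κ = -1) : Orthonormal ℝ (frm (fun i => b i) k α κ) := by
  rw [orthonormal_iff_ite]
  intro i j
  by_cases hij : i = j
  · subst hij
    rw [if_pos rfl]
    unfold frm
    split
    · rw [inner_inc, inner_bk_bk]
    · exact inner_ff_ff b k hκ
  · rw [if_neg hij]
    have hne : i.1 ≠ j.1 := fun h => hij (Fin.ext h)
    unfold frm
    split
    · rename_i hi
      split
      · rename_i hj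
        rw [inner_inc]
        apply b.orthonormal.2
        intro h
        exact hne (by simpa using congrArg Fin.val h)
      · rw [real_inner_comm]
        apply inner_ff_inc
        intro h
        have : i.1 = k.1 := by simpa using congrArg Fin.val h
        omega
    · rename_i hi
      split
      · rename_i hj
        apply inner_ff_inc
        intro h
        have : j.1 = k.1 := by simpa using congrArg Fin.val h
        omega
      · rename_i hj
        have h1 := i.2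
        have h2 := j.2
        omega

theorem sum_split (μ : Fin (q + 1) → ℝ) (w : ES (q + 2)) :
    ∑ i, μ i * ⟪b i, tl w⟫_ℝ ^ 2 = μ k * ⟪inc (b k), w⟫_ℝ ^ 2
      + ∑ i ∈ Finset.univ.erase k, μ i * ⟪inc (b i), w⟫_ℝ ^ 2 := by
  simp only [inner_inc_right]
  rw [← Finset.add_sum_erase _ _ (Finset.mem_univ k)]

end

/-- the slope of the crossing -/
def mm {q : ℕ} (D : Fin (q + 2) → ℝ) (bk : ES (q + 1)) : ℝ :=
  ∑ i : Fin (q + 1), D i.succ * bk i * bk i - D 0

theorem mm_pos {q : ℕ} {D : Fin (q + 2) → ℝ} {J : Matrix (Fin (q + 2)) (Fin (q + 2)) ℝ}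
    (h : Iso D J) {bk : ES (q + 1)} (hb : ⟪bk, bk⟫_ℝ = 1) (hb0 : 0 < bk 0) : 0 < mm D bk := by
  have h1 : mm D bk = ∑ i : Fin (q + 1), (D i.succ - D 0) * bk i ^ 2 := by
    unfold mm
    rw [inner_eq] at hb
    calc ∑ i : Fin (q + 1), D i.succ * bk i * bk i - D 0
        = ∑ i : Fin (q + 1), D i.succ * bk i * bk i - D 0 * ∑ i : Fin (q + 1), bk i * bk i := by
          rw [hb, mul_one]
      _ = ∑ i : Fin (q + 1), (D i.succ - D 0) * bk i ^ 2 := by
          rw [Finset.mul_sum, ← Finset.sum_sub_distrib]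
          exact Finset.sum_congr rfl fun i _ => by ring
  rw [h1]
  apply Finset.sum_pos'
  · intro i _
    exact mul_nonneg (sub_pos.2 (h.lt i)).le (sq_nonneg _)
  · exact ⟨0, Finset.mem_univ _, mul_pos (sub_pos.2 (h.lt 0)) (by positivity)⟩

/-- the perturbation operator -/
def NN {q : ℕ} (D : Fin (q + 2) → ℝ) (δ y : ℝ) : ES (q + 2) →L[ℝ] ES (q + 2) :=
  δ • op (Matrix.diagonal D) + y • op (Y01 q)

theorem NN_symm {q : ℕ} (D : Fin (q + 2) → ℝ) (δ y : ℝ) (v w : ES (q + 2)) :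
    ⟪NN D δ y v, w⟫_ℝ = ⟪v, NN D δ y w⟫_ℝ := by
  have h1 : ∀ i j : Fin (q + 2), Matrix.diagonal D i j = Matrix.diagonal D j i := by
    intro i j
    rw [Matrix.diagonal_apply, Matrix.diagonal_apply]
    by_cases hij : i = j
    · subst hij; rfl
    · rw [if_neg hij, if_neg (fun hh => hij hh.symm)]
  simp only [NN, _root_.add_apply, _root_.smul_apply, inner_add_left, inner_add_right,
    inner_smul_left, inner_smul_right, op_symm h1, op_symm (Y01_symm q)]
  simp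

theorem NN_norm {q : ℕ} (D : Fin (q + 2) → ℝ) (δ y : ℝ) :
    ‖NN D δ y‖ ≤ |δ| * ‖op (Matrix.diagonal D)‖ + |y| * ‖op (Y01 q)‖ := by
  refine (norm_add_le _ _).trans ?_
  rw [norm_smul, norm_smul, Real.norm_eq_abs, Real.norm_eq_abs]

theorem op_Mxy {q : ℕ} (D : Fin (q + 2) → ℝ) (J : Matrix (Fin (q + 2)) (Fin (q + 2)) ℝ)
    (x xc y : ℝ) : op (Mxy D J x y) = op (Mxy D J xc 0) + NN D (x - xc) y := by
  simp only [Mxy, NN, op_add, op_smul]
  ext v i
  simp only [_root_.add_apply, _root_.smul_apply, PiLp.add_apply, PiLp.smul_apply, smul_eq_mul]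
  ring

theorem diff_formula {q : ℕ} (D : Fin (q + 2) → ℝ)
    (b : OrthonormalBasis (Fin (q + 1)) ℝ (ES (q + 1))) (k : Fin (q + 1)) {α κ δ y : ℝ}
    (hκ : κ = 1 ∨ κ = -1) :
    ⟪NN D δ y (fp (b k) α κ), fp (b k) α κ⟫_ℝ - ⟪NN D δ y (ff (b k) α κ), ff (b k) α κ⟫_ℝ
      = -(δ * mm D (b k) * Real.cos (2 * α)) + 2 * κ * y * (b k 0) * Real.sin (2 * α) := by
  have h1 := kap_sq hκ
  have a1 : ⟪op (Matrix.diagonal D) (inc (b k)), inc (b k)⟫_ℝ
      = ∑ i, D i.succ * b k i * b k i := inner_diag_inc D _ _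
  have a2 : ⟪op (Matrix.diagonal D) e0, inc (b k)⟫_ℝ = 0 := inner_diag_e0_inc D _
  have hsd : ∀ i j : Fin (q + 2), Matrix.diagonal D i j = Matrix.diagonal D j i := by
    intro i j
    rw [Matrix.diagonal_apply, Matrix.diagonal_apply]
    by_cases hij : i = j
    · subst hij; rfl
    · rw [if_neg hij, if_neg (fun hh => hij hh.symm)]
  have a3 : ⟪op (Matrix.diagonal D) (inc (b k)), (e0 : ES (q + 2))⟫_ℝ = 0 := by
    rw [op_symm hsd, real_inner_comm]; exact a2
  have a4 := inner_diag_e0_e0 (q := q) D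
  have c1 : ⟪op (Y01 q) (inc (b k)), inc (b k)⟫_ℝ = 0 := by
    rw [op_Y_inc, inner_smul_left, inner_e0_inc, mul_zero]
  have c2 : ⟪op (Y01 q) e0, inc (b k)⟫_ℝ = b k 0 := op_Y_e0_inner _
  have c3 : ⟪op (Y01 q) (inc (b k)), (e0 : ES (q + 2))⟫_ℝ = b k 0 := by
    rw [op_symm (Y01_symm q), real_inner_comm]; exact c2
  have c4 := op_Y_e0_e0 (q := q)
  simp only [NN, ff, fp, _root_.add_apply, _root_.smul_apply, map_add, map_sub, map_smul,
    inner_add_left, inner_add_right, inner_sub_left, inner_sub_right, inner_smul_left,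
    inner_smul_right, a1, a2, a3, a4, c1, c2, c3, c4]
  simp only [conj_trivial]
  rw [Real.cos_two_mul, Real.sin_two_mul]
  have h3 := Real.sin_sq_add_cos_sq α
  have h4 : Real.sin α ^ 2 = 1 - Real.cos α ^ 2 := by linarith
  unfold mm
  set S := ∑ i : Fin (q + 1), D i.succ * b k i * b k i
  set s := Real.sin α
  set c := Real.cos α
  have e : κ ^ 2 * s ^ 2 = 1 - c ^ 2 := by rw [h1, h4, one_mul]
  linear_combination (δ * S - δ * D 0) * e

end Crest.Agent.R202.Jac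
end
end

-- ▼ part R202/JacFrame2

/-!
# Row 202, matrix part: separation by the rotating trial frame, continued
-/

set_option autoImplicit false

open Filter Topology Module Matrix
open scoped InnerProductSpace

noncomputable section

namespace Crest.Agent.R202.Jac

theorem unit_of_inner {E : Type*} [NormedAddCommGroup E] [InnerProductSpace ℝ E] {f : E}
    (h : ⟪f, f⟫_ℝ = 1) : ‖f‖ = 1 := by
  rw [real_inner_self_eq_norm_sq] at h
  nlinarith [norm_nonneg f]

variable {q : ℕ} {D : Fin (q + 2) → ℝ} {J : Matrix (Fin (q + 2)) (Fin (q + 2)) ℝ}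
  {b : OrthonormalBasis (Fin (q + 1)) ℝ (ES (q + 1))} {k : Fin (q + 1)} {α κ : ℝ}

/-- splitting off the component along a unit vector `f` of the cluster plane -/
theorem split_vec (hκ : κ = 1 ∨ κ = -1) (w : ES (q + 2)) {f : ES (q + 2)}
    (hf : ⟪f, f⟫_ℝ = 1) :
    ⟪w - ⟪f, w⟫_ℝ • f, ⟪f, w⟫_ℝ • f⟫_ℝ = 0 ∧ ‖⟪f, w⟫_ℝ • f‖ ^ 2 = ⟪f, w⟫_ℝ ^ 2 ∧
      ‖w - ⟪f, w⟫_ℝ • f‖ ^ 2 = ‖w‖ ^ 2 - ⟪f, w⟫_ℝ ^ 2 := by
  have h1 : ‖f‖ = 1 := unit_of_inner hf
  have h2 : ⟪w - ⟪f, w⟫_ℝ • f, ⟪f, w⟫_ℝ • f⟫_ℝ = 0 := by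
    rw [inner_sub_left, inner_smul_right, inner_smul_right, inner_smul_left, hf,
      real_inner_comm f w]
    simp
  have h3 : ‖⟪f, w⟫_ℝ • f‖ ^ 2 = ⟪f, w⟫_ℝ ^ 2 := by
    rw [norm_smul, h1, mul_one, Real.norm_eq_abs, sq_abs]
  refine ⟨h2, h3, ?_⟩
  have h4 := norm_add_sq_real (w - ⟪f, w⟫_ℝ • f) (⟪f, w⟫_ℝ • f)
  rw [h2, sub_add_cancel, h3] at h4
  linarith

theorem sep_frm (h : Iso D J) {xc : ℝ} {μ : Fin (q + 1) → ℝ} (hμ : Monotone μ)
    (hb : ∀ i, op (rest (Mxy D J xc 0)) (b i) = μ i • b i) (hk : μ k = xc * D 0 + J 0 0)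
    {g : ℝ} (hg : 0 < g) (hgap : ∀ i, i ≠ k → g ≤ |μ i - μ k|) (hκ : κ = 1 ∨ κ = -1)
    {x y ν : ℝ} (hν : |x - xc| * ‖op (Matrix.diagonal D)‖ + |y| * ‖op (Y01 q)‖ ≤ ν)
    (h4 : 4 * ν ≤ g)
    (hdiff : 4 * ν ^ 2 / g < -((x - xc) * mm D (b k) * Real.cos (2 * α))
      + 2 * κ * y * (b k 0) * Real.sin (2 * α)) :
    SepF (op (Mxy D J x y)) (frm (fun i => b i) k α κ)
      (μ k + (⟪NN D (x - xc) y (ff (b k) α κ), ff (b k) α κ⟫_ℝ + 2 * ν ^ 2 / g))
      (μ k + (⟪NN D (x - xc) y (fp (b k) α κ), fp (b k) α κ⟫_ℝ - 2 * ν ^ 2 / g)) := by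
  have hN : ‖NN D (x - xc) y‖ ≤ ν := (NN_norm D _ _).trans hν
  have hν0 : 0 ≤ ν := (norm_nonneg _).trans hN
  have hff := inner_ff_ff b k (α := α) hκ
  have hfp := inner_fp_fp b k (α := α) hκ
  have hA : |⟪NN D (x - xc) y (ff (b k) α κ), ff (b k) α κ⟫_ℝ| ≤ ν := by
    have := abs_inner_N_le _ hN (ff (b k) α κ) (ff (b k) α κ)
    rw [unit_of_inner hff] at this
    simpa using this
  have hB : |⟪NN D (x - xc) y (fp (b k) α κ), fp (b k) α κ⟫_ℝ| ≤ ν := by
    have := abs_inner_N_le _ hN (fp (b k) α κ) (fp (b k) α κ)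
    rw [unit_of_inner hfp] at this
    simpa using this
  have hT0 : ∀ w : ES (q + 2), ⟪op (Mxy D J xc 0) w, w⟫_ℝ
      = μ k * (⟪ff (b k) α κ, w⟫_ℝ ^ 2 + ⟪fp (b k) α κ, w⟫_ℝ ^ 2)
        + ∑ i ∈ Finset.univ.erase k, μ i * ⟪inc (b i), w⟫_ℝ ^ 2 := by
    intro w
    rw [T0_decomp h]
    have e1 := inner_T_self_eq_sum b (T := (op (rest (Mxy D J xc 0)) : ES (q + 1) →ₗ[ℝ] ES (q + 1)))
      hb (tl w)
    have e1' : ⟪op (rest (Mxy D J xc 0)) (tl w), tl w⟫_ℝ = ∑ i, μ i * ⟪b i, tl w⟫_ℝ ^ 2 := e1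
    rw [e1', sum_split b k μ w, ← hk, ← rot b k hκ w]
    ring
  have hnorm : ∀ w : ES (q + 2), ‖w‖ ^ 2
      = (⟪ff (b k) α κ, w⟫_ℝ ^ 2 + ⟪fp (b k) α κ, w⟫_ℝ ^ 2)
        + ∑ i ∈ Finset.univ.erase k, ⟪inc (b i), w⟫_ℝ ^ 2 := by
    intro w
    rw [norm_sq_decomp, norm_sq_eq_sum b (tl w), ← rot b k hκ w]
    have := sum_split b k (fun _ => 1) w
    simp only [one_mul] at this
    rw [this]
    ring
  rw [op_Mxy D J x xc y]
  have hdf := diff_formula D b k (α := α) (δ := x - xc) (y := y) hκ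
  have hon := frm_orthonormal b k (α := α) hκ
  refine ⟨hon.linearIndependent, ?_, ?_, ?_⟩
  · have e : 4 * ν ^ 2 / g = 2 * ν ^ 2 / g + 2 * ν ^ 2 / g := by ring
    rw [e] at hdiff
    linarith
  · -- upper bound on the span
    intro w hw
    have hperp : ∀ z : ES (q + 2), (∀ i, ⟪frm (fun i => b i) k α κ i, z⟫_ℝ = 0) →
        ⟪z, w⟫_ℝ = 0 := by
      intro z hz
      induction hw using Submodule.span_induction with
      | mem x hx =>
        obtain ⟨j, rfl⟩ := hx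
        rw [real_inner_comm]
        exact hz j
      | zero => simp
      | add x y _ _ hx hy => rw [inner_add_right, hx, hy, add_zero]
      | smul a x _ hx => rw [inner_smul_right, hx, mul_zero]
    have hfpw : ⟪fp (b k) α κ, w⟫_ℝ = 0 := by
      apply hperp
      intro i
      unfold frm
      split
      · rename_i hi
        rw [real_inner_comm]
        apply inner_fp_inc
        intro hh
        have : i.1 = k.1 := by simpa using congrArg Fin.val hh
        omega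
      · exact inner_ff_fp b k
    have hhigh : ∀ i, k < i → ⟪inc (b i), w⟫_ℝ = 0 := by
      intro i hi
      apply hperp
      intro j
      unfold frm
      split
      · rename_i hj
        rw [inner_inc]
        apply b.orthonormal.2
        intro hh
        have h1 : j.1 = i.1 := by simpa using congrArg Fin.val hh
        have h2 : k.1 < i.1 := hi
        omega
      · exact inner_ff_inc b k i hi.ne'
    obtain ⟨s1, s2, s3⟩ := split_vec (q := q) hκ w hff
    have hwe : w = (w - ⟪ff (b k) α κ, w⟫_ℝ • ff (b k) α κ)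
        + ⟪ff (b k) α κ, w⟫_ℝ • ff (b k) α κ := by abel
    have := block_le (T0 := op (Mxy D J xc 0)) (N := NN D (x - xc) y) (lam := μ k)
      (A := ⟪NN D (x - xc) y (ff (b k) α κ), ff (b k) α κ⟫_ℝ)
      (NN_symm D _ _) hg hν0 h4 hA hN s1 (by
        rw [← hwe, hT0, s3, s2, hnorm w, hfpw]
        have hle : ∑ i ∈ Finset.univ.erase k, μ i * ⟪inc (b i), w⟫_ℝ ^ 2
            ≤ ∑ i ∈ Finset.univ.erase k, (μ k - g) * ⟪inc (b i), w⟫_ℝ ^ 2 := by
          refine Finset.sum_le_sum fun i hi => ?_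
          rcases lt_or_ge k i with hki | hki
          · rw [hhigh i hki]; simp
          · have hik : i ≠ k := Finset.ne_of_mem_erase hi
            have hg' := hgap i hik
            have hmono := hμ hki
            rw [abs_of_nonpos (by linarith)] at hg'
            exact mul_le_mul_of_nonneg_right (by linarith) (sq_nonneg _)
        rw [← Finset.mul_sum] at hle
        linarith) (by
        rw [map_smul, inner_smul_left, inner_smul_right, s2]
        simp only [conj_trivial]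
        ring_nf
        exact le_refl _)
    rw [← hwe] at this
    exact this
  · intro w hw
    have hfw : ⟪ff (b k) α κ, w⟫_ℝ = 0 := by
      have := hw ⟨k.1, by omega⟩
      unfold frm at this
      simpa using this
    have hlow : ∀ i, i < k → ⟪inc (b i), w⟫_ℝ = 0 := by
      intro i hi
      have hi' : i.1 < k.1 := hi
      have := hw ⟨i.1, by omega⟩
      unfold frm at this
      simpa [hi'] using this
    obtain ⟨s1, s2, s3⟩ := split_vec (q := q) hκ w hfp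
    have hwe : w = (w - ⟪fp (b k) α κ, w⟫_ℝ • fp (b k) α κ)
        + ⟪fp (b k) α κ, w⟫_ℝ • fp (b k) α κ := by abel
    have := block_ge (T0 := op (Mxy D J xc 0)) (N := NN D (x - xc) y) (lam := μ k)
      (B := ⟪NN D (x - xc) y (fp (b k) α κ), fp (b k) α κ⟫_ℝ)
      (NN_symm D _ _) hg hν0 h4 hB hN s1 (by
        rw [← hwe, hT0, s3, s2, hnorm w, hfw]
        have hle : ∑ i ∈ Finset.univ.erase k, (μ k + g) * ⟪inc (b i), w⟫_ℝ ^ 2
            ≤ ∑ i ∈ Finset.univ.erase k, μ i * ⟪inc (b i), w⟫_ℝ ^ 2 := by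
          refine Finset.sum_le_sum fun i hi => ?_
          rcases lt_or_ge i k with hki | hki
          · rw [hlow i hki]; simp
          · have hik : i ≠ k := Finset.ne_of_mem_erase hi
            have hg' := hgap i hik
            have hmono := hμ hki
            rw [abs_of_nonneg (by linarith)] at hg'
            exact mul_le_mul_of_nonneg_right (by linarith) (sq_nonneg _)
        rw [← Finset.mul_sum] at hle
        linarith) (by
        rw [map_smul, inner_smul_left, inner_smul_right, s2]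
        simp only [conj_trivial]
        ring_nf
        exact le_refl _)
    rw [← hwe] at this
    exact this

end Crest.Agent.R202.Jac
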