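import Mathlib

/-!
Row 202: labels `(m,j)` of the spindle levels, `mu b (m,j) = b m + 2 j`, `b = 1/θ ≥ 1`.
Sorted enumeration, low sets (cuts), resonances.
-/

set_option autoImplicit false

open Set

namespace Crest.Agent.R202.Lab

/-- level of the label `(m,j)` for the cone parameter `b = 1/θ` -/
def mu (b : ℝ) (p : ℕ × ℕ) : ℝ := b * p.1 + 2 * p.2

/-- labels of the sector `s` (`s = 0` : cos, `s = 1` : sin) -/
def lab (s : ℕ) : Set (ℕ × ℕ) := {p | s ≤ p.1}


theorem mu_nonneg {b : ℝ} (hb : 0 ≤ b) (p : ℕ × ℕ) : 0 ≤ mu b p := by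
  unfold mu; positivity

theorem mu_mono {b b' : ℝ} (h : b ≤ b') (p : ℕ × ℕ) : mu b p ≤ mu b' p := by
  unfold mu
  have : b * (p.1 : ℝ) ≤ b' * p.1 := mul_le_mul_of_nonneg_right h (Nat.cast_nonneg _)
  linarith

theorem continuous_mu (p : ℕ × ℕ) : Continuous fun b => mu b p := by
  unfold mu; fun_prop

/-- equal levels and equal `m` force equal labels -/
theorem eq_of_mu_eq {b : ℝ} {p q : ℕ × ℕ} (h : mu b p = mu b q) (h1 : p.1 = q.1) : p = q := by
  unfold mu at h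
  rw [h1] at h
  have h2 : (p.2 : ℝ) = q.2 := by linarith
  exact Prod.ext h1 (by exact_mod_cast h2)

/-- a coincidence of two different labels determines `b`, which is rational -/
theorem mu_eq_iff {b : ℝ} {p q : ℕ × ℕ} (hne : p.1 ≠ q.1) :
    mu b p = mu b q ↔ b = 2 * ((q.2 : ℝ) - p.2) / ((p.1 : ℝ) - q.1) := by
  have h0 : (p.1 : ℝ) - q.1 ≠ 0 := sub_ne_zero.2 (by exact_mod_cast hne)
  rw [eq_div_iff h0]
  unfold mu
  constructor <;> intro h <;> linarith

theorem mu_injective {b : ℝ} (hb : Irrational b) : Function.Injective (mu b) := by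
  intro p q h
  by_cases h1 : p.1 = q.1
  · exact eq_of_mu_eq h h1
  · exfalso
    have h2 := (mu_eq_iff h1).1 h
    apply hb
    refine ⟨2 * ((q.2 : ℚ) - p.2) / ((p.1 : ℚ) - q.1), ?_⟩
    rw [h2]; push_cast; ring

theorem finite_le {b : ℝ} (hb : 0 < b) (J : ℝ) : {p : ℕ × ℕ | mu b p ≤ J}.Finite := by
  refine ((finite_Iic ⌊J / b⌋₊).prod (finite_Iic ⌊J / 2⌋₊)).subset ?_
  rintro ⟨m, j⟩ h
  simp only [mem_ofPred_eq, mu] at h
  have hm : (0 : ℝ) ≤ b * m := by positivity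
  have hj : (0 : ℝ) ≤ 2 * (j : ℝ) := by positivity
  refine ⟨Nat.le_floor ?_, Nat.le_floor ?_⟩
  · rw [le_div_iff₀ hb]; nlinarith
  · simp only; linarith

/-- the finite set of labels of sector `s` with level `≤ J` -/
noncomputable def low (b : ℝ) (s : ℕ) (J : ℝ) : Finset (ℕ × ℕ) := by
  classical
  exact if hb : 0 < b then (finite_le hb J).toFinset.filter (fun p => s ≤ p.1) else ∅

theorem mem_low {b : ℝ} (hb : 0 < b) {s : ℕ} {J : ℝ} {p : ℕ × ℕ} :
    p ∈ low b s J ↔ s ≤ p.1 ∧ mu b p ≤ J := by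
  classical
  simp [low, hb, and_comm]

theorem lab_infinite (s : ℕ) : (lab s).Infinite := by
  refine infinite_of_injective_forall_mem (f := fun j : ℕ => (s, j)) ?_ ?_
  · intro i j h; simpa using h
  · intro j; exact le_refl s

/-- every nonempty set of labels has a lowest element -/
theorem exists_min {b : ℝ} (hb : 0 < b) {A : Set (ℕ × ℕ)} (hA : A.Nonempty) :
    ∃ p ∈ A, ∀ q ∈ A, mu b p ≤ mu b q := by
  obtain ⟨p0, hp0⟩ := hA
  have hfin : (A ∩ {p | mu b p ≤ mu b p0}).Finite := (finite_le hb _).inter_of_right _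
  obtain ⟨p, hp, hmin⟩ := Set.exists_min_image _ (mu b) hfin ⟨p0, hp0, le_refl (mu b p0)⟩
  refine ⟨p, hp.1, fun q hq => ?_⟩
  by_cases h : mu b q ≤ mu b p0
  · exact hmin q ⟨hq, h⟩
  · exact hp.2.trans (not_le.1 h).le

/-- sorted enumeration of the labels -/
theorem exists_enum {b : ℝ} (hb : 0 < b) (hirr : Irrational b) (s : ℕ) :
    ∃ e : ℕ → ℕ × ℕ, (∀ i, e i ∈ lab s) ∧ StrictMono (fun i => mu b (e i)) ∧
      ∀ p ∈ lab s, ∃ i, e i = p := by
  classical
  have hex : ∀ T : Finset (ℕ × ℕ), ∃ p, (p ∈ lab s ∧ p ∉ T) ∧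
      ∀ q, q ∈ lab s ∧ q ∉ T → mu b p ≤ mu b q := by
    intro T
    have hne : (lab s \ (T : Set (ℕ × ℕ))).Nonempty :=
      ((lab_infinite s).sdiff T.finite_toSet).nonempty
    obtain ⟨p, hp, hmin⟩ := exists_min hb hne
    exact ⟨p, ⟨hp.1, fun h => hp.2 h⟩, fun q hq => hmin q ⟨hq.1, fun h => hq.2 h⟩⟩
  choose pick hpick hmin using hex
  let T : ℕ → Finset (ℕ × ℕ) := fun n => Nat.rec ∅ (fun _ T => insert (pick T) T) n
  have hT : ∀ n, T (n + 1) = insert (pick (T n)) (T n) := fun n => rfl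
  have hlt : ∀ n, mu b (pick (T n)) < mu b (pick (T (n + 1))) := by
    intro n
    have h1 := hpick (T (n + 1))
    have h2 : pick (T (n + 1)) ∉ insert (pick (T n)) (T n) := by rw [← hT]; exact h1.2
    rw [Finset.mem_insert, not_or] at h2
    refine lt_of_le_of_ne (hmin _ _ ⟨h1.1, h2.2⟩) ?_
    intro h
    exact h2.1 (mu_injective hirr h).symm
  have hmono : StrictMono (fun i => mu b (pick (T i))) := strictMono_nat_of_lt_succ hlt
  refine ⟨fun n => pick (T n), fun n => (hpick (T n)).1, hmono, ?_⟩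
  intro p hp
  by_contra hcon
  push Not at hcon
  have hnot : ∀ n, p ∉ T n := by
    intro n
    induction n with
    | zero => exact Finset.notMem_empty _
    | succ n ih =>
      rw [hT, Finset.mem_insert, not_or]
      exact ⟨fun h => hcon n h.symm, ih⟩
  have hinj : Function.Injective fun n => pick (T n) := fun i j h =>
    hmono.injective (by simp only at h; simp only [h])
  have hinf : (range fun n => pick (T n)).Infinite := infinite_range_of_injective hinj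
  refine hinf ((finite_le hb (mu b p)).subset ?_)
  rintro _ ⟨n, rfl⟩
  exact hmin (T n) p ⟨hp, hnot n⟩

/-- `T` is the set of the lowest `#T` labels of the sector, with a strict gap above -/
def IsLow (b : ℝ) (s : ℕ) (T : Finset (ℕ × ℕ)) : Prop :=
  (∀ p ∈ T, p ∈ lab s) ∧ ∀ p ∈ T, ∀ q ∈ lab s, q ∉ T → mu b p < mu b q

theorem IsLow.unique {b : ℝ} {s : ℕ} {T T' : Finset (ℕ × ℕ)} (h : IsLow b s T) (h' : IsLow b s T')
    (hc : T.card = T'.card) : T = T' := by
  by_contra hne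
  have h1 : ¬ T ⊆ T' := fun hs => hne (Finset.eq_of_subset_of_card_le hs hc.ge)
  have h2 : ¬ T' ⊆ T := fun hs => hne (Finset.eq_of_subset_of_card_le hs hc.le).symm
  obtain ⟨p, hp, hp'⟩ := Finset.not_subset.1 h1
  obtain ⟨q, hq, hq'⟩ := Finset.not_subset.1 h2
  exact lt_asymm (h.2 p hp q (h'.1 q hq) hq') (h'.2 q hq p (h.1 p hp) hp')

theorem isLow_image {b : ℝ} {s : ℕ} {e : ℕ → ℕ × ℕ} (he : ∀ i, e i ∈ lab s)
    (hm : StrictMono (fun i => mu b (e i))) (hs : ∀ p ∈ lab s, ∃ i, e i = p) (l : ℕ) :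
    IsLow b s ((Finset.range l).image e) ∧ ((Finset.range l).image e).card = l := by
  have hinj : Function.Injective e := fun i j h => hm.injective (by simp only [h])
  refine ⟨⟨?_, ?_⟩, ?_⟩
  · intro p hp
    obtain ⟨i, -, rfl⟩ := Finset.mem_image.1 hp
    exact he i
  · intro p hp q hq hqT
    obtain ⟨i, hi, rfl⟩ := Finset.mem_image.1 hp
    obtain ⟨k, rfl⟩ := hs q hq
    have hk : l ≤ k := by
      by_contra hk
      exact hqT (Finset.mem_image.2 ⟨k, Finset.mem_range.2 (not_le.1 hk), rfl⟩)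
    exact hm ((Finset.mem_range.1 hi).trans_le hk)
  · rw [Finset.card_image_of_injective _ hinj, Finset.card_range]

theorem exists_isLow {b : ℝ} (hb : 0 < b) (hirr : Irrational b) (s l : ℕ) :
    ∃ T, IsLow b s T ∧ T.card = l := by
  obtain ⟨e, he, hm, hs⟩ := exists_enum hb hirr s
  exact ⟨_, isLow_image he hm hs l⟩

/-- strict low sets -/
noncomputable def lows (b : ℝ) (s : ℕ) (J : ℝ) : Finset (ℕ × ℕ) := by
  classical
  exact (low b s J).filter fun p => mu b p < J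

theorem mem_lows {b : ℝ} (hb : 0 < b) {s : ℕ} {J : ℝ} {p : ℕ × ℕ} :
    p ∈ lows b s J ↔ s ≤ p.1 ∧ mu b p < J := by
  classical
  simp only [lows, Finset.mem_filter, mem_low hb]
  constructor
  · rintro ⟨⟨h1, -⟩, h3⟩; exact ⟨h1, h3⟩
  · rintro ⟨h1, h3⟩; exact ⟨⟨h1, h3.le⟩, h3⟩

theorem isLow_low {b : ℝ} (hb : 0 < b) (s : ℕ) (J : ℝ) : IsLow b s (low b s J) := by
  refine ⟨fun p hp => ((mem_low hb).1 hp).1, fun p hp q hq hqT => ?_⟩
  have h1 := ((mem_low hb).1 hp).2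
  have h2 : ¬ mu b q ≤ J := fun h => hqT ((mem_low hb).2 ⟨hq, h⟩)
  exact h1.trans_lt (not_le.1 h2)


/-- the cut `l` is closed at `b`: it lies strictly inside a tie class -/
def Closed (b : ℝ) (s l : ℕ) : Prop :=
  ∃ J : ℝ, (lows b s J).card < l ∧ l < (low b s J).card

/-- a cut is open or closed -/
theorem open_or_closed {b : ℝ} (hb : 0 < b) (s l : ℕ) :
    (∃ T, IsLow b s T ∧ T.card = l) ∨ Closed b s l := by
  classical
  rcases Nat.eq_zero_or_pos l with rfl | hl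
  · left
    exact ⟨∅, ⟨by simp, by simp⟩, by simp⟩
  -- the set of labels whose closed low set has at least `l` elements
  have hA : {p : ℕ × ℕ | p ∈ lab s ∧ l ≤ (low b s (mu b p)).card}.Nonempty := by
    obtain ⟨T, hT, hTc⟩ := (lab_infinite s).exists_subset_card_eq l
    have hTne : T.Nonempty := by
      rw [← Finset.card_pos, hTc]; exact hl
    obtain ⟨p, hp, hmax⟩ := T.exists_max_image (mu b) hTne
    refine ⟨p, hT hp, ?_⟩
    rw [← hTc]
    refine Finset.card_le_card fun q hq => ?_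
    exact (mem_low hb).2 ⟨hT hq, hmax q hq⟩
  obtain ⟨p, ⟨hp, hpl⟩, hmin⟩ := exists_min hb hA
  have hlows : (lows b s (mu b p)).card < l := by
    by_contra hcon
    rw [not_lt] at hcon
    have hne : (lows b s (mu b p)).Nonempty := by
      rw [← Finset.card_pos]; exact hl.trans_le hcon
    obtain ⟨q, hq, hmax⟩ := (lows b s (mu b p)).exists_max_image (mu b) hne
    have hq' := (mem_lows hb).1 hq
    have : lows b s (mu b p) ⊆ low b s (mu b q) := fun r hr =>
      (mem_low hb).2 ⟨((mem_lows hb).1 hr).1, hmax r hr⟩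
    have h2 := hmin q ⟨hq'.1, hcon.trans (Finset.card_le_card this)⟩
    exact absurd hq'.2 (not_lt.2 h2)
  rcases hpl.eq_or_lt with h | h
  · left; exact ⟨_, isLow_low hb s (mu b p), h.symm⟩
  · right; exact ⟨mu b p, hlows, h⟩

/-- at a closed cut there are two different labels of the same level around the cut -/
theorem Closed.exists_pair {b : ℝ} (hb : 0 < b) {s l : ℕ} (h : Closed b s l) :
    ∃ p ∈ lab s, ∃ q ∈ lab s, p.1 < q.1 ∧ mu b p = mu b q ∧
      (lows b s (mu b p)).card < l ∧ l < (low b s (mu b p)).card := by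
  classical
  obtain ⟨J, h1, h2⟩ := h
  have hsub : lows b s J ⊆ low b s J := fun p hp =>
    (mem_low hb).2 ⟨((mem_lows hb).1 hp).1, ((mem_lows hb).1 hp).2.le⟩
  have hc : 1 < (low b s J \ lows b s J).card := by
    rw [Finset.card_sdiff_of_subset hsub]; omega
  obtain ⟨p, hp, q, hq, hpq⟩ := Finset.one_lt_card.1 hc
  have key : ∀ r ∈ low b s J \ lows b s J, r ∈ lab s ∧ mu b r = J := by
    intro r hr
    rw [Finset.mem_sdiff] at hr
    have h3 := (mem_low hb).1 hr.1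
    refine ⟨h3.1, le_antisymm h3.2 ?_⟩
    by_contra h4
    exact hr.2 ((mem_lows hb).2 ⟨h3.1, not_le.1 h4⟩)
  obtain ⟨hp1, hp2⟩ := key p hp
  obtain ⟨hq1, hq2⟩ := key q hq
  have hne : p.1 ≠ q.1 := fun h => hpq (eq_of_mu_eq (hp2.trans hq2.symm) h)
  rcases lt_or_gt_of_ne hne with hlt | hlt
  · exact ⟨p, hp1, q, hq1, hlt, hp2.trans hq2.symm, by rw [hp2]; exact h1, by rw [hp2]; exact h2⟩
  · exact ⟨q, hq1, p, hp1, hlt, hq2.trans hp2.symm, by rw [hq2]; exact h1, by rw [hq2]; exact h2⟩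

/-- open cuts stay open, with the same low set -/
theorem isOpen_isLow {s : ℕ} (T : Finset (ℕ × ℕ)) : IsOpen {b : ℝ | 0 < b ∧ IsLow b s T} := by
  classical
  rw [Metric.isOpen_iff]
  rintro b ⟨hb, hT⟩
  rcases T.eq_empty_or_nonempty with rfl | hne
  · refine ⟨b, hb, fun b' hb' => ⟨?_, ⟨by simp, by simp⟩⟩⟩
    rw [Metric.mem_ball, Real.dist_eq, abs_lt] at hb'
    linarith [hb'.1]
  obtain ⟨p0, hp0, hmax⟩ := T.exists_max_image (mu (2 * b)) hne
  -- finitely many relevant competitors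
  let Q : Finset (ℕ × ℕ) := (low (b / 2) s (mu (2 * b) p0)).filter fun q => q ∉ T
  have hb2 : 0 < b / 2 := by positivity
  have hopen : IsOpen (⋂ p ∈ T, ⋂ q ∈ Q, {b' : ℝ | mu b' p < mu b' q}) := by
    refine T.finite_toSet.isOpen_biInter fun p _ => Q.finite_toSet.isOpen_biInter fun q _ => ?_
    exact isOpen_lt (continuous_mu p) (continuous_mu q)
  have hmem : b ∈ ⋂ p ∈ T, ⋂ q ∈ Q, {b' : ℝ | mu b' p < mu b' q} := by
    simp only [mem_iInter, mem_ofPred_eq]
    intro p hp q hq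
    have hq' := Finset.mem_filter.1 hq
    exact hT.2 p hp q ((mem_low hb2).1 hq'.1).1 hq'.2
  obtain ⟨ε, hε, hball⟩ := Metric.isOpen_iff.1 hopen b hmem
  refine ⟨min ε (b / 2), lt_min hε hb2, fun b' hb' => ?_⟩
  have hb'1 : b' ∈ Metric.ball b ε := Metric.ball_subset_ball (min_le_left _ _) hb'
  have hb'2 : |b' - b| < b / 2 := by
    have := Metric.ball_subset_ball (min_le_right ε (b / 2)) hb'
    rwa [Metric.mem_ball, Real.dist_eq] at this
  rw [abs_lt] at hb'2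
  have hpos : 0 < b' := by linarith [hb'2.1]
  refine ⟨hpos, hT.1, fun p hp q hq hqT => ?_⟩
  by_cases hqQ : q ∈ Q
  · have := hball hb'1
    simp only [mem_iInter, mem_ofPred_eq] at this
    exact this p hp q hqQ
  · have h1 : ¬ mu (b / 2) q ≤ mu (2 * b) p0 := fun h =>
      hqQ (Finset.mem_filter.2 ⟨(mem_low hb2).2 ⟨hq, h⟩, hqT⟩)
    have h2 : mu b' p ≤ mu (2 * b) p := mu_mono (by linarith [hb'2.2]) p
    have h3 : mu (b / 2) q ≤ mu b' q := mu_mono (by linarith [hb'2.1]) q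
    linarith [hmax p hp, not_le.1 h1]

/-- if the low sets at two parameters differ, the cut closes in between -/
theorem exists_closed {b0 b1 : ℝ} (h0 : 0 < b0) (h01 : b0 ≤ b1) {s l : ℕ}
    {T0 T1 : Finset (ℕ × ℕ)} (hT0 : IsLow b0 s T0) (hT1 : IsLow b1 s T1) (hc0 : T0.card = l)
    (hc1 : T1.card = l) (hne : T0 ≠ T1) : ∃ b ∈ Icc b0 b1, Closed b s l := by
  classical
  by_contra hcon
  push Not at hcon
  have hpos : ∀ b ∈ Icc b0 b1, 0 < b := fun b hb => h0.trans_le hb.1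
  have hex : ∀ b ∈ Icc b0 b1, ∃ T, IsLow b s T ∧ T.card = l := fun b hb =>
    (open_or_closed (hpos b hb) s l).resolve_right (hcon b hb)
  let U : Set ℝ := {b | 0 < b ∧ IsLow b s T0}
  let V : Set ℝ := ⋃ T ∈ {T : Finset (ℕ × ℕ) | T ≠ T0 ∧ T.card = l}, {b | 0 < b ∧ IsLow b s T}
  have hU : IsOpen U := isOpen_isLow T0
  have hV : IsOpen V := isOpen_biUnion fun T _ => isOpen_isLow T
  have hcov : Icc b0 b1 ⊆ U ∪ V := by
    intro b hb
    obtain ⟨T, hT, hTc⟩ := hex b hb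
    by_cases h : T = T0
    · left; subst h; exact ⟨hpos b hb, hT⟩
    · right
      simp only [V, mem_iUnion, mem_ofPred_eq]
      exact ⟨T, ⟨h, hTc⟩, hpos b hb, hT⟩
  have hdisj : Icc b0 b1 ∩ (U ∩ V) = ∅ := by
    rw [eq_empty_iff_forall_notMem]
    rintro b ⟨-, ⟨-, hbU⟩, hbV⟩
    simp only [V, mem_iUnion, mem_ofPred_eq] at hbV
    obtain ⟨T, ⟨hT1, hT2⟩, -, hT3⟩ := hbV
    exact hT1 (hT3.unique hbU (hT2.trans hc0.symm))
  rcases isPreconnected_iff_subset_of_disjoint.1 (isPreconnected_Icc (a := b0) (b := b1))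
    U V hU hV hcov hdisj with h | h
  · have := (h (right_mem_Icc.2 h01)).2
    exact hne (this.unique hT1 (hc0.trans hc1.symm))
  · have := h (left_mem_Icc.2 h01)
    simp only [V, mem_iUnion, mem_ofPred_eq] at this
    obtain ⟨T, ⟨hT1', hT2⟩, -, hT3⟩ := this
    exact hT1' (hT3.unique hT0 (hT2.trans hc0.symm))

theorem exists_last_m {T : Finset (ℕ × ℕ)} {s : ℕ} (h : (s, 0) ∈ T) :
    ∃ M, s ≤ M ∧ (M, 0) ∈ T ∧ (M + 1, 0) ∉ T := by
  classical
  obtain ⟨p, hp, hmax⟩ := (T.filter fun p => p.2 = 0).exists_max_image (fun p => p.1)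
    ⟨(s, 0), Finset.mem_filter.2 ⟨h, rfl⟩⟩
  obtain ⟨hp1, hp2⟩ := Finset.mem_filter.1 hp
  have hpe : p = (p.1, 0) := Prod.ext rfl hp2
  refine ⟨p.1, hmax (s, 0) (Finset.mem_filter.2 ⟨h, rfl⟩), by rwa [← hpe], fun hcon => ?_⟩
  have := hmax (p.1 + 1, 0) (Finset.mem_filter.2 ⟨hcon, rfl⟩)
  simp only at this
  omega

theorem exists_last_j {T : Finset (ℕ × ℕ)} {s : ℕ} (h : (s, 0) ∈ T) :
    ∃ K, (s, K) ∈ T ∧ (s, K + 1) ∉ T := by
  classical
  obtain ⟨p, hp, hmax⟩ := (T.filter fun p => p.1 = s).exists_max_image (fun p => p.2)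
    ⟨(s, 0), Finset.mem_filter.2 ⟨h, rfl⟩⟩
  obtain ⟨hp1, hp2⟩ := Finset.mem_filter.1 hp
  have hpe : p = (s, p.2) := Prod.ext hp2 rfl
  refine ⟨p.2, by rwa [← hpe], fun hcon => ?_⟩
  have := hmax (s, p.2 + 1) (Finset.mem_filter.2 ⟨hcon, rfl⟩)
  simp only at this
  omega

/-- for large cuts the low sets at two different parameters differ -/
theorem exists_lowCut {b0 b1 : ℝ} (h0 : 0 < b0) (h01 : b0 < b1) (s : ℕ) :
    ∃ i0 : ℕ, ∀ l, i0 ≤ l → ∀ T : Finset (ℕ × ℕ), T.card = l → IsLow b0 s T →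
      ¬ IsLow b1 s T := by
  have h1 : 0 < b1 := h0.trans h01
  -- bound for the largest `m` with `(m,0) ∈ T`
  obtain ⟨M0, hM0⟩ := exists_nat_gt ((b0 + 2) / (b1 - b0) + s)
  refine ⟨(low b0 s (b0 * (M0 + 1))).card + 1, ?_⟩
  intro l hl T hTc hT hT'
  have hTne : T.Nonempty := by rw [← Finset.card_pos]; omega
  -- the lowest label is in `T`
  have hmem : (s, 0) ∈ T := by
    by_contra hcon
    obtain ⟨p, hp⟩ := hTne
    have h2 := hT.2 p hp (s, 0) (le_refl s) hcon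
    have h3 : s ≤ p.1 := hT.1 p hp
    have h4 : (s : ℝ) ≤ p.1 := by exact_mod_cast h3
    unfold mu at h2
    simp only [Nat.cast_zero, mul_zero, add_zero] at h2
    have h5 : (0 : ℝ) ≤ 2 * (p.2 : ℝ) := by positivity
    have h6 : b0 * (s : ℝ) ≤ b0 * p.1 := mul_le_mul_of_nonneg_left h4 h0.le
    linarith
  obtain ⟨M, hMs, hMmem, hM1⟩ := exists_last_m hmem
  obtain ⟨K, hKmem, hK1⟩ := exists_last_j hmem
  have e1 := hT'.2 _ hMmem (s, K + 1) (le_refl s) hK1
  have e2 := hT.2 _ hKmem (M + 1, 0) (Nat.le_succ_of_le hMs) hM1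
  unfold mu at e1 e2
  simp only [Nat.cast_zero, mul_zero, add_zero, Nat.cast_add, Nat.cast_one] at e1 e2
  have hMb : (M : ℝ) < M0 := by
    have h2 : (b1 - b0) * ((M : ℝ) - s) < b0 + 2 := by linarith
    have h3 : (M : ℝ) - s < (b0 + 2) / (b1 - b0) := by
      rw [lt_div_iff₀ (by linarith)]; linarith
    linarith
  have hsub : T ⊆ low b0 s (b0 * (M0 + 1)) := by
    intro p hp
    refine (mem_low h0).2 ⟨hT.1 p hp, ?_⟩
    have h2 := hT.2 p hp (M + 1, 0) (Nat.le_succ_of_le hMs) hM1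
    have h3 : mu b0 (M + 1, 0) = b0 * (M + 1) := by unfold mu; push_cast; ring
    rw [h3] at h2
    have h4 : b0 * ((M : ℝ) + 1) ≤ b0 * (M0 + 1) := mul_le_mul_of_nonneg_left (by linarith) h0.le
    linarith
  have := Finset.card_le_card hsub
  omega

/-- every large cut closes somewhere strictly between two irrational parameters, at a rational
parameter -/
theorem exists_closed_large {b0 b1 : ℝ} (h0 : 0 < b0) (h01 : b0 < b1) (hi0 : Irrational b0)
    (hi1 : Irrational b1) (s : ℕ) :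
    ∃ i0 : ℕ, ∀ l, i0 ≤ l → ∃ b ∈ Ioo b0 b1, Closed b s l := by
  obtain ⟨i0, hi⟩ := exists_lowCut h0 h01 s
  refine ⟨i0, fun l hl => ?_⟩
  obtain ⟨T0, hT0, hc0⟩ := exists_isLow h0 hi0 s l
  obtain ⟨T1, hT1, hc1⟩ := exists_isLow (h0.trans h01) hi1 s l
  have hne : T0 ≠ T1 := by
    rintro rfl
    exact hi l hl T0 hc0 hT0 hT1
  obtain ⟨b, hb, hcl⟩ := exists_closed h0 h01.le hT0 hT1 hc0 hc1 hne
  have hbpos : 0 < b := h0.trans_le hb.1
  have hnirr : ¬ Irrational b := by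
    intro hirr
    obtain ⟨p, -, q, -, hlt, he, -, -⟩ := hcl.exists_pair hbpos
    have := mu_injective hirr he
    rw [this] at hlt
    exact lt_irrefl _ hlt
  refine ⟨b, ⟨lt_of_le_of_ne hb.1 ?_, lt_of_le_of_ne hb.2 ?_⟩, hcl⟩
  · rintro rfl; exact hnirr hi0
  · rintro rfl; exact hnirr hi1

/-- finitely many resonances concern a given finite set of labels -/
theorem finite_resonances {b0 b1 : ℝ} (h0 : 0 < b0) (P : Finset (ℕ × ℕ)) :
    {b : ℝ | b ∈ Icc b0 b1 ∧ ∃ p ∈ P, ∃ q, q ≠ p ∧ mu b q = mu b p}.Finite := by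
  classical
  let C : ℝ := ∑ p ∈ P, mu (|b1| + b0) p
  have hC : ∀ b ∈ Icc b0 b1, ∀ p ∈ P, mu b p ≤ C := by
    intro b hb p hp
    have h1 : mu b p ≤ mu (|b1| + b0) p := mu_mono (by linarith [hb.2, le_abs_self b1]) p
    refine h1.trans (Finset.single_le_sum (f := fun p => mu (|b1| + b0) p) (fun q _ => ?_) hp)
    exact mu_nonneg (by positivity) q
  let Q : Finset (ℕ × ℕ) := (finite_le h0 C).toFinset
  refine ((P ×ˢ Q).image fun x : (ℕ × ℕ) × (ℕ × ℕ) =>
    2 * ((x.1.2 : ℝ) - x.2.2) / ((x.2.1 : ℝ) - x.1.1)).finite_toSet.subset ?_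
  rintro b ⟨hb, p, hp, q, hq, he⟩
  have hne : q.1 ≠ p.1 := fun h => hq (eq_of_mu_eq he h)
  have h2 := (mu_eq_iff hne).1 he
  rw [Finset.mem_coe, Finset.mem_image]
  refine ⟨(p, q), Finset.mem_product.2 ⟨hp, ?_⟩, h2.symm⟩
  simp only [Q, Set.Finite.mem_toFinset, mem_ofPred_eq]
  exact (mu_mono hb.1 q).trans (he.le.trans (hC b hb p hp))

end Crest.Agent.R202.Lab
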