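import Crest.Agent.R202.HomeAbs
import Crest.Agent.R202.InstLoop
import Crest.Agent.R202.CThmSep
import Crest.Agent.R202.ConstRem
import Crest.Agent.R202.Model4
import Crest.Agent.R202.GateAux
import Crest.Agent.R202.JacWin
import Crest.Agent.R202.CutSep
import Crest.Agent.R202.SpFam
import Crest.Agent.R202.GateMatDefs
import Crest.Agent.R202.GateWin
import Crest.Agent.R202.PolyJet
import Crest.Agent.R202.InstForm
import Crest.Agent.R202.ModDef
import Crest.Agent.R202.CThmLoop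

-- ▼ part R202/HomeCl
section

/-!
# Row 202, PART C: the clause `home` of `COut` (helper816)
-/

set_option autoImplicit false

open MeasureTheory Set Filter Module
open scoped Topology ContDiff
open Crest.Agent.R202.Mod Crest.Agent.R202.Cut Crest.Agent.R202.PL Crest.Agent.R202.Clu
open Crest.Agent.R202.Lab

noncomputable section

namespace Crest.Agent.R202.HomeC

open Crest.Agent.R202.Inst

/-- density of the polynomials at the normalised spindle functions -/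
theorem exists_pol_near_psiN (d : ℕ) (σ : ℕ × ℕ) {b : ℝ} (hb : 1 ≤ b) (p : SF.Lbl σ.2) {ε : ℝ}
    (hε : 0 < ε) : ∃ q ∈ Pol σ.1 σ.2,
      href d σ.1 σ.2 (psiN d σ.1 σ.2 b p - q) (psiN d σ.1 σ.2 b p - q) < ε := by
  set c : ℝ := (Real.sqrt (nsq d σ.1 b p))⁻¹ with hc
  have hpos : 0 < c := inv_pos.2 (Real.sqrt_pos.2 (nsq_pos d σ.1 (by linarith) p))
  obtain ⟨q, hq, h⟩ := exists_pol_near d σ.1 hb p.2 (p : ℕ × ℕ).2 (ε := ε / c ^ 2) (by positivity)
  refine ⟨c • q, Submodule.smul_mem _ _ hq, ?_⟩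
  have e : psiN d σ.1 σ.2 b p - c • q =
      c • (psi d σ.1 σ.2 b (p : ℕ × ℕ).1 (p : ℕ × ℕ).2 - q) := by
    unfold psiN
    exact (smul_sub c (psi d σ.1 σ.2 b (p : ℕ × ℕ).1 (p : ℕ × ℕ).2) q).symm
  rw [e]
  simp only [map_smul, LinearMap.smul_apply, smul_eq_mul]
  rw [lt_div_iff₀ (by positivity)] at h
  calc _ = href d σ.1 σ.2 (psi d σ.1 σ.2 b (p : ℕ × ℕ).1 (p : ℕ × ℕ).2 - q)
        (psi d σ.1 σ.2 b (p : ℕ × ℕ).1 (p : ℕ × ℕ).2 - q) * c ^ 2 := by ring
    _ < ε := h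

/-- from a polynomial frame on the full space to `SepP` -/
theorem exists_sepP {d : ℕ} {σ : ℕ × ℕ} {l : ℕ} {K : ℝ} {P : ℝ × ℝ → ℝ} (hP : Adm d K P) {b : ℝ}
    {p : Fin (l + Main.sh σ) → CT.VV σ} (hp : ∀ i, p i ∈ Pol σ.1 σ.2) {A B : ℝ}
    (hs : LocS.SepB ⊤ (g d σ.1 σ.2) (aform d σ b P) p A B) :
    ∃ p' : Fin l → CT.VV σ, CT.SepP d σ l p' A B b P := by
  by_cases hσ : σ = (0, 0)
  · subst hσ
    have hsh : Main.sh (0, 0) = 1 := rfl
    have hsep := sep_of_frame hs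
    have e0 : aform d (0, 0) b P = Q 0 0 hP b := Clu.aform_eq (0, 0) b hP
    obtain ⟨p', hli, hmem, hone, hred⟩ := CR.exists_red (V := VS 0 0) (g := g d 0 0)
      (a := Q 0 0 hP b) g_symm (fun v hv => g_pos hv) (one := one) one_ne_zero' (l := l) (p := p)
      hs.li (Q_nonneg hP b) (Q_one hP b) (A := A) (B := B) (by rw [← e0]; exact hsep)
    have hR := hred (Q 0 0 hP b) (Q_symm hP b) (Q_nonneg hP b) (Q_one hP b) A B
      (by rw [← e0]; exact hsep)
    refine ⟨p', ⟨fun i => ?_, fun i _ => hone i, hli, hR.lt, hR.le, fun v hv hvp =>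
      hR.ge v (hv rfl) hvp⟩⟩
    have h1 : Submodule.span ℝ (Set.range p) ≤ Pol 0 0 := by
      rw [Submodule.span_le]
      rintro _ ⟨j, rfl⟩
      exact hp j
    exact h1 (hmem i)
  · have hsh : Main.sh σ = 0 := by unfold Main.sh; rw [if_neg hσ]
    have e0 : aform d σ b P = Q σ.1 σ.2 hP b := Clu.aform_eq σ b hP
    have key : ∀ (n : ℕ), n = 0 → ∀ p : Fin (l + n) → CT.VV σ, (∀ i, p i ∈ Pol σ.1 σ.2) →
        LocS.SepB ⊤ (g d σ.1 σ.2) (aform d σ b P) p A B →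
        ∃ p' : Fin l → CT.VV σ, CT.SepP d σ l p' A B b P := by
      rintro _ rfl p hp hs
      rw [e0] at hs
      exact ⟨p, ⟨hp, fun i h => absurd h hσ, hs.li, hs.lt, hs.le, fun v _ hv =>
        hs.ge v Submodule.mem_top hv⟩⟩
    exact key _ hsh p hp hs

theorem prof_zero_eq {Xa Xb : ℝ} (h : ℝ → ℝ) (b : ℝ) :
    prof h b (0 : ℕ →₀ TF Xa Xb) = CT.PF h b fun _ _ => 0 := by
  funext z
  simp [prof, CT.PF, Gf]

/-- **the clause `home`** of `COut`, for all sharp tips -/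
theorem home_clause {m : ℕ} {v : ℝ} {k : ℕ} (D : Main.CountData m v k) {Xa Xb : ℝ}
    (ha : 0 < Xa) (hab : Xa < Xb) (hb : Xb < 1) {hs : ℕ → ℝ → ℝ} {ε : ℕ → ℝ}
    (H : Tips Xb hs ε) {εh : ℝ} (hεh : 0 < εh) :
    ∀ᶠ n in atTop, ∀ σ ∈ D.S, ∀ l, D.i0 σ ≤ l → l ≤ D.N σ →
      ∃ (p : Fin l → CT.VV σ) (A B : ℝ),
        CT.SepP m σ l p A B D.b0 (CT.PF (hs n) D.b0 fun _ _ => 0) ∧
          A ≤ CT.homeLev D σ (l - 1) + εh ∧ CT.homeLev D σ l - εh ≤ B := by
  have hb0 : 1 ≤ D.b0 := D.b0_gt.le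
  have hb0' : 0 < D.b0 := by linarith
  set F := fam m hb0 D.b01.le H ha hab hb with hF
  rw [Filter.eventually_all_finset]
  intro σ hσS
  have hOK := D.secOK σ hσS
  obtain ⟨he, hm, hsur⟩ := D.enum σ.2 hOK.1
  have key : ∀ l ∈ Finset.range (D.N σ + 1), ∀ᶠ n in atTop, D.i0 σ ≤ l →
      ∃ (p : Fin l → CT.VV σ) (A B : ℝ),
        CT.SepP m σ l p A B D.b0 (CT.PF (hs n) D.b0 fun _ _ => 0) ∧
          A ≤ CT.homeLev D σ (l - 1) + εh ∧ CT.homeLev D σ l - εh ≤ B := by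
    intro l _
    by_cases hl : D.i0 σ ≤ l
    swap
    · exact Filter.Eventually.of_forall fun n h => absurd h hl
    have hl1 : 1 ≤ l := (D.i0_pos σ hσS).trans hl
    set s := Main.sh σ with hs'
    have el : l + s - 1 = l - 1 + s := by omega
    set gap : ℝ := SF.lev m σ.1 D.b0 (D.e σ.2 (l + s)) - SF.lev m σ.1 D.b0 (D.e σ.2 (l + s - 1))
      with hgap
    have hgap0 : 0 < gap := sub_pos.2 (SF.lev_lt hb0' (hm (by omega : l + s - 1 < l + s)))
    set ε1 : ℝ := min (εh / 2) (gap / 8) with hε1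
    have hε10 : 0 < ε1 := lt_min (by positivity) (by positivity)
    have hε11 : 2 * ε1 ≤ εh := by have := min_le_left (εh / 2) (gap / 8); linarith
    have hε12 : 8 * ε1 ≤ gap := by have := min_le_right (εh / 2) (gap / 8); linarith
    obtain ⟨K, hK⟩ := F.home_sep hb0' D.b01.le hOK he hm hsur (l := l + s) (by omega) hε10
      (by linarith)
    filter_upwards [eventually_ge_atTop K] with n hn _
    have hsep := hK n hn
    have heig := F.eig σ hOK D.b0 ⟨le_rfl, D.b01.le⟩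
    -- the frame
    set f : Fin (l + s) → CT.VV σ := fun i => F.ψ σ D.b0 ⟨D.e σ.2 i, he i⟩ with hf
    have hli : LinearIndependent ℝ f := by
      refine (SF.eig_li heig).comp (fun i : Fin (l + s) => (⟨D.e σ.2 i, he i⟩ : SF.Lbl σ.2)) ?_
      intro i j hij
      have h1 : D.e σ.2 i = D.e σ.2 j := congrArg Subtype.val hij
      exact Fin.ext (hm.injective (by simp only [h1]))
    have hB : LocS.SepB ⊤ (g m σ.1 σ.2) (aform m σ D.b0 (prof (hs n) D.b0 (0 : ℕ →₀ TF Xa Xb))) f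
        (SF.lev m σ.1 D.b0 (D.e σ.2 (l + s - 1)) + ε1)
        (SF.lev m σ.1 D.b0 (D.e σ.2 (l + s)) - ε1) := by
      refine ⟨fun _ => Submodule.mem_top, hli, hsep.lt, hsep.le, fun w _ hw => hsep.ge w ?_⟩
      intro u hu
      obtain ⟨x, rfl⟩ := (LocS.mem_span_iff (V := CT.VV σ) (f := f)).1 hu
      refine (LocS.g_cmb _ _ _ _).trans (Finset.sum_eq_zero fun i _ => ?_)
      exact mul_eq_zero_of_right _ (hw i)
    rw [prof_zero_eq] at hB
    have hadm : Adm m (D.b0 + 2) (CT.PF (hs n) D.b0 fun _ _ => 0) := by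
      rw [← prof_zero_eq (Xa := Xa) (Xb := Xb)]
      refine adm_prof m (H.meas n) (H.nonneg n) (H.le_one n) hb0 le_rfl ?_
      have h0 : jetN (0 : ℕ →₀ TF Xa Xb) = 0 := F.sz_zero_home
      rw [h0]; norm_num
    obtain ⟨p, hp, -, hev⟩ := open_local (d := m) (σ := σ) (X := Unit) (b := fun _ => D.b0)
      (P := fun _ => CT.PF (hs n) D.b0 fun _ _ => 0) (x0 := ()) (β := D.b0) ⟨hb0, le_rfl⟩ hadm
      (Filter.Eventually.of_forall fun _ => hadm)
      (fun δ hδ => Filter.Eventually.of_forall fun _ w => by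
        rw [sub_self, abs_zero]
        exact mul_nonneg hδ.le ((sn_href m σ.1 σ.2).nn w))
      hB (fun i ε hε => exists_pol_near_psiN m σ hb0 _ hε)
      (A' := SF.lev m σ.1 D.b0 (D.e σ.2 (l + s - 1)) + 2 * ε1)
      (B' := SF.lev m σ.1 D.b0 (D.e σ.2 (l + s)) - 2 * ε1) (by linarith) (by linarith)
      (by linarith)
    obtain ⟨p', hp'⟩ := exists_sepP hadm hp hev.self_of_nhds.2
    refine ⟨p', _, _, hp', ?_, ?_⟩
    · have e : CT.homeLev D σ (l - 1) = SF.lev m σ.1 D.b0 (D.e σ.2 (l + s - 1)) := by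
        rw [el]; rfl
      rw [e]; linarith
    · have e : CT.homeLev D σ l = SF.lev m σ.1 D.b0 (D.e σ.2 (l + s)) := rfl
      rw [e]; linarith
  have h2 := (Filter.eventually_all_finset _).2 key
  filter_upwards [h2] with n hn l hl hlN
  exact hn l (Finset.mem_range.2 (by omega)) hl

end Crest.Agent.R202.HomeC
end
end

-- ▼ part R202/GatePath
section

/-!
# Row 202, PART C: the approach path avoiding the resonances
-/

set_option autoImplicit false

noncomputable section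

open Filter Topology Set Module
open scoped InnerProductSpace
open Crest.Agent.R202.Lab Crest.Agent.R202.Cut Crest.Agent.R202.Jac

namespace Crest.Agent.R202.SF

variable {d : ℕ} {b0 b1 : ℝ} {OK : ℕ × ℕ → Prop} {T : Type*} [AddCommGroup T] [Module ℝ T]
  {V : ℕ × ℕ → Type*} [∀ σ, AddCommGroup (V σ)] [∀ σ, Module ℝ (V σ)]

/-- a polygon from `(y1, 0)` to `(y2, 0)` along which all cuts stay open -/
def Reach (F : SpindleFamily d b0 b1 OK T V) (S : Finset (ℕ × ℕ)) (N : ℕ × ℕ → ℕ) (δ y1 y2 : ℝ) :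
    Prop :=
  ∃ (r : ℕ) (vb : ℕ → ℝ) (G : ℕ → (ℕ →₀ T)) (K : ℕ), vb 0 = y1 ∧ G 0 = 0 ∧
    vb r = y2 ∧ G r = 0 ∧ (∀ i, vb i ∈ Icc b0 b1 ∧ G i 0 = 0 ∧ F.sz (G i) ≤ δ) ∧
    ∀ k, K ≤ k → ∀ i < r, ∀ s ∈ Icc (0 : ℝ) 1, ∀ σ ∈ S, ∀ l ≤ N σ,
      F.OpenAt σ ((1 - s) * vb i + s * vb (i + 1)) ((1 - s) • G i + s • G (i + 1)) k l

/-- a path from `y1` to `y2` along which all cuts stay open -/
def Approach (F : SpindleFamily d b0 b1 OK T V) : Prop :=
  ∀ (S : Finset (ℕ × ℕ)) (N : ℕ × ℕ → ℕ), (∀ σ ∈ S, OK σ ∧ σ.2 ≤ 1) → ∀ δ : ℝ, 0 < δ →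
  ∀ y1 ∈ Icc b0 b1, ∀ y2 ∈ Icc b0 b1, y1 ≤ y2 → (∀ σ ∈ S, ∀ l ≤ N σ, ¬ Closed y1 σ.2 l) →
    (∀ σ ∈ S, ∀ l ≤ N σ, ¬ Closed y2 σ.2 l) → Reach F S N δ y1 y2

variable {F : SpindleFamily d b0 b1 OK T V}

theorem SpindleFamily.sz_zero (F : SpindleFamily d b0 b1 OK T V) : F.sz 0 = 0 := by
  have := F.sz_smul 0 0
  rwa [zero_smul, abs_zero, zero_mul] at this

theorem Reach.trans {S : Finset (ℕ × ℕ)} {N : ℕ × ℕ → ℕ} {δ y1 y2 y3 : ℝ}
    (h : Reach F S N δ y1 y2) (h' : Reach F S N δ y2 y3) : Reach F S N δ y1 y3 := by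
  obtain ⟨r, vb, G, K, h1, h2, h3, h4, h5, h6⟩ := h
  obtain ⟨r', vb', G', K', h1', h2', h3', h4', h5', h6'⟩ := h'
  have hv : ∀ j, (if r + j ≤ r then vb (r + j) else vb' (r + j - r)) = vb' j := by
    intro j
    rcases Nat.eq_zero_or_pos j with rfl | hj
    · rw [add_zero, if_pos le_rfl, h3, h1']
    · rw [if_neg (by omega), Nat.add_sub_cancel_left]
  have hG : ∀ j, (if r + j ≤ r then G (r + j) else G' (r + j - r)) = G' j := by
    intro j
    rcases Nat.eq_zero_or_pos j with rfl | hj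
    · rw [add_zero, if_pos le_rfl, h4, h2']
    · rw [if_neg (by omega), Nat.add_sub_cancel_left]
  refine ⟨r + r', fun i => if i ≤ r then vb i else vb' (i - r),
    fun i => if i ≤ r then G i else G' (i - r), max K K', ?_, ?_, ?_, ?_, ?_, ?_⟩
  · simp only [Nat.zero_le, if_true]; exact h1
  · simp only [Nat.zero_le, if_true]; exact h2
  · exact (hv r').trans h3'
  · exact (hG r').trans h4'
  · intro i
    by_cases hi : i ≤ r
    · simp only [hi, if_true]; exact h5 i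
    · simp only [hi, if_false]; exact h5' _
  · intro k hk i hi s hs σ hσ l hl
    rcases lt_or_ge i r with hir | hir
    · simp only [hir.le, if_true, (by omega : i + 1 ≤ r)]
      exact h6 k ((le_max_left _ _).trans hk) i hir s hs σ hσ l hl
    · obtain ⟨j, rfl⟩ : ∃ j, i = r + j := ⟨i - r, by omega⟩
      have e1 := hv j
      have e2 := hv (j + 1)
      have e3 := hG j
      have e4 := hG (j + 1)
      simp only [← add_assoc] at e2 e4
      simp only
      rw [e1, e2, e3, e4]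
      exact h6' k ((le_max_right _ _).trans hk) j (by omega) s hs σ hσ l hl

/-- straight edge over an interval without resonance -/
theorem reach_straight (hb0 : 0 < b0) {S : Finset (ℕ × ℕ)} {N : ℕ × ℕ → ℕ}
    (hS : ∀ σ ∈ S, OK σ ∧ σ.2 ≤ 1) {δ : ℝ} (hδ : 0 < δ) {y1 y2 : ℝ} (h1 : y1 ∈ Icc b0 b1)
    (h2 : y2 ∈ Icc b0 b1) (h12 : y1 ≤ y2)
    (hnc : ∀ y ∈ Icc y1 y2, ∀ σ ∈ S, ∀ l ≤ N σ, ¬ Closed y σ.2 l) : Reach F S N δ y1 y2 := by
  classical
  have hsub : Icc y1 y2 ⊆ Icc b0 b1 := Icc_subset_Icc h1.1 h2.2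
  have hcpt : ∀ᶠ k in atTop, ∀ y ∈ Icc y1 y2, ∀ σ ∈ S, ∀ l ≤ N σ, F.OpenAt σ y 0 k l := by
    refine isCompact_Icc.induction_on (p := fun s => ∀ᶠ k in atTop, ∀ y ∈ s, ∀ σ ∈ S, ∀ l ≤ N σ,
      F.OpenAt σ y 0 k l) ?_ ?_ ?_ ?_
    · exact Eventually.of_forall fun k y hy => absurd hy (Set.notMem_empty y)
    · intro s t hst h
      filter_upwards [h] with k hk y hy using hk y (hst hy)
    · intro s t h h'
      filter_upwards [h, h'] with k hk hk' y hy
      rcases hy with hy | hy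
      · exact hk y hy
      · exact hk' y hy
    · intro y hy
      have key : ∀ᶠ z : ℝ × ℕ in 𝓝[Icc y1 y2] y ×ˢ atTop, ∀ σ ∈ S, ∀ l ∈ Finset.range (N σ + 1),
          F.OpenAt σ z.1 0 z.2 l := by
        rw [Filter.eventually_all_finset]
        intro σ hσ
        rw [Filter.eventually_all_finset]
        intro l hl
        obtain ⟨δ1, hδ1, K, hK⟩ := F.local_open hb0 (hS σ hσ).1 (hsub hy)
          (hnc y hy σ hσ l (by simpa [Nat.lt_succ_iff] using hl))
        have e1 : ∀ᶠ z : ℝ in 𝓝[Icc y1 y2] y, z ∈ Icc b0 b1 ∧ |z - y| ≤ δ1 := by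
          have e2 : ∀ᶠ z : ℝ in 𝓝 y, |z - y| ≤ δ1 := by
            filter_upwards [Metric.closedBall_mem_nhds y hδ1] with z hz
            rwa [Metric.mem_closedBall, Real.dist_eq] at hz
          filter_upwards [self_mem_nhdsWithin, mem_nhdsWithin_of_mem_nhds e2] with z hz hz'
          exact ⟨hsub hz, hz'⟩
        filter_upwards [e1.prod_mk (eventually_ge_atTop K)] with z hz
        exact hK z.1 hz.1.1 hz.1.2 0 (by simp) (by rw [F.sz_zero]; exact hδ1.le) z.2 hz.2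
      rw [Filter.eventually_prod_iff] at key
      obtain ⟨pa, hpa, pb, hpb, hab⟩ := key
      refine ⟨{z | pa z}, hpa, ?_⟩
      filter_upwards [hpb] with k hk z hz σ hσ l hl
      exact hab hz hk σ hσ l (by simpa [Nat.lt_succ_iff] using hl)
  obtain ⟨K, hK⟩ := eventually_atTop.1 hcpt
  refine ⟨1, fun i => if i = 0 then y1 else y2, fun _ => 0, K, by simp, rfl, by simp, rfl, ?_, ?_⟩
  · intro i
    refine ⟨?_, rfl, by rw [F.sz_zero]; exact hδ.le⟩
    simp only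
    split_ifs
    · exact h1
    · exact h2
  · intro k hk i hi s hs σ hσ l hl
    obtain rfl : i = 0 := by omega
    simp only [if_true, zero_add, one_ne_zero, if_false, smul_zero, add_zero]
    refine hK k hk _ ?_ σ hσ l hl
    have e1 := hs.1
    have e2 := hs.2
    constructor
    · nlinarith
    · nlinarith

/-- detour around a resonance -/
theorem reach_detour (hb0 : 0 < b0) (hP : MatPass F) {S : Finset (ℕ × ℕ)} {N : ℕ × ℕ → ℕ}
    (hS : ∀ σ ∈ S, OK σ ∧ σ.2 ≤ 1) {δ : ℝ} (hδ : 0 < δ) {β : ℝ} (hβ : β ∈ Ioo b0 b1) {s0 l0 : ℕ}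
    (hcl : Closed β s0 l0) :
    ∃ ε0 : ℝ, 0 < ε0 ∧ ∀ ε : ℝ, 0 < ε → ε ≤ ε0 → Reach F S N δ (β - ε) (β + ε) := by
  obtain ⟨a, c, ha, hc, hcop, rfl, -⟩ := exists_cls (hb0.trans hβ.1) hcl
  obtain ⟨G, hG0, hG⟩ := hP a c ha hc hcop hβ S N hS
  obtain ⟨ε0, hε0, h⟩ := F.unif_all hb0 ha hcop hβ S N hS (fun _ _ => True)
    (Z := (({-1} : Set ℝ) ×ˢ Icc (0 : ℝ) 1 ∪ ({1} : Set ℝ) ×ˢ Icc (0 : ℝ) 1) ∪
      Icc (-1 : ℝ) 1 ×ˢ ({1} : Set ℝ))
    (((isCompact_singleton.prod isCompact_Icc).union (isCompact_singleton.prod isCompact_Icc)).union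
      (isCompact_Icc.prod isCompact_singleton))
    0 G (by simp) hG0
    (by
      intro σ hσ l hl _ C z hz
      rw [zero_add]
      rcases hz with (⟨hz1, hz2⟩ | ⟨hz1, hz2⟩) | ⟨hz1, hz2⟩
      · exact hG σ hσ l hl C z.1 z.2 hz2.1 (Or.inl (by rw [mem_singleton_iff.1 hz1]; norm_num))
      · exact hG σ hσ l hl C z.1 z.2 hz2.1 (Or.inl (by rw [mem_singleton_iff.1 hz1]; norm_num))
      · have h1 : z.2 = 1 := mem_singleton_iff.1 hz2
        exact hG σ hσ l hl C z.1 z.2 (by rw [h1]; norm_num) (Or.inr (by rw [h1]; norm_num)))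
    hδ
  refine ⟨ε0, hε0, fun ε hε hεle => ?_⟩
  obtain ⟨K, hK⟩ := h ε hε hεle
  set β : ℝ := 2 * (c : ℝ) / a with hβdef
  have hm1 : ((-1 : ℝ), (1 : ℝ)) ∈ ((({-1} : Set ℝ) ×ˢ Icc (0 : ℝ) 1 ∪
      ({1} : Set ℝ) ×ˢ Icc (0 : ℝ) 1) ∪ Icc (-1 : ℝ) 1 ×ˢ ({1} : Set ℝ)) :=
    Or.inl (Or.inl ⟨rfl, by norm_num, le_rfl⟩)
  have hp1 : ((1 : ℝ), (1 : ℝ)) ∈ ((({-1} : Set ℝ) ×ˢ Icc (0 : ℝ) 1 ∪
      ({1} : Set ℝ) ×ˢ Icc (0 : ℝ) 1) ∪ Icc (-1 : ℝ) 1 ×ˢ ({1} : Set ℝ)) :=
    Or.inl (Or.inr ⟨rfl, by norm_num, le_rfl⟩)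
  have hI1 : β - ε ∈ Icc b0 b1 := by
    have := (hK K le_rfl _ hm1).1
    have e : β + ε * ((-1 : ℝ), (1 : ℝ)).1 = β - ε := by simp only; ring
    rwa [e] at this
  have hI2 : β + ε ∈ Icc b0 b1 := by
    have := (hK K le_rfl _ hp1).1
    have e : β + ε * ((1 : ℝ), (1 : ℝ)).1 = β + ε := by simp only; ring
    rwa [e] at this
  have hsz : F.sz (ε • G) ≤ δ := by
    have := (hK K le_rfl _ hp1).2.1
    simpa using this
  refine ⟨3, fun i => if i ≤ 1 then β - ε else β + ε, fun i => if i = 1 ∨ i = 2 then ε • G else 0,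
    K, by simp, by simp, by simp, by simp, ?_, ?_⟩
  · intro i
    refine ⟨?_, ?_, ?_⟩
    · simp only
      split_ifs
      · exact hI1
      · exact hI2
    · simp only
      split_ifs
      · simp [hG0]
      · simp
    · simp only
      split_ifs
      · exact hsz
      · rw [F.sz_zero]; exact hδ.le
  · intro k hk i hi s hs σ hσ l hl
    interval_cases i
    · have h1 := (hK k hk (-1, s) (Or.inl (Or.inl ⟨rfl, hs⟩))).2.2 σ hσ l hl trivial
      have e1 : (1 - s) * (β - ε) + s * (β - ε) = β + ε * ((-1 : ℝ), s).1 := by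
        simp only; ring
      have e2 : (1 - s) • (0 : ℕ →₀ T) + s • ε • G = ε • (0 + ((-1 : ℝ), s).2 • G) := by
        rw [smul_zero, zero_add, zero_add, smul_comm]
      show F.OpenAt σ ((1 - s) * (β - ε) + s * (β - ε)) ((1 - s) • (0 : ℕ →₀ T) + s • ε • G) k l
      rw [e1, e2]
      exact h1
    · have hz : 2 * s - 1 ∈ Icc (-1 : ℝ) 1 := ⟨by linarith [hs.1], by linarith [hs.2]⟩
      have h1 := (hK k hk (2 * s - 1, 1) (Or.inr ⟨hz, rfl⟩)).2.2 σ hσ l hl trivial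
      have e1 : (1 - s) * (β - ε) + s * (β + ε) = β + ε * (2 * s - 1, (1 : ℝ)).1 := by
        simp only; ring
      have e2 : (1 - s) • ε • G + s • ε • G = ε • (0 + (2 * s - 1, (1 : ℝ)).2 • G) := by
        rw [← add_smul]; simp
      show F.OpenAt σ ((1 - s) * (β - ε) + s * (β + ε)) ((1 - s) • ε • G + s • ε • G) k l
      rw [e1, e2]
      exact h1
    · have h1 := (hK k hk (1, 1 - s) (Or.inl (Or.inr ⟨rfl, by linarith [hs.2],
        by linarith [hs.1]⟩))).2.2 σ hσ l hl trivial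
      have e1 : (1 - s) * (β + ε) + s * (β + ε) = β + ε * ((1 : ℝ), 1 - s).1 := by
        simp only; ring
      have e2 : (1 - s) • ε • G + s • (0 : ℕ →₀ T) = ε • (0 + ((1 : ℝ), 1 - s).2 • G) := by
        rw [smul_zero, add_zero, zero_add, smul_comm]
      show F.OpenAt σ ((1 - s) * (β + ε) + s * (β + ε)) ((1 - s) • ε • G + s • (0 : ℕ →₀ T)) k l
      rw [e1, e2]
      exact h1

/-- **the approach path** -/
theorem approach (hb0 : 0 < b0) (hP : MatPass F) : Approach F := by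
  classical
  intro S N hS δ hδ
  have hfin : {b : ℝ | b ∈ Icc b0 b1 ∧ ∃ σ ∈ S, ∃ l ≤ N σ, Closed b σ.2 l}.Finite := by
    refine (finite_closed_le (b1 := b1) hb0 (S.sup N)).subset ?_
    rintro b ⟨hb, σ, hσ, l, hl, hcl⟩
    exact ⟨hb, σ.2, (hS σ hσ).2, l, hl.trans (Finset.le_sup hσ), hcl⟩
  set R : Finset ℝ := hfin.toFinset with hR
  have hmemR : ∀ b, b ∈ R ↔ b ∈ Icc b0 b1 ∧ ∃ σ ∈ S, ∃ l ≤ N σ, Closed b σ.2 l := by
    intro b; rw [hR, Set.Finite.mem_toFinset]; rfl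
  have main : ∀ n : ℕ, ∀ y1 ∈ Icc b0 b1, ∀ y2 ∈ Icc b0 b1, y1 ≤ y2 → y1 ∉ R → y2 ∉ R →
      (R.filter fun b => b ∈ Ioo y1 y2).card ≤ n → Reach F S N δ y1 y2 := by
    intro n
    induction n with
    | zero =>
      intro y1 h1 y2 h2 h12 hn1 hn2 hcard
      refine reach_straight hb0 hS hδ h1 h2 h12 fun y hy σ hσ l hl hcl => ?_
      have hyR : y ∈ R := (hmemR y).2 ⟨⟨h1.1.trans hy.1, hy.2.trans h2.2⟩, σ, hσ, l, hl, hcl⟩
      have hne1 : y1 ≠ y := fun h => hn1 (h ▸ hyR)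
      have hne2 : y ≠ y2 := fun h => hn2 (h ▸ hyR)
      have : y ∈ R.filter fun b => b ∈ Ioo y1 y2 :=
        Finset.mem_filter.2 ⟨hyR, lt_of_le_of_ne hy.1 hne1, lt_of_le_of_ne hy.2 hne2⟩
      rw [Finset.card_eq_zero.1 (Nat.le_zero.1 hcard)] at this
      exact absurd this (Finset.notMem_empty y)
    | succ n ih =>
      intro y1 h1 y2 h2 h12 hn1 hn2 hcard
      rcases (R.filter fun b => b ∈ Ioo y1 y2).eq_empty_or_nonempty with he | ⟨β, hβ⟩
      · exact ih y1 h1 y2 h2 h12 hn1 hn2 (by rw [he]; simp)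
      obtain ⟨hβR, hβ1, hβ2⟩ := Finset.mem_filter.1 hβ
      obtain ⟨hβI, σ, hσ, l, hl, hcl⟩ := (hmemR β).1 hβR
      have hβI' : β ∈ Ioo b0 b1 := ⟨h1.1.trans_lt hβ1, hβ2.trans_le h2.2⟩
      obtain ⟨ε0, hε0, hdet⟩ := reach_detour (N := N) hb0 hP hS hδ hβI' hcl
      -- choice of ε
      have hclosed : IsOpen ((R.erase β : Finset ℝ) : Set ℝ)ᶜ :=
        (R.erase β).finite_toSet.isClosed.isOpen_compl
      have hmem : β ∈ ((R.erase β : Finset ℝ) : Set ℝ)ᶜ := by simp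
      obtain ⟨η, hη, hball⟩ := Metric.isOpen_iff.1 hclosed β hmem
      set ε : ℝ := min (min ε0 (η / 2)) (min ((β - y1) / 2) ((y2 - β) / 2)) with hε
      have hεpos : 0 < ε := lt_min (lt_min hε0 (by positivity))
        (lt_min (by linarith) (by linarith))
      have hεa : ε ≤ ε0 := (min_le_left _ _).trans (min_le_left _ _)
      have hεb : ε ≤ η / 2 := (min_le_left _ _).trans (min_le_right _ _)
      have hεc : ε ≤ (β - y1) / 2 := (min_le_right _ _).trans (min_le_left _ _)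
      have hεd : ε ≤ (y2 - β) / 2 := (min_le_right _ _).trans (min_le_right _ _)
      have hnR : ∀ y : ℝ, y ≠ β → |y - β| < η → y ∉ R := by
        intro y hy1 hy2 hyR
        have : y ∈ ((R.erase β : Finset ℝ) : Set ℝ)ᶜ := hball (by
          rw [Metric.mem_ball, Real.dist_eq]; exact hy2)
        exact this (by simp [hy1, hyR])
      have hm : β - ε ∉ R := hnR _ (by linarith) (by
        rw [show β - ε - β = -ε by ring, abs_neg, abs_of_pos hεpos]; linarith)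
      have hp : β + ε ∉ R := hnR _ (by linarith) (by
        rw [show β + ε - β = ε by ring, abs_of_pos hεpos]; linarith)
      have hmI : β - ε ∈ Icc b0 b1 := ⟨by linarith [h1.1], by linarith [hβI.2]⟩
      have hpI : β + ε ∈ Icc b0 b1 := ⟨by linarith [hβI.1], by linarith [h2.2]⟩
      have hlt : ∀ z1 z2 : ℝ, y1 ≤ z1 → z2 ≤ y2 → (β ≤ z1 ∨ z2 ≤ β) →
          (R.filter fun b => b ∈ Ioo z1 z2).card ≤ n := by
        intro z1 z2 hz1 hz2 hz
        have hss : (R.filter fun b => b ∈ Ioo z1 z2) ⊂ R.filter fun b => b ∈ Ioo y1 y2 := by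
          rw [Finset.ssubset_iff_of_subset]
          · refine ⟨β, hβ, fun hcon => ?_⟩
            have := (Finset.mem_filter.1 hcon).2
            rcases hz with h | h
            · exact absurd this.1 (not_lt.2 h)
            · exact absurd this.2 (not_lt.2 h)
          · intro b hb
            obtain ⟨e1, e2, e3⟩ := Finset.mem_filter.1 hb
            exact Finset.mem_filter.2 ⟨e1, lt_of_le_of_lt hz1 e2, lt_of_lt_of_le e3 hz2⟩
        have := Finset.card_lt_card hss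
        omega
      have p1 := ih y1 h1 (β - ε) hmI (by linarith) hn1 hm
        (hlt _ _ le_rfl (by linarith) (Or.inr (by linarith)))
      have p3 := ih (β + ε) hpI y2 h2 (by linarith) hp hn2
        (hlt _ _ (by linarith) le_rfl (Or.inl (by linarith)))
      exact (p1.trans (hdet ε hεpos hεa)).trans p3
  intro y1 h1 y2 h2 h12 hn1 hn2
  refine main _ y1 h1 y2 h2 h12 ?_ ?_ le_rfl
  · intro h
    obtain ⟨-, σ, hσ, l, hl, hcl⟩ := (hmemR _).1 h
    exact hn1 σ hσ l hl hcl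
  · intro h
    obtain ⟨-, σ, hσ, l, hl, hcl⟩ := (hmemR _).1 h
    exact hn2 σ hσ l hl hcl

end Crest.Agent.R202.SF
end
end

-- ▼ part R202/JacTop
section

/-!
# Row 202, matrix part: the window theorem with isolated LAST label, and openness lemmas
-/

set_option autoImplicit false

open Filter Topology Module Matrix
open scoped InnerProductSpace

noncomputable section

namespace Crest.Agent.R202.Jac

theorem SepF.map {E E' : Type*} [NormedAddCommGroup E] [InnerProductSpace ℝ E]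
    [NormedAddCommGroup E'] [InnerProductSpace ℝ E'] (R : E ≃ₗᵢ[ℝ] E') {T : E →L[ℝ] E}
    {T' : E' →L[ℝ] E'} (hT : ∀ v, T' (R v) = R (T v)) {l : ℕ} {F : Fin l → E} {A B : ℝ}
    (h : SepF T F A B) : SepF T' (fun i => R (F i)) A B := by
  have hq : ∀ v', ⟪T' v', v'⟫_ℝ = ⟪T (R.symm v'), R.symm v'⟫_ℝ := by
    intro v'
    have : T' v' = R (T (R.symm v')) := by rw [← hT, R.apply_symm_apply]
    rw [this]
    conv_lhs => rw [← R.apply_symm_apply v']
    rw [R.inner_map_map, R.symm_apply_apply]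
  refine ⟨?_, h.lt, ?_, ?_⟩
  · exact h.li.map' R.toLinearEquiv.toLinearMap (LinearEquiv.ker _)
  · intro w hw
    rw [hq]
    have h1 : R.symm w ∈ Submodule.span ℝ (Set.range F) := by
      have : Set.range (fun i => R (F i)) = R.toLinearEquiv.toLinearMap '' Set.range F := by
        rw [← Set.range_comp]; rfl
      rw [this, ← Submodule.map_span] at hw
      obtain ⟨u, hu, rfl⟩ := hw
      have : R.symm (R.toLinearEquiv.toLinearMap u) = u := R.symm_apply_apply u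
      rw [this]
      exact hu
    have := h.le _ h1
    rwa [R.symm.norm_map] at this
  · intro v hv
    rw [hq]
    have := h.ge (R.symm v) (fun i => by
      rw [← R.inner_map_map, R.apply_symm_apply]; exact hv i)
    rwa [R.symm.norm_map] at this

/-- reversal of coordinates -/
def rv (n : ℕ) : ES n ≃ₗᵢ[ℝ] ES n := LinearIsometryEquiv.piLpCongrLeft 2 ℝ ℝ Fin.revPerm

theorem rv_apply {n : ℕ} (v : ES n) (i : Fin n) : rv n v i = v (Fin.rev i) := by
  simp [rv, LinearIsometryEquiv.piLpCongrLeft_apply, Equiv.piCongrLeft']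

theorem op_rev {n : ℕ} (J : Matrix (Fin n) (Fin n) ℝ) (v : ES n) :
    op (J.submatrix Fin.rev Fin.rev) (rv n v) = rv n (op J v) := by
  ext i
  rw [op_apply, rv_apply, op_apply]
  simp only [rv_apply, Matrix.submatrix_apply]
  exact Fintype.sum_equiv Fin.revPerm _ _ (fun j => by simp)

theorem op_rev' {n : ℕ} (J : Matrix (Fin n) (Fin n) ℝ) (v : ES n) :
    op J (rv n v) = rv n (op (J.submatrix Fin.rev Fin.rev) v) := by
  have := op_rev (J.submatrix Fin.rev Fin.rev) v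
  rw [Matrix.submatrix_submatrix] at this
  have e : (Fin.rev ∘ Fin.rev : Fin n → Fin n) = id := by
    funext i; simp
  rw [e, Matrix.submatrix_id_id] at this
  exact this

/-- link matrix of the two last labels -/
def Ytop (q : ℕ) : Matrix (Fin (q + 2)) (Fin (q + 2)) ℝ := (Y01 q).submatrix Fin.rev Fin.rev

/-- the pencil with the last link `y` -/
def MT {q : ℕ} (D : Fin (q + 2) → ℝ) (J : Matrix (Fin (q + 2)) (Fin (q + 2)) ℝ) (x y : ℝ) :
    Matrix (Fin (q + 2)) (Fin (q + 2)) ℝ := x • Matrix.diagonal D + J + y • Ytop q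

/-- hypotheses: last label isolated, all other links nonzero, `D` maximal at the last label -/
structure IsoT {q : ℕ} (D : Fin (q + 2) → ℝ) (J : Matrix (Fin (q + 2)) (Fin (q + 2)) ℝ) : Prop where
  lt : ∀ i : Fin (q + 1), D i.castSucc < D (Fin.last _)
  symm : ∀ i j, J i j = J j i
  iso : ∀ i : Fin (q + 1), J (Fin.last _) i.castSucc = 0
  far : ∀ i j : Fin (q + 1), i.1 + 2 ≤ j.1 → J i.castSucc j.castSucc = 0
  link : ∀ i j : Fin (q + 1), i.1 + 1 = j.1 → J i.castSucc j.castSucc ≠ 0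

theorem IsoT.iso' {q : ℕ} {D : Fin (q + 2) → ℝ} {J : Matrix (Fin (q + 2)) (Fin (q + 2)) ℝ}
    (h : IsoT D J) : Iso (fun i => -D (Fin.rev i)) (J.submatrix Fin.rev Fin.rev) where
  lt := fun i => by
    simp only [Fin.rev_zero]
    rw [Fin.rev_succ]
    exact neg_lt_neg (h.lt _)
  symm := fun i j => h.symm _ _
  iso := fun i => by
    simp only [Matrix.submatrix_apply, Fin.rev_zero]
    rw [Fin.rev_succ]
    exact h.iso _
  tri := by
    refine ⟨fun i j => h.symm _ _, fun i j hij => ?_, fun i j hij => ?_⟩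
    · simp only [rest, Matrix.submatrix_apply, Fin.rev_succ]
      rw [h.symm]
      apply h.far
      simp only [Fin.val_rev]
      have := i.2; have := j.2
      omega
    · simp only [rest, Matrix.submatrix_apply, Fin.rev_succ]
      rw [h.symm]
      apply h.link
      simp only [Fin.val_rev]
      have := i.2; have := j.2
      omega

theorem MT_eq {q : ℕ} (D : Fin (q + 2) → ℝ) (J : Matrix (Fin (q + 2)) (Fin (q + 2)) ℝ) (x y : ℝ) :
    (MT D J x y).submatrix Fin.rev Fin.rev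
      = Mxy (fun i => -D (Fin.rev i)) (J.submatrix Fin.rev Fin.rev) (-x) y := by
  ext i j
  simp only [MT, Mxy, Ytop, Matrix.submatrix_apply, Matrix.add_apply, Matrix.smul_apply,
    Fin.rev_rev, Matrix.diagonal_apply, Fin.rev_inj, smul_eq_mul]
  by_cases hij : i = j
  · simp [hij]
  · simp [hij]

/-- last coordinate vector -/
def eL {q : ℕ} : ES (q + 2) := EuclideanSpace.single (Fin.last _) 1

theorem rv_e0 {q : ℕ} : rv (q + 2) e0 = eL := by
  ext i
  rw [rv_apply]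
  simp only [e0, eL]
  by_cases h : i = Fin.last _
  · subst h; simp
  · have : Fin.rev i ≠ 0 := fun hh => h (by rw [← Fin.rev_rev i, hh, Fin.rev_zero])
    simp [h, this]

/-- rotating trial frame: `u_1, …, u_k, cos α • B - κ sin α • E` -/
def rotF {E : Type*} [NormedAddCommGroup E] [InnerProductSpace ℝ E] {k : ℕ} (u : Fin k → E)
    (B e : E) (α κ : ℝ) : Fin (k + 1) → E :=
  Fin.snoc u (Real.cos α • B - (κ * Real.sin α) • e)

theorem rv_frm {q : ℕ} (b : Fin (q + 1) → ES (q + 1)) (k : Fin (q + 1)) (α κ : ℝ) :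
    (fun i => rv (q + 2) (frm b k α κ i))
      = rotF (fun i : Fin k.1 => rv (q + 2) (inc (b ⟨i.1, by have := k.2; have := i.2; omega⟩)))
        (rv (q + 2) (inc (b k))) eL α κ := by
  funext i
  unfold rotF frm
  refine Fin.lastCases ?_ (fun i => ?_) i
  · rw [Fin.snoc_last]
    simp only [Fin.val_last, lt_irrefl, dite_false, ff, map_sub, map_smul, rv_e0]
  · rw [Fin.snoc_castSucc]
    have : i.castSucc.1 < k.1 := i.2
    simp only [this, dite_true]
    rfl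

/-- **window theorem**, last label isolated; the cut is `k + 1`, `0 ≤ k ≤ q` -/
theorem windowT {q : ℕ} {D : Fin (q + 2) → ℝ} {J : Matrix (Fin (q + 2)) (Fin (q + 2)) ℝ}
    (h : IsoT D J) (k : ℕ) (hk : k ≤ q) :
    ∃ (xc : ℝ) (u : Fin k → ES (q + 2)) (B : ES (q + 2)) (η₀ : ℝ),
      Orthonormal ℝ (Fin.snoc (Fin.snoc u B) eL : Fin (k + 2) → ES (q + 2)) ∧ 0 < η₀ ∧
      ∀ η, 0 < η → η ≤ η₀ → ∃ y₀ : ℝ, 0 < y₀ ∧ ∀ ybar, 0 < ybar → ybar ≤ y₀ → ∃ δ : ℝ, 0 < δ ∧
        (∀ y κ : ℝ, |y| ≤ ybar → (κ = 1 ∨ κ = -1) →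
          ∃ A, SepF (op (MT D J (xc + η) y)) (rotF u B eL 0 κ) A (A + δ)) ∧
        (∀ y κ : ℝ, |y| ≤ ybar → (κ = 1 ∨ κ = -1) →
          ∃ A, SepF (op (MT D J (xc - η) y)) (rotF u B eL (Real.pi / 2) κ) A (A + δ)) ∧
        (∀ t κ : ℝ, |t| ≤ 1 → (κ = 1 ∨ κ = -1) →
          ∃ A, SepF (op (MT D J (xc - t * η) (κ * ybar)))
            (rotF u B eL (Real.pi / 4 * (1 + t)) κ) A (A + δ)) ∧
        (∀ l : ℕ, 1 ≤ l → l ≤ q + 1 → l ≠ k + 1 → ∀ x y, |x - xc| ≤ η → |y| ≤ ybar →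
          ∃ (F : Fin l → ES (q + 2)) (A : ℝ), SepF (op (MT D J x y)) F A (A + δ)) := by
  have hkq : k < q + 1 := by omega
  obtain ⟨xc, b, η₀, hη₀, H⟩ := window h.iso' ⟨k, hkq⟩
  have hmap : ∀ x y v, op (MT D J x y) (rv (q + 2) v)
      = rv (q + 2) (op (Mxy (fun i => -D (Fin.rev i)) (J.submatrix Fin.rev Fin.rev) (-x) y) v) := by
    intro x y v
    rw [op_rev', MT_eq]
  refine ⟨-xc, fun i => rv (q + 2) (inc (b ⟨i.1, by have := i.2; omega⟩)),
    rv (q + 2) (inc (b ⟨k, hkq⟩)), η₀, ?_, hη₀, ?_⟩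
  · rw [orthonormal_iff_ite]
    have hbb : ∀ i j : Fin (q + 1), ⟪rv (q + 2) (inc (b i)), rv (q + 2) (inc (b j))⟫_ℝ
        = if i = j then 1 else 0 := by
      intro i j
      rw [LinearIsometryEquiv.inner_map_map, inner_inc]
      exact orthonormal_iff_ite.1 b.orthonormal i j
    have hbe : ∀ i : Fin (q + 1), ⟪rv (q + 2) (inc (b i)), eL⟫_ℝ = 0 := by
      intro i
      rw [← rv_e0, LinearIsometryEquiv.inner_map_map, real_inner_comm]
      exact inner_e0_inc _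
    have hee : ⟪(eL : ES (q + 2)), eL⟫_ℝ = 1 := by
      rw [← rv_e0, LinearIsometryEquiv.inner_map_map]
      exact inner_e0_e0
    intro i j
    refine Fin.lastCases ?_ (fun i => ?_) i
    · refine Fin.lastCases ?_ (fun j => ?_) j
      · simp only [Fin.snoc_last, hee, if_true]
      · rw [Fin.snoc_last, Fin.snoc_castSucc]
        have hne : (Fin.last (k + 1)) ≠ j.castSucc := (Fin.castSucc_lt_last j).ne'
        rw [if_neg hne, real_inner_comm]
        refine Fin.lastCases ?_ (fun j => ?_) j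
        · rw [Fin.snoc_last]; exact hbe _
        · rw [Fin.snoc_castSucc]; exact hbe _
    · refine Fin.lastCases ?_ (fun j => ?_) j
      · rw [Fin.snoc_last, Fin.snoc_castSucc]
        have hne : i.castSucc ≠ (Fin.last (k + 1)) := (Fin.castSucc_lt_last i).ne
        rw [if_neg hne]
        refine Fin.lastCases ?_ (fun i => ?_) i
        · rw [Fin.snoc_last]; exact hbe _
        · rw [Fin.snoc_castSucc]; exact hbe _
      · rw [Fin.snoc_castSucc, Fin.snoc_castSucc]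
        refine Fin.lastCases ?_ (fun i => ?_) i
        · refine Fin.lastCases ?_ (fun j => ?_) j
          · simp only [Fin.snoc_last, if_true]
            rw [hbb]; simp
          · rw [Fin.snoc_last, Fin.snoc_castSucc, hbb]
            have h1 : (⟨k, hkq⟩ : Fin (q + 1)) ≠ ⟨j.1, by have := j.2; omega⟩ := by
              intro hh
              have := congrArg Fin.val hh
              have := j.2
              simp at *
              omega
            rw [if_neg h1, if_neg]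
            intro hh
            have := congrArg Fin.val hh
            simp at this
            have := j.2
            omega
        · refine Fin.lastCases ?_ (fun j => ?_) j
          · rw [Fin.snoc_last, Fin.snoc_castSucc, hbb]
            have h1 : (⟨i.1, by have := i.2; omega⟩ : Fin (q + 1)) ≠ ⟨k, hkq⟩ := by
              intro hh
              have := congrArg Fin.val hh
              have := i.2
              simp at *
              omega
            rw [if_neg h1, if_neg]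
            intro hh
            have := congrArg Fin.val hh
            simp at this
            have := i.2
            omega
          · rw [Fin.snoc_castSucc, Fin.snoc_castSucc, hbb]
            by_cases hij : i = j
            · subst hij; simp
            · have h1 : (⟨i.1, by have := i.2; omega⟩ : Fin (q + 1))
                  ≠ ⟨j.1, by have := j.2; omega⟩ := by
                intro hh
                exact hij (Fin.ext (by simpa using congrArg Fin.val hh))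
              rw [if_neg h1, if_neg]
              intro hh
              apply hij
              have := congrArg Fin.val hh
              exact Fin.ext (by simpa using this)
  · intro η hη hηη
    obtain ⟨y₀, hy₀, H1⟩ := H η hη hηη
    refine ⟨y₀, hy₀, fun ybar hy hyy => ?_⟩
    obtain ⟨δ, hδ, hL, hR, hT, hO⟩ := H1 ybar hy hyy
    refine ⟨δ, hδ, ?_, ?_, ?_, ?_⟩
    · intro y κ hyb hκ
      obtain ⟨A, hA⟩ := hL y κ hyb hκ
      refine ⟨A, ?_⟩
      have := hA.map (rv (q + 2)) (T' := op (MT D J (-xc + η) y)) (fun v => by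
        rw [hmap, show -(-xc + η) = xc - η by ring])
      rw [rv_frm] at this
      exact this
    · intro y κ hyb hκ
      obtain ⟨A, hA⟩ := hR y κ hyb hκ
      refine ⟨A, ?_⟩
      have := hA.map (rv (q + 2)) (T' := op (MT D J (-xc - η) y)) (fun v => by
        rw [hmap, show -(-xc - η) = xc + η by ring])
      rw [rv_frm] at this
      exact this
    · intro t κ ht hκ
      obtain ⟨A, hA⟩ := hT t κ ht hκ
      refine ⟨A, ?_⟩
      have := hA.map (rv (q + 2)) (T' := op (MT D J (-xc - t * η) (κ * ybar))) (fun v => by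
        rw [hmap, show -(-xc - t * η) = xc + t * η by ring])
      rw [rv_frm] at this
      exact this
    · intro l hl hl' hlk x y hx hyb
      obtain ⟨F, A, hA⟩ := hO l hl hl' hlk (-x) y (by
        rw [show -x - xc = -(x - -xc) by ring, abs_neg]; exact hx) hyb
      refine ⟨fun i => rv (q + 2) (F i), A, ?_⟩
      exact hA.map (rv (q + 2)) (fun v => hmap x y v)

/-- all cuts of a Jacobi matrix with nonzero links are open -/
theorem Tri.sep {p : ℕ} {J : Matrix (Fin (p + 1)) (Fin (p + 1)) ℝ} (hJ : Tri J) {l : ℕ}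
    (hl : 1 ≤ l) (hl' : l ≤ p) : ∃ (F : Fin l → ES (p + 1)) (A B : ℝ), SepF (op J) F A B := by
  obtain ⟨b, μ, hμ, hb, -⟩ := hJ.exists_basis
  have h1 : l - 1 < p + 1 := by omega
  have h2 : l < p + 1 := by omega
  refine ⟨_, μ ⟨l - 1, h1⟩, μ ⟨l, h2⟩, sepF_of_basis (l := l) (by omega) b hb
    (hμ (by rw [Fin.lt_def]; simp; omega)) ?_ ?_⟩
  · intro i hi
    exact hμ.monotone (by rw [Fin.le_def]; simp; omega)
  · intro i hi
    exact hμ.monotone (by rw [Fin.le_def]; simpa using hi)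

/-- all cuts of a diagonal matrix with strictly increasing entries are open -/
theorem diag_sep {p : ℕ} {D : Fin (p + 1) → ℝ} (hD : StrictMono D) {l : ℕ}
    (hl : 1 ≤ l) (hl' : l ≤ p) :
    ∃ (F : Fin l → ES (p + 1)) (A B : ℝ), SepF (op (Matrix.diagonal D)) F A B := by
  have h1 : l - 1 < p + 1 := by omega
  have h2 : l < p + 1 := by omega
  refine ⟨_, D ⟨l - 1, h1⟩, D ⟨l, h2⟩, sepF_of_basis (l := l) (by omega)
    (EuclideanSpace.basisFun (Fin (p + 1)) ℝ) (μ := D) ?_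
    (hD (by rw [Fin.lt_def]; simp; omega)) ?_ ?_⟩
  · intro i
    ext j
    rw [op_apply]
    simp [Matrix.diagonal_apply, EuclideanSpace.basisFun_apply, Pi.single_apply, eq_comm]
    by_cases hij : i = j
    · subst hij; simp
    · simp [hij]
  · intro i hi
    exact hD.monotone (by rw [Fin.le_def]; simp; omega)
  · intro i hi
    exact hD.monotone (by rw [Fin.le_def]; simpa using hi)

/-- compactness: uniform gap -/
theorem uniform_gap {X : Type*} [TopologicalSpace X] {E : Type*} [NormedAddCommGroup E]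
    [InnerProductSpace ℝ E] {K : Set X} (hK : IsCompact K) {T : X → E →L[ℝ] E}
    (hT : ContinuousOn T K) {l : ℕ} (h : ∀ x ∈ K, ∃ (F : Fin l → E) (A B : ℝ), SepF (T x) F A B) :
    ∃ δ : ℝ, 0 < δ ∧ ∀ x ∈ K, ∃ (F : Fin l → E) (A : ℝ), SepF (T x) F A (A + δ) := by
  refine hK.induction_on (p := fun s => ∃ δ : ℝ, 0 < δ ∧ ∀ x ∈ s ∩ K,
    ∃ (F : Fin l → E) (A : ℝ), SepF (T x) F A (A + δ)) ?_ ?_ ?_ ?_ |>.imp
    (fun δ hδ => ⟨hδ.1, fun x hx => hδ.2 x ⟨hx, hx⟩⟩)
  · exact ⟨1, one_pos, fun x hx => absurd hx.1 (Set.notMem_empty x)⟩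
  · rintro s t hst ⟨δ, hδ, H⟩
    exact ⟨δ, hδ, fun x hx => H x ⟨hst hx.1, hx.2⟩⟩
  · rintro s t ⟨δ, hδ, H⟩ ⟨δ', hδ', H'⟩
    refine ⟨min δ δ', lt_min hδ hδ', fun x hx => ?_⟩
    rcases hx.1 with h1 | h1
    · obtain ⟨F, A, hF⟩ := H x ⟨h1, hx.2⟩
      exact ⟨F, A, hF.weaken le_rfl (by linarith [min_le_left δ δ'])
        (by linarith [lt_min hδ hδ'])⟩
    · obtain ⟨F, A, hF⟩ := H' x ⟨h1, hx.2⟩
      exact ⟨F, A, hF.weaken le_rfl (by linarith [min_le_right δ δ'])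
        (by linarith [lt_min hδ hδ'])⟩
  · intro x hx
    obtain ⟨F, A, B, hF⟩ := h x hx
    have hAB := hF.lt
    set ε := (B - A) / 4 with hε
    have hε0 : 0 < ε := by rw [hε]; linarith
    have hc : ∀ᶠ z in 𝓝[K] x, ‖T z - T x‖ < ε := by
      have h2 : Tendsto (fun z => ‖T z - T x‖) (𝓝[K] x) (𝓝 ‖T x - T x‖) :=
        ((hT x hx).sub tendsto_const_nhds).norm
      rw [sub_self, norm_zero] at h2
      exact h2.eventually (gt_mem_nhds hε0)
    refine ⟨{z | ‖T z - T x‖ < ε}, hc, 2 * ε, by positivity, ?_⟩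
    rintro z ⟨hz, _⟩
    have h3 := hF.perturb_norm (T' := T z) (ε := ε) (le_of_lt hz) (by rw [hε]; linarith)
    exact ⟨F, A + ε, h3.weaken le_rfl (by rw [hε]; linarith) (by linarith)⟩

end Crest.Agent.R202.Jac
end
end

-- ▼ part R202/JacChain
section

/-!
# Row 202: the first-order pencil of a chain (tie class) at a resonance `b = 2c/a`
-/

set_option autoImplicit false

open Module Matrix Finset
open scoped InnerProductSpace

noncomputable section

namespace Crest.Agent.R202.Jac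

open Crest.Agent.R202.Lab Crest.Agent.R202.SF

variable {T : Type*} [AddCommGroup T] [Module ℝ T]

section fv

variable (A B : ℕ → ℝ → ℕ × ℕ → ℕ × ℕ → T →ₗ[ℝ] ℝ) (σ : ℕ × ℕ) (b : ℝ) (p p' : ℕ × ℕ)

theorem firstVar_zero : firstVar A B σ b p p' 0 = 0 := by
  simp [firstVar]

theorem firstVar_add (G G' : ℕ →₀ T) :
    firstVar A B σ b p p' (G + G') = firstVar A B σ b p p' G + firstVar A B σ b p p' G' := by
  classical
  unfold firstVar
  rw [Finsupp.sum_add_index']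
  · intro f; simp
  · intro f η η'
    split_ifs <;> simp <;> ring

theorem firstVar_smul (r : ℝ) (G : ℕ →₀ T) :
    firstVar A B σ b p p' (r • G) = r * firstVar A B σ b p p' G := by
  classical
  unfold firstVar
  rw [Finsupp.sum_smul_index' (by intro f; simp), Finsupp.sum, Finsupp.sum, Finset.mul_sum]
  refine Finset.sum_congr rfl fun f _ => ?_
  simp only [map_smul, smul_eq_mul]
  split_ifs <;> ring

theorem firstVar_neg (G : ℕ →₀ T) :
    firstVar A B σ b p p' (-G) = -firstVar A B σ b p p' G := by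
  have := firstVar_smul A B σ b p p' (-1) G
  rw [neg_one_smul, neg_one_mul] at this
  exact this

theorem firstVar_sub (G G' : ℕ →₀ T) :
    firstVar A B σ b p p' (G - G') = firstVar A B σ b p p' G - firstVar A B σ b p p' G' := by
  rw [sub_eq_add_neg, firstVar_add, firstVar_neg, sub_eq_add_neg]

theorem firstVar_single (f : ℕ) (η : T) :
    firstVar A B σ b p p' (Finsupp.single f η)
      = (if p.1 + f = p'.1 ∨ p'.1 + f = p.1 then A σ.1 b p p' η else 0) +
        sg σ.2 * (if p.1 + p'.1 = f then B σ.1 b p p' η else 0) := by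
  unfold firstVar
  rw [Finsupp.sum_single_index]
  simp

theorem firstVar_symm (hA : ∀ q b p p' η, A q b p p' η = A q b p' p η)
    (hB : ∀ q b p p' η, B q b p p' η = B q b p' p η) (G : ℕ →₀ T) :
    firstVar A B σ b p p' G = firstVar A B σ b p' p G := by
  unfold firstVar
  refine Finsupp.sum_congr fun f _ => ?_
  rw [hA σ.1 b p p', hB σ.1 b p p', add_comm p.1 p'.1]
  have h : (p.1 + f = p'.1 ∨ p'.1 + f = p.1) ↔ (p'.1 + f = p.1 ∨ p.1 + f = p'.1) := or_comm
  simp only [h]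

end fv

section chain

variable {a c : ℕ} {p : ℕ × ℕ}

theorem chainLab_fst (a c : ℕ) (p : ℕ × ℕ) (i : ℕ) : (chainLab a c p i).1 = p.1 + i * a := rfl
theorem chainLab_snd (a c : ℕ) (p : ℕ × ℕ) (i : ℕ) : (chainLab a c p i).2 = p.2 - i * c := rfl

theorem chainLab_succ (a c : ℕ) (p : ℕ × ℕ) (i : ℕ) :
    chainLab a c p (i + 1) = ((chainLab a c p i).1 + a, (chainLab a c p i).2 - c) := by
  unfold chainLab
  refine Prod.ext ?_ ?_
  · simp only; ring
  · simp only [Nat.add_mul, one_mul]; omega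

theorem chainLab_inj (ha : 0 < a) {i j : ℕ} (h : chainLab a c p i = chainLab a c p j) : i = j := by
  have h3 : p.1 + i * a = p.1 + j * a := congrArg Prod.fst h
  exact Nat.eq_of_mul_eq_mul_right ha (Nat.add_left_cancel h3)

/-- difference type couplings of the frequency `a` -/
theorem diff_iff (ha : 0 < a) (i j : ℕ) :
    (chainLab a c p i).1 + a = (chainLab a c p j).1 ↔ i + 1 = j := by
  simp only [chainLab_fst]
  constructor
  · intro h
    have h1 : (i + 1) * a = j * a := by rw [Nat.add_mul, one_mul]; omega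
    exact Nat.eq_of_mul_eq_mul_right ha h1
  · rintro rfl; ring

/-- sum type couplings of the frequency `a` -/
theorem sum_iff (ha : 0 < a) (i j : ℕ) :
    (chainLab a c p i).1 + (chainLab a c p j).1 = a ↔
      (i = 0 ∧ j = 0 ∧ 2 * p.1 = a) ∨ (i + j = 1 ∧ p.1 = 0) := by
  simp only [chainLab_fst]
  constructor
  · intro h
    have h1 : 2 * p.1 + (i + j) * a = a := by rw [Nat.add_mul]; omega
    rcases Nat.lt_or_ge (i + j) 2 with h2 | h2
    · rcases Nat.lt_or_ge (i + j) 1 with h3 | h3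
      · left
        have : i + j = 0 := by omega
        rw [this] at h1
        refine ⟨by omega, by omega, by omega⟩
      · right
        have : i + j = 1 := by omega
        rw [this] at h1
        exact ⟨this, by omega⟩
    · exfalso
      have : 2 * a ≤ (i + j) * a := Nat.mul_le_mul_right a h2
      omega
  · rintro (⟨rfl, rfl, h⟩ | ⟨h, h0⟩)
    · simp; omega
    · rw [h0]
      have : (i + j) * a = a := by rw [h, one_mul]
      rw [Nat.add_mul] at this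
      omega

/-- couplings of the frequency `f = M + m'` (sum of the two top labels `n`, `n+1`), `m' > 0` -/
theorem top_sum_iff (ha : 0 < a) {n i j : ℕ} (hi : i ≤ n + 1) (hj : j ≤ n + 1) :
    (chainLab a c p i).1 + (chainLab a c p j).1
        = (chainLab a c p (n + 1)).1 + (chainLab a c p n).1 ↔
      (i = n ∧ j = n + 1) ∨ (i = n + 1 ∧ j = n) := by
  simp only [chainLab_fst]
  constructor
  · intro h
    have h1 : (i + j) * a = (n + 1 + n) * a := by rw [Nat.add_mul, Nat.add_mul]; omega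
    have := Nat.eq_of_mul_eq_mul_right ha h1
    omega
  · rintro (⟨rfl, rfl⟩ | ⟨rfl, rfl⟩)
    · ring
    · ring

theorem top_diff_ne {n i j : ℕ} (hj : j ≤ n + 1)
    (h0 : 0 < (chainLab a c p n).1) :
    ¬ (chainLab a c p i).1 + ((chainLab a c p (n + 1)).1 + (chainLab a c p n).1)
      = (chainLab a c p j).1 := by
  simp only [chainLab_fst] at h0 ⊢
  intro h
  have h2 : j * a ≤ (n + 1) * a := Nat.mul_le_mul_right a hj
  have : 0 < p.1 + n * a := h0
  omega

end chain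

/-- the slopes of a chain -/
def cD (d : ℕ) (σ : ℕ × ℕ) (a c : ℕ) (p : ℕ × ℕ) (n : ℕ) : Fin n → ℝ := fun i =>
  SF.slope d σ.1 (2 * (c : ℝ) / a) (chainLab a c p i)

/-- first variation matrix of a chain -/
def cL (A B : ℕ → ℝ → ℕ × ℕ → ℕ × ℕ → T →ₗ[ℝ] ℝ) (σ : ℕ × ℕ) (a c : ℕ) (p : ℕ × ℕ) (n : ℕ)
    (G : ℕ →₀ T) : Matrix (Fin n) (Fin n) ℝ :=
  Matrix.of fun i j => firstVar A B σ (2 * (c : ℝ) / a) (chainLab a c p i) (chainLab a c p j) G

/-- the pencil of a chain with `n` labels -/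
def pen (A B : ℕ → ℝ → ℕ × ℕ → ℕ × ℕ → T →ₗ[ℝ] ℝ) (d : ℕ) (σ : ℕ × ℕ) (a c : ℕ) (p : ℕ × ℕ)
    (n : ℕ) (x : ℝ) (G : ℕ →₀ T) : Matrix (Fin n) (Fin n) ℝ :=
  x • Matrix.diagonal (cD d σ a c p n) + cL A B σ a c p n G

section mat

variable {A B : ℕ → ℝ → ℕ × ℕ → ℕ × ℕ → T →ₗ[ℝ] ℝ} {d : ℕ} {σ : ℕ × ℕ} {a c : ℕ} {p : ℕ × ℕ}
  {n : ℕ}

theorem cL_apply (G : ℕ →₀ T) (i j : Fin n) : cL A B σ a c p n G i j
    = firstVar A B σ (2 * (c : ℝ) / a) (chainLab a c p i) (chainLab a c p j) G := rfl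

theorem pen_apply (x : ℝ) (G : ℕ →₀ T) (i j : Fin n) : pen A B d σ a c p n x G i j
    = (if i = j then x * SF.slope d σ.1 (2 * (c : ℝ) / a) (chainLab a c p i) else 0) +
      firstVar A B σ (2 * (c : ℝ) / a) (chainLab a c p i) (chainLab a c p j) G := by
  simp only [pen, Matrix.add_apply, Matrix.smul_apply, Matrix.diagonal_apply, cL_apply, cD,
    smul_eq_mul]
  split_ifs <;> simp

theorem cL_zero : cL A B σ a c p n (0 : ℕ →₀ T) = 0 := by
  ext i j; simp [cL_apply, firstVar_zero]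

theorem cL_add (G G' : ℕ →₀ T) :
    cL A B σ a c p n (G + G') = cL A B σ a c p n G + cL A B σ a c p n G' := by
  ext i j; simp [cL_apply, firstVar_add]

theorem cL_smul (r : ℝ) (G : ℕ →₀ T) :
    cL A B σ a c p n (r • G) = r • cL A B σ a c p n G := by
  ext i j; simp [cL_apply, firstVar_smul]

theorem cL_sub (G G' : ℕ →₀ T) :
    cL A B σ a c p n (G - G') = cL A B σ a c p n G - cL A B σ a c p n G' := by
  ext i j; simp [cL_apply, firstVar_sub]

theorem cL_symm (hA : ∀ q b p p' η, A q b p p' η = A q b p' p η)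
    (hB : ∀ q b p p' η, B q b p p' η = B q b p' p η) (G : ℕ →₀ T) (i j : Fin n) :
    cL A B σ a c p n G i j = cL A B σ a c p n G j i := by
  rw [cL_apply, cL_apply, firstVar_symm A B σ _ _ _ hA hB]

/-- the slopes increase strictly along the chain -/
theorem cD_strictMono (ha : 0 < a) (hn : n ≤ p.2 / c + 1) (hc : 0 < c) :
    StrictMono (cD d σ a c p n) := by
  intro i j hij
  have key : ∀ i : Fin n, cD d σ a c p n i
      = ((p.1 : ℝ) + i.1 * a) * (2 * (mu (2 * (c : ℝ) / a) p + σ.1) + d + 1) := by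
    intro i
    unfold cD SF.slope
    have hi : i.1 * c ≤ p.2 := by
      have h1 : i.1 ≤ p.2 / c := by have := i.2; omega
      exact (Nat.le_div_iff_mul_le hc).1 h1
    rw [mu_chainLab ha hi, chainLab_fst]
    push_cast
    ring
  rw [key, key]
  have hpos : (0 : ℝ) < 2 * (mu (2 * (c : ℝ) / a) p + σ.1) + d + 1 := by
    have h1 : 0 ≤ mu (2 * (c : ℝ) / a) p := mu_nonneg (by positivity) p
    positivity
  have h2 : (i.1 : ℝ) < j.1 := by exact_mod_cast hij
  have h3 : (0 : ℝ) < a := by exact_mod_cast ha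
  have h4 : (p.1 : ℝ) + i.1 * a < (p.1 : ℝ) + j.1 * a := by nlinarith
  exact mul_lt_mul_of_pos_right h4 hpos

/-- weight of a link: `2` if it starts at the axisymmetric label -/
def wt (p : ℕ × ℕ) : ℝ := if p.1 = 0 then 2 else 1

theorem wt_ne (p : ℕ × ℕ) : wt p ≠ 0 := by unfold wt; split_ifs <;> norm_num

theorem cL_single_far (ha : 0 < a) (η : T) (i j : Fin n) (hij : i.1 + 2 ≤ j.1) :
    cL A B σ a c p n (Finsupp.single a η) i j = 0 := by
  rw [cL_apply, firstVar_single]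
  have h1 : ¬ ((chainLab a c p i).1 + a = (chainLab a c p j).1 ∨
      (chainLab a c p j).1 + a = (chainLab a c p i).1) := by
    rw [diff_iff ha, diff_iff ha]; omega
  have h2 : ¬ (chainLab a c p i).1 + (chainLab a c p j).1 = a := by
    rw [sum_iff ha]; omega
  rw [if_neg h1, if_neg h2]; simp

theorem cL_single_link (hBA : ∀ q b (p p' : ℕ × ℕ), p.1 = 0 → ∀ η, B q b p p' η = A q b p p' η)
    (ha : 0 < a) (hs : σ.2 ≤ p.1) (η : T) (i j : Fin n) (hij : i.1 + 1 = j.1) :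
    cL A B σ a c p n (Finsupp.single a η) i j
      = wt (chainLab a c p i) * A σ.1 (2 * (c : ℝ) / a) (chainLab a c p i) (chainLab a c p j) η := by
  rw [cL_apply, firstVar_single]
  have h1 : ((chainLab a c p i).1 + a = (chainLab a c p j).1 ∨
      (chainLab a c p j).1 + a = (chainLab a c p i).1) := by
    rw [diff_iff ha, diff_iff ha]; omega
  rw [if_pos h1]
  by_cases h0 : (chainLab a c p i).1 = 0
  · have h00 := h0
    rw [chainLab_fst] at h00
    have hp0 : p.1 = 0 := by omega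
    have hi0 : i.1 * a = 0 := by omega
    have hi : i.1 = 0 := by
      rcases Nat.mul_eq_zero.1 hi0 with h | h
      · exact h
      · omega
    have h2 : (chainLab a c p i).1 + (chainLab a c p j).1 = a := by
      rw [sum_iff ha]; right; exact ⟨by omega, hp0⟩
    have hs0 : σ.2 = 0 := by omega
    rw [if_pos h2, hBA _ _ _ _ h0, hs0]
    unfold sg wt
    rw [if_pos rfl, if_pos h0]; ring
  · have h2 : ¬ (chainLab a c p i).1 + (chainLab a c p j).1 = a := by
      rw [sum_iff ha]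
      rintro (⟨h3, h4, -⟩ | ⟨h3, h4⟩)
      · omega
      · apply h0
        rw [chainLab_fst]
        have : i.1 = 0 := by omega
        rw [this, h4]; simp
    rw [if_neg h2]
    unfold wt
    rw [if_neg h0]; ring

/-- the diagonal -/
theorem cL_single_diag (ha : 0 < a) (η : T) (i : Fin n)
    (h : 2 * p.1 = a → B σ.1 (2 * (c : ℝ) / a) p p η = 0) :
    cL A B σ a c p n (Finsupp.single a η) i i = 0 := by
  rw [cL_apply, firstVar_single]
  have h1 : ¬ ((chainLab a c p i).1 + a = (chainLab a c p i).1 ∨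
      (chainLab a c p i).1 + a = (chainLab a c p i).1) := by
    omega
  rw [if_neg h1, zero_add]
  by_cases h2 : (chainLab a c p i).1 + (chainLab a c p i).1 = a
  · rw [if_pos h2]
    rcases (sum_iff ha i.1 i.1).1 h2 with ⟨h3, -, h4⟩ | ⟨h3, -⟩
    · rw [h3, chainLab_zero, h h4, mul_zero]
    · omega
  · rw [if_neg h2, mul_zero]

/-- a nonzero `a`-perturbation gives a Jacobi matrix -/
theorem tri_single (hA : ∀ q b p p' η, A q b p p' η = A q b p' p η)
    (hB : ∀ q b p p' η, B q b p p' η = B q b p' p η)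
    (hBA : ∀ q b (p p' : ℕ × ℕ), p.1 = 0 → ∀ η, B q b p p' η = A q b p p' η)
    (ha : 0 < a) (hs : σ.2 ≤ p.1) (η : T)
    (hne : ∀ i, i + 1 < n →
      A σ.1 (2 * (c : ℝ) / a) (chainLab a c p i) (chainLab a c p (i + 1)) η ≠ 0)
    (x s : ℝ) (hs0 : s ≠ 0) : Tri (pen A B d σ a c p n x (s • Finsupp.single a η)) := by
  have hoff : ∀ i j : Fin n, i ≠ j → pen A B d σ a c p n x (s • Finsupp.single a η) i j
      = s * cL A B σ a c p n (Finsupp.single a η) i j := by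
    intro i j hij
    rw [pen_apply, if_neg hij, zero_add, firstVar_smul, ← cL_apply]
  refine ⟨fun i j => ?_, fun i j hij => ?_, fun i j hij => ?_⟩
  · by_cases h : i = j
    · rw [h]
    · rw [hoff i j h, hoff j i (Ne.symm h), cL_symm hA hB]
  · rw [hoff i j (by intro h; rw [h] at hij; omega), cL_single_far ha η i j hij, mul_zero]
  · rw [hoff i j (by intro h; rw [h] at hij; omega), cL_single_link hBA ha hs η i j hij]
    have := hne i.1 (by have := j.2; omega)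
    rw [hij] at this
    exact mul_ne_zero hs0 (mul_ne_zero (wt_ne _) this)

theorem pen_zero (x : ℝ) : pen A B d σ a c p n x (0 : ℕ →₀ T)
    = Matrix.diagonal fun i => x * cD d σ a c p n i := by
  rw [pen, cL_zero, add_zero]
  ext i j
  simp only [Matrix.smul_apply, Matrix.diagonal_apply, smul_eq_mul]
  split_ifs <;> simp

end mat

end Crest.Agent.R202.Jac
end
end

-- ▼ part R202/JacGate
section

/-!
# Row 202: the designated chain, its twin, and the other chains under the gate perturbation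
-/

set_option autoImplicit false

open Module Matrix Finset Filter Topology
open scoped InnerProductSpace

noncomputable section

namespace Crest.Agent.R202.Jac

open Crest.Agent.R202.Lab Crest.Agent.R202.SF

variable {T : Type*} [AddCommGroup T] [Module ℝ T]

/-- the gate perturbation, `f = M + m'` -/
def gG (a f : ℕ) (s : ℕ) (ηA ηB ξ : T) (k0 y : ℝ) : ℕ →₀ T :=
  Finsupp.single a (ηA + k0 • ηB) - (sg s * k0 * (1 - y)) • Finsupp.single f ξ

theorem gG_one (a f : ℕ) (s : ℕ) (ηA ηB ξ : T) (k0 : ℝ) :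
    gG a f s ηA ηB ξ k0 1 = Finsupp.single a (ηA + k0 • ηB) := by
  simp [gG]

theorem gG_affine (a f : ℕ) (s : ℕ) (ηA ηB ξ : T) (k0 y : ℝ) :
    gG a f s ηA ηB ξ k0 y = gG a f s ηA ηB ξ k0 0 + y • ((sg s * k0) • Finsupp.single f ξ) := by
  simp only [gG, sub_zero, mul_one, smul_smul, mul_sub, sub_smul]
  rw [show y * (sg s * k0) = sg s * k0 * y by ring]
  abel

theorem gG_zero_eq {a f : ℕ} (ha : 0 < a) (hf : 0 < f) (s : ℕ) (ηA ηB ξ : T) (k0 y : ℝ) :
    gG a f s ηA ηB ξ k0 y 0 = 0 := by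
  simp [gG, ha.ne, hf.ne]

theorem sg_mul_self (s : ℕ) : sg s * sg s = 1 := by
  unfold sg; split_ifs <;> norm_num

theorem sg_mul_ne {s s' : ℕ} (hs : s ≤ 1) (hs' : s' ≤ 1) (h : s' ≠ s) : sg s * sg s' = -1 := by
  unfold sg
  have : (s = 0 ∧ s' = 1) ∨ (s = 1 ∧ s' = 0) := by omega
  rcases this with ⟨rfl, rfl⟩ | ⟨rfl, rfl⟩ <;> norm_num

theorem Ytop_apply (q : ℕ) (i j : Fin (q + 2)) :
    Ytop q i j = if (i.1 = q ∧ j.1 = q + 1) ∨ (i.1 = q + 1 ∧ j.1 = q) then 1 else 0 := by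
  have h : Ytop q i j = Y01 q (Fin.rev i) (Fin.rev j) := rfl
  rw [h]
  unfold Y01
  have h0 : ∀ i : Fin (q + 2), Fin.rev i = 0 ↔ i.1 = q + 1 := by
    intro i
    rw [Fin.ext_iff, Fin.val_rev]
    have := i.2
    simp only [Fin.val_zero]
    omega
  have h1 : ∀ i : Fin (q + 2), Fin.rev i = 1 ↔ i.1 = q := by
    intro i
    rw [Fin.ext_iff, Fin.val_rev]
    have := i.2
    simp only [Fin.val_one]
    omega
  simp only [h0, h1]
  have h2 : ((i.1 = q + 1 ∧ j.1 = q) ∨ (i.1 = q ∧ j.1 = q + 1)) ↔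
      ((i.1 = q ∧ j.1 = q + 1) ∨ (i.1 = q + 1 ∧ j.1 = q)) := or_comm
  simp only [h2]

theorem Ytop_symm (q : ℕ) (i j : Fin (q + 2)) : Ytop q i j = Ytop q j i := by
  rw [Ytop_apply, Ytop_apply]
  have h2 : ((i.1 = q ∧ j.1 = q + 1) ∨ (i.1 = q + 1 ∧ j.1 = q)) ↔
      ((j.1 = q ∧ i.1 = q + 1) ∨ (j.1 = q + 1 ∧ i.1 = q)) := by
    constructor <;> (intro h; omega)
  simp only [h2]

section des

variable {A B : ℕ → ℝ → ℕ × ℕ → ℕ × ℕ → T →ₗ[ℝ] ℝ} {d : ℕ} {σ : ℕ × ℕ} {a c : ℕ} {p : ℕ × ℕ}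
  {q : ℕ}

/-- the matrix of the sum type perturbation with the frequency `M + m'` is exactly the top link -/
theorem cL_top (hB : ∀ q b p p' η, B q b p p' η = B q b p' p η) (ha : 0 < a) (ξ : T)
    (h0 : 0 < (chainLab a c p q).1)
    (hξ : B σ.1 (2 * (c : ℝ) / a) (chainLab a c p q) (chainLab a c p (q + 1)) ξ = 1) :
    cL A B σ a c p (q + 2)
      (Finsupp.single ((chainLab a c p (q + 1)).1 + (chainLab a c p q).1) ξ)
      = sg σ.2 • Ytop q := by
  ext i j
  rw [cL_apply, firstVar_single]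
  have hi : i.1 ≤ q + 1 := by have := i.2; omega
  have hj : j.1 ≤ q + 1 := by have := j.2; omega
  have h1 : ¬ ((chainLab a c p i).1 + ((chainLab a c p (q + 1)).1 + (chainLab a c p q).1)
      = (chainLab a c p j).1 ∨
      (chainLab a c p j).1 + ((chainLab a c p (q + 1)).1 + (chainLab a c p q).1)
      = (chainLab a c p i).1) := by
    rintro (h | h)
    · exact top_diff_ne hj h0 h
    · exact top_diff_ne hi h0 h
  rw [if_neg h1, zero_add, Matrix.smul_apply, smul_eq_mul, Ytop_apply]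
  congr 1
  by_cases h2 : (i.1 = q ∧ j.1 = q + 1) ∨ (i.1 = q + 1 ∧ j.1 = q)
  · rw [if_pos h2, if_pos ((top_sum_iff ha hi hj).2 h2)]
    rcases h2 with ⟨h3, h4⟩ | ⟨h3, h4⟩
    · rw [h3, h4, hξ]
    · rw [h3, h4, hB, hξ]
  · rw [if_neg h2, if_neg (fun h => h2 ((top_sum_iff ha hi hj).1 h))]

/-- the matrix of an `a`-perturbation whose only nonzero link is the top one -/
theorem cL_topLink (hA : ∀ q b p p' η, A q b p p' η = A q b p' p η)
    (hB : ∀ q b p p' η, B q b p p' η = B q b p' p η)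
    (hBA : ∀ q b (p p' : ℕ × ℕ), p.1 = 0 → ∀ η, B q b p p' η = A q b p p' η)
    (ha : 0 < a) (hs : σ.2 ≤ p.1) (η : T)
    (hlow : ∀ i, i < q →
      A σ.1 (2 * (c : ℝ) / a) (chainLab a c p i) (chainLab a c p (i + 1)) η = 0)
    (hdiag : 2 * p.1 = a → B σ.1 (2 * (c : ℝ) / a) p p η = 0) :
    cL A B σ a c p (q + 2) (Finsupp.single a η)
      = (wt (chainLab a c p q) *
        A σ.1 (2 * (c : ℝ) / a) (chainLab a c p q) (chainLab a c p (q + 1)) η) • Ytop q := by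
  have hlt : ∀ i j : Fin (q + 2), i.1 < j.1 → cL A B σ a c p (q + 2) (Finsupp.single a η) i j
      = ((wt (chainLab a c p q) *
        A σ.1 (2 * (c : ℝ) / a) (chainLab a c p q) (chainLab a c p (q + 1)) η) • Ytop q) i j := by
    intro i j hij
    rw [Matrix.smul_apply, smul_eq_mul, Ytop_apply]
    by_cases h : i.1 + 1 = j.1
    · rw [cL_single_link hBA ha hs η i j h]
      by_cases hq : i.1 = q
      · rw [if_pos (Or.inl ⟨hq, by omega⟩), mul_one, ← h, hq]
      · have hi : i.1 < q := by have := j.2; omega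
        rw [if_neg (by omega), ← h, hlow i.1 hi]; ring
    · rw [cL_single_far ha η i j (by omega), if_neg (by omega), mul_zero]
  ext i j
  rcases lt_trichotomy i.1 j.1 with h | h | h
  · exact hlt i j h
  · have : i = j := Fin.ext h
    subst this
    rw [cL_single_diag ha η i hdiag, Matrix.smul_apply, smul_eq_mul, Ytop_apply,
      if_neg (by omega), mul_zero]
  · rw [cL_symm hA hB, hlt j i h, Matrix.smul_apply, Matrix.smul_apply, Ytop_symm]

/-- the designated chain -/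
theorem designated (hA : ∀ q b p p' η, A q b p p' η = A q b p' p η)
    (hB : ∀ q b p p' η, B q b p p' η = B q b p' p η)
    (hBA : ∀ q b (p p' : ℕ × ℕ), p.1 = 0 → ∀ η, B q b p p' η = A q b p p' η)
    (ha : 0 < a) (hc : 0 < c) (hs : σ.2 ≤ p.1) (hq : q + 2 ≤ p.2 / c + 1) {ηA ηB ξ : T}
    (h1 : A σ.1 (2 * (c : ℝ) / a) (chainLab a c p q) (chainLab a c p (q + 1)) ηA = 0)
    (h2 : ∀ i, i < q →
      A σ.1 (2 * (c : ℝ) / a) (chainLab a c p i) (chainLab a c p (i + 1)) ηA ≠ 0)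
    (h3 : A σ.1 (2 * (c : ℝ) / a) (chainLab a c p q) (chainLab a c p (q + 1)) ηB = 1)
    (h4 : ∀ i, i < q →
      A σ.1 (2 * (c : ℝ) / a) (chainLab a c p i) (chainLab a c p (i + 1)) ηB = 0)
    (h5 : 2 * p.1 = a → B σ.1 (2 * (c : ℝ) / a) p p ηB = 0)
    (h6 : B σ.1 (2 * (c : ℝ) / a) (chainLab a c p q) (chainLab a c p (q + 1)) ξ = 1) :
    IsoT (cD d σ a c p (q + 2)) (cL A B σ a c p (q + 2) (Finsupp.single a ηA)) ∧
    ∀ k0 x y, pen A B d σ a c p (q + 2) x
      (gG a ((chainLab a c p (q + 1)).1 + (chainLab a c p q).1) σ.2 ηA ηB ξ k0 y)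
      = MT (cD d σ a c p (q + 2)) (cL A B σ a c p (q + 2) (Finsupp.single a ηA)) x
        (wt (chainLab a c p q) * k0 * y) := by
  refine ⟨⟨fun i => ?_, fun i j => cL_symm hA hB _ i j, fun i => ?_, fun i j hij => ?_,
    fun i j hij => ?_⟩, fun k0 x y => ?_⟩
  · exact cD_strictMono ha hq hc (Fin.castSucc_lt_last i)
  · rw [cL_symm hA hB]
    by_cases h : i.1 = q
    · rw [cL_single_link hBA ha hs ηA i.castSucc (Fin.last _) (by simp [h])]
      simp only [Fin.val_castSucc, Fin.val_last, h, h1, mul_zero]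
    · exact cL_single_far ha ηA _ _ (by simp only [Fin.val_castSucc, Fin.val_last]; omega)
  · exact cL_single_far ha ηA _ _ (by simpa using hij)
  · rw [cL_single_link hBA ha hs ηA i.castSucc j.castSucc (by simpa using hij)]
    have := h2 i.1 (by have := j.2; omega)
    simp only [Fin.val_castSucc]
    rw [← hij]
    exact mul_ne_zero (wt_ne _) this
  · have e1 : cL A B σ a c p (q + 2) (Finsupp.single a ηB)
        = wt (chainLab a c p q) • Ytop q := by
      rw [cL_topLink hA hB hBA ha hs ηB h4 h5, h3, mul_one]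
    have e2 : cL A B σ a c p (q + 2)
        (Finsupp.single ((chainLab a c p (q + 1)).1 + (chainLab a c p q).1) ξ)
        = (sg σ.2 * wt (chainLab a c p q)) • Ytop q := by
      by_cases h0 : (chainLab a c p q).1 = 0
      · have h00 := h0
        rw [chainLab_fst] at h00
        have hp0 : p.1 = 0 := by omega
        have hqa : q * a = 0 := by omega
        have hq0 : q = 0 := by
          rcases Nat.mul_eq_zero.1 hqa with h | h
          · exact h
          · omega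
        subst hq0
        have hf : (chainLab a c p (0 + 1)).1 + (chainLab a c p 0).1 = a := by
          simp [chainLab_fst, hp0]
        rw [hf, cL_topLink hA hB hBA ha hs ξ (fun i hi => absurd hi (Nat.not_lt_zero i))
          (fun h => by omega), ← hBA _ _ _ _ h0, h6]
        have hs0 : σ.2 = 0 := by omega
        rw [hs0]
        unfold sg
        rw [if_pos rfl, mul_one, one_mul]
      · rw [cL_top hB ha ξ (Nat.pos_of_ne_zero h0) h6]
        unfold wt
        rw [if_neg h0, mul_one]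
    unfold pen gG MT
    rw [cL_sub, cL_smul, Finsupp.single_add, ← Finsupp.smul_single, cL_add, cL_smul, e1, e2,
      smul_smul, smul_smul]
    have e3 : sg σ.2 * k0 * (1 - y) * (sg σ.2 * wt (chainLab a c p q))
        = (k0 * wt (chainLab a c p q)) - wt (chainLab a c p q) * k0 * y := by
      have := sg_mul_self σ.2
      linear_combination (k0 * (1 - y) * wt (chainLab a c p q)) * this
    rw [e3, sub_smul]
    abel

/-- the twin chain: all cuts stay open for `k0 > 0`, `y < 2` -/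
theorem twin (hA : ∀ q b p p' η, A q b p p' η = A q b p' p η)
    (hB : ∀ q b p p' η, B q b p p' η = B q b p' p η)
    (hBA : ∀ q b (p p' : ℕ × ℕ), p.1 = 0 → ∀ η, B q b p p' η = A q b p p' η)
    (ha : 0 < a) (hs : σ.2 ≤ p.1) {s : ℕ} (hσ1 : σ.2 ≤ 1) (hs1 : s ≤ 1) (hne : σ.2 ≠ s)
    (hsp : s ≤ (chainLab a c p q).1) {ηA ηB ξ : T}
    (h1 : A σ.1 (2 * (c : ℝ) / a) (chainLab a c p q) (chainLab a c p (q + 1)) ηA = 0)
    (h2 : ∀ i, i < q →
      A σ.1 (2 * (c : ℝ) / a) (chainLab a c p i) (chainLab a c p (i + 1)) ηA ≠ 0)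
    (h3 : A σ.1 (2 * (c : ℝ) / a) (chainLab a c p q) (chainLab a c p (q + 1)) ηB = 1)
    (h4 : ∀ i, i < q →
      A σ.1 (2 * (c : ℝ) / a) (chainLab a c p i) (chainLab a c p (i + 1)) ηB = 0)
    (h5 : 2 * p.1 = a → B σ.1 (2 * (c : ℝ) / a) p p ηB = 0)
    (h6 : B σ.1 (2 * (c : ℝ) / a) (chainLab a c p q) (chainLab a c p (q + 1)) ξ = 1)
    (k0 x y : ℝ) (hk0 : 0 < k0) (hy : y < 2) :
    Tri (pen A B d σ a c p (q + 2) x
      (gG a ((chainLab a c p (q + 1)).1 + (chainLab a c p q).1) s ηA ηB ξ k0 y)) := by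
  have h0 : 0 < (chainLab a c p q).1 := by
    have : σ.2 ≤ (chainLab a c p q).1 := by rw [chainLab_fst]; omega
    omega
  have e1 : cL A B σ a c p (q + 2) (Finsupp.single a ηB) = (1 : ℝ) • Ytop q := by
    rw [cL_topLink hA hB hBA ha hs ηB h4 h5, h3, mul_one]
    unfold wt
    rw [if_neg h0.ne']
  have e2 := cL_top (σ := σ) (A := A) hB ha ξ h0 h6
  have key : pen A B d σ a c p (q + 2) x
      (gG a ((chainLab a c p (q + 1)).1 + (chainLab a c p q).1) s ηA ηB ξ k0 y)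
      = x • Matrix.diagonal (cD d σ a c p (q + 2))
        + (cL A B σ a c p (q + 2) (Finsupp.single a ηA) + (k0 * (2 - y)) • Ytop q) := by
    unfold pen gG
    rw [cL_sub, cL_smul, Finsupp.single_add, ← Finsupp.smul_single, cL_add, cL_smul, e1, e2,
      smul_smul, smul_smul]
    have e3 : sg s * k0 * (1 - y) * sg σ.2 = k0 * 1 - k0 * (2 - y) := by
      have := sg_mul_ne hs1 hσ1 hne
      linear_combination (k0 * (1 - y)) * this
    rw [e3, sub_smul]
    abel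
  rw [key]
  have hpos : k0 * (2 - y) ≠ 0 := by
    have : 0 < 2 - y := by linarith
    positivity
  refine ⟨fun i j => ?_, fun i j hij => ?_, fun i j hij => ?_⟩
  · simp only [Matrix.add_apply, Matrix.smul_apply, smul_eq_mul, Matrix.diagonal_apply]
    rw [cL_symm hA hB, Ytop_symm]
    by_cases hij : i = j
    · rw [hij]
    · rw [if_neg hij, if_neg (Ne.symm hij)]
  · simp only [Matrix.add_apply, Matrix.smul_apply, smul_eq_mul, Matrix.diagonal_apply, Ytop_apply]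
    rw [cL_single_far ha ηA i j hij, if_neg (by intro h; rw [h] at hij; omega),
      if_neg (by omega)]
    ring
  · simp only [Matrix.add_apply, Matrix.smul_apply, smul_eq_mul, Matrix.diagonal_apply, Ytop_apply]
    rw [cL_single_link hBA ha hs ηA i j hij, if_neg (by intro h; rw [h] at hij; omega)]
    by_cases h : i.1 = q
    · rw [if_pos (Or.inl ⟨h, by omega⟩), ← hij, h, h1]
      simpa using hpos
    · have hi : i.1 < q := by have := j.2; omega
      rw [if_neg (by omega), ← hij]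
      simpa using ⟨wt_ne _, h2 i.1 hi⟩

end des

end Crest.Agent.R202.Jac
end
end

-- ▼ part R202/JacPoly
section

/-!
# Row 202: open cuts of the first-order pencils along the polygon of a gate

* `passWin` : non-designated crossing; `G₁ = η cos (a φ)`; all cuts of all chains are open for
  `(x, s • G₁)`, `(x, s) ≠ 0`, with a uniform gap on every annulus.
* `gateWin` : designated crossing; window rectangle with explicit trial frames for the designated
  cut, all other cuts of all chains open on the whole rectangle, and the approach at `y = 1`.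
-/

set_option autoImplicit false

open Module Matrix Finset Filter Topology
open scoped InnerProductSpace

noncomputable section

namespace Crest.Agent.R202.Jac

open Crest.Agent.R202.Lab Crest.Agent.R202.SF

/-- the cut `l` of the matrix `M` is open with gap `δ` -/
def OpG {n : ℕ} (l : ℕ) (M : Matrix (Fin n) (Fin n) ℝ) (δ : ℝ) : Prop :=
  ∃ (F : Fin l → ES n) (Λ : ℝ), SepF (op M) F Λ (Λ + δ)

theorem OpG.mono {n l : ℕ} {M : Matrix (Fin n) (Fin n) ℝ} {δ δ' : ℝ} (h : OpG l M δ)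
    (h0 : 0 < δ') (hle : δ' ≤ δ) : OpG l M δ' := by
  obtain ⟨F, Λ, hF⟩ := h
  exact ⟨F, Λ, hF.weaken le_rfl (by linarith) (by linarith)⟩



/-- decreasing diagonal -/
theorem diag_sep_anti {p : ℕ} {D : Fin (p + 1) → ℝ} (hD : StrictAnti D) {l : ℕ}
    (hl : 1 ≤ l) (hl' : l ≤ p) :
    ∃ (F : Fin l → ES (p + 1)) (A B : ℝ), SepF (op (Matrix.diagonal D)) F A B := by
  have hD' : StrictMono (fun i => D (Fin.rev i)) := fun i j hij => hD (Fin.rev_lt_rev.2 hij)
  obtain ⟨F, A, B, hF⟩ := diag_sep hD' hl hl'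
  refine ⟨fun i => rv (p + 1) (F i), A, B, hF.map (rv (p + 1)) (fun v => ?_)⟩
  have e : (Matrix.diagonal D).submatrix Fin.rev Fin.rev
      = Matrix.diagonal (fun i => D (Fin.rev i)) := by
    ext i j
    simp [Matrix.submatrix_apply, Matrix.diagonal_apply]
  rw [op_rev', e]

theorem op_pen_cont {X : Type*} [TopologicalSpace X] {n : ℕ} {N1 N2 N3 : Matrix (Fin n) (Fin n) ℝ}
    {f g h : X → ℝ} (hf : Continuous f) (hg : Continuous g) (hh : Continuous h) :
    Continuous fun x => op (f x • N1 + g x • N2 + h x • N3) := by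
  simp only [op_add, op_smul]
  fun_prop

variable {T : Type*} [AddCommGroup T] [Module ℝ T]

section

variable {A B : ℕ → ℝ → ℕ × ℕ → ℕ × ℕ → T →ₗ[ℝ] ℝ} {d : ℕ} {σ : ℕ × ℕ} {a c : ℕ} {p : ℕ × ℕ}

/-- all cuts open for `(x, s • G₁) ≠ 0` -/
theorem open_ne (hA : ∀ q b p p' η, A q b p p' η = A q b p' p η)
    (hB : ∀ q b p p' η, B q b p p' η = B q b p' p η)
    (hBA : ∀ q b (p p' : ℕ × ℕ), p.1 = 0 → ∀ η, B q b p p' η = A q b p p' η)
    (ha : 0 < a) (hc : 0 < c) (hs : σ.2 ≤ p.1) (η : T) {n : ℕ} (hn : n ≤ p.2 / c)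
    (hne : ∀ i, i < n →
      A σ.1 (2 * (c : ℝ) / a) (chainLab a c p i) (chainLab a c p (i + 1)) η ≠ 0)
    {l : ℕ} (hl : 1 ≤ l) (hl' : l ≤ n) (x s : ℝ) (hxs : x ≠ 0 ∨ s ≠ 0) :
    ∃ (F : Fin l → ES (n + 1)) (Λ Λ' : ℝ),
      SepF (op (pen A B d σ a c p (n + 1) x (s • Finsupp.single a η))) F Λ Λ' := by
  by_cases h0 : s = 0
  · have hx : x ≠ 0 := hxs.resolve_right (fun h => h h0)
    rw [h0, zero_smul, pen_zero]
    have hD : StrictMono (cD d σ a c p (n + 1)) := cD_strictMono ha (by omega) hc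
    rcases lt_or_gt_of_ne hx with h | h
    · exact diag_sep_anti (fun i j hij => mul_lt_mul_of_neg_left (hD hij) h) hl hl'
    · exact diag_sep (fun i j hij => mul_lt_mul_of_pos_left (hD hij) h) hl hl'
  · exact (tri_single hA hB hBA ha hs η (fun i hi => hne i (by omega)) x s h0).sep hl hl'


end

/-- conditions on a chain: admissible sector, first label -/
structure IsCh (OK : ℕ × ℕ → Prop) (a : ℕ) (z : (ℕ × ℕ) × (ℕ × ℕ)) : Prop where
  ok : OK z.1
  le_one : z.1.2 ≤ 1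
  ge : z.1.2 ≤ z.2.1
  lt : z.2.1 < a + z.1.2

/-- the links of a chain -/
def links (a c : ℕ) (z : (ℕ × ℕ) × (ℕ × ℕ)) : Finset (ℕ × (ℕ × ℕ)) :=
  (Finset.range (z.2.2 / c)).image fun i => (z.1.1, chainLab a c z.2 i)

theorem mem_links {a c : ℕ} {z : (ℕ × ℕ) × (ℕ × ℕ)} {y : ℕ × (ℕ × ℕ)} :
    y ∈ links a c z ↔ ∃ i < z.2.2 / c, (z.1.1, chainLab a c z.2 i) = y := by
  simp [links]

theorem link_snd {a c : ℕ} (hc : 0 < c) {p : ℕ × ℕ} {i : ℕ} (hi : i < p.2 / c) :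
    c ≤ (chainLab a c p i).2 := by
  have h1 : (i + 1) * c ≤ p.2 := (Nat.le_div_iff_mul_le hc).1 hi
  rw [chainLab_snd]
  rw [Nat.add_mul, one_mul] at h1
  omega


end Crest.Agent.R202.Jac
end
end

-- ▼ part R202/JacWinMat
section

/-!
# Row 202: matrix part of the designated crossing
-/

set_option autoImplicit false

open Module Matrix Finset Filter Topology
open scoped InnerProductSpace

noncomputable section

namespace Crest.Agent.R202.Jac

open Crest.Agent.R202.Lab Crest.Agent.R202.SF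

variable {T : Type*} [AddCommGroup T] [Module ℝ T]

theorem orthonormal_elim {n k : ℕ} {u : Fin k → ES n} {B e : ES n}
    (h : Orthonormal ℝ (Fin.snoc (Fin.snoc u B) e : Fin (k + 2) → ES n)) :
    Orthonormal ℝ (Sum.elim u ![B, e]) := by
  have h1 := h.comp (finSumFinEquiv (m := k) (n := 2)) finSumFinEquiv.injective
  have h2 : (Fin.snoc (Fin.snoc u B) e : Fin (k + 2) → ES n) ∘ (finSumFinEquiv (m := k) (n := 2))
      = Sum.elim u ![B, e] := by
    funext i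
    rcases i with i | i
    · simp only [Function.comp_apply, finSumFinEquiv_apply_left, Sum.elim_inl]
      have : (Fin.castAdd 2 i : Fin (k + 2)) = (i.castSucc).castSucc := rfl
      rw [this, Fin.snoc_castSucc, Fin.snoc_castSucc]
    · simp only [Function.comp_apply, finSumFinEquiv_apply_right, Sum.elim_inr]
      fin_cases i
      · have : (Fin.natAdd k (0 : Fin 2) : Fin (k + 2)) = (Fin.last k).castSucc := rfl
        show (Fin.snoc (Fin.snoc u B) e : Fin (k + 2) → ES n) (Fin.natAdd k (0 : Fin 2)) = B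
        rw [this, Fin.snoc_castSucc, Fin.snoc_last]
      · have : (Fin.natAdd k (1 : Fin 2) : Fin (k + 2)) = Fin.last (k + 1) := rfl
        show (Fin.snoc (Fin.snoc u B) e : Fin (k + 2) → ES n) (Fin.natAdd k (1 : Fin 2)) = e
        rw [this, Fin.snoc_last]
  rw [h2] at h1
  exact h1

section

variable {A B : ℕ → ℝ → ℕ × ℕ → ℕ × ℕ → T →ₗ[ℝ] ℝ} {d : ℕ} {σ : ℕ × ℕ} {a c : ℕ} {p : ℕ × ℕ}

theorem pen_gG {n : ℕ} (f s : ℕ) (ηA ηB ξ : T) (x k0 y : ℝ) :
    pen A B d σ a c p n x (gG a f s ηA ηB ξ k0 y)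
      = pen A B d σ a c p n x (Finsupp.single a ηA) +
        k0 • (cL A B σ a c p n (Finsupp.single a ηB)
          - (sg s * (1 - y)) • cL A B σ a c p n (Finsupp.single f ξ)) := by
  unfold pen gG
  rw [cL_sub, cL_smul, Finsupp.single_add, ← Finsupp.smul_single, cL_add, cL_smul, smul_sub,
    smul_smul, add_assoc]
  rw [show k0 * (sg s * (1 - y)) = sg s * k0 * (1 - y) by ring]
  abel

theorem op_sub {n : ℕ} (M N : Matrix (Fin n) (Fin n) ℝ) : op (M - N) = op M - op N := by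
  ext v i
  simp [op_apply, sub_mul, Finset.sum_sub_distrib]

theorem sg_abs (s : ℕ) : |sg s| = 1 := by
  unfold sg; split_ifs <;> norm_num

/-- other chains on the window, for small `k0` -/
theorem other_eventually (hA : ∀ q b p p' η, A q b p p' η = A q b p' p η)
    (hB : ∀ q b p p' η, B q b p p' η = B q b p' p η)
    (hBA : ∀ q b (p p' : ℕ × ℕ), p.1 = 0 → ∀ η, B q b p p' η = A q b p p' η)
    (ha : 0 < a) (hs : σ.2 ≤ p.1) (f s : ℕ) (ηA ηB ξ : T) {n : ℕ}
    (hne : ∀ i, i < n →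
      A σ.1 (2 * (c : ℝ) / a) (chainLab a c p i) (chainLab a c p (i + 1)) ηA ≠ 0)
    {l : ℕ} (hl : 1 ≤ l) (hl' : l ≤ n) (xc η : ℝ) :
    ∀ᶠ k0 : ℝ in 𝓝[>] 0, ∀ x y : ℝ, |x - xc| ≤ η → |y| ≤ 1 →
      ∃ (F : Fin l → ES (n + 1)) (Λ Λ' : ℝ),
      SepF (op (pen A B d σ a c p (n + 1) x (gG a f s ηA ηB ξ k0 y))) F Λ Λ' := by
  have hK : IsCompact (Set.Icc (xc - η) (xc + η)) := isCompact_Icc
  have hcont : Continuous fun x : ℝ =>
      op (pen A B d σ a c p (n + 1) x (Finsupp.single a ηA)) := by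
    have := op_pen_cont (X := ℝ) (N1 := Matrix.diagonal (cD d σ a c p (n + 1)))
      (N2 := cL A B σ a c p (n + 1) (Finsupp.single a ηA)) (N3 := 0)
      (f := fun z => z) (g := fun _ => 1) (h := fun _ => 0) continuous_id continuous_const
      continuous_const
    refine this.congr fun z => ?_
    rw [pen, smul_zero, add_zero, one_smul]
  obtain ⟨δ, hδ, H⟩ := uniform_gap (l := l) hK hcont.continuousOn (fun x _ => by
    have := (tri_single (d := d) hA hB hBA ha hs ηA (n := n + 1)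
      (fun i hi => hne i (by omega)) x 1 one_ne_zero).sep hl hl'
    rwa [one_smul] at this)
  set R1 := op (cL A B σ a c p (n + 1) (Finsupp.single a ηB)) with hR1
  set R2 := op (cL A B σ a c p (n + 1) (Finsupp.single f ξ)) with hR2
  set C := ‖R1‖ + 2 * ‖R2‖ with hC
  have hC0 : 0 ≤ C := by positivity
  have hev : ∀ᶠ k0 : ℝ in 𝓝[>] 0, k0 * C < δ / 4 := by
    have h1 : Tendsto (fun k0 : ℝ => k0 * C) (𝓝[>] 0) (𝓝 (0 * C)) :=
      (tendsto_id.mul_const C).mono_left nhdsWithin_le_nhds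
    rw [zero_mul] at h1
    exact h1.eventually (gt_mem_nhds (by positivity))
  filter_upwards [hev, self_mem_nhdsWithin] with k0 hk0 hk0pos x y hx hy
  have hk00 : 0 < k0 := hk0pos
  obtain ⟨F, Λ, hF⟩ := H x (by
    rw [abs_le] at hx
    exact ⟨by linarith [hx.1], by linarith [hx.2]⟩)
  have hnorm : ‖op (pen A B d σ a c p (n + 1) x (gG a f s ηA ηB ξ k0 y))
      - op (pen A B d σ a c p (n + 1) x (Finsupp.single a ηA))‖ ≤ δ / 4 := by
    have e1 : op (pen A B d σ a c p (n + 1) x (gG a f s ηA ηB ξ k0 y))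
      - op (pen A B d σ a c p (n + 1) x (Finsupp.single a ηA))
      = k0 • (R1 - (sg s * (1 - y)) • R2) := by
      rw [pen_gG, op_add, op_smul, add_sub_cancel_left, hR1, hR2]
      congr 1
      rw [op_sub, op_smul]
    rw [e1, norm_smul, Real.norm_of_nonneg hk00.le]
    have e2 : ‖R1 - (sg s * (1 - y)) • R2‖ ≤ C := by
      calc ‖R1 - (sg s * (1 - y)) • R2‖ ≤ ‖R1‖ + ‖(sg s * (1 - y)) • R2‖ := norm_sub_le _ _
        _ = ‖R1‖ + |1 - y| * ‖R2‖ := by
            rw [norm_smul, Real.norm_eq_abs, abs_mul, sg_abs, one_mul]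
        _ ≤ ‖R1‖ + 2 * ‖R2‖ := by
            have : |1 - y| ≤ 2 := by
              rw [abs_le] at hy ⊢
              exact ⟨by linarith [hy.2], by linarith [hy.1]⟩
            gcongr
    calc k0 * ‖R1 - (sg s * (1 - y)) • R2‖ ≤ k0 * C := by gcongr
      _ ≤ δ / 4 := hk0.le
  exact ⟨F, _, _, hF.perturb_norm hnorm (by linarith)⟩

end

/-- the gate field in the form used here -/
def GateHyp (A B : ℕ → ℝ → ℕ × ℕ → ℕ × ℕ → T →ₗ[ℝ] ℝ) (OK : ℕ × ℕ → Prop) (a c : ℕ) : Prop :=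
  ∀ (q : ℕ) (p : ℕ × ℕ), (∃ s, OK (q, s) ∧ s ≤ p.1) → c ≤ p.2 → p.2 - c < c →
    ∀ F : Finset (ℕ × (ℕ × ℕ)), (∀ z ∈ F, (∃ s, OK (z.1, s)) ∧ c ≤ z.2.2) →
    ∃ ηA ηB ξ : T,
      (A q (2 * (c : ℝ) / a) p (p.1 + a, p.2 - c) ηA = 0) ∧
      (∀ z ∈ F, z ≠ (q, p) → A z.1 (2 * (c : ℝ) / a) z.2 (z.2.1 + a, z.2.2 - c) ηA ≠ 0) ∧
      (A q (2 * (c : ℝ) / a) p (p.1 + a, p.2 - c) ηB = 1) ∧
      (∀ p₁ : ℕ × ℕ, c ≤ p₁.2 → mu (2 * (c : ℝ) / a) p₁ = mu (2 * (c : ℝ) / a) p → p₁ ≠ p →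
        A q (2 * (c : ℝ) / a) p₁ (p₁.1 + a, p₁.2 - c) ηB = 0) ∧
      (∀ p₁ : ℕ × ℕ, mu (2 * (c : ℝ) / a) p₁ = mu (2 * (c : ℝ) / a) p → 2 * p₁.1 = a →
        B q (2 * (c : ℝ) / a) p₁ p₁ ηB = 0) ∧
      (B q (2 * (c : ℝ) / a) p (p.1 + a, p.2 - c) ξ = 1)

/-- **matrix part of a designated crossing** -/
theorem gateMat {A B : ℕ → ℝ → ℕ × ℕ → ℕ × ℕ → T →ₗ[ℝ] ℝ} {OK : ℕ × ℕ → Prop} (d : ℕ)
    (hA : ∀ q b p p' η, A q b p p' η = A q b p' p η)
    (hB : ∀ q b p p' η, B q b p p' η = B q b p' p η)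
    (hBA : ∀ q b (p p' : ℕ × ℕ), p.1 = 0 → ∀ η, B q b p p' η = A q b p p' η)
    {a c : ℕ} (ha : 0 < a) (hc : 0 < c) (hgate : GateHyp A B OK a c)
    (CC : Finset ((ℕ × ℕ) × (ℕ × ℕ))) (hCC : ∀ z ∈ CC, IsCh OK a z)
    {σ p : ℕ × ℕ} (hz : IsCh OK a (σ, p)) {P kk : ℕ} (hP : P = p.2 / c) (hk : 1 ≤ kk)
    (hkP : kk ≤ P) :
    ∃ (GA GB : ℕ →₀ T) (xc η gap : ℝ) (u : Fin (kk - 1) → ES (P + 1)) (Bv E : ES (P + 1)),
      GA 0 = 0 ∧ GB 0 = 0 ∧ 0 < η ∧ 0 < gap ∧ Orthonormal ℝ (Sum.elim u ![Bv, E]) ∧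
      (∀ y : ℝ, |y| ≤ 1 → ∃ Λ : ℝ, SepF (op (pen A B d σ a c p (P + 1) (xc - η) (GA + y • GB)))
        (Fin.snoc (α := fun _ => ES (P + 1)) u E) Λ (Λ + gap)) ∧
      (∀ y : ℝ, |y| ≤ 1 → ∃ Λ : ℝ, SepF (op (pen A B d σ a c p (P + 1) (xc + η) (GA + y • GB)))
        (Fin.snoc (α := fun _ => ES (P + 1)) u Bv) Λ (Λ + gap)) ∧
      (∀ t κ : ℝ, |t| ≤ 1 → (κ = 1 ∨ κ = -1) → ∃ Λ : ℝ,
        SepF (op (pen A B d σ a c p (P + 1) (xc - t * η) (GA + κ • GB)))
        (Fin.snoc (α := fun _ => ES (P + 1)) u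
          (Real.cos (Real.pi / 4 * (1 + t)) • Bv - (κ * Real.sin (Real.pi / 4 * (1 + t))) • E))
        Λ (Λ + gap)) ∧
      (∀ l, 1 ≤ l → l ≤ P → l ≠ kk → ∀ x y : ℝ, |x - xc| ≤ η → |y| ≤ 1 →
        ∃ (F : Fin l → ES (P + 1)) (Λ Λ' : ℝ),
          SepF (op (pen A B d σ a c p (P + 1) x (GA + y • GB))) F Λ Λ') ∧
      (∀ z ∈ CC, z ≠ (σ, p) → ∀ n, n = z.2.2 / c → ∀ l, 1 ≤ l → l ≤ n →
        ∀ x y : ℝ, |x - xc| ≤ η → |y| ≤ 1 → ∃ (F : Fin l → ES (n + 1)) (Λ Λ' : ℝ),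
          SepF (op (pen A B d z.1 a c z.2 (n + 1) x (GA + y • GB))) F Λ Λ') ∧
      (∀ z ∈ insert (σ, p) CC, ∀ n, n = z.2.2 / c → ∀ l, 1 ≤ l → l ≤ n →
        ∀ x t : ℝ, (x ≠ 0 ∨ t ≠ 0) → ∃ (F : Fin l → ES (n + 1)) (Λ Λ' : ℝ),
          SepF (op (pen A B d z.1 a c z.2 (n + 1) x (t • (GA + GB)))) F Λ Λ') := by
  classical
  obtain ⟨k, rfl⟩ : ∃ k, kk = k + 1 := ⟨kk - 1, by omega⟩
  obtain ⟨q, rfl⟩ : ∃ q, P = q + 1 := ⟨P - 1, by omega⟩
  have hkq : k ≤ q := by omega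
  have hsp : σ.2 ≤ p.1 := hz.ge
  have hpa : p.1 < a + σ.2 := hz.lt
  have hs1 : σ.2 ≤ 1 := hz.le_one
  -- the top link
  set pt := chainLab a c p q with hpt
  have hpt1 : chainLab a c p (q + 1) = (pt.1 + a, pt.2 - c) := chainLab_succ a c p q
  have hqc : q * c ≤ p.2 := (Nat.le_div_iff_mul_le hc).1 (by omega)
  have hq1c : (q + 1) * c ≤ p.2 := (Nat.le_div_iff_mul_le hc).1 (by omega)
  have hq2c : p.2 < (q + 1 + 1) * c := by
    rw [← Nat.div_lt_iff_lt_mul hc, ← hP]; omega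
  have hcpt : c ≤ pt.2 := link_snd hc (by omega)
  have hptc : pt.2 - c < c := by
    have : pt.2 = p.2 - q * c := rfl
    rw [this]
    simp only [Nat.add_mul, one_mul] at hq1c hq2c
    omega
  have hlevel : ∀ {p' : ℕ × ℕ} {i n : ℕ}, n = p'.2 / c → i ≤ n →
      mu (2 * (c : ℝ) / a) (chainLab a c p' i) = mu (2 * (c : ℝ) / a) p' := by
    intro p' i n hn hi
    exact mu_chainLab ha ((Nat.le_div_iff_mul_le hc).1 (by omega))
  obtain ⟨ηA, ηB, ξ, g1, g2, g3, g4, g5, g6⟩ := hgate σ.1 pt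
    ⟨σ.2, hz.ok, by rw [hpt, chainLab_fst]; omega⟩ hcpt hptc
    ((insert (σ, p) CC).biUnion (links a c)) (fun y hy => by
      obtain ⟨z, hz', hy⟩ := Finset.mem_biUnion.1 hy
      obtain ⟨i, hi, rfl⟩ := mem_links.1 hy
      refine ⟨⟨z.1.2, ?_⟩, link_snd hc hi⟩
      rcases Finset.mem_insert.1 hz' with rfl | hz'
      · exact hz.ok
      · exact (hCC z hz').ok)
  have hCC' : ∀ z ∈ insert (σ, p) CC, IsCh OK a z := by
    intro z hz'
    rcases Finset.mem_insert.1 hz' with rfl | hz'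
    · exact hz
    · exact hCC z hz'
  set f := (chainLab a c p (q + 1)).1 + (chainLab a c p q).1 with hf
  -- links
  have hlinkA : ∀ z ∈ insert (σ, p) CC, ∀ i < z.2.2 / c, (z.1.1, chainLab a c z.2 i) ≠ (σ.1, pt) →
      A z.1.1 (2 * (c : ℝ) / a) (chainLab a c z.2 i) (chainLab a c z.2 (i + 1)) ηA ≠ 0 := by
    intro z hz' i hi hne
    rw [chainLab_succ]
    exact g2 _ (Finset.mem_biUnion.2 ⟨z, hz', mem_links.2 ⟨i, hi, rfl⟩⟩) hne
  have hlow : ∀ {p' : ℕ × ℕ} {q' i : ℕ}, i < q' → chainLab a c p' q' = pt →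
      chainLab a c p' i ≠ pt := by
    intro p' q' i hi h1 h2
    have := chainLab_inj ha (h2.trans h1.symm)
    omega
  -- data of a chain whose top link is `pt`
  have hdes : ∀ z ∈ insert (σ, p) CC, z.1.1 = σ.1 → ∀ q', q' + 1 = z.2.2 / c →
      chainLab a c z.2 q' = pt →
      (A z.1.1 (2 * (c : ℝ) / a) (chainLab a c z.2 q') (chainLab a c z.2 (q' + 1)) ηA = 0) ∧
      (∀ i, i < q' →
        A z.1.1 (2 * (c : ℝ) / a) (chainLab a c z.2 i) (chainLab a c z.2 (i + 1)) ηA ≠ 0) ∧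
      (A z.1.1 (2 * (c : ℝ) / a) (chainLab a c z.2 q') (chainLab a c z.2 (q' + 1)) ηB = 1) ∧
      (∀ i, i < q' →
        A z.1.1 (2 * (c : ℝ) / a) (chainLab a c z.2 i) (chainLab a c z.2 (i + 1)) ηB = 0) ∧
      (2 * z.2.1 = a → B z.1.1 (2 * (c : ℝ) / a) z.2 z.2 ηB = 0) ∧
      (B z.1.1 (2 * (c : ℝ) / a) (chainLab a c z.2 q') (chainLab a c z.2 (q' + 1)) ξ = 1) := by
    intro z hz' hz1 q' hq' htop
    have hmu : mu (2 * (c : ℝ) / a) z.2 = mu (2 * (c : ℝ) / a) pt := by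
      rw [← htop, hlevel hq' (Nat.le_succ q')]
    refine ⟨?_, ?_, ?_, ?_, ?_, ?_⟩
    · rw [chainLab_succ, htop, hz1]; exact g1
    · intro i hi
      refine hlinkA z hz' i (by omega) ?_
      intro h
      exact hlow hi htop (congrArg Prod.snd h)
    · rw [chainLab_succ, htop, hz1]; exact g3
    · intro i hi
      rw [chainLab_succ, hz1]
      refine g4 _ (link_snd hc (by omega)) ?_ (hlow hi htop)
      rw [hlevel hq' (by omega), hmu]
    · intro h2
      rw [hz1]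
      exact g5 _ hmu h2
    · rw [chainLab_succ, htop, hz1]; exact g6
  obtain ⟨d1, d2, d3, d4, d5, d6⟩ := hdes (σ, p) (Finset.mem_insert_self _ _) rfl q hP rfl
  obtain ⟨hiso, hpen⟩ := designated (d := d) hA hB hBA ha hc hsp (q := q) (by omega) d1 d2 d3 d4
    d5 d6
  obtain ⟨xc, u, Bv, η, horth, hη, W⟩ := windowT hiso k hkq
  obtain ⟨y₀, hy₀, W⟩ := W η hη le_rfl
  -- classification of the other chains
  have hclass : ∀ z ∈ CC, z ≠ (σ, p) → ∀ n, n = z.2.2 / c → ∀ l, 1 ≤ l → l ≤ n →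
      ∀ᶠ k0 : ℝ in 𝓝[>] 0, ∀ x y : ℝ, |x - xc| ≤ η → |y| ≤ 1 →
        ∃ (F : Fin l → ES (n + 1)) (Λ Λ' : ℝ),
        SepF (op (pen A B d z.1 a c z.2 (n + 1) x (gG a f σ.2 ηA ηB ξ k0 y))) F Λ Λ' := by
    intro z hzC hzne n hn l hl hl'
    obtain ⟨q', rfl⟩ : ∃ q', n = q' + 1 := ⟨n - 1, by omega⟩
    have hz' : z ∈ insert (σ, p) CC := Finset.mem_insert_of_mem hzC
    have hzc := hCC z hzC
    by_cases htw : z.1.1 = σ.1 ∧ chainLab a c z.2 q' = pt
    · -- the twin chain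
      obtain ⟨hz1, htop⟩ := htw
      obtain ⟨t1, t2, t3, t4, t5, t6⟩ := hdes z hz' hz1 q' hn htop
      have hne2 : z.1.2 ≠ σ.2 := by
        intro h2
        apply hzne
        have h3 : z.2.1 + q' * a = p.1 + q * a := congrArg Prod.fst htop
        have h4 : z.2.1 < a + σ.2 := by rw [← h2]; exact hzc.lt
        have h5 : σ.2 ≤ z.2.1 := by rw [← h2]; exact hzc.ge
        have hqq : q' = q := by
          by_contra hcon
          rcases Nat.lt_or_gt_of_ne hcon with h | h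
          · have : (q' + 1) * a ≤ q * a := Nat.mul_le_mul_right a h
            rw [Nat.add_mul, one_mul] at this
            omega
          · have : (q + 1) * a ≤ q' * a := Nat.mul_le_mul_right a h
            rw [Nat.add_mul, one_mul] at this
            omega
        subst hqq
        have h6 : z.2.2 - q' * c = p.2 - q' * c := congrArg Prod.snd htop
        have h7 : q' * c ≤ z.2.2 := (Nat.le_div_iff_mul_le hc).1 (by omega)
        refine Prod.ext (Prod.ext hz1 h2) (Prod.ext ?_ ?_)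
        · show z.2.1 = p.1
          omega
        · show z.2.2 = p.2
          omega
      have hfe : f = (chainLab a c z.2 (q' + 1)).1 + (chainLab a c z.2 q').1 := by
        rw [hf, chainLab_succ, chainLab_succ, htop]
      filter_upwards [self_mem_nhdsWithin] with k0 hk0 x y hx hy
      rw [hfe]
      refine (twin (d := d) hA hB hBA ha hzc.ge hzc.le_one hs1 hne2 ?_ t1 t2 t3 t4 t5 t6
        k0 x y hk0 ?_).sep hl hl'
      · rw [htop, hpt, chainLab_fst]; omega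
      · linarith [(abs_le.1 hy).2]
    · refine other_eventually hA hB hBA ha hzc.ge f σ.2 ηA ηB ξ (fun i hi => ?_) hl hl' xc η
      refine hlinkA z hz' i (by omega) ?_
      intro h
      have h1 : z.1.1 = σ.1 := (Prod.ext_iff.1 h).1
      have h2 : chainLab a c z.2 i = pt := (Prod.ext_iff.1 h).2
      rcases Nat.lt_or_ge i q' with h3 | h3
      · -- the second coordinate is too large
        have h4 : (chainLab a c z.2 i).2 = pt.2 := congrArg Prod.snd h2
        rw [chainLab_snd] at h4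
        have h5 : (q' + 1) * c ≤ z.2.2 := (Nat.le_div_iff_mul_le hc).1 (by omega)
        have h6 : (i + 1) * c ≤ q' * c := Nat.mul_le_mul_right c h3
        simp only [Nat.add_mul, one_mul] at h5 h6
        omega
      · have : i = q' := by omega
        exact htw ⟨h1, this ▸ h2⟩
  -- the links at `y = 1`
  have hev1 : ∀ z ∈ insert (σ, p) CC, ∀ i < z.2.2 / c, ∀ᶠ k0 : ℝ in 𝓝[>] 0,
      A z.1.1 (2 * (c : ℝ) / a) (chainLab a c z.2 i) (chainLab a c z.2 (i + 1))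
        (ηA + k0 • ηB) ≠ 0 := by
    intro z hz' i hi
    by_cases h : (z.1.1, chainLab a c z.2 i) = (σ.1, pt)
    · have h1 : z.1.1 = σ.1 := (Prod.ext_iff.1 h).1
      have h2 : chainLab a c z.2 i = pt := (Prod.ext_iff.1 h).2
      filter_upwards [self_mem_nhdsWithin] with k0 hk0
      rw [chainLab_succ, h1, h2, map_add, map_smul, g1, g3, zero_add, smul_eq_mul, mul_one]
      exact (ne_of_gt hk0)
    · have h1 := hlinkA z hz' i hi h
      have h2 : Tendsto (fun k0 : ℝ =>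
          A z.1.1 (2 * (c : ℝ) / a) (chainLab a c z.2 i) (chainLab a c z.2 (i + 1)) ηA +
          k0 * A z.1.1 (2 * (c : ℝ) / a) (chainLab a c z.2 i) (chainLab a c z.2 (i + 1)) ηB)
          (𝓝[>] 0) (𝓝 (A z.1.1 (2 * (c : ℝ) / a) (chainLab a c z.2 i)
            (chainLab a c z.2 (i + 1)) ηA + 0 *
            A z.1.1 (2 * (c : ℝ) / a) (chainLab a c z.2 i) (chainLab a c z.2 (i + 1)) ηB)) :=
        (tendsto_const_nhds.add (tendsto_id.mul_const _)).mono_left nhdsWithin_le_nhds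
      rw [zero_mul, add_zero] at h2
      filter_upwards [h2.eventually_ne h1] with k0 hk0
      rw [map_add, map_smul, smul_eq_mul]
      exact hk0
  -- choose k0
  have hwt : 0 < wt pt := by unfold wt; split_ifs <;> norm_num
  have hE1 : ∀ᶠ k0 : ℝ in 𝓝[>] 0, wt pt * k0 < y₀ := by
    have h1 : Tendsto (fun k0 : ℝ => wt pt * k0) (𝓝[>] 0) (𝓝 (wt pt * 0)) :=
      (tendsto_id.const_mul _).mono_left nhdsWithin_le_nhds
    rw [mul_zero] at h1
    exact h1.eventually (gt_mem_nhds hy₀)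
  have hE2 : ∀ᶠ k0 : ℝ in 𝓝[>] 0, ∀ z ∈ insert (σ, p) CC, ∀ i ∈ Finset.range (z.2.2 / c),
      A z.1.1 (2 * (c : ℝ) / a) (chainLab a c z.2 i) (chainLab a c z.2 (i + 1))
        (ηA + k0 • ηB) ≠ 0 := by
    rw [Filter.eventually_all_finset]
    intro z hz'
    rw [Filter.eventually_all_finset]
    intro i hi
    exact hev1 z hz' i (Finset.mem_range.1 hi)
  have hE3 : ∀ᶠ k0 : ℝ in 𝓝[>] 0, ∀ z ∈ CC, ∀ l ∈ Finset.range (z.2.2 / c + 1), z ≠ (σ, p) →
      1 ≤ l → ∀ x y : ℝ, |x - xc| ≤ η → |y| ≤ 1 →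
        ∃ (F : Fin l → ES (z.2.2 / c + 1)) (Λ Λ' : ℝ),
        SepF (op (pen A B d z.1 a c z.2 (z.2.2 / c + 1) x (gG a f σ.2 ηA ηB ξ k0 y))) F Λ Λ' := by
    rw [Filter.eventually_all_finset]
    intro z hz'
    rw [Filter.eventually_all_finset]
    intro l hl
    by_cases h1 : z = (σ, p)
    · exact Filter.Eventually.of_forall fun k0 h => absurd h1 h
    by_cases h2 : 1 ≤ l
    · filter_upwards [hclass z hz' h1 _ rfl l h2 (by have := Finset.mem_range.1 hl; omega)] with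
        k0 hk0 _ _ using hk0
    · exact Filter.Eventually.of_forall fun k0 _ h => absurd h h2
  obtain ⟨k0, ⟨⟨hk1, hk2⟩, hk3⟩, hk4⟩ :=
    (((hE1.and hE2).and hE3).and self_mem_nhdsWithin).exists
  have hk00 : 0 < k0 := hk4
  have hyb : 0 < wt pt * k0 := mul_pos hwt hk00
  obtain ⟨δ, hδ, W1, W2, W3, W4⟩ := W (wt pt * k0) hyb hk1.le
  have hG : ∀ y : ℝ, gG a f σ.2 ηA ηB ξ k0 0 + y • ((sg σ.2 * k0) • Finsupp.single f ξ)
      = gG a f σ.2 ηA ηB ξ k0 y := fun y => (gG_affine a f σ.2 ηA ηB ξ k0 y).symm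
  have hf0 : 0 < f := by
    rw [hf, chainLab_fst]
    have : 0 < (q + 1) * a := Nat.mul_pos (Nat.succ_pos q) ha
    omega
  have hyabs : ∀ y : ℝ, |y| ≤ 1 → |wt pt * k0 * y| ≤ wt pt * k0 := by
    intro y hy
    rw [abs_mul, abs_of_pos hyb]
    exact mul_le_of_le_one_right hyb.le hy
  refine ⟨gG a f σ.2 ηA ηB ξ k0 0, (sg σ.2 * k0) • Finsupp.single f ξ, xc, η, δ, u, Bv, eL,
    gG_zero_eq ha hf0 _ _ _ _ _ _, ?_, hη, hδ, orthonormal_elim horth, ?_, ?_, ?_, ?_, ?_, ?_⟩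
  · rw [Finsupp.smul_apply, Finsupp.single_apply, if_neg (by omega), smul_zero]
  · intro y hy
    rw [hG, hpen]
    obtain ⟨Λ, hΛ⟩ := W2 (wt pt * k0 * y) (-1) (hyabs y hy) (Or.inr rfl)
    refine ⟨Λ, ?_⟩
    have e : rotF u Bv eL (Real.pi / 2) (-1) = Fin.snoc (α := fun _ => ES (q + 2)) u eL := by
      unfold rotF
      congr 1
      simp [Real.cos_pi_div_two, Real.sin_pi_div_two]
    rw [e] at hΛ
    exact hΛ
  · intro y hy
    rw [hG, hpen]
    obtain ⟨Λ, hΛ⟩ := W1 (wt pt * k0 * y) 1 (hyabs y hy) (Or.inl rfl)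
    refine ⟨Λ, ?_⟩
    have e : rotF u Bv eL 0 1 = Fin.snoc (α := fun _ => ES (q + 2)) u Bv := by
      unfold rotF
      congr 1
      simp
    rw [e] at hΛ
    exact hΛ
  · intro t κ ht hκ
    rw [hG, hpen]
    obtain ⟨Λ, hΛ⟩ := W3 t κ ht hκ
    refine ⟨Λ, ?_⟩
    rw [mul_comm (wt pt * k0) κ]
    exact hΛ
  · intro l hl hl' hlk x y hx hy
    rw [hG, hpen]
    obtain ⟨F, Λ, hF⟩ := W4 l hl hl' hlk x (wt pt * k0 * y) hx (hyabs y hy)
    exact ⟨F, Λ, _, hF⟩
  · rintro z hzC hzne n rfl l hl hl' x y hx hy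
    rw [hG]
    exact hk3 z hzC l (Finset.mem_range.2 (by omega)) hzne hl x y hx hy
  · rintro z hzC n rfl l hl hl' x t hxt
    have e : gG a f σ.2 ηA ηB ξ k0 0 + (sg σ.2 * k0) • Finsupp.single f ξ
        = Finsupp.single a (ηA + k0 • ηB) := by
      have := hG 1
      rw [one_smul] at this
      rw [this, gG_one]
    rw [e]
    exact open_ne hA hB hBA ha hc (hCC' z hzC).ge _ le_rfl
      (fun i hi => hk2 z hzC i (Finset.mem_range.2 hi)) hl hl' x t hxt

end Crest.Agent.R202.Jac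
end
end

-- ▼ part R202/GateMat
section

/-!
# Row 202, PART C: the matrix part (`MatPass`, `MatGate`)
-/

set_option autoImplicit false

noncomputable section

open Filter Topology Set Module
open scoped InnerProductSpace
open Crest.Agent.R202.Lab Crest.Agent.R202.Cut Crest.Agent.R202.Jac

namespace Crest.Agent.R202.SF

variable {d : ℕ} {b0 b1 : ℝ} {OK : ℕ × ℕ → Prop} {T : Type*} [AddCommGroup T] [Module ℝ T]
  {V : ℕ × ℕ → Type*} [∀ σ, AddCommGroup (V σ)] [∀ σ, Module ℝ (V σ)]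

theorem SpindleFamily.XC_eq (F : SpindleFamily d b0 b1 OK T V) (q : ℕ) {a c s l : ℕ}
    (C : Cls a c s l) (x : ℝ) (G : ℕ →₀ T) :
    F.XC q C x G = pen F.A F.B d (q, s) a c C.p.1 (C.P + 1) x G := by
  ext i j
  rw [pen_apply]
  rfl

/-- finitely many chain starts -/
def starts (b : ℝ) (hb : 0 < b) (a : ℕ) (S : Finset (ℕ × ℕ)) (N : ℕ × ℕ → ℕ) :
    Finset ((ℕ × ℕ) × (ℕ × ℕ)) := by
  classical
  exact S.biUnion fun σ => (((finite_le hb (b * σ.2 + 2 * N σ)).toFinset).filter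
    fun p => σ.2 ≤ p.1 ∧ p.1 < a + σ.2).image fun p => (σ, p)

theorem mem_starts {b : ℝ} {hb : 0 < b} {a : ℕ} {S : Finset (ℕ × ℕ)} {N : ℕ × ℕ → ℕ}
    {z : (ℕ × ℕ) × (ℕ × ℕ)} : z ∈ starts b hb a S N ↔
      z.1 ∈ S ∧ mu b z.2 ≤ b * z.1.2 + 2 * N z.1 ∧ z.1.2 ≤ z.2.1 ∧ z.2.1 < a + z.1.2 := by
  classical
  unfold starts
  simp only [Finset.mem_biUnion, Finset.mem_image, Finset.mem_filter, Set.Finite.mem_toFinset,
    mem_ofPred_eq]
  constructor
  · rintro ⟨σ, hσ, p, ⟨h1, h2, h3⟩, rfl⟩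
    exact ⟨hσ, h1, h2, h3⟩
  · rintro ⟨h1, h2, h3, h4⟩
    exact ⟨z.1, h1, z.2, ⟨h2, h3, h4⟩, rfl⟩

/-- the class of a cut `l ≤ N` starts in a bounded set -/
theorem Cls.mem_starts {a c s l N : ℕ} (hb : 0 < 2 * (c : ℝ) / a) (C : Cls a c s l)
    (hl : l ≤ N) : mu (2 * (c : ℝ) / a) C.p.1 ≤ 2 * (c : ℝ) / a * s + 2 * N := by
  by_contra hcon
  rw [not_le] at hcon
  have hinj : Function.Injective fun j : ℕ => (⟨(s, j), le_refl s⟩ : Lbl s) := by
    intro i j hij
    have := congrArg (fun q : Lbl s => q.1.2) hij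
    exact this
  have hsub : (Finset.range (N + 1)).map ⟨_, hinj⟩ ⊆ C.S := by
    intro q hq
    obtain ⟨j, hj, rfl⟩ := Finset.mem_map.1 hq
    rw [C.mem_S]
    refine lt_of_le_of_lt ?_ hcon
    have hj' : (j : ℝ) ≤ N := by
      exact_mod_cast Nat.lt_succ_iff.1 (Finset.mem_range.1 hj)
    show mu (2 * (c : ℝ) / a) (s, j) ≤ _
    unfold mu
    simp only
    linarith
  have h1 := Finset.card_le_card hsub
  rw [Finset.card_map, Finset.card_range] at h1
  have := C.card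
  have := C.kk_pos
  omega

theorem isCh_starts {b : ℝ} {hb : 0 < b} {a : ℕ} {S : Finset (ℕ × ℕ)} {N : ℕ × ℕ → ℕ}
    (hS : ∀ σ ∈ S, OK σ ∧ σ.2 ≤ 1) : ∀ z ∈ starts b hb a S N, IsCh OK a z := by
  intro z hz
  obtain ⟨h1, -, h3, h4⟩ := SF.mem_starts.1 hz
  exact ⟨(hS _ h1).1, (hS _ h1).2, h3, h4⟩

theorem cls_mem {a c : ℕ} {S : Finset (ℕ × ℕ)} {N : ℕ × ℕ → ℕ} (hb : 0 < 2 * (c : ℝ) / a)
    {σ : ℕ × ℕ} (hσ : σ ∈ S) {l : ℕ} (hl : l ≤ N σ) (C : Cls a c σ.2 l) :
    (σ, C.p.1) ∈ starts (2 * (c : ℝ) / a) hb a S N :=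
  SF.mem_starts.2 ⟨hσ, C.mem_starts hb hl, C.p.2, C.first⟩

/-- **(MAT-1)** -/
theorem matPass (F : SpindleFamily d b0 b1 OK T V) : MatPass F := by
  intro a c ha hc hcop hb S N hS
  have hbpos : 0 < 2 * (c : ℝ) / a := by positivity
  obtain ⟨η, hη⟩ := F.link a c ha hc hcop hb
    ((starts _ hbpos a S N).biUnion (links a c)) (fun y hy => by
      obtain ⟨z, hz, hy⟩ := Finset.mem_biUnion.1 hy
      obtain ⟨i, hi, rfl⟩ := mem_links.1 hy
      exact ⟨⟨z.1.2, (isCh_starts hS z hz).ok⟩, link_snd hc hi⟩)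
  refine ⟨Finsupp.single a η, by simp [ha.ne'], ?_⟩
  intro σ hσ l hl C x t _ hxt
  have hmem := cls_mem hbpos hσ hl C
  unfold SpindleFamily.MOpen
  rw [F.XC_eq]
  exact open_ne (A := F.A) (B := F.B) (σ := σ) F.A_symm F.B_symm F.B_eq_A ha hc C.p.2 η le_rfl
    (fun i hi => by
      rw [chainLab_succ]
      exact hη _ (Finset.mem_biUnion.2 ⟨_, hmem, mem_links.2 ⟨i, hi, rfl⟩⟩))
    C.kk_pos C.kk_le x t hxt

/-- two cuts in the same class -/
theorem Cls.eq_cut {a c s l l' : ℕ} (C : Cls a c s l) (C' : Cls a c s l')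
    (hp : C'.p.1 = C.p.1) (hk : C'.kk = C.kk) : l' = l := by
  have hS : C'.S = C.S := by
    ext q
    rw [C.mem_S, C'.mem_S]
    have : mu (2 * (c : ℝ) / a) C'.p = mu (2 * (c : ℝ) / a) C.p := by rw [hp]
    rw [this]
  rw [C.card, C'.card, hS, hk]

/-- **(MAT-2)** -/
theorem matGate (F : SpindleFamily d b0 b1 OK T V) : MatGate F := by
  intro a c ha hc hcop hb S N hS σs ls hσs hls Cs
  have hbpos : 0 < 2 * (c : ℝ) / a := by positivity
  have hgate : GateHyp F.A F.B OK a c := F.gate a c ha hc hcop hb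
  have hch : IsCh OK a (σs, Cs.p.1) := ⟨(hS _ hσs).1, (hS _ hσs).2, Cs.p.2, Cs.first⟩
  obtain ⟨GA, GB, xc, η, gap, u, Bv, E, hA0, hB0, hη, hgap, horth, hL, hR, hM, hO, hOC, hAp⟩ :=
    gateMat d F.A_symm F.B_symm F.B_eq_A ha hc hgate (starts _ hbpos a S N) (isCh_starts hS)
      hch (P := Cs.P) (kk := Cs.kk) rfl Cs.kk_pos Cs.kk_le
  have hdes := cls_mem hbpos hσs hls Cs
  refine ⟨{
    GA := GA
    GB := GB
    freqA := hA0
    freqB := hB0
    xL := xc - η
    xR := xc + η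
    xlt := by linarith
    appr := ?_
    other := ?_
    kp := by have := Cs.kk_pos; omega
    u := u
    B := Bv
    E := E
    orth := horth
    gap := gap
    gap_pos := hgap
    left := ?_
    right := ?_
    mid := ?_ }⟩
  · intro σ hσ l hl C x t _ hxt
    unfold SpindleFamily.MOpen
    rw [F.XC_eq]
    exact hAp (σ, C.p.1) (Finset.mem_insert_of_mem (cls_mem hbpos hσ hl C)) C.P rfl C.kk
      C.kk_pos C.kk_le x t hxt
  · intro σ hσ l hl hne C x hx κ hκ
    have hx' : |x - xc| ≤ η := by rw [abs_le]; constructor <;> linarith [hx.1, hx.2]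
    have hκ' : |κ| ≤ 1 := by rw [abs_le]; exact ⟨by linarith [hκ.1], hκ.2⟩
    unfold SpindleFamily.MOpen
    rw [F.XC_eq]
    by_cases h : (σ, C.p.1) = (σs, Cs.p.1)
    · have h1 : σ = σs := (Prod.ext_iff.1 h).1
      subst h1
      have h2 : C.p.1 = Cs.p.1 := (Prod.ext_iff.1 h).2
      have h3 : C.kk ≠ Cs.kk := by
        intro hk
        apply hne
        rw [Cs.eq_cut C h2 hk]
      have h4 : C.P = Cs.P := by
        show C.p.1.2 / c = Cs.p.1.2 / c
        rw [h2]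
      have h5 := hO C.kk C.kk_pos (by rw [← h4]; exact C.kk_le) h3 x κ hx' hκ'
      rw [h4, h2]
      exact h5
    · exact hOC (σ, C.p.1) (cls_mem hbpos hσ hl C) h C.P rfl C.kk C.kk_pos C.kk_le x κ hx' hκ'
  · intro κ hκ
    rw [F.XC_eq]
    exact hL κ (by rw [abs_le]; exact ⟨by linarith [hκ.1], hκ.2⟩)
  · intro κ hκ
    rw [F.XC_eq]
    exact hR κ (by rw [abs_le]; exact ⟨by linarith [hκ.1], hκ.2⟩)
  · intro κ hκ s hs
    obtain ⟨Λ, hΛ⟩ := hM (1 - 2 * s) κ (by rw [abs_le]; constructor <;> linarith [hs.1, hs.2]) hκ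
    refine ⟨Λ, ?_⟩
    rw [F.XC_eq, show (1 - s) * (xc - η) + s * (xc + η) = xc - (1 - 2 * s) * η by ring,
      show Real.pi / 2 * (1 - s) = Real.pi / 4 * (1 + (1 - 2 * s)) by ring]
    exact hΛ

end Crest.Agent.R202.SF
end
end

-- ▼ part R202/GateThm
section

/-!
# Row 202, PART C: assembly of the gate
-/

set_option autoImplicit false

noncomputable section

open Filter Topology Set Module
open scoped InnerProductSpace
open Crest.Agent.R202.Lab Crest.Agent.R202.Cut Crest.Agent.R202.Jac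

namespace Crest.Agent.R202.SF

/-! ### the vertices -/

section vertices

variable {X : Type*}

/-- the polygon: `f` up to `n`, then `xA, xA', xB'` , then back along `f` -/
def pol (n : ℕ) (f : ℕ → X) (x1 x2 x3 : X) (i : ℕ) : X :=
  if i ≤ n then f i else if i = n + 1 then x1 else if i = n + 2 then x2 else
    if i = n + 3 then x3 else f (2 * n + 4 - i)

theorem pol_le {n : ℕ} {f : ℕ → X} {x1 x2 x3 : X} {i : ℕ} (h : i ≤ n) :
    pol n f x1 x2 x3 i = f i := if_pos h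

theorem pol_1 {n : ℕ} {f : ℕ → X} {x1 x2 x3 : X} : pol n f x1 x2 x3 (n + 1) = x1 := by
  unfold pol; rw [if_neg (by omega), if_pos rfl]

theorem pol_2 {n : ℕ} {f : ℕ → X} {x1 x2 x3 : X} : pol n f x1 x2 x3 (n + 2) = x2 := by
  unfold pol; rw [if_neg (by omega), if_neg (by omega), if_pos rfl]

theorem pol_3 {n : ℕ} {f : ℕ → X} {x1 x2 x3 : X} : pol n f x1 x2 x3 (n + 3) = x3 := by
  unfold pol; rw [if_neg (by omega), if_neg (by omega), if_neg (by omega), if_pos rfl]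

theorem pol_pal {n : ℕ} {f : ℕ → X} {x1 x2 x3 : X} {i : ℕ} (hi : n + 4 ≤ i) :
    pol n f x1 x2 x3 i = f (2 * n + 4 - i) := by
  unfold pol
  rw [if_neg (by omega), if_neg (by omega), if_neg (by omega), if_neg (by omega)]

theorem pol_forall {n : ℕ} {f : ℕ → X} {x1 x2 x3 : X} {p : X → Prop} (hf : ∀ i, p (f i))
    (h1 : p x1) (h2 : p x2) (h3 : p x3) (i : ℕ) : p (pol n f x1 x2 x3 i) := by
  unfold pol
  split_ifs
  · exact hf i
  · exact h1
  · exact h2
  · exact h3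
  · exact hf _

end vertices

theorem sepF_cast {E : Type*} [NormedAddCommGroup E] [InnerProductSpace ℝ E] {n m : ℕ}
    (h : n = m) {T : E →L[ℝ] E} {f : Fin n → E} {A B : ℝ} (hf : SepF T f A B) :
    ∃ f' : Fin m → E, SepF T f' A B := by
  subst h; exact ⟨f, hf⟩

variable {d : ℕ} {b0 b1 : ℝ} {OK : ℕ × ℕ → Prop} {T : Type*} [AddCommGroup T] [Module ℝ T]
  {V : ℕ × ℕ → Type*} [∀ σ, AddCommGroup (V σ)] [∀ σ, Module ℝ (V σ)]

theorem MatGateOut.mopen_left {F : SpindleFamily d b0 b1 OK T V} {a c : ℕ} {S : Finset (ℕ × ℕ)}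
    {N : ℕ × ℕ → ℕ} {σs : ℕ × ℕ} {ls : ℕ} {Cs : Cls a c σs.2 (ls + 1)}
    (M : MatGateOut F S N σs ls Cs) {κ : ℝ} (hκ : κ ∈ Icc (-1 : ℝ) 1) :
    F.MOpen σs.1 Cs M.xL (M.GA + κ • M.GB) := by
  obtain ⟨Λ, h⟩ := M.left κ hκ
  obtain ⟨f, hf⟩ := sepF_cast M.kp.symm h
  exact ⟨f, _, _, hf⟩

theorem MatGateOut.mopen_right {F : SpindleFamily d b0 b1 OK T V} {a c : ℕ} {S : Finset (ℕ × ℕ)}
    {N : ℕ × ℕ → ℕ} {σs : ℕ × ℕ} {ls : ℕ} {Cs : Cls a c σs.2 (ls + 1)}
    (M : MatGateOut F S N σs ls Cs) {κ : ℝ} (hκ : κ ∈ Icc (-1 : ℝ) 1) :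
    F.MOpen σs.1 Cs M.xR (M.GA + κ • M.GB) := by
  obtain ⟨Λ, h⟩ := M.right κ hκ
  obtain ⟨f, hf⟩ := sepF_cast M.kp.symm h
  exact ⟨f, _, _, hf⟩

theorem MatGateOut.mopen_mid {F : SpindleFamily d b0 b1 OK T V} {a c : ℕ} {S : Finset (ℕ × ℕ)}
    {N : ℕ × ℕ → ℕ} {σs : ℕ × ℕ} {ls : ℕ} {Cs : Cls a c σs.2 (ls + 1)}
    (M : MatGateOut F S N σs ls Cs) {κ : ℝ} (hκ : κ = 1 ∨ κ = -1) {x : ℝ}
    (hx : x ∈ Icc M.xL M.xR) : F.MOpen σs.1 Cs x (M.GA + κ • M.GB) := by
  have hlt := sub_pos.2 M.xlt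
  obtain ⟨Λ, h⟩ := M.mid κ hκ ((x - M.xL) / (M.xR - M.xL))
    ⟨div_nonneg (by linarith [hx.1]) hlt.le, (div_le_one hlt).2 (by linarith [hx.2])⟩
  have hxe : (1 - (x - M.xL) / (M.xR - M.xL)) * M.xL + (x - M.xL) / (M.xR - M.xL) * M.xR = x := by
    field_simp; ring
  rw [hxe] at h
  obtain ⟨f, hf⟩ := sepF_cast M.kp.symm h
  exact ⟨f, _, _, hf⟩

set_option maxHeartbeats 1000000 in
/-- **the gate theorem** from the matrix part and the approach path -/
theorem gateThm_of {F : SpindleFamily d b0 b1 OK T V} (hA : Approach F) (hM : MatGate F) :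
    GateThm F := by
  classical
  intro hb0 hnc S N hS σs ls hσs hls hbex δ hδ
  obtain ⟨b, hbl, hbr, hcl⟩ := hbex
  obtain ⟨a, c, ha, hc, hcop, hbe, ⟨Cs⟩⟩ := exists_cls (hb0.trans hbl) hcl
  have hb' : 2 * (c : ℝ) / a ∈ Ioo b0 b1 := by rw [← hbe]; exact ⟨hbl, hbr⟩
  obtain ⟨M⟩ := hM a c ha hc hcop hb' S N hS σs ls hσs hls Cs
  set bs : ℝ := 2 * (c : ℝ) / a with hbs
  have hb01 : b0 < b1 := hb'.1.trans hb'.2
  have hxlt := M.xlt
  set Sg : ℝ := |M.xL| + 1 with hSg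
  have hSg0 : 0 < Sg := by positivity
  have hSgL : -Sg < M.xL := by
    have := neg_abs_le M.xL
    rw [hSg]; linarith
  -- the three compact sets
  obtain ⟨e1, he1, hU1⟩ := F.unif_all hb0 ha hcop hb' S N hS (fun _ _ => True)
    (Z := ({-Sg} : Set ℝ) ×ˢ Icc (0 : ℝ) 1 ∪ Icc (-Sg) M.xR ×ˢ ({1} : Set ℝ))
    ((isCompact_singleton.prod isCompact_Icc).union (isCompact_Icc.prod isCompact_singleton))
    0 (M.GA + M.GB) (by simp) (by simp [M.freqA, M.freqB])
    (by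
      intro σ hσ l hl _ C z hz
      rw [zero_add]
      rcases hz with ⟨hz1, hz2⟩ | ⟨hz1, hz2⟩
      · refine M.appr σ hσ l hl C z.1 z.2 hz2.1 (Or.inl ?_)
        rw [mem_singleton_iff.1 hz1]
        exact (neg_neg_of_pos hSg0).ne
      · have h1 : z.2 = 1 := mem_singleton_iff.1 hz2
        exact M.appr σ hσ l hl C z.1 z.2 (by rw [h1]; norm_num) (Or.inr (by rw [h1]; norm_num)))
    hδ
  obtain ⟨e2, he2, hU2⟩ := F.unif_all hb0 ha hcop hb' S N hS
    (fun σ l => (σ, l) ≠ (σs, ls + 1)) (Z := Icc M.xL M.xR ×ˢ Icc (-1 : ℝ) 1)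
    (isCompact_Icc.prod isCompact_Icc) M.GA M.GB M.freqA M.freqB
    (fun σ hσ l hl hne C z hz => M.other σ hσ l hl hne C z.1 hz.1 z.2 hz.2) hδ
  obtain ⟨e3, he3, hU3⟩ := F.unif_all hb0 ha hcop hb' S N hS
    (fun σ l => (σ, l) = (σs, ls + 1))
    (Z := (({M.xL} : Set ℝ) ×ˢ Icc (-1 : ℝ) 1 ∪ ({M.xR} : Set ℝ) ×ˢ Icc (-1 : ℝ) 1) ∪
      (Icc M.xL M.xR ×ˢ ({1} : Set ℝ) ∪ Icc M.xL M.xR ×ˢ ({-1} : Set ℝ)))
    (((isCompact_singleton.prod isCompact_Icc).union (isCompact_singleton.prod isCompact_Icc)).union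
      ((isCompact_Icc.prod isCompact_singleton).union (isCompact_Icc.prod isCompact_singleton)))
    M.GA M.GB M.freqA M.freqB
    (by
      intro σ hσ l hl heq C z hz
      obtain ⟨h1, h2⟩ := Prod.mk.inj heq
      subst h1 h2
      rw [Cls.unique ha C Cs]
      rcases hz with (⟨hz1, hz2⟩ | ⟨hz1, hz2⟩) | (⟨hz1, hz2⟩ | ⟨hz1, hz2⟩)
      · rw [mem_singleton_iff.1 hz1]; exact M.mopen_left hz2
      · rw [mem_singleton_iff.1 hz1]; exact M.mopen_right hz2
      · exact M.mopen_mid (Or.inl (mem_singleton_iff.1 hz2)) hz1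
      · exact M.mopen_mid (Or.inr (mem_singleton_iff.1 hz2)) hz1)
    hδ
  obtain ⟨U, vB, vE, hUm, hBm, hEm, hUU, hUB, hUE, hBE, hBB, hEE, e4, he4, hW⟩ :=
    F.winFrames hb0 ha hb' hS hσs Cs M
  -- choice of ε
  have hsm : ∀ η : ℝ, 0 < η → ∀ᶠ ε in 𝓝[>] (0 : ℝ), 0 < ε ∧ ε ≤ η := fun η hη => by
    filter_upwards [Ioc_mem_nhdsGT hη] with ε hε using hε
  obtain ⟨ε, ⟨hε0, hε1⟩, ⟨-, hε2⟩, ⟨-, hε3⟩, ⟨-, hε4⟩, hεc⟩ :=
    ((hsm e1 he1).and ((hsm e2 he2).and ((hsm e3 he3).and ((hsm e4 he4).and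
      (eventually_not_closed hb0 hb' hSg0 (S.sup N)))))).exists
  obtain ⟨K1, hK1⟩ := hU1 ε hε0 hε1
  obtain ⟨K2, hK2⟩ := hU2 ε hε0 hε2
  obtain ⟨K3, hK3⟩ := hU3 ε hε0 hε3
  obtain ⟨K4, hK4⟩ := hW ε hε0 hε4
  -- the approach
  have hyI : bs - ε * Sg ∈ Icc b0 b1 := by
    have h1 := (hK1 K1 le_rfl (-Sg, 0) (Or.inl ⟨rfl, ⟨le_rfl, zero_le_one⟩⟩)).1
    have h2 : bs + ε * (-Sg, (0 : ℝ)).1 = bs - ε * Sg := by simp; ring
    rwa [h2] at h1
  obtain ⟨r, wb, WG, K0, hw0, hWG0, hwr, hWGr, hw, hopen0⟩ := hA S N hS δ hδ b0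
    ⟨le_rfl, hb01.le⟩ (bs - ε * Sg) hyI hyI.1 (fun σ _ l _ => hnc σ.2 l)
    (fun σ hσ l hl => hεc σ.2 (hS σ hσ).2 l (hl.trans (Finset.le_sup hσ)))
  set n : ℕ := r + 2 with hn
  set fb : ℕ → ℝ := fun i => if i ≤ r then wb i else if i = r + 1 then bs - ε * Sg
    else bs + ε * M.xL with hfb
  set fG : ℕ → (ℕ →₀ T) := fun i => if i ≤ r then WG i else ε • (M.GA + M.GB) with hfG
  have hfb_le : ∀ i ≤ r, fb i = wb i := fun i hi => if_pos hi
  have hfb_1 : fb (r + 1) = bs - ε * Sg := by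
    rw [hfb]; simp
  have hfb_2 : fb (r + 2) = bs + ε * M.xL := by
    rw [hfb]; simp
  have hfG_le : ∀ i ≤ r, fG i = WG i := fun i hi => if_pos hi
  have hfG_gt : ∀ i, r < i → fG i = ε • (M.GA + M.GB) := fun i hi => if_neg (by omega)
  -- openness along the approach
  have fopen : ∀ k, K0 ≤ k → K1 ≤ k → ∀ i < n, ∀ s ∈ Icc (0 : ℝ) 1, ∀ σ ∈ S, ∀ l ≤ N σ,
      F.OpenAt σ ((1 - s) * fb i + s * fb (i + 1)) ((1 - s) • fG i + s • fG (i + 1)) k l := by
    intro k hk0 hk1 i hi s hs σ hσ l hl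
    rcases lt_trichotomy i r with h | h | h
    · rw [hfb_le i h.le, hfb_le (i + 1) h, hfG_le i h.le, hfG_le (i + 1) h]
      exact hopen0 k hk0 i h s hs σ hσ l hl
    · subst h
      rw [hfb_le i le_rfl, hfb_1, hfG_le i le_rfl, hfG_gt (i + 1) (by omega), hwr, hWGr]
      have h1 := (hK1 k hk1 (-Sg, s) (Or.inl ⟨rfl, hs⟩)).2.2 σ hσ l hl trivial
      have e5 : (1 - s) * (bs - ε * Sg) + s * (bs - ε * Sg) = bs + ε * (-Sg, s).1 := by
        simp only; ring
      have e6 : (1 - s) • (0 : ℕ →₀ T) + s • ε • (M.GA + M.GB) =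
          ε • (0 + (-Sg, s).2 • (M.GA + M.GB)) := by
        rw [smul_zero, zero_add, zero_add, smul_comm]
      rw [e5, e6]; exact h1
    · have hir : i = r + 1 := by omega
      subst hir
      rw [hfb_1, hfb_2, hfG_gt _ (by omega), hfG_gt _ (by omega)]
      have hz : (1 - s) * (-Sg) + s * M.xL ∈ Icc (-Sg) M.xR := by
        have h1 := hs.1
        have h2 := hs.2
        constructor
        · nlinarith
        · nlinarith
      have h1 := (hK1 k hk1 ((1 - s) * (-Sg) + s * M.xL, 1) (Or.inr ⟨hz, rfl⟩)).2.2 σ hσ l hl trivial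
      have e5 : (1 - s) * (bs - ε * Sg) + s * (bs + ε * M.xL) =
          bs + ε * ((1 - s) * (-Sg) + s * M.xL, (1 : ℝ)).1 := by
        simp only; ring
      have e6 : (1 - s) • ε • (M.GA + M.GB) + s • ε • (M.GA + M.GB) =
          ε • (0 + ((1 - s) * (-Sg) + s * M.xL, (1 : ℝ)).2 • (M.GA + M.GB)) := by
        rw [← add_smul]; simp
      rw [e5, e6]; exact h1
  -- openness in the window
  have wopen : ∀ k, K2 ≤ k → K3 ≤ k → ∀ σ ∈ S, ∀ l ≤ N σ, ∀ x ∈ Icc M.xL M.xR,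
      ∀ κ ∈ Icc (-1 : ℝ) 1, ((σ, l) ≠ (σs, ls + 1) ∨ x = M.xL ∨ x = M.xR ∨ κ = 1 ∨ κ = -1) →
      F.OpenAt σ (bs + ε * x) (ε • (M.GA + κ • M.GB)) k l := by
    intro k hk2 hk3 σ hσ l hl x hx κ hκ hor
    by_cases hne : (σ, l) ≠ (σs, ls + 1)
    · exact (hK2 k hk2 (x, κ) ⟨hx, hκ⟩).2.2 σ hσ l hl hne
    · rw [not_not] at hne
      refine (hK3 k hk3 (x, κ) ?_).2.2 σ hσ l hl hne
      rcases hor with h | h | h | h | h
      · exact absurd hne h
      · exact Or.inl (Or.inl ⟨h, hκ⟩)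
      · exact Or.inl (Or.inr ⟨h, hκ⟩)
      · exact Or.inr (Or.inl ⟨hx, h⟩)
      · exact Or.inr (Or.inr ⟨hx, h⟩)
  have hxL : M.xL ∈ Icc M.xL M.xR := ⟨le_rfl, hxlt.le⟩
  have hxR : M.xR ∈ Icc M.xL M.xR := ⟨hxlt.le, le_rfl⟩
  have h1I : (1 : ℝ) ∈ Icc (-1 : ℝ) 1 := ⟨by norm_num, le_rfl⟩
  have hwin : ∀ x ∈ Icc M.xL M.xR, ∀ κ ∈ Icc (-1 : ℝ) 1,
      bs + ε * x ∈ Icc b0 b1 ∧ F.sz (ε • (M.GA + κ • M.GB)) ≤ δ := fun x hx κ hκ =>
    ⟨(hK2 K2 le_rfl (x, κ) ⟨hx, hκ⟩).1, (hK2 K2 le_rfl (x, κ) ⟨hx, hκ⟩).2.1⟩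
  have hfbI : ∀ i, fb i ∈ Icc b0 b1 := by
    intro i
    rw [hfb]
    simp only
    split_ifs
    · exact (hw i).1
    · exact hyI
    · exact (hwin _ hxL 1 h1I).1
  have hfG0 : ∀ i, fG i 0 = 0 := by
    intro i
    rw [hfG]
    simp only
    split_ifs
    · exact (hw i).2.1
    · simp [M.freqA, M.freqB]
  have hfGs : ∀ i, F.sz (fG i) ≤ δ := by
    intro i
    rw [hfG]
    simp only
    split_ifs
    · exact (hw i).2.2
    · have := (hwin _ hxL 1 h1I).2
      rwa [one_smul] at this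
  set vb : ℕ → ℝ := pol n fb (bs + ε * M.xL) (bs + ε * M.xR) (bs + ε * M.xR) with hvb
  set g0 : ℕ → (ℕ →₀ T) := pol n fG (ε • M.GA) (ε • M.GA) (ε • (M.GA + M.GB)) with hg0
  set g1 : ℕ → (ℕ →₀ T) := pol n (fun _ => 0) (ε • M.GB) (ε • M.GB) 0 with hg1
  -- convex combinations in the window
  have hcomb : ∀ s κ κ' : ℝ, (1 - s) • (ε • M.GA + κ • ε • M.GB) + s • (ε • M.GA + κ' • ε • M.GB) =
      ε • (M.GA + ((1 - s) * κ + s * κ') • M.GB) := by
    intro s κ κ'
    simp only [smul_add, smul_smul, add_smul]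
    rw [show (1 - s) * ε = ε - s * ε by ring, sub_smul]
    have e5 : (1 - s) * (κ * ε) = ε * ((1 - s) * κ) := by ring
    have e6 : s * (κ' * ε) = ε * (s * κ') := by ring
    rw [e5, e6]
    abel
  have hAB : ε • (M.GA + M.GB) = ε • M.GA + (1 : ℝ) • ε • M.GB := by rw [one_smul, smul_add]
  -- the four window edges: position
  have hpos : ∀ κ : ℝ, ∀ i < 4, ∀ s ∈ Icc (0 : ℝ) 1, ∃ x κ' : ℝ,
      (1 - s) * vb (n + i) + s * vb (n + i + 1) = bs + ε * x ∧
      (1 - s) • (g0 (n + i) + κ • g1 (n + i)) + s • (g0 (n + i + 1) + κ • g1 (n + i + 1)) =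
        ε • (M.GA + κ' • M.GB) ∧
      ((i = 0 ∧ x = M.xL ∧ κ' = (1 - s) * 1 + s * κ) ∨
        (i = 1 ∧ x = (1 - s) * M.xL + s * M.xR ∧ κ' = κ) ∨
        (i = 2 ∧ x = M.xR ∧ κ' = (1 - s) * κ + s * 1) ∨
        (i = 3 ∧ x = (1 - (1 - s)) * M.xL + (1 - s) * M.xR ∧ κ' = 1)) := by
    intro κ i hi s hs
    have hn2 : fb n = bs + ε * M.xL := hfb_2
    have hGn : fG n = ε • (M.GA + M.GB) := hfG_gt n (by omega)
    interval_cases i
    · refine ⟨M.xL, (1 - s) * 1 + s * κ, ?_, ?_, Or.inl ⟨rfl, rfl, rfl⟩⟩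
      · rw [add_zero, hvb, pol_le le_rfl, pol_1, hn2]; ring
      · rw [add_zero, hg0, hg1, pol_le le_rfl, pol_le le_rfl, pol_1, pol_1, hGn, smul_zero,
          add_zero, hAB, hcomb]
    · refine ⟨(1 - s) * M.xL + s * M.xR, κ, ?_, ?_, Or.inr (Or.inl ⟨rfl, rfl, rfl⟩)⟩
      · rw [show n + 1 + 1 = n + 2 from rfl, hvb, pol_1, pol_2]; ring
      · rw [show n + 1 + 1 = n + 2 from rfl, hg0, hg1, pol_1, pol_1, pol_2, pol_2, hcomb]
        congr 3
        ring
    · refine ⟨M.xR, (1 - s) * κ + s * 1, ?_, ?_, Or.inr (Or.inr (Or.inl ⟨rfl, rfl, rfl⟩))⟩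
      · rw [show n + 2 + 1 = n + 3 from rfl, hvb, pol_2, pol_3]; ring
      · rw [show n + 2 + 1 = n + 3 from rfl, hg0, hg1, pol_2, pol_2, pol_3, pol_3, smul_zero,
          add_zero, hAB, hcomb]
    · refine ⟨(1 - (1 - s)) * M.xL + (1 - s) * M.xR, 1, ?_, ?_,
        Or.inr (Or.inr (Or.inr ⟨rfl, rfl, rfl⟩))⟩
      · rw [show n + 3 + 1 = n + 4 from rfl, hvb, pol_3, pol_pal (by omega),
          show 2 * n + 4 - (n + 4) = n by omega, hn2]; ring
      · rw [show n + 3 + 1 = n + 4 from rfl, hg0, hg1, pol_3, pol_3, pol_pal (by omega),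
          pol_pal (by omega), show 2 * n + 4 - (n + 4) = n by omega, hGn, smul_zero,
          add_zero, hAB, hcomb]
        congr 3
        ring
  have hmem1 : ∀ s ∈ Icc (0 : ℝ) 1, (1 - s) * M.xL + s * M.xR ∈ Icc M.xL M.xR := by
    intro s hs
    have h1 := hs.1
    have h2 := hs.2
    constructor
    · nlinarith
    · nlinarith
  have hconv : ∀ s ∈ Icc (0 : ℝ) 1, ∀ κ ∈ Icc (-1 : ℝ) 1, ∀ κ' ∈ Icc (-1 : ℝ) 1,
      (1 - s) * κ + s * κ' ∈ Icc (-1 : ℝ) 1 := by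
    intro s hs κ hκ κ' hκ'
    have h1 := hs.1
    have h2 := hs.2
    have h3 := hκ.1
    have h4 := hκ.2
    have h5 := hκ'.1
    have h6 := hκ'.2
    constructor
    · nlinarith
    · nlinarith
  have hs' : ∀ s ∈ Icc (0 : ℝ) 1, 1 - s ∈ Icc (0 : ℝ) 1 := fun s hs =>
    ⟨by linarith [hs.2], by linarith [hs.1]⟩
  refine ⟨{
    n := n
    vb := vb
    G0 := g0
    G1 := g1
    n_pos := by omega
    start_b := ?_
    start_G0 := ?_
    start_G1 := ?_
    appr := ?_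
    b_w1 := ?_
    b_w3 := ?_
    G_w12 := ?_
    G_w12' := ?_
    G_w1 := ?_
    G_w3 := ?_
    G_w3' := ?_
    pal := ?_
    mem := ?_
    freq0 := ?_
    sz_le := ?_
    moves := ?_
    K := max (max K0 K1) (max (max K2 K3) K4)
    isOpen := ?_
    bs := bs
    bs_mem := hb'
    u := U
    vB := vB
    vE := vE
    u_mem := hUm
    vB_mem := hBm
    vE_mem := hEm
    on_u := hUU
    on_uB := hUB
    on_uE := hUE
    on_BE := hBE
    on_B := hBB
    on_E := hEE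
    c := rotc
    c_cont := continuous_rotc
    c_circle := rotc_circle
    c_start := fun κ _ => rotc_zero κ
    c_end := fun κ hκ => rotc_four hκ
    window := ?_ }⟩
  · rw [hvb, pol_le (Nat.zero_le _), hfb_le 0 (Nat.zero_le _), hw0]
  · rw [hg0, pol_le (Nat.zero_le _), hfG_le 0 (Nat.zero_le _), hWG0]
  · rw [hg1, pol_le (Nat.zero_le _)]
  · intro i hi
    rw [hg1, pol_le hi]
  · rw [hvb, pol_1, pol_le le_rfl]; exact hfb_2.symm
  · rw [hvb, pol_3, pol_2]
  · rw [hg0, pol_1, pol_2]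
  · rw [hg1, pol_1, pol_2]
  · rw [hg0, hg1, pol_1, pol_1, pol_le le_rfl, hfG_gt n (by omega), smul_add]
  · rw [hg0, pol_3, pol_le le_rfl, hfG_gt n (by omega)]
  · rw [hg1, pol_3]
  · intro i hi
    have e5 : 2 * n + 4 - (n + 4 + i) = n - i := by omega
    refine ⟨?_, ?_, ?_⟩
    · rw [hvb, pol_pal (by omega), pol_le (by omega), e5]
    · rw [hg0, pol_pal (by omega), pol_le (by omega), e5]
    · rw [hg1, pol_pal (by omega)]
  · intro i
    exact pol_forall (p := fun x => x ∈ Icc b0 b1) hfbI (hwin _ hxL 1 h1I).1 (hwin _ hxR 1 h1I).1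
      (hwin _ hxR 1 h1I).1 i
  · intro i
    refine ⟨?_, ?_⟩
    · exact pol_forall (p := fun x : ℕ →₀ T => x 0 = 0) hfG0 (by simp [M.freqA])
        (by simp [M.freqA]) (by simp [M.freqA, M.freqB]) i
    · exact pol_forall (p := fun x : ℕ →₀ T => x 0 = 0) (fun _ => by simp) (by simp [M.freqB])
        (by simp [M.freqB]) (by simp) i
  · intro i κ hκ
    by_cases h1 : i = n + 1
    · rw [h1, hg0, hg1, pol_1, pol_1, smul_comm, ← smul_add]
      exact (hwin _ hxL κ hκ).2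
    by_cases h2 : i = n + 2
    · rw [h2, hg0, hg1, pol_2, pol_2, smul_comm, ← smul_add]
      exact (hwin _ hxL κ hκ).2
    by_cases h3 : i = n + 3
    · rw [h3, hg0, hg1, pol_3, pol_3, smul_zero, add_zero]
      have := (hwin _ hxL 1 h1I).2
      rwa [one_smul] at this
    · have e5 : g1 i = 0 := by
        rw [hg1]; unfold pol
        rw [if_neg h1, if_neg h2, if_neg h3]; simp
      rw [e5, smul_zero, add_zero, hg0]
      unfold pol
      rw [if_neg h1, if_neg h2, if_neg h3]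
      split_ifs
      · exact hfGs _
      · exact hfGs _
  · rw [hvb, pol_le le_rfl]
    show b0 < fb (r + 2)
    rw [hfb_2]
    have h1 := hyI.1
    have h2 : ε * (-Sg) < ε * M.xL := mul_lt_mul_of_pos_left hSgL hε0
    linarith
  · intro k hk σ hσ l hl κ hκ hor i hi s hs
    have hk0 : K0 ≤ k := ((le_max_left _ _).trans (le_max_left _ _)).trans hk
    have hk1 : K1 ≤ k := ((le_max_right _ _).trans (le_max_left _ _)).trans hk
    have hk2 : K2 ≤ k := (((le_max_left _ _).trans (le_max_left _ _)).trans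
      (le_max_right _ _)).trans hk
    have hk3 : K3 ≤ k := (((le_max_right _ _).trans (le_max_left _ _)).trans
      (le_max_right _ _)).trans hk
    show F.OpenAt σ _ _ k l
    rcases lt_or_ge i n with h | h
    · have := fopen k hk0 hk1 i h s hs σ hσ l hl
      rw [hvb, hg0, hg1, pol_le h.le, pol_le (by omega : i + 1 ≤ n), pol_le h.le,
        pol_le (by omega : i + 1 ≤ n), pol_le h.le, pol_le (by omega : i + 1 ≤ n)]
      simpa using this
    rcases lt_or_ge i (n + 4) with h4 | h4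
    · obtain ⟨j, rfl⟩ : ∃ j, i = n + j := ⟨i - n, by omega⟩
      obtain ⟨x, κ', hb1, hb2, hcases⟩ := hpos κ j (by omega) s hs
      rw [hb1, hb2]
      rcases hcases with ⟨-, hx, hκ'⟩ | ⟨-, hx, hκ'⟩ | ⟨-, hx, hκ'⟩ | ⟨-, hx, hκ'⟩
      · rw [hx, hκ']
        exact wopen k hk2 hk3 σ hσ l hl _ hxL _ (hconv s hs 1 h1I κ hκ) (Or.inr (Or.inl rfl))
      · rw [hx, hκ']
        refine wopen k hk2 hk3 σ hσ l hl _ (hmem1 s hs) _ hκ ?_
        rcases hor with h | h | h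
        · exact Or.inl h
        · exact Or.inr (Or.inr (Or.inr (Or.inl h)))
        · exact Or.inr (Or.inr (Or.inr (Or.inr h)))
      · rw [hx, hκ']
        exact wopen k hk2 hk3 σ hσ l hl _ hxR _ (hconv s hs κ hκ 1 h1I)
          (Or.inr (Or.inr (Or.inl rfl)))
      · rw [hx, hκ']
        exact wopen k hk2 hk3 σ hσ l hl _ (hmem1 (1 - s) (hs' s hs)) _ h1I
          (Or.inr (Or.inr (Or.inr (Or.inl rfl))))
    · obtain ⟨j, hj, rfl⟩ : ∃ j, j < n ∧ i = 2 * n + 4 - (j + 1) := ⟨2 * n + 3 - i, by omega,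
        by omega⟩
      have e5 : 2 * n + 4 - (2 * n + 4 - (j + 1)) = j + 1 := by omega
      have e6 : 2 * n + 4 - (2 * n + 4 - (j + 1) + 1) = j := by omega
      have := fopen k hk0 hk1 j hj (1 - s) (hs' s hs) σ hσ l hl
      rw [hvb, hg0, hg1, pol_pal h4, pol_pal h4, pol_pal h4,
        pol_pal (by omega : n + 4 ≤ 2 * n + 4 - (j + 1) + 1),
        pol_pal (by omega : n + 4 ≤ 2 * n + 4 - (j + 1) + 1),
        pol_pal (by omega : n + 4 ≤ 2 * n + 4 - (j + 1) + 1), e5, e6]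
      simp only [smul_zero, add_zero]
      have e7 : (1 - s) * fb (j + 1) + s * fb j = (1 - (1 - s)) * fb j + (1 - s) * fb (j + 1) := by
        ring
      have e8 : (1 - s) • fG (j + 1) + s • fG j = (1 - (1 - s)) • fG j + (1 - s) • fG (j + 1) := by
        rw [sub_sub_cancel, add_comm]
      rw [e7, e8]
      exact this
  · intro k hk κ hκ i hi s hs
    have hk4 : K4 ≤ k := ((le_max_right _ _).trans (le_max_right _ _)).trans hk
    have hκI : κ ∈ Icc (-1 : ℝ) 1 := by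
      rcases hκ with rfl | rfl <;> constructor <;> norm_num
    obtain ⟨hwL, hwR, hwM⟩ := hK4 k hk4
    obtain ⟨x, κ', hb1, hb2, hcases⟩ := hpos κ i hi s hs
    rw [hb1, hb2]
    rcases hcases with ⟨rfl, hx, hκ'⟩ | ⟨rfl, hx, hκ'⟩ | ⟨rfl, hx, hκ'⟩ | ⟨rfl, hx, hκ'⟩
    · rw [hx, hκ', rotc_edge0 κ hs]
      exact hwL _ (hconv s hs 1 h1I κ hκI)
    · rw [hx, hκ', rotc_edge1 hκ hs]
      have := hwM κ hκ κ hκ s hs
      have e5 : κ * κ = 1 := by rcases hκ with rfl | rfl <;> norm_num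
      rw [e5, one_mul] at this
      exact this
    · rw [hx, hκ', rotc_edge2 hκ hs]
      exact hwR _ (hconv s hs κ hκI 1 h1I) κ hκ
    · rw [hx, hκ', rotc_edge3 hκ hs]
      have := hwM 1 (Or.inl rfl) κ hκ (1 - s) (hs' s hs)
      rw [sub_sub_cancel, mul_one] at this
      rw [sub_sub_cancel]
      exact this

/-- **THE GATE THEOREM** -/
theorem gateThm (F : SpindleFamily d b0 b1 OK T V) : GateThm F := fun hb0 =>
  gateThm_of (approach hb0 (matPass F)) (matGate F) hb0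

end Crest.Agent.R202.SF
end
end

-- ▼ part R202/PolyCont
section

/-! # Row 202, node CONT (helper557): admissibility and continuity of the forms along a polygon
loop, locally uniformly in `(τ, κ)`. -/

set_option autoImplicit false

open MeasureTheory Set Filter
open scoped Topology ContDiff
open Crest.Agent.R202.Mod Crest.Agent.R202.Clu

namespace Crest.Agent.R202.PL

noncomputable section

/-- comparison of the forms of two data -/
theorem QF_sub_le {d : ℕ} {σ : ℕ × ℕ} {K b b' e : ℝ} {P P' : ℝ × ℝ → ℝ} (hP : Adm d K P)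
    (hP' : Adm d K P') (h1 : ∀ z ∈ Om, |P z - P' z| ≤ e)
    (h2 : ∀ z ∈ Om, |b ^ 2 / P z - b' ^ 2 / P' z| ≤ e) (he : 0 ≤ e) (v : CT.VV σ) :
    |CT.QF d σ b P v v - CT.QF d σ b' P' v v| ≤ e * Mod.href d σ.1 σ.2 v v := by
  have cW := coef_WQ hP b
  have cW' := coef_WQ hP' b'
  have c1 := (coef_WQ (adm_one d) 1).const_mul e
  have e1 : CT.QF d σ b P v v = formW σ.1 σ.2 cW v v := rfl
  have e2 : CT.QF d σ b' P' v v = formW σ.1 σ.2 cW' v v := rfl
  have e3 : formW σ.1 σ.2 c1 v v = e * Q σ.1 σ.2 (adm_one d) 1 v v := by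
    unfold Q
    rw [formW_const_mul]
  have hg := g_nonneg (d := d) v
  have h3 : e * Q σ.1 σ.2 (adm_one d) 1 v v ≤ e * Mod.href d σ.1 σ.2 v v := by
    refine mul_le_mul_of_nonneg_left ?_ he
    rw [href_self_add]
    linarith
  rw [e1, e2, abs_le]
  have k1 : ∀ i, ∀ z ∈ Om, |WQ b P i z - WQ b' P' i z| ≤ e * WQ 1 (fun _ => 1) i z := by
    intro i z hz
    fin_cases i
    · simp [WQ]
    · simp only [WQ, mul_one]
      exact h1 z hz
    · simp only [WQ, div_one, one_pow, mul_one]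
      exact h2 z hz
    · simp only [WQ, sub_self, abs_zero, mul_one]
      exact he
  constructor
  · have h4 : formW σ.1 σ.2 (cW'.sub cW) v v ≤ formW σ.1 σ.2 c1 v v := by
      refine formW_mono (cW'.sub cW) c1 (fun i z hz => ?_) v
      have := (abs_le.1 (k1 i z hz)).1
      linarith
    have h5 := formW_sub cW' cW v v
    rw [h5, e3] at h4
    linarith
  · have h4 : formW σ.1 σ.2 (cW.sub cW') v v ≤ formW σ.1 σ.2 c1 v v := by
      refine formW_mono (cW.sub cW') c1 (fun i z hz => ?_) v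
      exact (abs_le.1 (k1 i z hz)).2
    have h5 := formW_sub cW cW' v v
    rw [h5, e3] at h4
    linarith

theorem div_sub_le {K b b' P P' : ℝ} (hK : 1 ≤ K) (hP : K⁻¹ ≤ P) (hP' : K⁻¹ ≤ P')
    (hP'K : P' ≤ K) :
    |b ^ 2 / P - b' ^ 2 / P'| ≤ K ^ 2 * (|b ^ 2 - b' ^ 2| * K + b' ^ 2 * |P - P'|) := by
  have hK0 : 0 < K := by linarith
  have hKi : 0 < K⁻¹ := inv_pos.2 hK0
  have h1 : 0 < P := hKi.trans_le hP
  have h2 : 0 < P' := hKi.trans_le hP'
  have e : b ^ 2 / P - b' ^ 2 / P' = (P⁻¹ * P'⁻¹) * ((b ^ 2 - b' ^ 2) * P' - b' ^ 2 * (P - P')) := by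
    field_simp; ring
  have i1 : P⁻¹ ≤ K := by rw [inv_le_comm₀ h1 hK0]; exact hP
  have i2 : P'⁻¹ ≤ K := by rw [inv_le_comm₀ h2 hK0]; exact hP'
  have i3 : P⁻¹ * P'⁻¹ ≤ K ^ 2 := by
    rw [sq]
    exact mul_le_mul i1 i2 (inv_pos.2 h2).le hK0.le
  have i4 : |(b ^ 2 - b' ^ 2) * P' - b' ^ 2 * (P - P')| ≤
      |b ^ 2 - b' ^ 2| * K + b' ^ 2 * |P - P'| := by
    refine (abs_sub _ _).trans ?_
    rw [abs_mul, abs_mul, abs_of_pos h2, abs_of_nonneg (sq_nonneg b')]
    have := mul_le_mul_of_nonneg_left hP'K (abs_nonneg (b ^ 2 - b' ^ 2))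
    linarith
  rw [e, abs_mul, abs_of_pos (mul_pos (inv_pos.2 h1) (inv_pos.2 h2))]
  exact mul_le_mul i3 i4 (abs_nonneg _) (by positivity)

section Gen

variable {E : Type*} [AddCommGroup E] [Module ℝ E]

theorem tele_sub (r : ℕ) (V : ℕ → E) (τ τ0 : ℝ) :
    tele r V τ - tele r V τ0 = ∑ i ∈ Finset.range r,
      (Real.smoothTransition (r * τ - i) - Real.smoothTransition (r * τ0 - i)) •
        (V (i + 1) - V i) := by
  unfold tele
  rw [add_sub_add_left_eq_sub, ← Finset.sum_sub_distrib]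
  refine Finset.sum_congr rfl fun i _ => ?_
  rw [sub_smul]

theorem tele_affine (r : ℕ) (A B : ℕ → E) (κ τ : ℝ) :
    tele r (fun i => A i + κ • B i) τ = tele r A τ + κ • tele r B τ := by
  unfold tele
  rw [smul_add, Finset.smul_sum]
  have h : ∀ i : ℕ, Real.smoothTransition (r * τ - i) •
      (A (i + 1) + κ • B (i + 1) - (A i + κ • B i)) =
      Real.smoothTransition (r * τ - i) • (A (i + 1) - A i) +
      κ • Real.smoothTransition (r * τ - i) • (B (i + 1) - B i) := by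
    intro i
    module
  simp only [h, Finset.sum_add_distrib]
  abel

theorem diff_eq (A A0 B B0 : E) (κ κ0 : ℝ) :
    (A + κ • B) - (A0 + κ0 • B0) = (A - A0) + κ • (B - B0) + (κ - κ0) • B0 := by
  module

theorem lin_sub {F : Type*} [AddCommGroup F] [Module ℝ F] (f : E →ₗ[ℝ] F) (x y : E) :
    f (x - y) = f x - f y := map_sub f x y

omit [Module ℝ E] in
theorem add_sub_canc (x y : E) : x = y + (x - y) := by abel

end Gen

variable {Xa Xb : ℝ}

theorem Gf_sub (G G' : ℕ →₀ TestFn Xa Xb) (z : ℝ × ℝ) : Gf (G - G') z = Gf G z - Gf G' z := by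
  rw [← GF_eq_Gf, ← GF_eq_Gf, ← GF_eq_Gf]
  exact lin_sub (E := ℕ →₀ TestFn Xa Xb) (F := ℝ) (GF z.1 (Sch.ee z.2)) G G'

theorem jetN_sum {ι : Type*} (s : Finset ι) (F : ι → ℕ →₀ TestFn Xa Xb) :
    jetN (∑ i ∈ s, F i) ≤ ∑ i ∈ s, jetN (F i) := by
  classical
  induction s using Finset.induction_on with
  | empty =>
    simp only [Finset.sum_empty]
    have := jetN_smul (0 : ℝ) (0 : ℕ →₀ TestFn Xa Xb)
    rw [zero_smul, abs_zero, zero_mul] at this
    exact this.le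
  | insert a s ha ih =>
    rw [Finset.sum_insert ha, Finset.sum_insert ha]
    exact (jetN_add _ _).trans (add_le_add le_rfl ih)

/-- modulus of continuity of a polygonal path -/
def omg (r : ℕ) (V : ℕ → ℕ →₀ TestFn Xa Xb) (τ0 τ : ℝ) : ℝ :=
  ∑ i ∈ Finset.range r, |Real.smoothTransition (r * τ - i) - Real.smoothTransition (r * τ0 - i)| *
    jetN (V (i + 1) - V i)

theorem omg_cont (r : ℕ) (V : ℕ → ℕ →₀ TestFn Xa Xb) (τ0 : ℝ) : Continuous (omg r V τ0) := by
  unfold omg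
  refine continuous_finsetSum _ fun i _ => ?_
  have h : Continuous fun τ : ℝ => Real.smoothTransition (r * τ - i) :=
    Real.smoothTransition.continuous.comp (by fun_prop)
  exact ((h.sub continuous_const).abs).mul continuous_const

theorem omg_self (r : ℕ) (V : ℕ → ℕ →₀ TestFn Xa Xb) (τ0 : ℝ) : omg r V τ0 τ0 = 0 := by
  unfold omg
  simp

theorem jetN_tele_sub (r : ℕ) (V : ℕ → ℕ →₀ TestFn Xa Xb) (τ τ0 : ℝ) :
    jetN (tele r V τ - tele r V τ0) ≤ omg r V τ0 τ := by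
  have e := tele_sub r V τ τ0
  rw [e]
  refine (jetN_sum _ _).trans (Finset.sum_le_sum fun i _ => ?_)
  rw [jetN_smul]

namespace Polygon

variable {y0 y1 : ℝ} (p : Polygon Xa Xb y0 y1)

theorem G_eq (τ κ : ℝ) : p.G τ κ = tele p.r p.G0 τ + κ • tele p.r p.G1 τ := by
  unfold G V
  exact tele_affine p.r p.G0 p.G1 κ τ

/-- modulus of continuity -/
def mdl (τ0 κ0 : ℝ) (z : ℝ × ℝ) : ℝ :=
  omg p.r p.G0 τ0 z.1 + |z.2| * omg p.r p.G1 τ0 z.1 + |z.2 - κ0| * jetN (tele p.r p.G1 τ0)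

theorem mdl_cont (τ0 κ0 : ℝ) : Continuous (p.mdl τ0 κ0) := by
  unfold mdl
  have h1 := (omg_cont p.r p.G0 τ0).comp (continuous_fst (X := ℝ) (Y := ℝ))
  have h2 := (omg_cont p.r p.G1 τ0).comp (continuous_fst (X := ℝ) (Y := ℝ))
  exact (h1.add (continuous_snd.abs.mul h2)).add
    (((continuous_snd.sub continuous_const).abs).mul continuous_const)

theorem mdl_self (τ0 κ0 : ℝ) : p.mdl τ0 κ0 (τ0, κ0) = 0 := by
  unfold mdl
  simp [omg_self]

theorem jetN_sub_le (τ0 κ0 τ κ : ℝ) : jetN (p.G τ κ - p.G τ0 κ0) ≤ p.mdl τ0 κ0 (τ, κ) := by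
  have e : p.G τ κ - p.G τ0 κ0 = (tele p.r p.G0 τ - tele p.r p.G0 τ0) +
      κ • (tele p.r p.G1 τ - tele p.r p.G1 τ0) + (κ - κ0) • tele p.r p.G1 τ0 := by
    rw [G_eq, G_eq]
    exact diff_eq (E := ℕ →₀ TestFn Xa Xb) _ _ _ _ _ _
  rw [e]
  refine (jetN_add _ _).trans (add_le_add ((jetN_add _ _).trans (add_le_add ?_ ?_)) ?_)
  · exact jetN_tele_sub _ _ _ _
  · rw [jetN_smul]
    exact mul_le_mul_of_nonneg_left (jetN_tele_sub _ _ _ _) (abs_nonneg _)
  · rw [jetN_smul]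

variable (hsm : ∀ κ ∈ Icc (-1 : ℝ) 1, ∀ i ≤ p.r, jetN (p.V κ i) ≤ 1 / 2)

include hsm in
/-- the perturbation stays `≤ 3/4` near the parameter interval -/
theorem jetN_ev (τ0 : ℝ) {κ0 : ℝ} (hκ0 : κ0 ∈ Icc (-1 : ℝ) 1) :
    ∀ᶠ z in 𝓝 (τ0, κ0), jetN (p.G z.1 z.2) ≤ 3 / 4 := by
  have h1 : ∀ᶠ z in 𝓝 (τ0, κ0), p.mdl τ0 κ0 z < 1 / 4 := by
    have := (p.mdl_cont τ0 κ0).tendsto (τ0, κ0)
    rw [p.mdl_self] at this
    exact this.eventually (gt_mem_nhds (by norm_num))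
  filter_upwards [h1] with z hz
  have e : p.G z.1 z.2 = p.G τ0 κ0 + (p.G z.1 z.2 - p.G τ0 κ0) := add_sub_canc (E := ℕ →₀ TestFn Xa Xb) _ _
  rw [e]
  have h2 := p.jetN_le (hsm κ0 hκ0) τ0
  have h3 := p.jetN_sub_le τ0 κ0 z.1 z.2
  have h4 := jetN_add (p.G τ0 κ0) (p.G z.1 z.2 - p.G τ0 κ0)
  linarith

theorem adm_prof' (d : ℕ) {h : ℝ → ℝ} (hm : Measurable h) (h01 : ∀ x ∈ Ioo (0 : ℝ) 1, 0 ≤ h x)
    (h11 : ∀ x ∈ Ioo (0 : ℝ) 1, h x ≤ 1) {b β : ℝ} (hb : 1 ≤ b) (hbβ : b ≤ β)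
    {G : ℕ →₀ TestFn Xa Xb} (hG : jetN G ≤ 3 / 4) : Adm d (β + 4) (prof h b G) := by
  refine ⟨?_, by linarith, fun z hz => ?_, fun z hz => ?_⟩
  · refine Measurable.aestronglyMeasurable ?_
    have := Inst.measurable_Gf G
    unfold prof
    fun_prop
  · have h2 := (abs_le.1 ((Inst.abs_Gf_le G z).trans hG)).1
    have h3 := mul_nonneg (sub_nonneg.2 hb) (h01 z.1 hz.1)
    have h4 : (β + 4)⁻¹ ≤ 1 / 4 := by
      rw [inv_le_comm₀ (by linarith) (by norm_num)]; linarith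
    unfold prof; linarith
  · have h2 := (abs_le.1 ((Inst.abs_Gf_le G z).trans hG)).2
    have h3 := mul_le_mul_of_nonneg_left (h11 z.1 hz.1) (sub_nonneg.2 hb)
    unfold prof; linarith

include hsm in
/-- **(CONT) (1)** -/
theorem adm_ev (hy0 : 1 ≤ y0) {h : ℝ → ℝ} (hm : Measurable h)
    (h0 : ∀ x ∈ Ioo (0 : ℝ) 1, 0 ≤ h x) (h1 : ∀ x ∈ Ioo (0 : ℝ) 1, h x ≤ 1) (d : ℕ) (τ0 : ℝ)
    {κ0 : ℝ} (hκ0 : κ0 ∈ Icc (-1 : ℝ) 1) :
    ∀ᶠ z in 𝓝 (τ0, κ0), Adm d (y1 + 4) (prof h (p.y z.1) (p.G z.1 z.2)) := by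
  filter_upwards [p.jetN_ev hsm τ0 hκ0] with z hz
  exact adm_prof' d hm h0 h1 (hy0.trans (p.y_mem z.1).1) (p.y_mem z.1).2 hz

include hsm in
/-- **(CONT) (2)** -/
theorem form_cont (hy0 : 1 ≤ y0) {h : ℝ → ℝ} (hm : Measurable h)
    (h0 : ∀ x ∈ Ioo (0 : ℝ) 1, 0 ≤ h x) (h1 : ∀ x ∈ Ioo (0 : ℝ) 1, h x ≤ 1) (d : ℕ) (σ : ℕ × ℕ)
    (τ0 : ℝ) {κ0 : ℝ} (hκ0 : κ0 ∈ Icc (-1 : ℝ) 1) {ε : ℝ} (hε : 0 < ε) :
    ∀ᶠ z in 𝓝 (τ0, κ0), ∀ v : CT.VV σ,
      |CT.QF d σ (p.y z.1) (prof h (p.y z.1) (p.G z.1 z.2)) v v -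
        CT.QF d σ (p.y τ0) (prof h (p.y τ0) (p.G τ0 κ0)) v v| ≤
      ε * Mod.href d σ.1 σ.2 v v := by
  have hA := p.adm_ev hsm hy0 hm h0 h1 d τ0 hκ0
  have hA0 := hA.self_of_nhds
  set K := y1 + 4 with hK
  have hK1 : 1 ≤ K := hA0.K_ge
  -- the modulus
  set e0 : ℝ × ℝ → ℝ := fun z => |p.y z.1 - p.y τ0| + p.mdl τ0 κ0 z with he0
  set e1 : ℝ × ℝ → ℝ := fun z =>
    K ^ 2 * (|p.y z.1 ^ 2 - p.y τ0 ^ 2| * K + p.y τ0 ^ 2 * e0 z) with he1
  have hyc : Continuous fun z : ℝ × ℝ => p.y z.1 := p.y_smooth.continuous.comp continuous_fst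
  have c0 : Continuous e0 := ((hyc.sub continuous_const).abs).add (p.mdl_cont τ0 κ0)
  have c1 : Continuous e1 := by
    have := ((hyc.pow 2).sub (continuous_const (y := p.y τ0 ^ 2))).abs
    exact continuous_const.mul ((this.mul continuous_const).add (continuous_const.mul c0))
  have z0 : e0 (τ0, κ0) = 0 := by simp only [he0, sub_self, abs_zero, p.mdl_self, add_zero]
  have z1 : e1 (τ0, κ0) = 0 := by simp only [he1, z0]; simp
  have v0 : ∀ᶠ z in 𝓝 (τ0, κ0), e0 z < ε := by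
    have := c0.tendsto (τ0, κ0)
    rw [z0] at this
    exact this.eventually (gt_mem_nhds hε)
  have v1 : ∀ᶠ z in 𝓝 (τ0, κ0), e1 z < ε := by
    have := c1.tendsto (τ0, κ0)
    rw [z1] at this
    exact this.eventually (gt_mem_nhds hε)
  filter_upwards [hA, v0, v1] with z hz hv0 hv1 v
  have hd : ∀ x ∈ Om, |prof h (p.y z.1) (p.G z.1 z.2) x - prof h (p.y τ0) (p.G τ0 κ0) x| ≤
      e0 z := by
    intro x hx
    have e : prof h (p.y z.1) (p.G z.1 z.2) x - prof h (p.y τ0) (p.G τ0 κ0) x =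
        (p.y z.1 - p.y τ0) * h x.1 + Gf (p.G z.1 z.2 - p.G τ0 κ0) x := by
      rw [Gf_sub]; unfold prof; ring
    rw [e]
    refine (abs_add_le _ _).trans (add_le_add ?_ ?_)
    · rw [abs_mul, abs_of_nonneg (h0 x.1 hx.1)]
      exact mul_le_of_le_one_right (abs_nonneg _) (h1 x.1 hx.1)
    · exact (Inst.abs_Gf_le _ _).trans (p.jetN_sub_le τ0 κ0 z.1 z.2)
  refine QF_sub_le hz hA0 (fun x hx => (hd x hx).trans hv0.le) (fun x hx => ?_) hε.le v
  refine (div_sub_le hK1 (hz.low x hx) (hA0.low x hx) (hA0.up x hx)).trans ?_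
  refine le_trans ?_ hv1.le
  simp only [he1]
  have hK2 : 0 ≤ K ^ 2 := by positivity
  refine mul_le_mul_of_nonneg_left (add_le_add le_rfl ?_) hK2
  exact mul_le_mul_of_nonneg_left (hd x hx) (sq_nonneg _)

end Polygon

end

end Crest.Agent.R202.PL
end

-- ▼ part R202/PolyContLoop

/-! # Row 202, node CONT (helper557): the instance for the loops of the gates -/

set_option autoImplicit false

open MeasureTheory Set Filter
open scoped Topology ContDiff
open Crest.Agent.R202.Mod Crest.Agent.R202.Cut Crest.Agent.R202.PL Crest.Agent.R202.Clu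

noncomputable section

namespace Crest.Agent.R202.Inst

variable {Xa Xb : ℝ} {d : ℕ} {b0 b1 : ℝ} {hb0 : 1 ≤ b0} {hb01 : b0 ≤ b1} {hs : ℕ → ℝ → ℝ}
  {ε : ℕ → ℝ} {H : Tips Xb hs ε} {ha : 0 < Xa} {hab : Xa < Xb} {hb : Xb < 1}
  {S : Finset (ℕ × ℕ)} {N : ℕ × ℕ → ℕ} {σs : ℕ × ℕ} {ls : ℕ} {δ : ℝ}

/-- **(CONT)** for the loop of a gate -/
theorem loopCont (O : SF.GateOut (fam d hb0 hb01 H ha hab hb) S N σs ls δ) (hδ : δ ≤ 1 / 2)
    (k : ℕ) (σ : ℕ × ℕ) : LoopCont O k σ (b1 + 4) := fun τ0 _ hκ =>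
  ⟨(poly O).adm_ev (poly_small O hδ) hb0 (H.meas k) (fun x _ => H.nonneg k x)
      (fun x _ => H.le_one k x) d τ0 hκ,
    fun _ hη => (poly O).form_cont (poly_small O hδ) hb0 (H.meas k) (fun x _ => H.nonneg k x)
      (fun x _ => H.le_one k x) d σ τ0 hκ hη⟩

/-- **(CONT)**, name of 98's interface -/
theorem loop_cont (O : SF.GateOut (fam d hb0 hb01 H ha hab hb) S N σs ls δ) (hδ : δ ≤ 1 / 2)
    (k : ℕ) (σ : ℕ × ℕ) : LoopCont O k σ (b1 + 4) := loopCont O hδ k σ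

end Crest.Agent.R202.Inst
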