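import Mathlib

/-! # Row 202, node LB / PolyLoop (helper557): from polygons in parameter space to smooth loops

`tele r V τ` runs through the polygon `V 0, V 1, …, V r` (`V : ℕ → E`), flat at the vertices.
`GG η a c X u = ∑ k, c k * (η k X / (1 - X²)) * Re (u ^ a k)`. -/

set_option autoImplicit false

open Set
open scoped ContDiff

namespace Crest.Agent.R202.PL

noncomputable section

/-! ### Telescoping path through a polygon -/

section Tele

variable {E : Type*} [AddCommGroup E] [Module ℝ E]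

/-- the smooth path through the vertices `V 0, …, V r` -/
def tele (r : ℕ) (V : ℕ → E) (τ : ℝ) : E :=
  V 0 + ∑ i ∈ Finset.range r, Real.smoothTransition (r * τ - i) • (V (i + 1) - V i)

/-- index of the edge at time `τ` -/
def eidx (r : ℕ) (τ : ℝ) : ℕ := min ⌊r * τ⌋₊ (r - 1)

/-- position on the edge at time `τ` -/
def epos (r : ℕ) (τ : ℝ) : ℝ := Real.smoothTransition (r * τ - eidx r τ)

theorem epos_mem (r : ℕ) (τ : ℝ) : epos r τ ∈ Icc (0 : ℝ) 1 :=
  ⟨Real.smoothTransition.nonneg _, Real.smoothTransition.le_one _⟩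

theorem eidx_lt {r : ℕ} (hr : 0 < r) (τ : ℝ) : eidx r τ < r := by
  unfold eidx
  omega

omit [Module ℝ E] in
theorem sum_tele (V : ℕ → E) (i : ℕ) :
    V 0 + ∑ j ∈ Finset.range i, (V (j + 1) - V j) = V i := by
  rw [Finset.sum_range_sub]; abel

theorem tele_edge (r : ℕ) (V : ℕ → E) (τ : ℝ) {i : ℕ} (hi : i < r) (h1 : (i : ℝ) ≤ r * τ)
    (h2 : r * τ ≤ i + 1) :
    tele r V τ = V i + Real.smoothTransition (r * τ - i) • (V (i + 1) - V i) := by
  unfold tele
  have hsplit : Finset.range r = Finset.range i ∪ ({i} ∪ Finset.Ico (i + 1) r) := by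
    ext j
    simp only [Finset.mem_union, Finset.mem_range, Finset.mem_singleton, Finset.mem_Ico]
    omega
  rw [hsplit, Finset.sum_union, Finset.sum_union]
  · have e1 : ∑ j ∈ Finset.range i, Real.smoothTransition (r * τ - j) • (V (j + 1) - V j) =
        ∑ j ∈ Finset.range i, (V (j + 1) - V j) := by
      refine Finset.sum_congr rfl fun j hj => ?_
      have hj' : (j : ℝ) + 1 ≤ i := by exact_mod_cast Finset.mem_range.1 hj
      rw [Real.smoothTransition.one_of_one_le (by linarith), one_smul]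
    have e2 : ∑ j ∈ Finset.Ico (i + 1) r, Real.smoothTransition (r * τ - j) • (V (j + 1) - V j)
        = 0 := by
      refine Finset.sum_eq_zero fun j hj => ?_
      have hj' : (i : ℝ) + 1 ≤ j := by exact_mod_cast (Finset.mem_Ico.1 hj).1
      rw [Real.smoothTransition.zero_of_nonpos (by linarith), zero_smul]
    rw [e1, e2, Finset.sum_singleton, add_zero, ← add_assoc, sum_tele]
  · rw [Finset.disjoint_left]
    intro j hj hj'
    rw [Finset.mem_singleton] at hj
    rw [Finset.mem_Ico] at hj'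
    omega
  · rw [Finset.disjoint_left]
    intro j hj hj'
    rw [Finset.mem_range] at hj
    rw [Finset.mem_union, Finset.mem_singleton, Finset.mem_Ico] at hj'
    omega

theorem tele_left (r : ℕ) (V : ℕ → E) {τ : ℝ} (hτ : τ ≤ 0) : tele r V τ = V 0 := by
  unfold tele
  rw [Finset.sum_eq_zero, add_zero]
  intro j _
  rw [Real.smoothTransition.zero_of_nonpos, zero_smul]
  have h1 : (r : ℝ) * τ ≤ 0 := mul_nonpos_of_nonneg_of_nonpos (Nat.cast_nonneg r) hτ
  have h2 : (0 : ℝ) ≤ j := Nat.cast_nonneg j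
  linarith

theorem tele_right (r : ℕ) (V : ℕ → E) {τ : ℝ} (hτ : 1 ≤ τ) : tele r V τ = V r := by
  unfold tele
  rw [← sum_tele V r]
  congr 1
  refine Finset.sum_congr rfl fun j hj => ?_
  have hj' : (j : ℝ) + 1 ≤ r := by exact_mod_cast Finset.mem_range.1 hj
  have h1 : (r : ℝ) ≤ r * τ := le_mul_of_one_le_right (Nat.cast_nonneg r) hτ
  rw [Real.smoothTransition.one_of_one_le (by linarith), one_smul]

/-- every point of the path is a convex combination of two neighbouring vertices -/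
theorem tele_eq {r : ℕ} (hr : 0 < r) (V : ℕ → E) {τ : ℝ} (h0 : 0 ≤ τ) (h1 : τ ≤ 1) :
    tele r V τ = (1 - epos r τ) • V (eidx r τ) + epos r τ • V (eidx r τ + 1) := by
  have hr' : (0 : ℝ) < r := by exact_mod_cast hr
  have hτ : 0 ≤ (r : ℝ) * τ := by positivity
  have a1 : (eidx r τ : ℝ) ≤ r * τ := by
    have : ((eidx r τ : ℕ) : ℝ) ≤ (⌊(r : ℝ) * τ⌋₊ : ℝ) := by
      exact_mod_cast min_le_left _ _
    exact this.trans (Nat.floor_le hτ)
  have a2 : (r : ℝ) * τ ≤ eidx r τ + 1 := by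
    unfold eidx
    rcases le_total ⌊(r : ℝ) * τ⌋₊ (r - 1) with h | h
    · rw [min_eq_left h]
      exact (Nat.lt_floor_add_one _).le
    · rw [min_eq_right h]
      have h3 : ((r - 1 : ℕ) : ℝ) + 1 = r := by
        have : (r - 1) + 1 = r := Nat.succ_pred_eq_of_pos hr
        exact_mod_cast this
      rw [h3]
      nlinarith
  rw [tele_edge r V τ (eidx_lt hr τ) a1 a2]
  unfold epos
  module

/-- TRANSFER: a property which holds on all the edges holds along the path. -/
theorem tele_forall {r : ℕ} (hr : 0 < r) (V : ℕ → E) (Q : E → Prop)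
    (hQ : ∀ i < r, ∀ s ∈ Icc (0 : ℝ) 1, Q ((1 - s) • V i + s • V (i + 1))) (τ : ℝ) :
    Q (tele r V τ) := by
  rcases le_or_gt τ 0 with h0 | h0
  · rw [tele_left r V h0]
    have := hQ 0 hr 0 ⟨le_rfl, zero_le_one⟩
    simpa using this
  rcases le_or_gt 1 τ with h1 | h1
  · rw [tele_right r V h1]
    have h2 := hQ (r - 1) (by omega) 1 ⟨zero_le_one, le_rfl⟩
    have h3 : r - 1 + 1 = r := Nat.succ_pred_eq_of_pos hr
    rw [h3] at h2
    simpa using h2
  rw [tele_eq hr V h0.le h1.le]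
  exact hQ _ (eidx_lt hr τ) _ (epos_mem r τ)

theorem map_tele {E' : Type*} [AddCommGroup E'] [Module ℝ E'] (φ : E →ₗ[ℝ] E') (r : ℕ)
    (V : ℕ → E) (τ : ℝ) : φ (tele r V τ) = tele r (fun i => φ (V i)) τ := by
  unfold tele
  simp [map_sum]

end Tele

section TeleN

variable {E : Type*} [NormedAddCommGroup E] [NormedSpace ℝ E]

/-- joint smoothness when the vertices depend smoothly on a parameter -/
theorem contDiff_tele {W : Type*} [NormedAddCommGroup W] [NormedSpace ℝ W] (r : ℕ)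
    {V : ℕ → W → E} (hV : ∀ i, ContDiff ℝ ∞ (V i)) {g : W → ℝ} (hg : ContDiff ℝ ∞ g) :
    ContDiff ℝ ∞ (fun p : W => tele r (fun i => V i p) (g p)) := by
  unfold tele
  refine (hV 0).add (ContDiff.sum fun i _ => ?_)
  exact (Real.smoothTransition.contDiff.comp
    ((contDiff_const.mul hg).sub contDiff_const)).smul ((hV (i + 1)).sub (hV i))


theorem tele_mem_Icc {r : ℕ} (hr : 0 < r) (V : ℕ → ℝ) {a b : ℝ} (hV : ∀ i ≤ r, V i ∈ Icc a b)
    (τ : ℝ) : tele r V τ ∈ Icc a b := by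
  refine tele_forall hr V (fun x => x ∈ Icc a b) (fun i hi s hs => ?_) τ
  have h1 := hV i hi.le
  have h2 := hV (i + 1) hi
  have := (convex_Icc a b) h1 h2 (by linarith [hs.2] : 0 ≤ 1 - s) hs.1 (by ring)
  simpa using this

end TeleN

/-! ### The cross-section perturbation -/

section GG

variable {M : ℕ}

/-- `η(X) / (1 - X²)` -/
def etaT (η : ℝ → ℝ) (X : ℝ) : ℝ := η X * (1 - X ^ 2)⁻¹

/-- the perturbation `∑ c_k η_k(X) (1-X²)⁻¹ Re (u^{a_k})` -/
def GG (η : Fin M → ℝ → ℝ) (a : Fin M → ℕ) (c : Fin M → ℝ) (X : ℝ) (u : ℂ) : ℝ :=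
  ∑ k, c k * (etaT (η k) X * (u ^ a k).re)





theorem contDiff_re_pow (a : ℕ) : ContDiff ℝ ∞ (fun u : ℂ => (u ^ a).re) :=
  Complex.reCLM.contDiff.comp (contDiff_id.pow a)


theorem re_exp_pow (a : ℕ) (φ : ℝ) :
    ((Complex.exp ((φ : ℂ) * Complex.I)) ^ a).re = Real.cos (a * φ) := by
  rw [← Complex.exp_nat_mul]
  have : (a : ℂ) * ((φ : ℂ) * Complex.I) = ((a * φ : ℝ) : ℂ) * Complex.I := by
    push_cast; ring
  rw [this, Complex.exp_ofReal_mul_I_re]


theorem abs_re_pow_le {u : ℂ} (hu : ‖u‖ ≤ 1) (a : ℕ) : |(u ^ a).re| ≤ 1 := by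
  calc |(u ^ a).re| ≤ ‖u ^ a‖ := Complex.abs_re_le_norm _
    _ = ‖u‖ ^ a := norm_pow _ _
    _ ≤ 1 := pow_le_one₀ (norm_nonneg _) hu

/-- derivatives of a smooth function with compact support are bounded -/
theorem exists_bound_iteratedDeriv {f : ℝ → ℝ} (hf : ContDiff ℝ ∞ f) {Xa Xb : ℝ}
    (hs : ∀ X, X ∉ Icc Xa Xb → f X = 0) :
    ∃ C, 0 ≤ C ∧ ∀ X, |f X| ≤ C ∧ |deriv f X| ≤ C ∧ |deriv (deriv f) X| ≤ C := by
  have hcs : HasCompactSupport f := HasCompactSupport.intro isCompact_Icc fun X hX => hs X hX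
  have hcs1 : HasCompactSupport (deriv f) := hcs.deriv
  have hcs2 : HasCompactSupport (deriv (deriv f)) := hcs1.deriv
  have hc0 : Continuous f := hf.continuous
  have hd1 : ContDiff ℝ ∞ (deriv f) := (contDiff_infty_iff_deriv.1 hf).2
  have hd2 : ContDiff ℝ ∞ (deriv (deriv f)) := (contDiff_infty_iff_deriv.1 hd1).2
  obtain ⟨C0, h0⟩ := hcs.exists_bound_of_continuous hc0
  obtain ⟨C1, h1⟩ := hcs1.exists_bound_of_continuous hd1.continuous
  obtain ⟨C2, h2⟩ := hcs2.exists_bound_of_continuous hd2.continuous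
  have hC0 : 0 ≤ C0 := (norm_nonneg _).trans (h0 0)
  have hC1 : 0 ≤ C1 := (norm_nonneg _).trans (h1 0)
  have hC2 : 0 ≤ C2 := (norm_nonneg _).trans (h2 0)
  refine ⟨C0 + C1 + C2, by positivity, fun X => ⟨?_, ?_, ?_⟩⟩
  · have := h0 X; rw [Real.norm_eq_abs] at this; linarith
  · have := h1 X; rw [Real.norm_eq_abs] at this; linarith
  · have := h2 X; rw [Real.norm_eq_abs] at this; linarith


section Derivs

variable {η : Fin M → ℝ → ℝ} {a : Fin M → ℕ} {Xa Xb : ℝ} (h0 : 0 < Xa) (hb : Xb < 1)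
  (hη : ∀ k, ContDiff ℝ ∞ (η k)) (hs : ∀ k X, X ∉ Icc Xa Xb → η k X = 0)

include h0 hb hη hs








end Derivs

end GG

end

end Crest.Agent.R202.PL
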