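import Crest.Agent.R202.CThmSep
import Crest.Agent.R202.ConstRem
import Crest.Agent.R202.SignPatch
import Crest.Agent.R202.CThmLoop
import Crest.Agent.R202.SignGate
import Crest.Agent.R202.PolyContLoop_Mg
import Mathlib
import Crest.Prelude.Def_CoordMetric
import Crest.Prelude.Def_ChartCurvature
import Crest.Agent.R202.GeoDefs
import Crest.Agent.R202.GeoHyp
import Crest.Agent.R202.GeoPolar
import Crest.Agent.R202.GeoFinal
import Crest.Agent.R202.GeoPull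
import Crest.Agent.R202.GeoCongr

-- ▼ part R202/ConstRedP
section

/-!
# Row 202, PART C: (RED), removal of the constants from a polynomial frame (helper206)
-/

set_option autoImplicit false

open MeasureTheory Set Filter Module
open scoped Topology ContDiff
open Crest.Agent.R202.Mod Crest.Agent.R202.Cut Crest.Agent.R202.PL Crest.Agent.R202.Clu
open Crest.Agent.R202.Lab

noncomputable section

namespace Crest.Agent.R202.Inst

/-- from a polynomial frame on the full space to one reduced frame, for all data separated by the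
same span -/
theorem exists_redP {d : ℕ} (σ : ℕ × ℕ) {l : ℕ} (p : Fin (l + Main.sh σ) → CT.VV σ)
    (hpol : ∀ i, p i ∈ Pol σ.1 σ.2) (hli : LinearIndependent ℝ p)
    (h0 : ∃ (b : ℝ) (P : ℝ × ℝ → ℝ) (K A B : ℝ), Adm d K P ∧
      Sep (g d σ.1 σ.2) (aform d σ b P) (Submodule.span ℝ (range p)) A B) :
    ∃ p' : Fin l → CT.VV σ, ∀ (b : ℝ) (P : ℝ × ℝ → ℝ) (K A B : ℝ), Adm d K P →
      Sep (g d σ.1 σ.2) (aform d σ b P) (Submodule.span ℝ (range p)) A B →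
      CT.SepP d σ l p' A B b P := by
  by_cases hσ : σ = (0, 0)
  · subst hσ
    have hsh : Main.sh (0, 0) = 1 := rfl
    obtain ⟨b0, P0, K0, A0, B0, hP0, hs0⟩ := h0
    have e00 : aform d (0, 0) b0 P0 = Q 0 0 hP0 b0 := Clu.aform_eq (0, 0) b0 hP0
    have hB : LocS.SepB ⊤ (g d 0 0) (Q 0 0 hP0 b0) p A0 B0 := by
      rw [e00] at hs0
      exact ⟨fun _ => Submodule.mem_top, hli, hs0.lt, hs0.le, fun v _ hv =>
        hs0.ge v fun w hw => CR.orth_span (V := VS 0 0) hv hw⟩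
    obtain ⟨p', hli', hmem, hone, hred⟩ := CR.exists_red (V := VS 0 0) (g := g d 0 0)
      (a := Q 0 0 hP0 b0) g_symm (fun v hv => g_pos hv) (one := one) one_ne_zero' (l := l) (p := p)
      hB.li (Q_nonneg hP0 b0) (Q_one hP0 b0) (A := A0) (B := B0) (sep_of_frame hB)
    refine ⟨p', fun b P K A B hP hs => ?_⟩
    rw [show aform d (0, 0) b P = Q 0 0 hP b from Clu.aform_eq (0, 0) b hP] at hs
    have hR := hred (Q 0 0 hP b) (Q_symm hP b) (Q_nonneg hP b) (Q_one hP b) A B hs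
    refine ⟨fun i => ?_, fun i _ => hone i, hli', hR.lt, hR.le, fun v hv hvp =>
      hR.ge v (hv rfl) hvp⟩
    have h1 : Submodule.span ℝ (Set.range p) ≤ Pol 0 0 := by
      rw [Submodule.span_le]
      rintro _ ⟨j, rfl⟩
      exact hpol j
    exact h1 (hmem i)
  · have hsh : Main.sh σ = 0 := by unfold Main.sh; rw [if_neg hσ]
    have key : ∀ (n : ℕ), n = 0 → ∀ p : Fin (l + n) → CT.VV σ, (∀ i, p i ∈ Pol σ.1 σ.2) →
        LinearIndependent ℝ p →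
        ∃ p' : Fin l → CT.VV σ, ∀ (b : ℝ) (P : ℝ × ℝ → ℝ) (K A B : ℝ), Adm d K P →
          Sep (g d σ.1 σ.2) (aform d σ b P) (Submodule.span ℝ (range p)) A B →
          CT.SepP d σ l p' A B b P := by
      rintro _ rfl p hp hl
      refine ⟨p, fun b P K A B hP hs => ?_⟩
      rw [show aform d σ b P = Q σ.1 σ.2 hP b from Clu.aform_eq σ b hP] at hs
      exact ⟨hp, fun i h => absurd h hσ, hl, hs.lt, hs.le, fun v _ hv =>
        hs.ge v fun w hw => CR.orth_span (V := VS σ.1 σ.2) hv hw⟩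
    exact key _ hsh p hpol hli

end Crest.Agent.R202.Inst
end
end

-- ▼ part R202/ConstSep
section

/-!
# Row 202, PART C: (SIGNRED) reduction of the sign of a loop to the reduced sector (helper384)
-/

set_option autoImplicit false

open MeasureTheory Set Filter Module
open scoped Topology ContDiff
open Crest.Agent.R202.Mod Crest.Agent.R202.Cut Crest.Agent.R202.PL Crest.Agent.R202.Clu
open Crest.Agent.R202.Main Crest.Agent.R202.Lab

noncomputable section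

namespace Crest.Agent.R202.Inst

/-- `SepP` in terms of `aform`, sectors with `sh = 0` -/
theorem sepP_iff_of_ne {d : ℕ} {σ : ℕ × ℕ} (hσ : σ ≠ (0, 0)) {l : ℕ} {K : ℝ} {b : ℝ}
    {P : ℝ × ℝ → ℝ} (hP : Adm d K P) (p : Fin l → CT.VV σ) (A B : ℝ) :
    CT.SepP d σ l p A B b P ↔
      (∀ i, p i ∈ Pol σ.1 σ.2) ∧ Sign.SepA ⊤ (g d σ.1 σ.2) (aform d σ b P) p A B := by
  constructor
  · intro h
    refine ⟨h.pol, fun _ => Submodule.mem_top, h.li, h.lt, fun w hw => ?_, fun v _ hv => ?_⟩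
    · rw [aform_QF σ b hP]; exact h.le w hw
    · rw [aform_QF σ b hP]; exact h.ge v (fun h0 => absurd h0 hσ) hv
  · rintro ⟨hpol, h⟩
    refine ⟨hpol, fun _ h0 => absurd h0 hσ, h.li, h.lt, fun w hw => ?_, fun v _ hv => ?_⟩
    · rw [← aform_QF σ b hP]; exact h.le w hw
    · rw [← aform_QF σ b hP]; exact h.ge v Submodule.mem_top hv

/-- the extended family separates -/
theorem sepA_cons {d : ℕ} {l : ℕ} (hl : 1 ≤ l) {K : ℝ} {b : ℝ}
    {P : ℝ × ℝ → ℝ} (hP : Adm d K P) {p : Fin l → VS 0 0} {A B : ℝ}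
    (h : CT.SepP d (0, 0) l p A B b P) :
    Sign.SepA ⊤ (g d 0 0) (aform d (0, 0) b P) (Fin.cons one p : Fin (l + 1) → VS 0 0) A B := by
  have gs : ∀ u v : VS 0 0, g d 0 0 u v = g d 0 0 v u := g_symm
  have gpos : ∀ v : VS 0 0, v ≠ 0 → 0 < g d 0 0 v v := fun v hv => g_pos hv
  have ho : ∀ i, g d 0 0 (p i) one = 0 := fun i => h.red i rfl
  have e : aform d (0, 0) b P = Q 0 0 hP b := Clu.aform_eq (0, 0) b hP
  have as : ∀ u v : VS 0 0, aform d (0, 0) b P u v = aform d (0, 0) b P v u :=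
    fun u v => Clu.aform_symm d (0, 0) b P u v
  have a1 : ∀ v : VS 0 0, aform d (0, 0) b P one v = 0 := fun v => by rw [e]; exact Q_one hP b v
  have hr : CR.Red (g d 0 0) (aform d (0, 0) b P) one p A B := by
    refine ⟨?_, h.lt, fun w hw => ?_, fun v hv hv' => ?_⟩
    · have h0 : p ⟨0, hl⟩ ≠ 0 := h.li.ne_zero _
      have h1 := h.le (p ⟨0, hl⟩) (Submodule.subset_span ⟨_, rfl⟩)
      have h2 : 0 ≤ CT.QF d (0, 0) b P (p ⟨0, hl⟩) (p ⟨0, hl⟩) := Q_nonneg hP b (p ⟨0, hl⟩)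
      have h3 : 0 < CT.gF d (0, 0) (p ⟨0, hl⟩) (p ⟨0, hl⟩) := gpos _ h0
      by_contra hcon
      push Not at hcon
      nlinarith [mul_neg_of_neg_of_pos hcon h3]
    · have h2 : aform d (0, 0) b P w w = CT.QF d (0, 0) b P w w := aform_QF (0, 0) b hP w w
      rw [h2]; exact h.le w hw
    · have h2 : aform d (0, 0) b P v v = CT.QF d (0, 0) b P v v := aform_QF (0, 0) b hP v v
      rw [h2]; exact h.ge v (fun _ => hv) hv'
  have hs := CR.sep_cons gs (gpos one one_ne_zero').le ho as a1 hr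
  refine ⟨fun _ => Submodule.mem_top, CR.linearIndependent_cons gs gpos one_ne_zero' h.li ho,
    hs.lt, hs.le, fun v _ hv => hs.ge v fun w hw => ?_⟩
  exact CR.orth_span (V := VS 0 0) (g := g d 0 0) hv hw

/-- back to the reduced family -/
theorem sepP_of_cons {d : ℕ} {l : ℕ} {K : ℝ} {b : ℝ}
    {P : ℝ × ℝ → ℝ} (hP : Adm d K P) {p : Fin l → VS 0 0} {A B : ℝ}
    (hpol : ∀ i, p i ∈ Pol 0 0) (ho : ∀ i, g d 0 0 (p i) one = 0) (hli : LinearIndependent ℝ p)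
    (h : Sign.SepA ⊤ (g d 0 0) (aform d (0, 0) b P) (Fin.cons one p : Fin (l + 1) → VS 0 0) A B) :
    CT.SepP d (0, 0) l p A B b P := by
  refine ⟨hpol, fun i _ => ho i, hli, h.lt, fun w hw => ?_, fun v hv hv' => ?_⟩
  · have h2 : aform d (0, 0) b P w w = CT.QF d (0, 0) b P w w := aform_QF (0, 0) b hP w w
    rw [← h2]
    refine h.le w ?_
    have h0 : Set.range (Fin.cons one p : Fin (l + 1) → VS 0 0) = insert one (Set.range p) :=
      Fin.range_cons one p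
    rw [h0]
    exact Submodule.span_mono (Set.subset_insert _ _) hw
  · have h2 : aform d (0, 0) b P v v = CT.QF d (0, 0) b P v v := aform_QF (0, 0) b hP v v
    rw [← h2]
    refine h.ge v Submodule.mem_top fun i => ?_
    refine Fin.cases ?_ (fun j => ?_) i
    · exact hv rfl
    · exact hv' j

/-- 384: (SIGNRED) -/
theorem sign_red {d : ℕ} {σ : ℕ × ℕ} {l ls : ℕ} (hl1 : 1 ≤ l) (hl : l + sh σ = ls + 1) {K : ℝ}
    (y : ℝ → ℝ) (P : ℝ → ℝ × ℝ → ℝ) (hP : ∀ τ ∈ Icc (0 : ℝ) 1, Adm d K (P τ)) (κ : ℝ)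
    (hloc : ∀ τ0 ∈ Icc (0 : ℝ) 1, ∃ (p : Fin l → CT.VV σ) (A B : ℝ),
      ∀ᶠ τ in 𝓝[Icc 0 1] τ0, CT.SepP d σ l p A B (y τ) (P τ))
    (hsign : ∀ P0 : (Fin (ls + 1) → CT.VV σ) → Prop,
      Sign.LocSepA ⊤ (g d σ.1 σ.2) (ls + 1) P0 (fun τ => aform d σ (y τ) (P τ)) 0 1 →
      ∃ (r : ℕ) (t : ℕ → ℝ) (f : ℕ → Fin (ls + 1) → CT.VV σ) (A B : ℕ → ℝ),
        0 < r ∧ Monotone t ∧ t 0 = 0 ∧ t r = 1 ∧ f r = f 0 ∧ (∀ i, P0 (f i)) ∧
        (∀ i < r, ∀ τ ∈ Icc (t i) (t (i + 1)),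
          Sign.SepA ⊤ (g d σ.1 σ.2) (aform d σ (y τ) (P τ)) (f i) (A i) (B i)) ∧
        0 < κ * ∏ i ∈ Finset.range r, Sign.Dt (g d σ.1 σ.2) (f i) (f (i + 1))) :
    ∃ (r : ℕ) (t : ℕ → ℝ) (f : ℕ → Fin l → CT.VV σ) (A B : ℕ → ℝ),
      0 < r ∧ Monotone t ∧ t 0 = 0 ∧ t r = 1 ∧ f r = f 0 ∧
      (∀ i < r, ∀ τ ∈ Icc (t i) (t (i + 1)), CT.SepP d σ l (f i) (A i) (B i) (y τ) (P τ)) ∧
      0 < κ * ∏ i ∈ Finset.range r,
        (Matrix.of fun a b => CT.gF d σ (f i a) (f (i + 1) b)).det := by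
  have hmem : ∀ {r : ℕ} {t : ℕ → ℝ}, Monotone t → t 0 = 0 → t r = 1 → ∀ i < r,
      ∀ τ ∈ Icc (t i) (t (i + 1)), τ ∈ Icc (0 : ℝ) 1 := by
    intro r t hm h0 hr i hi τ hτ
    exact ⟨h0 ▸ (hm (Nat.zero_le i)).trans hτ.1, hr ▸ hτ.2.trans (hm hi)⟩
  by_cases hσ : σ = (0, 0)
  · subst hσ
    have hs1 : sh (0, 0) = 1 := by simp [sh]
    rw [hs1] at hl
    obtain rfl : l = ls := by omega
    obtain ⟨r, t, f, A, B, hr, hm, ht0, htr, hf, hP0, hsep, hpos⟩ := hsign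
      (fun f => ∃ p : Fin l → VS 0 0, f = (Fin.cons one p : Fin (l + 1) → VS 0 0) ∧
        (∀ i, p i ∈ Pol 0 0) ∧ (∀ i, g d 0 0 (p i) one = 0) ∧ LinearIndependent ℝ p) (by
      intro τ0 hτ0
      obtain ⟨p, A, B, hp⟩ := hloc τ0 hτ0
      have h0 := hp.self_of_nhdsWithin hτ0
      refine ⟨(Fin.cons one p : Fin (l + 1) → VS 0 0), A, B,
        ⟨p, rfl, h0.pol, fun i => h0.red i rfl, h0.li⟩, ?_⟩
      filter_upwards [hp, self_mem_nhdsWithin] with τ hτ hτ'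
      exact sepA_cons hl1 (hP τ hτ') hτ)
    choose p hp1 hp2 hp3 hp4 using hP0
    refine ⟨r, t, p, A, B, hr, hm, ht0, htr, ?_, fun i hi τ hτ => ?_, ?_⟩
    · have h1 := hf
      rw [hp1 r, hp1 0] at h1
      exact (Fin.cons_inj.1 h1).2
    · refine sepP_of_cons (hP τ (hmem hm ht0 htr i hi τ hτ)) (hp2 i) (hp3 i) (hp4 i) ?_
      have h1 := hsep i hi τ hτ
      rw [hp1 i] at h1
      exact h1
    · have hdet : ∀ i, Sign.Dt (g d (0, 0).1 (0, 0).2) (f i) (f (i + 1)) =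
          g d 0 0 one one * (Matrix.of fun a b => CT.gF d (0, 0) (p i a) (p (i + 1) b)).det := by
        intro i
        rw [hp1 i, hp1 (i + 1)]
        exact CR.det_cons (g := g d 0 0) (one := one) (hp3 i)
          (fun j => by rw [g_symm]; exact hp3 (i + 1) j)
      have h1 : ∏ i ∈ Finset.range r, Sign.Dt (g d (0, 0).1 (0, 0).2) (f i) (f (i + 1)) =
          (g d 0 0 one one) ^ r * ∏ i ∈ Finset.range r,
            (Matrix.of fun a b => CT.gF d (0, 0) (p i a) (p (i + 1) b)).det := by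
        rw [Finset.prod_congr rfl fun i _ => hdet i, Finset.prod_mul_distrib, Finset.prod_const,
          Finset.card_range]
      rw [h1] at hpos
      have h2 : (0 : ℝ) < (g d 0 0 one one) ^ r := pow_pos (g_one_pos d) r
      have h3 : (0 : ℝ) < (g d 0 0 one one) ^ r * (κ * ∏ i ∈ Finset.range r,
            (Matrix.of fun a b => CT.gF d (0, 0) (p i a) (p (i + 1) b)).det) := by
        calc (0 : ℝ) < _ := hpos
          _ = _ := by ring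
      exact (pos_iff_pos_of_mul_pos h3).1 h2
  · have hs0 : sh σ = 0 := by simp [sh, hσ]
    rw [hs0] at hl
    obtain rfl : l = ls + 1 := by omega
    obtain ⟨r, t, f, A, B, hr, hm, ht0, htr, hf, hP0, hsep, hpos⟩ := hsign
      (fun f => ∀ i, f i ∈ Pol σ.1 σ.2) (by
      intro τ0 hτ0
      obtain ⟨p, A, B, hp⟩ := hloc τ0 hτ0
      have h0 := hp.self_of_nhdsWithin hτ0
      refine ⟨p, A, B, h0.pol, ?_⟩
      filter_upwards [hp, self_mem_nhdsWithin] with τ hτ hτ'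
      exact ((sepP_iff_of_ne hσ (hP τ hτ') p A B).1 hτ).2)
    refine ⟨r, t, f, A, B, hr, hm, ht0, htr, hf, fun i hi τ hτ => ?_, hpos⟩
    exact (sepP_iff_of_ne hσ (hP τ (hmem hm ht0 htr i hi τ hτ)) (f i) (A i) (B i)).2
      ⟨hP0 i, hsep i hi τ hτ⟩

end Crest.Agent.R202.Inst
end
end

-- ▼ part R202/CThmMain
section

/-!
# Row 202: PART C, the composition (helper98)
-/

set_option autoImplicit false

open MeasureTheory Set Filter Module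
open scoped Topology ContDiff
open Crest.Agent.R202.Mod Crest.Agent.R202.Cut Crest.Agent.R202.PL Crest.Agent.R202.Clu
open Crest.Agent.R202.Main Crest.Agent.R202.Lab

noncomputable section

namespace Crest.Agent.R202.Inst

/-- at an irrational parameter no cut is closed -/
theorem not_closed_of_irrational {b : ℝ} (hb : 0 < b) (hirr : Irrational b) (s l : ℕ) :
    ¬ Closed b s l := by
  intro hcl
  obtain ⟨p, -, q, -, hlt, he, -, -⟩ := hcl.exists_pair hb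
  have := mu_injective hirr he
  rw [this] at hlt
  exact lt_irrefl _ hlt

instance finite_gate {m : ℕ} {v : ℝ} {k : ℕ} (D : CountData m v k) : Finite (CT.Gate D) := by
  have h1 : ({j : (ℕ × ℕ) × ℕ | j.1 ∈ D.S ∧ D.i0 j.1 ≤ j.2 ∧ j.2 < D.N j.1}).Finite := by
    refine Set.Finite.subset
      ((D.S ×ˢ Finset.range ((D.S.sup D.N) + 1) : Finset ((ℕ × ℕ) × ℕ)).finite_toSet) ?_
    rintro ⟨σ, l⟩ ⟨h1, h2, h3⟩
    simp only [Finset.coe_product, Finset.coe_range, mem_prod, Finset.mem_coe, mem_Iio]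
    refine ⟨h1, ?_⟩
    have : D.N σ ≤ D.S.sup D.N := Finset.le_sup (f := D.N) h1
    simp only at h3
    omega
  exact h1.to_subtype


section

variable {Xa Xb : ℝ} {d : ℕ} {b0 b1 : ℝ} {hb0 : 1 ≤ b0} {hb01 : b0 ≤ b1} {hs : ℕ → ℝ → ℝ}
  {ε : ℕ → ℝ} {H : Tips Xb hs ε} {ha : 0 < Xa} {hab : Xa < Xb} {hb : Xb < 1}
  {S : Finset (ℕ × ℕ)} {N : ℕ × ℕ → ℕ} {σs : ℕ × ℕ} {ls : ℕ} {δ : ℝ}

/-- the datum of the loop in the notation of `COut` -/
theorem PF_poly (O : SF.GateOut (fam d hb0 hb01 H ha hab hb) S N σs ls δ)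
    (hsm : ∀ κ ∈ Icc (-1 : ℝ) 1, ∀ i ≤ (poly O).r, jetN ((poly O).V κ i) ≤ 1 / 2)
    (h : ℝ → ℝ) (τ κ : ℝ) :
    CT.PF h (((poly O).toYLoop hsm).y τ) (((poly O).toYLoop hsm).Gh τ κ) =
      prof h ((poly O).y τ) ((poly O).G τ κ) := Polygon.PF_loop _ _ _ _ _

/-- reduced local separation along the loop -/
theorem loop_sepP (O : SF.GateOut (fam d hb0 hb01 H ha hab hb) S N σs ls δ) (hδ : δ ≤ 1 / 2)
    {k : ℕ} (hk : O.K ≤ k) {σ : ℕ × ℕ} (hσ : σ ∈ S) {l : ℕ} (hl : l + sh σ ≤ N σ) (τ0 : ℝ)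
    {κ0 : ℝ} (hκ : κ0 ∈ Icc (-1 : ℝ) 1)
    (hg : (σ, l + sh σ) ≠ (σs, ls + 1) ∨ κ0 = 1 ∨ κ0 = -1) :
    ∃ (p : Fin l → CT.VV σ) (A B : ℝ), ∀ᶠ z in 𝓝 (τ0, κ0),
      CT.SepP d σ l p A B ((poly O).y z.1) (prof (hs k) ((poly O).y z.1) ((poly O).G z.1 z.2)) := by
  obtain ⟨p, A, B, hp, hli, hev⟩ := loop_sep O hk hσ (loop_cont O hδ k σ) hl τ0 hκ hg
  obtain ⟨hA0, hB0⟩ := hev.self_of_nhds
  obtain ⟨p', hp'⟩ := exists_redP (d := d) σ p hp hli ⟨_, _, _, _, _, hA0, sep_of_frame hB0⟩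
  refine ⟨p', A, B, ?_⟩
  filter_upwards [hev] with z hz
  exact hp' _ _ _ _ _ hz.1 (sep_of_frame hz.2)

theorem amb_g (d q par : ℕ) : Sign.Amb ⊤ (V := VS q par) (g d q par) :=
  ⟨fun u v => g_symm u v, fun _ _ hv => g_pos hv⟩

end

/-- **PART C** -/
theorem cThm (m : ℕ) : CT.CThm m := by
  classical
  intro v k D X0 Xa Xb hX0 hXa hXab hXb1 X1 hs ε hX1 hprof hε hsm η hη
  have hb0 : 1 ≤ D.b0 := D.b0_gt.le
  have hb01 : D.b0 ≤ D.b1 := D.b01.le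
  have ha : 0 < Xa := hX0.trans hXa
  have H : Tips Xb hs ε := ⟨fun k => (hprof k).smooth.continuous.measurable,
    fun k x => (hprof k).nonneg x, fun k x => (hprof k).le_one x, hε, hsm⟩
  have hb0' : 0 < D.b0 := by linarith
  set δ : ℝ := min (1 / 2) η with hδdef
  have hδ : 0 < δ := lt_min (by norm_num) hη
  -- the gates
  have hls : ∀ j : CT.Gate D, (j.1.2 + sh j.1.1 - 1) + 1 = j.1.2 + sh j.1.1 := by
    intro j
    have h1 := D.i0_pos _ j.2.1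
    have h2 := j.2.2.1
    omega
  have hO : ∀ j : CT.Gate D, Nonempty (SF.GateOut (fam m hb0 hb01 H ha hXab hXb1) D.S
      (fun σ => D.N σ + sh σ) j.1.1 (j.1.2 + sh j.1.1 - 1) δ) := by
    intro j
    refine SF.gateThm _ hb0' (fun s l => not_closed_of_irrational hb0' D.irr0 s l) D.S _
      (fun σ hσ => ⟨D.secOK σ hσ, (D.secOK σ hσ).1⟩) j.1.1 _ j.2.1 ?_ ?_ δ hδ
    · rw [hls]
      have := j.2.2.2
      omega
    · rw [hls]
      exact D.closed _ j.2.1 _ j.2.2.1 j.2.2.2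
  let O := fun j => (hO j).some
  have hδ2 : δ ≤ 1 / 2 := min_le_left _ _
  have hδη : δ ≤ η := min_le_right _ _
  refine ⟨fun j => (poly (O j)).toYLoop (poly_small (O j) hδ2), fun j => ?_, fun j => ?_,
    fun j τ κ X u => Polygon.even _ _ _ _ _ _, fun εh hεh => ?_⟩
  · exact Polygon.jetSmall _ _ (poly_small (O j) hδη)
  · exact Polygon.moves _ _ (i := (O j).n) (show (O j).n ≤ 2 * (O j).n + 4 by omega) (O j).moves
  have hK : ∀ᶠ n in atTop, ∀ j, (O j).K ≤ n :=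
    eventually_all.2 fun j => eventually_ge_atTop _
  filter_upwards [hK, HomeC.home_clause D ha hXab hXb1 H hεh] with n hn hhome
  have hsepP : ∀ (j : CT.Gate D), ∀ σ ∈ D.S, ∀ l, D.i0 σ ≤ l → l ≤ D.N σ →
      ∀ τ0 : ℝ, ∀ κ0 ∈ Icc (-1 : ℝ) 1, ((σ, l) ≠ j.1 ∨ κ0 = 1 ∨ κ0 = -1) →
      ∃ (p : Fin l → CT.VV σ) (A B : ℝ), ∀ᶠ z in 𝓝 (τ0, κ0),
        CT.SepP m σ l p A B ((poly (O j)).y z.1)
          (prof (hs n) ((poly (O j)).y z.1) ((poly (O j)).G z.1 z.2)) := by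
    intro j σ hσ l hl hlN τ0 κ0 hκ0 hg
    refine loop_sepP (O j) hδ2 (hn j) hσ (by omega) τ0 hκ0 ?_
    rcases hg with hg | hg
    · left
      intro he
      apply hg
      rw [hls j] at he
      have h1 := congrArg Prod.fst he
      have h2 := congrArg Prod.snd he
      simp only at h1 h2
      refine Prod.ext h1 ?_
      rw [h1] at h2
      simpa using h2
    · exact Or.inr hg
  constructor
  · exact hhome
  · intro j σ hσ l hl hlN τ0 _ κ0 hκ0 hg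
    obtain ⟨p, A, B, h⟩ := hsepP j σ hσ l hl hlN τ0 κ0 hκ0 hg
    refine ⟨p, A, B, ?_⟩
    filter_upwards [h] with z hz
    rw [PF_poly]
    exact hz
  · intro j κ hκ
    have hκI : κ ∈ Icc (-1 : ℝ) 1 := by
      rcases hκ with rfl | rfl <;> constructor <;> norm_num
    have hl1 : 1 ≤ j.1.2 := (D.i0_pos _ j.2.1).trans j.2.2.1
    have key := sign_red (d := m) (σ := j.1.1) (l := j.1.2) hl1 (hls j).symm
      (K := D.b1 + 2) (fun τ => (poly (O j)).y τ)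
      (fun τ => prof (hs n) ((poly (O j)).y τ) ((poly (O j)).G τ κ))
      (fun τ _ => aPath_adm (O j) hδ2 n τ hκI) κ
      (fun τ0 hτ0 => by
        obtain ⟨p, A, B, h⟩ := hsepP j j.1.1 j.2.1 j.1.2 j.2.2.1 j.2.2.2.le τ0 κ hκI (Or.inr hκ)
        refine ⟨p, A, B, ?_⟩
        have h2 : Tendsto (fun τ : ℝ => (τ, κ)) (𝓝 τ0) (𝓝 (τ0, κ)) :=
          (Continuous.prodMk continuous_id continuous_const).tendsto τ0
        exact (h2.eventually h).filter_mono nhdsWithin_le_nhds)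
      (fun P0 hloc => sign_gate (O j) hδ2 (hn j) hκ (amb_g m j.1.1.1 j.1.1.2) hloc)
    obtain ⟨r, t, f, A, B, hr, hmono, ht0, htr, hf, hsep, hpos⟩ := key
    refine ⟨r, t, f, A, B, hr, hmono, ht0, htr, hf, fun i hi τ hτ => ?_, hpos⟩
    rw [PF_poly]
    exact hsep i hi τ hτ

end Crest.Agent.R202.Inst
end
end

-- ▼ part R202/GeoPolEst
section

/-!
Row 202, Part D: the polar estimate, as a statement (proved in `GeoRic.lean`).
-/

set_option autoImplicit false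

open scoped ContDiff Topology
open Crest.GeometryTopology.CoordMetric Crest.GeometryTopology.ChartCurvature

namespace Crest.Agent.R202.Geo

noncomputable section

/-- Lower bound of the Ricci form of the diagonal metric in polar coordinates.  Proved in
`GeoRic.lean` (helper580); consumed by `ricThm_of_polEst` (helper248). -/
def PolEst (m : ℕ) : Prop :=
  ∀ K μ X0 X1 : ℝ, 1 ≤ K → 0 < μ → 0 < X0 → X1 < 1 → ∃ c : ℝ, 0 < c ∧ c ≤ 1 ∧
    ∀ (s θ : ℝ → ℝ) (P : ℝ → ℝ → ℂ → ℝ) (t0 : ℝ), Fam s θ P t0 X0 X1 →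
      ∀ q ∈ VV m, (DefPhase m s θ P K μ c (q 0) ∨ RoundPhase s θ P (q 0)) →
        ∀ v : EuclideanSpace ℝ (Fin (m + 3)),
          c * deriv s (q 0) / Real.exp (q 0) ^ 2 * quadForm (diagMetric (aa s θ P)) q v ≤
            ∑ i, ∑ j, ricci (diagMetric (aa s θ P)) q i j * v i * v j

end

end Crest.Agent.R202.Geo
end

-- ▼ part R202/GeoRicGlue
section

/-!
Row 202, part D (helper248): `RicThm m` from the polar estimate `PolEst m`.
-/

set_option autoImplicit false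

open scoped ContDiff Topology
open Set Filter
open Crest.GeometryTopology.CoordMetric Crest.GeometryTopology.ChartCurvature

namespace Crest.Agent.R202.Geo

noncomputable section

variable {m : ℕ}

theorem rho_smul (c : ℝ) (x : EuclideanSpace ℝ (Fin (m + 3))) : rho (c • x) = |c| * rho x := by
  unfold rho
  rw [← Real.sqrt_sq_eq_abs, ← Real.sqrt_mul (sq_nonneg c)]
  congr 1
  simp only [PiLp.smul_apply, smul_eq_mul]
  ring

theorem sig_smul (c : ℝ) (x : EuclideanSpace ℝ (Fin (m + 3))) : sig (c • x) = |c| * sig x := by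
  unfold sig
  rw [← Real.sqrt_sq_eq_abs, ← Real.sqrt_mul (sq_nonneg c), Finset.mul_sum]
  congr 1
  refine Finset.sum_congr rfl fun j _ => ?_
  simp only [PiLp.smul_apply, smul_eq_mul]
  ring

/-- points off the axes of the same norm are dense on each sphere -/
theorem mem_closure_sphere {x : EuclideanSpace ℝ (Fin (m + 3))} (hx : x ≠ 0) :
    x ∈ closure {y : EuclideanSpace ℝ (Fin (m + 3)) | ‖y‖ = ‖x‖ ∧ rho y ≠ 0 ∧ sig y ≠ 0} := by
  have hx' : 0 < ‖x‖ := norm_pos_iff.2 hx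
  have h0 : x ∈ closure {y : EuclideanSpace ℝ (Fin (m + 3)) | rho y ≠ 0 ∧ sig y ≠ 0} :=
    dense_rho_sig x
  have hc : ContinuousWithinAt (fun y : EuclideanSpace ℝ (Fin (m + 3)) => (‖x‖ / ‖y‖) • y)
      {y | rho y ≠ 0 ∧ sig y ≠ 0} x := by
    refine ContinuousAt.continuousWithinAt ?_
    exact (continuousAt_const.div continuous_norm.continuousAt hx'.ne').smul continuousAt_id
  have h1 := hc.mem_closure h0 (t := {y : EuclideanSpace ℝ (Fin (m + 3)) |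
    ‖y‖ = ‖x‖ ∧ rho y ≠ 0 ∧ sig y ≠ 0}) ?_
  · rwa [div_self hx'.ne', one_smul] at h1
  · rintro y ⟨hr, hs⟩
    have hy : y ≠ 0 := by
      rintro rfl
      apply hr; simp [rho]
    have hy' : 0 < ‖y‖ := norm_pos_iff.2 hy
    have hq : 0 < ‖x‖ / ‖y‖ := by positivity
    refine ⟨?_, ?_, ?_⟩
    · rw [norm_smul, Real.norm_of_nonneg hq.le]; field_simp
    · show rho ((‖x‖ / ‖y‖) • y) ≠ 0
      rw [rho_smul]
      exact mul_ne_zero (abs_pos.2 hq.ne').ne' hr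
    · show sig ((‖x‖ / ‖y‖) • y) ≠ 0
      rw [sig_smul]
      exact mul_ne_zero (abs_pos.2 hq.ne').ne' hs

/-- off the axes -/
theorem ric_offaxes {c : ℝ} {s θ : ℝ → ℝ} {P : ℝ → ℝ → ℂ → ℝ} {t0 X0 X1 : ℝ}
    (hF : Fam s θ P t0 X0 X1) {Ph : ℝ → Prop}
    (hpol : ∀ q ∈ VV m, Ph (q 0) → ∀ v : EuclideanSpace ℝ (Fin (m + 3)),
      c * deriv s (q 0) / Real.exp (q 0) ^ 2 * quadForm (diagMetric (aa s θ P)) q v ≤
        ∑ i, ∑ j, ricci (diagMetric (aa s θ P)) q i j * v i * v j)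
    {x : EuclideanSpace ℝ (Fin (m + 3))} (hr : rho x ≠ 0) (hs : sig x ≠ 0)
    (hP : Ph (Real.log ‖x‖)) (v : EuclideanSpace ℝ (Fin (m + 3))) :
    c * deriv s (Real.log ‖x‖) / ‖x‖ ^ 2 * quadForm (gfam s θ P) x v ≤
      ∑ i, ∑ j, ricci (gfam s θ P) x i j * v i * v j := by
  obtain ⟨ε, hε, q, hq, rfl⟩ := exists_Psi_eq hr hs
  have hR : IsRiemannianOn (gfam (m := m) s θ P) univ := hF.radialMetric.riem
  have hpull := pull_gfam hε hR
  rw [log_norm_Psi hε hq] at hP ⊢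
  have hn : ‖Psi ε q‖ = Real.exp (q 0) := norm_Psi hε hq
  rw [hn]
  -- the two metrics agree near `q`
  have hgg : gpull (m := m) ε s θ P =ᶠ[𝓝 q] diagMetric (aa s θ P) := by
    filter_upwards [isOpen_VV.mem_nhds hq] with y hy
    exact gpull_eq hε hy (hF.P_pos _ _ _) (hF.θ_pos _)
  obtain ⟨w, rfl⟩ := hpull.surj hq v
  have h1 := hpull.ricci_pull hq w w
  have h2 := hpull.quadForm_pull hq w
  have h3 := hpol q hq hP w
  have h4 : quadForm (gpull ε s θ P) q w = quadForm (diagMetric (aa s θ P)) q w :=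
    Tens.quadForm_congr hgg.self_of_nhds w
  have h5 : ∑ i, ∑ j, ricci (gpull ε s θ P) q i j * w i * w j
      = ∑ i, ∑ j, ricci (diagMetric (aa s θ P)) q i j * w i * w j :=
    Finset.sum_congr rfl fun i _ => Finset.sum_congr rfl fun j _ => by
      rw [Tens.ricci_congr hgg i j]
  rw [← h2, ← h1, h4, h5]
  exact h3

/-- **`RicThm` from the polar estimate** -/
theorem ricThm_of_polEst (h : PolEst m) : RicThm m := by
  intro K μ X0 X1 hK hμ hX0 hX1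
  obtain ⟨c, hc0, hc1, hpol⟩ := h K μ X0 X1 hK hμ hX0 hX1
  refine ⟨c, hc0, hc1, fun s θ P t0 hF x hx hph v => ?_⟩
  have hR : IsRiemannianOn (gfam (m := m) s θ P) univ := hF.radialMetric.riem
  have hx' : 0 < ‖x‖ := norm_pos_iff.2 hx
  have hcl := mem_closure_sphere hx
  have hgc : ∀ i j, Continuous fun y => gfam (m := m) s θ P y i j := by
    intro i j
    rw [← continuousOn_univ]
    exact (hR.contDiffOn i j).continuousOn
  have hq : Continuous fun y => quadForm (gfam (m := m) s θ P) y v := by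
    unfold quadForm
    refine continuous_finsetSum _ fun i _ => continuous_finsetSum _ fun j _ => ?_
    exact ((hgc i j).mul continuous_const).mul continuous_const
  have hric : Continuous fun y => ∑ i, ∑ j, ricci (gfam (m := m) s θ P) y i j * v i * v j := by
    refine continuous_finsetSum _ fun i _ => continuous_finsetSum _ fun j _ => ?_
    have := Tens.continuousOn_ricci hR i j
    rw [continuousOn_univ] at this
    exact (this.mul continuous_const).mul continuous_const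
  have key : ∀ y ∈ {y : EuclideanSpace ℝ (Fin (m + 3)) | ‖y‖ = ‖x‖ ∧ rho y ≠ 0 ∧ sig y ≠ 0},
      c * deriv s (Real.log ‖x‖) / ‖x‖ ^ 2 * quadForm (gfam s θ P) y v ≤
        ∑ i, ∑ j, ricci (gfam s θ P) y i j * v i * v j := by
    rintro y ⟨hy, hr, hs⟩
    have := ric_offaxes hF (Ph := fun t => DefPhase m s θ P K μ c t ∨ RoundPhase s θ P t)
      (fun q hq hph v => hpol s θ P t0 hF q hq hph v) hr hs (by rw [hy]; exact hph) v
    rwa [hy] at this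
  exact ContinuousWithinAt.closure_le hcl
    (continuous_const.mul hq).continuousAt.continuousWithinAt
    hric.continuousAt.continuousWithinAt key

end

end Crest.Agent.R202.Geo
end

-- ▼ part R202/GeoJet
section

/-!
Row 202, Part D: Ricci tensor of the diagonal metric in polar coordinates; pure algebra from the
2-jet of the exponents.
-/

set_option autoImplicit false

open scoped ContDiff Topology
open Crest.GeometryTopology.CoordMetric Crest.GeometryTopology.ChartCurvature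

namespace Crest.Agent.R202.Geo

noncomputable section

variable {m : ℕ}

theorem ricci_diagMetric_symm {n : ℕ} {a : Fin n → EuclideanSpace ℝ (Fin n) → ℝ}
    {x : EuclideanSpace ℝ (Fin n)}
    (ha : ∀ i, ContDiffAt ℝ 2 (a i) x) (i j : Fin n) :
    ricci (diagMetric a) x i j = ricci (diagMetric a) x j i := by
  rw [ricci_diagMetric ha, ricci_diagMetric ha]
  have hc : ∀ k, pderiv i (pderiv j (a k)) x = pderiv j (pderiv i (a k)) x :=
    fun k => pderiv_comm (ha k)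
  simp_rw [hc]
  have h1 : ∑ k, pderiv i (a k) x * pderiv j (a k) x = ∑ k, pderiv j (a k) x * pderiv i (a k) x :=
    Finset.sum_congr rfl fun k _ => mul_comm _ _
  rw [h1]
  by_cases hij : i = j
  · subst hij; ring
  · rw [if_neg hij, if_neg (fun h => hij h.symm)]; ring

/-- The jet data of the exponents at `q`. -/
structure Jet (a : Fin (m + 3) → EuclideanSpace ℝ (Fin (m + 3)) → ℝ)
    (w : EuclideanSpace ℝ (Fin (m + 3)) → ℝ)
    (q : EuclideanSpace ℝ (Fin (m + 3)))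
    (X d f d01 d02 d0w h001 h002 h00w h012 h021 h11 h22 c : ℝ) (η : Fin m → ℝ) : Prop where
  c2 : ∀ i, ContDiffAt ℝ 2 (a i) q
  hw : ∀ k : Fin m, a k.succ.succ.succ = w
  hc : c = 1 + ∑ k : Fin m, η k ^ 2
  p00 : pderiv 0 (a 0) q = 1
  p10 : pderiv 1 (a 0) q = 0
  p20 : pderiv 2 (a 0) q = 0
  pk0 : ∀ k : Fin m, pderiv k.succ.succ.succ (a 0) q = 0
  p01 : pderiv 0 (a 1) q = d01
  p11 : pderiv 1 (a 1) q = d
  p21 : pderiv 2 (a 1) q = f
  pk1 : ∀ k : Fin m, pderiv k.succ.succ.succ (a 1) q = 0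
  p02 : pderiv 0 (a 2) q = d02
  p12 : pderiv 1 (a 2) q = -d
  p22 : pderiv 2 (a 2) q = -f
  pk2 : ∀ k : Fin m, pderiv k.succ.succ.succ (a 2) q = 0
  p0w : pderiv 0 w q = d0w
  p1w : pderiv 1 w q = 1 / X
  p2w : pderiv 2 w q = 0
  pkw : ∀ k : Fin m, pderiv k.succ.succ.succ w q = -(2 * η k / c)
  z : ∀ i j, pderiv i (pderiv j (a 0)) q = 0
  s001 : pderiv 0 (pderiv 0 (a 1)) q = h001
  s002 : pderiv 0 (pderiv 0 (a 2)) q = h002
  s00w : pderiv 0 (pderiv 0 w) q = h00w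
  s012 : pderiv 0 (pderiv 1 (a 2)) q = h012
  s021 : pderiv 0 (pderiv 2 (a 1)) q = h021
  s111 : pderiv 1 (pderiv 1 (a 1)) q = h11
  s112 : pderiv 1 (pderiv 1 (a 2)) q = -h11
  s221 : pderiv 2 (pderiv 2 (a 1)) q = h22
  s222 : pderiv 2 (pderiv 2 (a 2)) q = -h22
  s11w : pderiv 1 (pderiv 1 w) q = -(1 / X ^ 2)
  s01w : pderiv 0 (pderiv 1 w) q = 0
  s02w : pderiv 0 (pderiv 2 w) q = 0
  s12w : pderiv 1 (pderiv 2 w) q = 0
  s22w : pderiv 2 (pderiv 2 w) q = 0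
  s0k1 : ∀ k : Fin m, pderiv 0 (pderiv k.succ.succ.succ (a 1)) q = 0
  s0k2 : ∀ k : Fin m, pderiv 0 (pderiv k.succ.succ.succ (a 2)) q = 0
  s0kw : ∀ k : Fin m, pderiv 0 (pderiv k.succ.succ.succ w) q = 0
  s1k1 : ∀ k : Fin m, pderiv 1 (pderiv k.succ.succ.succ (a 1)) q = 0
  s1k2 : ∀ k : Fin m, pderiv 1 (pderiv k.succ.succ.succ (a 2)) q = 0
  s1kw : ∀ k : Fin m, pderiv 1 (pderiv k.succ.succ.succ w) q = 0
  s2k1 : ∀ k : Fin m, pderiv 2 (pderiv k.succ.succ.succ (a 1)) q = 0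
  s2k2 : ∀ k : Fin m, pderiv 2 (pderiv k.succ.succ.succ (a 2)) q = 0
  s2kw : ∀ k : Fin m, pderiv 2 (pderiv k.succ.succ.succ w) q = 0
  skk1 : ∀ k l : Fin m, pderiv k.succ.succ.succ (pderiv l.succ.succ.succ (a 1)) q = 0
  skk2 : ∀ k l : Fin m, pderiv k.succ.succ.succ (pderiv l.succ.succ.succ (a 2)) q = 0
  skkw : ∀ k l : Fin m, pderiv k.succ.succ.succ (pderiv l.succ.succ.succ w) q =
    -(if k = l then 2 / c else 0) + 4 * η k * η l / c ^ 2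

namespace Jet

variable {a : Fin (m + 3) → EuclideanSpace ℝ (Fin (m + 3)) → ℝ}
    {w : EuclideanSpace ℝ (Fin (m + 3)) → ℝ}
    {q : EuclideanSpace ℝ (Fin (m + 3))}
    {X d f d01 d02 d0w h001 h002 h00w h012 h021 h11 h22 c : ℝ} {η : Fin m → ℝ}

theorem S0 (J : Jet a w q X d f d01 d02 d0w h001 h002 h00w h012 h021 h11 h22 c η) :
    ∑ k, pderiv 0 (a k) q = 1 + (d01 + (d02 + m * d0w)) := by
  rw [sum3, J.p00, J.p01, J.p02]
  simp_rw [J.hw, J.p0w]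
  simp

theorem S1 (J : Jet a w q X d f d01 d02 d0w h001 h002 h00w h012 h021 h11 h22 c η) :
    ∑ k, pderiv 1 (a k) q = m / X := by
  rw [sum3, J.p10, J.p11, J.p12]
  simp_rw [J.hw, J.p1w]
  simp; ring

theorem S2 (J : Jet a w q X d f d01 d02 d0w h001 h002 h00w h012 h021 h11 h22 c η) :
    ∑ k, pderiv 2 (a k) q = 0 := by
  rw [sum3, J.p20, J.p21, J.p22]
  simp_rw [J.hw, J.p2w]
  simp

theorem Sk (J : Jet a w q X d f d01 d02 d0w h001 h002 h00w h012 h021 h11 h22 c η) (l : Fin m) :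
    ∑ k, pderiv l.succ.succ.succ (a k) q = -(m * (2 * η l / c)) := by
  rw [sum3, J.pk0, J.pk1, J.pk2]
  simp_rw [J.hw, J.pkw]
  simp

theorem cpos (J : Jet a w q X d f d01 d02 d0w h001 h002 h00w h012 h021 h11 h22 c η) :
    0 < c := by
  rw [J.hc]
  have : 0 ≤ ∑ k : Fin m, η k ^ 2 := Finset.sum_nonneg fun _ _ => sq_nonneg _
  linarith

theorem R00 (J : Jet a w q X d f d01 d02 d0w h001 h002 h00w h012 h021 h11 h22 c η) :
    ricci (diagMetric a) q 0 0 =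
      -(h001 + h002 + m * h00w) + (1 + (d01 + (d02 + m * d0w)))
        - (1 + d01 ^ 2 + d02 ^ 2 + m * d0w ^ 2) := by
  rw [ricci_diagMetric J.c2, J.S0, if_pos rfl]
  simp_rw [J.z]
  have e1 : ∑ k, pderiv 0 (pderiv 0 (a k)) q = h001 + h002 + m * h00w := by
    rw [sum3, J.z, J.s001, J.s002]; simp_rw [J.hw, J.s00w]; simp; ring
  have e2 : ∑ k, pderiv 0 (a k) q * pderiv 0 (a k) q = 1 + d01 ^ 2 + d02 ^ 2 + m * d0w ^ 2 := by
    rw [sum3, J.p00, J.p01, J.p02]; simp_rw [J.hw, J.p0w]; simp; ring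
  have e3 : ∑ k, Real.exp (2 * (a 0 q - a k q)) *
      (0 + ((∑ l, pderiv k (a l) q) - 2 * pderiv k (a k) q) * pderiv k (a 0) q) =
      (1 + (d01 + (d02 + m * d0w))) - 2 := by
    rw [sum3, J.p00, J.p10, J.p20, J.S0]; simp_rw [J.pk0]
    simp
  rw [e1, e2, e3, J.p00]; ring

theorem R01 (J : Jet a w q X d f d01 d02 d0w h001 h002 h00w h012 h021 h11 h22 c η) :
    ricci (diagMetric a) q 0 1 =
      -h012 + m / X * (d01 - d0w) - (d01 - d02) * d := by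
  rw [ricci_diagMetric J.c2, J.S0, J.S1, if_neg one_ne_zero3.symm, J.z]
  have e1 : ∑ k, pderiv 0 (pderiv 1 (a k)) q = pderiv 0 (pderiv 1 (a 1)) q + h012 := by
    rw [sum3, J.z, J.s012]; simp_rw [J.hw, J.s01w]; simp
  have e2 : ∑ k, pderiv 0 (a k) q * pderiv 1 (a k) q = d01 * d - d02 * d + m * (d0w / X) := by
    rw [sum3, J.p00, J.p01, J.p02, J.p10, J.p11, J.p12]
    simp_rw [J.hw, J.p0w, J.p1w]; simp; ring
  rw [e1, e2, J.p01, J.p10]; ring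

theorem R02 (J : Jet a w q X d f d01 d02 d0w h001 h002 h00w h012 h021 h11 h22 c η) :
    ricci (diagMetric a) q 0 2 = -h021 - (d01 - d02) * f := by
  rw [ricci_diagMetric J.c2, J.S0, J.S2, if_neg two_ne_zero3.symm, J.z]
  have e1 : ∑ k, pderiv 0 (pderiv 2 (a k)) q = h021 + pderiv 0 (pderiv 2 (a 2)) q := by
    rw [sum3, J.z, J.s021]; simp_rw [J.hw, J.s02w]; simp
  have e2 : ∑ k, pderiv 0 (a k) q * pderiv 2 (a k) q = d01 * f - d02 * f := by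
    rw [sum3, J.p00, J.p01, J.p02, J.p20, J.p21, J.p22]
    simp_rw [J.hw, J.p0w, J.p2w]; simp; ring
  rw [e1, e2, J.p02, J.p20]; ring

theorem R0k (J : Jet a w q X d f d01 d02 d0w h001 h002 h00w h012 h021 h11 h22 c η) (l : Fin m) :
    ricci (diagMetric a) q 0 l.succ.succ.succ = 0 := by
  rw [ricci_diagMetric J.c2, J.S0, J.Sk, if_neg (succ3_ne_zero l).symm, J.z, J.hw, J.s0kw]
  have e1 : ∑ k, pderiv 0 (pderiv l.succ.succ.succ (a k)) q = 0 := by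
    rw [sum3, J.z, J.s0k1, J.s0k2]; simp_rw [J.hw, J.s0kw]; simp
  have e2 : ∑ k, pderiv 0 (a k) q * pderiv l.succ.succ.succ (a k) q =
      -(m * (d0w * (2 * η l / c))) := by
    rw [sum3, J.pk0, J.pk1, J.pk2]
    simp_rw [J.hw, J.p0w, J.pkw]; simp
  rw [e1, e2, J.p0w, J.pk0]; ring

theorem R12 (J : Jet a w q X d f d01 d02 d0w h001 h002 h00w h012 h021 h11 h22 c η) :
    ricci (diagMetric a) q 1 2 = m / X * f := by
  rw [ricci_diagMetric J.c2, J.S1, J.S2, if_neg two_ne_one3.symm]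
  have e1 : ∑ k, pderiv 1 (pderiv 2 (a k)) q =
      pderiv 1 (pderiv 2 (a 1)) q + pderiv 1 (pderiv 2 (a 2)) q := by
    rw [sum3, J.z]; simp_rw [J.hw, J.s12w]; simp
  have e2 : ∑ k, pderiv 1 (a k) q * pderiv 2 (a k) q = 2 * (d * f) := by
    rw [sum3, J.p10, J.p11, J.p12, J.p20, J.p21, J.p22]
    simp_rw [J.hw, J.p1w, J.p2w]; simp; ring
  rw [e1, e2, J.p12, J.p21]; ring

theorem R1k (J : Jet a w q X d f d01 d02 d0w h001 h002 h00w h012 h021 h11 h22 c η) (l : Fin m) :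
    ricci (diagMetric a) q 1 l.succ.succ.succ = 0 := by
  rw [ricci_diagMetric J.c2, J.S1, J.Sk, if_neg (succ3_ne_one l).symm, J.hw, J.s1kw, J.s1k1]
  have e1 : ∑ k, pderiv 1 (pderiv l.succ.succ.succ (a k)) q = 0 := by
    rw [sum3, J.z, J.s1k1, J.s1k2]; simp_rw [J.hw, J.s1kw]; simp
  have e2 : ∑ k, pderiv 1 (a k) q * pderiv l.succ.succ.succ (a k) q =
      -(m * (1 / X * (2 * η l / c))) := by
    rw [sum3, J.pk0, J.pk1, J.pk2]
    simp_rw [J.hw, J.p1w, J.pkw]; simp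
  rw [e1, e2, J.p1w, J.pk1]; ring

theorem R2k (J : Jet a w q X d f d01 d02 d0w h001 h002 h00w h012 h021 h11 h22 c η) (l : Fin m) :
    ricci (diagMetric a) q 2 l.succ.succ.succ = 0 := by
  rw [ricci_diagMetric J.c2, J.S2, J.Sk, if_neg (succ3_ne_two l).symm, J.hw, J.s2kw, J.s2k2]
  have e1 : ∑ k, pderiv 2 (pderiv l.succ.succ.succ (a k)) q = 0 := by
    rw [sum3, J.z, J.s2k1, J.s2k2]; simp_rw [J.hw, J.s2kw]; simp
  have e2 : ∑ k, pderiv 2 (a k) q * pderiv l.succ.succ.succ (a k) q = 0 := by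
    rw [sum3, J.pk0, J.pk1, J.pk2]
    simp_rw [J.hw, J.p2w, J.pkw]; simp
  rw [e1, e2, J.p2w, J.pk2]; ring

theorem R11 (J : Jet a w q X d f d01 d02 d0w h001 h002 h00w h012 h021 h11 h22 c η) :
    ricci (diagMetric a) q 1 1 =
      h11 + m / X * d - 2 * d ^ 2
        - Real.exp (2 * (a 1 q - a 2 q)) * (h22 + 2 * f ^ 2)
        - Real.exp (2 * (a 1 q - a 0 q)) *
          (h001 + ((1 + (d01 + (d02 + m * d0w))) - 2) * d01) := by
  rw [ricci_diagMetric J.c2, J.S1, if_pos rfl, J.s111]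
  have e1 : ∑ k, pderiv 1 (pderiv 1 (a k)) q = -(m / X ^ 2) := by
    rw [sum3, J.z, J.s111, J.s112]; simp_rw [J.hw, J.s11w]; simp; ring
  have e2 : ∑ k, pderiv 1 (a k) q * pderiv 1 (a k) q = 2 * d ^ 2 + m / X ^ 2 := by
    rw [sum3, J.p10, J.p11, J.p12]; simp_rw [J.hw, J.p1w]; simp; ring
  have e3 : ∑ k, Real.exp (2 * (a 1 q - a k q)) *
      (pderiv k (pderiv k (a 1)) q
        + ((∑ l, pderiv k (a l) q) - 2 * pderiv k (a k) q) * pderiv k (a 1) q) =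
      Real.exp (2 * (a 1 q - a 0 q)) * (h001 + ((1 + (d01 + (d02 + m * d0w))) - 2) * d01)
      + (h11 + (m / X - 2 * d) * d)
      + Real.exp (2 * (a 1 q - a 2 q)) * (h22 + 2 * f ^ 2) := by
    rw [sum3, J.p00, J.p01, J.p11, J.p22, J.p21, J.S0, J.S1, J.S2, J.s001, J.s111, J.s221]
    simp_rw [J.skk1, J.pk1]
    simp; ring
  rw [e1, e2, e3, J.p11]; ring

theorem R22 (J : Jet a w q X d f d01 d02 d0w h001 h002 h00w h012 h021 h11 h22 c η) :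
    ricci (diagMetric a) q 2 2 =
      Real.exp (2 * (a 2 q - a 1 q)) * (h11 + m / X * d - 2 * d ^ 2)
        - (h22 + 2 * f ^ 2)
        - Real.exp (2 * (a 2 q - a 0 q)) *
          (h002 + ((1 + (d01 + (d02 + m * d0w))) - 2) * d02) := by
  rw [ricci_diagMetric J.c2, J.S2, if_pos rfl, J.s222]
  have e1 : ∑ k, pderiv 2 (pderiv 2 (a k)) q = 0 := by
    rw [sum3, J.z, J.s221, J.s222]; simp_rw [J.hw, J.s22w]; simp
  have e2 : ∑ k, pderiv 2 (a k) q * pderiv 2 (a k) q = 2 * f ^ 2 := by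
    rw [sum3, J.p20, J.p21, J.p22]; simp_rw [J.hw, J.p2w]; simp; ring
  have e3 : ∑ k, Real.exp (2 * (a 2 q - a k q)) *
      (pderiv k (pderiv k (a 2)) q
        + ((∑ l, pderiv k (a l) q) - 2 * pderiv k (a k) q) * pderiv k (a 2) q) =
      Real.exp (2 * (a 2 q - a 0 q)) * (h002 + ((1 + (d01 + (d02 + m * d0w))) - 2) * d02)
      + Real.exp (2 * (a 2 q - a 1 q)) * (-h11 - (m / X - 2 * d) * d)
      + (-h22 - 2 * f ^ 2) := by
    rw [sum3, J.p00, J.p02, J.p11, J.p12, J.p22, J.S0, J.S1, J.S2, J.s002, J.s112, J.s222]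
    simp_rw [J.skk2, J.pk2]
    simp; ring
  rw [e1, e2, e3, J.p22]; ring

theorem Rkl (J : Jet a w q X d f d01 d02 d0w h001 h002 h00w h012 h021 h11 h22 c η)
    (k l : Fin m) :
    ricci (diagMetric a) q k.succ.succ.succ l.succ.succ.succ =
      if k = l then
        (m - 1) * (4 / c ^ 2)
          - Real.exp (2 * (w q - a 1 q)) * (-(1 / X ^ 2) + (m / X - 2 * d) * (1 / X))
          - Real.exp (2 * (w q - a 0 q)) *
            (h00w + ((1 + (d01 + (d02 + m * d0w))) - 2) * d0w) else 0 := by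
  have hc0 : c ≠ 0 := J.cpos.ne'
  rw [ricci_diagMetric J.c2, J.Sk, J.Sk, J.hw, J.hw, J.skkw]
  have e1 : ∑ p, pderiv k.succ.succ.succ (pderiv l.succ.succ.succ (a p)) q =
      m * (-(if k = l then 2 / c else 0) + 4 * η k * η l / c ^ 2) := by
    rw [sum3, J.z, J.skk1, J.skk2]; simp_rw [J.hw, J.skkw]
    rw [Finset.sum_const, Finset.card_univ, Fintype.card_fin, nsmul_eq_mul]; ring
  have e2 : ∑ p, pderiv k.succ.succ.succ (a p) q * pderiv l.succ.succ.succ (a p) q =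
      m * ((2 * η k / c) * (2 * η l / c)) := by
    rw [sum3, J.pk0, J.pk1, J.pk2]; simp_rw [J.hw, J.pkw]; simp
  have hinj : (k.succ.succ.succ : Fin (m + 3)) = l.succ.succ.succ ↔ k = l := by
    constructor
    · intro h
      exact Fin.succ_injective _ (Fin.succ_injective _ (Fin.succ_injective _ h))
    · intro h; rw [h]
  rw [e1, e2, J.pkw, J.pkw]
  by_cases hkl : k = l
  · subst hkl
    simp only [if_true]
    have e3 : ∑ p, Real.exp (2 * (w q - a p q)) *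
      (pderiv p (pderiv p w) q
        + ((∑ l, pderiv p (a l) q) - 2 * pderiv p (a p) q) * pderiv p w q) =
      Real.exp (2 * (w q - a 0 q)) * (h00w + ((1 + (d01 + (d02 + m * d0w))) - 2) * d0w)
      + Real.exp (2 * (w q - a 1 q)) * (-(1 / X ^ 2) + (m / X - 2 * d) * (1 / X))
      + (-(2 * m / c) + (4 * (m - 1) / c ^ 2) * (c - 1)) := by
      rw [sum3, J.p00, J.p0w, J.p1w, J.p11, J.p2w, J.p22, J.S0, J.S1, J.S2, J.s00w, J.s11w, J.s22w]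
      simp_rw [J.skkw, J.pkw, J.Sk, J.hw, J.pkw]
      have e4 : ∀ p : Fin m, Real.exp (2 * (w q - w q)) *
          ((-(if True then 2 / c else 0) + 4 * η p * η p / c ^ 2)
            + (-(m * (2 * η p / c)) - 2 * -(2 * η p / c)) * -(2 * η p / c)) =
          -(2 / c) + (4 * (m - 1) / c ^ 2) * η p ^ 2 := by
        intro p
        simp only [sub_self, mul_zero, Real.exp_zero, if_true]
        field_simp; ring
      rw [Finset.sum_congr rfl fun p _ => e4 p, Finset.sum_add_distrib, ← Finset.mul_sum,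
        show ∑ p : Fin m, η p ^ 2 = c - 1 by rw [J.hc]; ring]
      simp; ring
    rw [e3]
    field_simp
    ring
  · rw [if_neg hkl, if_neg hkl, if_neg (fun h => hkl (hinj.1 h))]
    field_simp
    ring

end Jet

end

end Crest.Agent.R202.Geo
end

-- ▼ part R202/GeoCalc
section

/-!
Row 202, Part D: calculus of functions of `(t, X, φ)` and the jet of the exponents `aa s θ P`.
-/

set_option autoImplicit false

open scoped ContDiff Topology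
open Crest.GeometryTopology.CoordMetric Crest.GeometryTopology.ChartCurvature

namespace Crest.Agent.R202.Geo

noncomputable section

variable {m : ℕ}

/-- The strip `0 < X < 1`. -/
def Str : Set (ℝ × ℝ × ℝ) := {p | 0 < p.2.1 ∧ p.2.1 < 1}

theorem isOpen_Str : IsOpen Str :=
  (isOpen_lt continuous_const (continuous_fst.comp continuous_snd)).inter
    (isOpen_lt (continuous_fst.comp continuous_snd) continuous_const)

/-- Smooth on `ℝ³`. -/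
def Sm (F : ℝ → ℝ → ℝ → ℝ) : Prop := ContDiff ℝ ∞ (fun p : ℝ × ℝ × ℝ => F p.1 p.2.1 p.2.2)

/-- Smooth on the strip. -/
def SmO (F : ℝ → ℝ → ℝ → ℝ) : Prop :=
  ContDiffOn ℝ ∞ (fun p : ℝ × ℝ × ℝ => F p.1 p.2.1 p.2.2) Str

theorem Sm.smO {F : ℝ → ℝ → ℝ → ℝ} (h : Sm F) : SmO F := h.contDiffOn

/-! partial derivatives as directional derivatives -/

theorem hasDerivAt_T {F : ℝ → ℝ → ℝ → ℝ} {p : ℝ × ℝ × ℝ}
    (h : DifferentiableAt ℝ (fun p : ℝ × ℝ × ℝ => F p.1 p.2.1 p.2.2) p) :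
    HasDerivAt (fun τ => F τ p.2.1 p.2.2)
      (fderiv ℝ (fun p : ℝ × ℝ × ℝ => F p.1 p.2.1 p.2.2) p (1, 0, 0)) p.1 := by
  have h1 : HasDerivAt (fun τ : ℝ => ((τ, p.2.1, p.2.2) : ℝ × ℝ × ℝ)) (1, 0, 0) p.1 :=
    (hasDerivAt_id p.1).prodMk (hasDerivAt_const p.1 (p.2.1, p.2.2))
  exact h.hasFDerivAt.comp_hasDerivAt p.1 h1

theorem hasDerivAt_X {F : ℝ → ℝ → ℝ → ℝ} {p : ℝ × ℝ × ℝ}
    (h : DifferentiableAt ℝ (fun p : ℝ × ℝ × ℝ => F p.1 p.2.1 p.2.2) p) :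
    HasDerivAt (fun Y => F p.1 Y p.2.2)
      (fderiv ℝ (fun p : ℝ × ℝ × ℝ => F p.1 p.2.1 p.2.2) p (0, 1, 0)) p.2.1 := by
  have h1 : HasDerivAt (fun Y : ℝ => ((p.1, Y, p.2.2) : ℝ × ℝ × ℝ)) (0, 1, 0) p.2.1 :=
    (hasDerivAt_const p.2.1 p.1).prodMk
      ((hasDerivAt_id p.2.1).prodMk (hasDerivAt_const p.2.1 p.2.2))
  exact h.hasFDerivAt.comp_hasDerivAt p.2.1 h1

theorem hasDerivAt_F {F : ℝ → ℝ → ℝ → ℝ} {p : ℝ × ℝ × ℝ}
    (h : DifferentiableAt ℝ (fun p : ℝ × ℝ × ℝ => F p.1 p.2.1 p.2.2) p) :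
    HasDerivAt (fun ψ => F p.1 p.2.1 ψ)
      (fderiv ℝ (fun p : ℝ × ℝ × ℝ => F p.1 p.2.1 p.2.2) p (0, 0, 1)) p.2.2 := by
  have h1 : HasDerivAt (fun ψ : ℝ => ((p.1, p.2.1, ψ) : ℝ × ℝ × ℝ)) (0, 0, 1) p.2.2 :=
    (hasDerivAt_const p.2.2 p.1).prodMk
      ((hasDerivAt_const p.2.2 p.2.1).prodMk (hasDerivAt_id p.2.2))
  exact h.hasFDerivAt.comp_hasDerivAt p.2.2 h1

theorem dT_eq {F : ℝ → ℝ → ℝ → ℝ} {p : ℝ × ℝ × ℝ}
    (h : DifferentiableAt ℝ (fun p : ℝ × ℝ × ℝ => F p.1 p.2.1 p.2.2) p) :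
    dT F p.1 p.2.1 p.2.2 =
      fderiv ℝ (fun p : ℝ × ℝ × ℝ => F p.1 p.2.1 p.2.2) p (1, 0, 0) := (hasDerivAt_T h).deriv

theorem dX_eq {F : ℝ → ℝ → ℝ → ℝ} {p : ℝ × ℝ × ℝ}
    (h : DifferentiableAt ℝ (fun p : ℝ × ℝ × ℝ => F p.1 p.2.1 p.2.2) p) :
    dX F p.1 p.2.1 p.2.2 =
      fderiv ℝ (fun p : ℝ × ℝ × ℝ => F p.1 p.2.1 p.2.2) p (0, 1, 0) := (hasDerivAt_X h).deriv

theorem dF_eq {F : ℝ → ℝ → ℝ → ℝ} {p : ℝ × ℝ × ℝ}
    (h : DifferentiableAt ℝ (fun p : ℝ × ℝ × ℝ => F p.1 p.2.1 p.2.2) p) :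
    dF F p.1 p.2.1 p.2.2 =
      fderiv ℝ (fun p : ℝ × ℝ × ℝ => F p.1 p.2.1 p.2.2) p (0, 0, 1) := (hasDerivAt_F h).deriv

theorem SmO.cda {F : ℝ → ℝ → ℝ → ℝ} (h : SmO F) {p : ℝ × ℝ × ℝ} (hp : p ∈ Str) :
    ContDiffAt ℝ ∞ (fun p : ℝ × ℝ × ℝ => F p.1 p.2.1 p.2.2) p :=
  h.contDiffAt (isOpen_Str.mem_nhds hp)

theorem SmO.da {F : ℝ → ℝ → ℝ → ℝ} (h : SmO F) {p : ℝ × ℝ × ℝ} (hp : p ∈ Str) :
    DifferentiableAt ℝ (fun p : ℝ × ℝ × ℝ => F p.1 p.2.1 p.2.2) p :=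
  (h.cda hp).differentiableAt (by simp)

theorem Sm.da {F : ℝ → ℝ → ℝ → ℝ} (h : Sm F) (p : ℝ × ℝ × ℝ) :
    DifferentiableAt ℝ (fun p : ℝ × ℝ × ℝ => F p.1 p.2.1 p.2.2) p :=
  h.differentiable (by simp) p

theorem fderiv_dir_smO {F : ℝ → ℝ → ℝ → ℝ} (h : SmO F) (v : ℝ × ℝ × ℝ) :
    ContDiffOn ℝ ∞ (fun p => fderiv ℝ (fun p : ℝ × ℝ × ℝ => F p.1 p.2.1 p.2.2) p v) Str := by
  have h1 : ContDiffOn ℝ ∞ (fderiv ℝ (fun p : ℝ × ℝ × ℝ => F p.1 p.2.1 p.2.2)) Str :=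
    ContDiffOn.fderiv_of_isOpen h isOpen_Str (by simp)
  exact h1.clm_apply contDiffOn_const

theorem SmO.dT {F : ℝ → ℝ → ℝ → ℝ} (h : SmO F) : SmO (dT F) :=
  (fderiv_dir_smO h (1, 0, 0)).congr fun p hp => dT_eq (h.da hp)

theorem SmO.dX {F : ℝ → ℝ → ℝ → ℝ} (h : SmO F) : SmO (dX F) :=
  (fderiv_dir_smO h (0, 1, 0)).congr fun p hp => dX_eq (h.da hp)

theorem SmO.dF {F : ℝ → ℝ → ℝ → ℝ} (h : SmO F) : SmO (dF F) :=
  (fderiv_dir_smO h (0, 0, 1)).congr fun p hp => dF_eq (h.da hp)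

theorem fderiv_dir_sm {F : ℝ → ℝ → ℝ → ℝ} (h : Sm F) (v : ℝ × ℝ × ℝ) :
    ContDiff ℝ ∞ (fun p => fderiv ℝ (fun p : ℝ × ℝ × ℝ => F p.1 p.2.1 p.2.2) p v) := by
  have h1 : ContDiff ℝ ∞ (fderiv ℝ (fun p : ℝ × ℝ × ℝ => F p.1 p.2.1 p.2.2)) :=
    h.fderiv_right (by simp)
  exact h1.clm_apply contDiff_const

theorem Sm.dT {F : ℝ → ℝ → ℝ → ℝ} (h : Sm F) : Sm (dT F) := by
  have := fderiv_dir_sm h (1, 0, 0)
  have e : (fun p : ℝ × ℝ × ℝ => Geo.dT F p.1 p.2.1 p.2.2) =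
      fun p => fderiv ℝ (fun p : ℝ × ℝ × ℝ => F p.1 p.2.1 p.2.2) p (1, 0, 0) := by
    funext p; exact dT_eq (h.da p)
  unfold Sm; rw [e]; exact this

theorem Sm.dX {F : ℝ → ℝ → ℝ → ℝ} (h : Sm F) : Sm (dX F) := by
  have := fderiv_dir_sm h (0, 1, 0)
  have e : (fun p : ℝ × ℝ × ℝ => Geo.dX F p.1 p.2.1 p.2.2) =
      fun p => fderiv ℝ (fun p : ℝ × ℝ × ℝ => F p.1 p.2.1 p.2.2) p (0, 1, 0) := by
    funext p; exact dX_eq (h.da p)
  unfold Sm; rw [e]; exact this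

theorem Sm.dF {F : ℝ → ℝ → ℝ → ℝ} (h : Sm F) : Sm (dF F) := by
  have := fderiv_dir_sm h (0, 0, 1)
  have e : (fun p : ℝ × ℝ × ℝ => Geo.dF F p.1 p.2.1 p.2.2) =
      fun p => fderiv ℝ (fun p : ℝ × ℝ × ℝ => F p.1 p.2.1 p.2.2) p (0, 0, 1) := by
    funext p; exact dF_eq (h.da p)
  unfold Sm; rw [e]; exact this

/-! slices -/

theorem Sm.hT {F : ℝ → ℝ → ℝ → ℝ} (h : Sm F) (t X φ : ℝ) :
    HasDerivAt (fun τ => F τ X φ) (Geo.dT F t X φ) t := by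
  have := hasDerivAt_T (F := F) (p := (t, X, φ)) (h.da _)
  rw [← dT_eq (h.da _)] at this; exact this

theorem Sm.hX {F : ℝ → ℝ → ℝ → ℝ} (h : Sm F) (t X φ : ℝ) :
    HasDerivAt (fun Y => F t Y φ) (Geo.dX F t X φ) X := by
  have := hasDerivAt_X (F := F) (p := (t, X, φ)) (h.da _)
  rw [← dX_eq (h.da _)] at this; exact this

theorem Sm.hF {F : ℝ → ℝ → ℝ → ℝ} (h : Sm F) (t X φ : ℝ) :
    HasDerivAt (fun ψ => F t X ψ) (Geo.dF F t X φ) φ := by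
  have := hasDerivAt_F (F := F) (p := (t, X, φ)) (h.da _)
  rw [← dF_eq (h.da _)] at this; exact this

/-! ### Base functions on `E (m+3)` -/

/-- The function `q ↦ F (q 0) (q 1) (q 2)`. -/
def bas (F : ℝ → ℝ → ℝ → ℝ) (q : EuclideanSpace ℝ (Fin (m + 3))) : ℝ := F (q 0) (q 1) (q 2)

/-- The projection `q ↦ (q 0, q 1, q 2)`. -/
def prj : EuclideanSpace ℝ (Fin (m + 3)) →L[ℝ] ℝ × ℝ × ℝ :=
  (pr 0).prod ((pr 1).prod (pr 2))

theorem prj_apply (q : EuclideanSpace ℝ (Fin (m + 3))) : prj q = (q 0, q 1, q 2) := rfl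

theorem prj_mem {q : EuclideanSpace ℝ (Fin (m + 3))} (hq : q ∈ VV m) : prj q ∈ Str := hq

theorem SmO.bas_cda {F : ℝ → ℝ → ℝ → ℝ} (h : SmO F) {q : EuclideanSpace ℝ (Fin (m + 3))}
    (hq : q ∈ VV m) : ContDiffAt ℝ ∞ (bas (m := m) F) q :=
  (h.cda (prj_mem hq)).comp q prj.contDiff.contDiffAt

theorem pderiv_bas {F : ℝ → ℝ → ℝ → ℝ} (h : SmO F) {q : EuclideanSpace ℝ (Fin (m + 3))}
    (hq : q ∈ VV m) (i : Fin (m + 3)) :
    pderiv i (bas (m := m) F) q =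
      fderiv ℝ (fun p : ℝ × ℝ × ℝ => F p.1 p.2.1 p.2.2) (prj q) (prj (bv i)) := by
  have h1 : HasFDerivAt (bas (m := m) F)
      ((fderiv ℝ (fun p : ℝ × ℝ × ℝ => F p.1 p.2.1 p.2.2) (prj q)).comp prj) q :=
    (h.da (prj_mem hq)).hasFDerivAt.comp q prj.hasFDerivAt
  unfold pderiv
  rw [h1.fderiv]
  rfl

theorem pderiv_bas0 {F : ℝ → ℝ → ℝ → ℝ} (h : SmO F) {q : EuclideanSpace ℝ (Fin (m + 3))}
    (hq : q ∈ VV m) : pderiv 0 (bas (m := m) F) q = bas (dT F) q := by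
  rw [pderiv_bas h hq]
  have : prj (bv 0 : EuclideanSpace ℝ (Fin (m + 3))) = ((1, 0, 0) : ℝ × ℝ × ℝ) := by
    rw [prj_apply, bv_apply, bv_apply, bv_apply, if_pos rfl, if_neg one_ne_zero3,
      if_neg two_ne_zero3]
  rw [this]
  exact (dT_eq (h.da (prj_mem hq))).symm

theorem pderiv_bas1 {F : ℝ → ℝ → ℝ → ℝ} (h : SmO F) {q : EuclideanSpace ℝ (Fin (m + 3))}
    (hq : q ∈ VV m) : pderiv 1 (bas (m := m) F) q = bas (dX F) q := by
  rw [pderiv_bas h hq]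
  have : prj (bv 1 : EuclideanSpace ℝ (Fin (m + 3))) = ((0, 1, 0) : ℝ × ℝ × ℝ) := by
    rw [prj_apply, bv_apply, bv_apply, bv_apply, if_pos rfl, if_neg one_ne_zero3.symm,
      if_neg two_ne_one3]
  rw [this]
  exact (dX_eq (h.da (prj_mem hq))).symm

theorem pderiv_bas2 {F : ℝ → ℝ → ℝ → ℝ} (h : SmO F) {q : EuclideanSpace ℝ (Fin (m + 3))}
    (hq : q ∈ VV m) : pderiv 2 (bas (m := m) F) q = bas (dF F) q := by
  rw [pderiv_bas h hq]
  have : prj (bv 2 : EuclideanSpace ℝ (Fin (m + 3))) = ((0, 0, 1) : ℝ × ℝ × ℝ) := by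
    rw [prj_apply, bv_apply, bv_apply, bv_apply, if_pos rfl, if_neg two_ne_zero3.symm,
      if_neg two_ne_one3.symm]
  rw [this]
  exact (dF_eq (h.da (prj_mem hq))).symm

theorem pderiv_bask {F : ℝ → ℝ → ℝ → ℝ} (h : SmO F) {q : EuclideanSpace ℝ (Fin (m + 3))}
    (hq : q ∈ VV m) (k : Fin m) : pderiv k.succ.succ.succ (bas (m := m) F) q = 0 := by
  rw [pderiv_bas h hq]
  have : prj (bv k.succ.succ.succ : EuclideanSpace ℝ (Fin (m + 3))) = (0 : ℝ × ℝ × ℝ) := by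
    rw [prj_apply, bv_apply, bv_apply, bv_apply, if_neg (succ3_ne_zero k).symm,
      if_neg (succ3_ne_one k).symm, if_neg (succ3_ne_two k).symm]; rfl
  rw [this, map_zero]

theorem eventually_VV {q : EuclideanSpace ℝ (Fin (m + 3))} (hq : q ∈ VV m) :
    ∀ᶠ y in 𝓝 q, y ∈ VV m := isOpen_VV.mem_nhds hq

theorem pd_bas0 {F : ℝ → ℝ → ℝ → ℝ} (h : SmO F) {q : EuclideanSpace ℝ (Fin (m + 3))}
    (hq : q ∈ VV m) (i : Fin (m + 3)) :
    pderiv i (pderiv 0 (bas (m := m) F)) q = pderiv i (bas (m := m) (dT F)) q :=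
  pderiv_congr <| (eventually_VV hq).mono fun _ hy => pderiv_bas0 h hy

theorem pd_bas1 {F : ℝ → ℝ → ℝ → ℝ} (h : SmO F) {q : EuclideanSpace ℝ (Fin (m + 3))}
    (hq : q ∈ VV m) (i : Fin (m + 3)) :
    pderiv i (pderiv 1 (bas (m := m) F)) q = pderiv i (bas (m := m) (dX F)) q :=
  pderiv_congr <| (eventually_VV hq).mono fun _ hy => pderiv_bas1 h hy

theorem pd_bas2 {F : ℝ → ℝ → ℝ → ℝ} (h : SmO F) {q : EuclideanSpace ℝ (Fin (m + 3))}
    (hq : q ∈ VV m) (i : Fin (m + 3)) :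
    pderiv i (pderiv 2 (bas (m := m) F)) q = pderiv i (bas (m := m) (dF F)) q :=
  pderiv_congr <| (eventually_VV hq).mono fun _ hy => pderiv_bas2 h hy

theorem pd_bask {F : ℝ → ℝ → ℝ → ℝ} (h : SmO F) {q : EuclideanSpace ℝ (Fin (m + 3))}
    (hq : q ∈ VV m) (k : Fin m) (i : Fin (m + 3)) :
    pderiv i (pderiv k.succ.succ.succ (bas (m := m) F)) q = 0 := by
  have : pderiv i (pderiv k.succ.succ.succ (bas (m := m) F)) q = pderiv i (fun _ => (0:ℝ)) q :=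
    pderiv_congr <| (eventually_VV hq).mono fun _ hy => pderiv_bask h hy k
  rw [this, pderiv_const]

end

end Crest.Agent.R202.Geo
end

-- ▼ part R202/GeoJetA
section

/-!
Row 202, Part D: the jet of the exponents `aa s θ P`.
-/

set_option autoImplicit false

open scoped ContDiff Topology
open Crest.GeometryTopology.CoordMetric Crest.GeometryTopology.ChartCurvature

namespace Crest.Agent.R202.Geo

noncomputable section

variable {m : ℕ}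

theorem pd2_add {n : ℕ} {f h : EuclideanSpace ℝ (Fin n) → ℝ} {x : EuclideanSpace ℝ (Fin n)}
    (hf : ContDiffAt ℝ 2 f x) (hh : ContDiffAt ℝ 2 h x) (i j : Fin n) :
    pderiv i (pderiv j (fun y => f y + h y)) x =
      pderiv i (pderiv j f) x + pderiv i (pderiv j h) x := by
  have e : pderiv j (fun y => f y + h y) =ᶠ[𝓝 x] fun y => pderiv j f y + pderiv j h y := by
    filter_upwards [hf.eventually (by simp), hh.eventually (by simp)] with y h1 h2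
    exact pderiv_add (h1.differentiableAt (by norm_num)) (h2.differentiableAt (by norm_num))
  rw [pderiv_congr e, pderiv_add (differentiableAt_pderiv hf) (differentiableAt_pderiv hh)]

/-! ### The conformal factor of the sphere -/

/-- `ψ = log (2 / (1 + |η|²))`. -/
def psi (q : EuclideanSpace ℝ (Fin (m + 3))) : ℝ := Real.log 2 - Real.log (1 + NN q)

theorem contDiff_NNj : ContDiff ℝ ∞ (NN (m := m)) := by
  unfold NN
  refine ContDiff.sum fun k _ => ?_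
  exact (pr k.succ.succ.succ).contDiff.pow 2

theorem contDiff_psi : ContDiff ℝ ∞ (psi (m := m)) := by
  unfold psi
  exact contDiff_const.sub ((contDiff_const.add contDiff_NNj).log fun q => (NN_pos' q).ne')

theorem fderiv_psi (q v : EuclideanSpace ℝ (Fin (m + 3))) :
    fderiv ℝ (psi (m := m)) q v = -(2 * ev q v / (1 + NN q)) := by
  have h := (((hasFDerivAt_NN q).const_add 1).log (NN_pos' q).ne').const_sub (Real.log 2)
  have : HasFDerivAt (psi (m := m)) _ q := h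
  rw [this.fderiv]
  have e : (∑ k : Fin m, (2 * q k.succ.succ.succ) • pr k.succ.succ.succ) v = 2 * ev q v := by
    rw [← (hasFDerivAt_NN q).fderiv, fderiv_NN]
  simp only [neg_apply, smul_apply, e, smul_eq_mul]
  ring

theorem ev_bv_succ (q : EuclideanSpace ℝ (Fin (m + 3))) (k : Fin m) :
    ev q (bv k.succ.succ.succ) = q k.succ.succ.succ := by
  unfold ev
  rw [Finset.sum_eq_single k]
  · rw [bv_apply, if_pos rfl, mul_one]
  · intro l _ hl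
    rw [bv_apply, if_neg, mul_zero]
    intro h; apply hl
    exact Fin.succ_injective _ (Fin.succ_injective _ (Fin.succ_injective _ h))
  · intro h; exact absurd (Finset.mem_univ _) h

theorem pderiv_psi0 (q : EuclideanSpace ℝ (Fin (m + 3))) : pderiv 0 (psi (m := m)) q = 0 := by
  unfold pderiv; rw [fderiv_psi]; rw [ev_bv_zero]; simp

theorem pderiv_psi1 (q : EuclideanSpace ℝ (Fin (m + 3))) : pderiv 1 (psi (m := m)) q = 0 := by
  unfold pderiv; rw [fderiv_psi]; rw [ev_bv_one]; simp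

theorem pderiv_psi2 (q : EuclideanSpace ℝ (Fin (m + 3))) : pderiv 2 (psi (m := m)) q = 0 := by
  unfold pderiv; rw [fderiv_psi]; rw [ev_bv_two]; simp

theorem pderiv_psik (q : EuclideanSpace ℝ (Fin (m + 3))) (k : Fin m) :
    pderiv k.succ.succ.succ (psi (m := m)) q = -(2 * q k.succ.succ.succ / (1 + NN q)) := by
  unfold pderiv; rw [fderiv_psi]; rw [ev_bv_succ]

theorem pd_psi0 (q : EuclideanSpace ℝ (Fin (m + 3))) (i : Fin (m + 3)) :
    pderiv i (pderiv 0 (psi (m := m))) q = 0 := by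
  have : pderiv 0 (psi (m := m)) = fun _ => (0 : ℝ) := funext pderiv_psi0
  rw [this, pderiv_const]

theorem pd_psi1 (q : EuclideanSpace ℝ (Fin (m + 3))) (i : Fin (m + 3)) :
    pderiv i (pderiv 1 (psi (m := m))) q = 0 := by
  have : pderiv 1 (psi (m := m)) = fun _ => (0 : ℝ) := funext pderiv_psi1
  rw [this, pderiv_const]

theorem pd_psi2 (q : EuclideanSpace ℝ (Fin (m + 3))) (i : Fin (m + 3)) :
    pderiv i (pderiv 2 (psi (m := m))) q = 0 := by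
  have : pderiv 2 (psi (m := m)) = fun _ => (0 : ℝ) := funext pderiv_psi2
  rw [this, pderiv_const]

theorem fderiv_dpsi (q v : EuclideanSpace ℝ (Fin (m + 3))) (l : Fin m) :
    fderiv ℝ (pderiv l.succ.succ.succ (psi (m := m))) q v =
      -(2 * v l.succ.succ.succ / (1 + NN q))
        + 4 * q l.succ.succ.succ / (1 + NN q) ^ 2 * ev q v := by
  have e : pderiv l.succ.succ.succ (psi (m := m)) =
      fun q => -((2 * q l.succ.succ.succ) * (1 + NN q)⁻¹) := by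
    funext q; rw [pderiv_psik]; rfl
  rw [e]
  have h := (((hasFDerivAt_pr l.succ.succ.succ q).const_mul 2).fun_mul (hasFDerivAt_invN q)).fun_neg
  rw [h.fderiv]
  have e : (∑ k : Fin m, (2 * q k.succ.succ.succ) • pr k.succ.succ.succ) v = 2 * ev q v := by
    rw [← (hasFDerivAt_NN q).fderiv, fderiv_NN]
  simp only [neg_apply, add_apply, smul_apply, e, smul_eq_mul]
  have e2 : (pr l.succ.succ.succ : EuclideanSpace ℝ (Fin (m + 3)) →L[ℝ] ℝ) v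
    = v l.succ.succ.succ := rfl
  rw [e2]
  field_simp
  ring

theorem pd_psik0 (q : EuclideanSpace ℝ (Fin (m + 3))) (l : Fin m) :
    pderiv 0 (pderiv l.succ.succ.succ (psi (m := m))) q = 0 := by
  rw [pderiv, fderiv_dpsi]; rw [ev_bv_zero, bv_apply, if_neg (succ3_ne_zero l)]; simp

theorem pd_psik1 (q : EuclideanSpace ℝ (Fin (m + 3))) (l : Fin m) :
    pderiv 1 (pderiv l.succ.succ.succ (psi (m := m))) q = 0 := by
  rw [pderiv, fderiv_dpsi]; rw [ev_bv_one, bv_apply, if_neg (succ3_ne_one l)]; simp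

theorem pd_psik2 (q : EuclideanSpace ℝ (Fin (m + 3))) (l : Fin m) :
    pderiv 2 (pderiv l.succ.succ.succ (psi (m := m))) q = 0 := by
  rw [pderiv, fderiv_dpsi]; rw [ev_bv_two, bv_apply, if_neg (succ3_ne_two l)]; simp

theorem pd_psikk (q : EuclideanSpace ℝ (Fin (m + 3))) (k l : Fin m) :
    pderiv k.succ.succ.succ (pderiv l.succ.succ.succ (psi (m := m))) q =
      -(if k = l then 2 / (1 + NN q) else 0)
        + 4 * q k.succ.succ.succ * q l.succ.succ.succ / (1 + NN q) ^ 2 := by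
  rw [pderiv, fderiv_dpsi]; rw [ev_bv_succ, bv_apply]
  by_cases h : k = l
  · subst h; simp; ring
  · have h' : ¬ (l.succ.succ.succ : Fin (m + 3)) = k.succ.succ.succ := fun h2 =>
      h (Fin.succ_injective _ (Fin.succ_injective _ (Fin.succ_injective _ h2))).symm
    rw [if_neg h', if_neg h]; ring

/-! ### The base functions -/

/-- `κ = log θ`. -/
def klog (θ : ℝ → ℝ) (t : ℝ) : ℝ := Real.log (θ t)

/-- `L = log P`. -/
def LL (P : ℝ → ℝ → ℂ → ℝ) (t X φ : ℝ) : ℝ := Real.log (PP P t X φ)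

def A1 (m : ℕ) (s θ : ℝ → ℝ) (P : ℝ → ℝ → ℂ → ℝ) (t X φ : ℝ) : ℝ :=
  t - s t - klog θ t / ((m : ℝ) + 2) - 1 / 2 * LL P t X φ - 1 / 2 * Real.log (1 - X ^ 2)

def A2 (m : ℕ) (s θ : ℝ → ℝ) (P : ℝ → ℝ → ℂ → ℝ) (t X φ : ℝ) : ℝ :=
  t - s t + (1 - 1 / ((m : ℝ) + 2)) * klog θ t + 1 / 2 * LL P t X φ + 1 / 2 * Real.log (1 - X ^ 2)

def A3 (m : ℕ) (s θ : ℝ → ℝ) (t X _φ : ℝ) : ℝ :=
  t - s t - klog θ t / ((m : ℝ) + 2) + Real.log X

def A0 (t _X _φ : ℝ) : ℝ := t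

theorem aX_eq (s θ : ℝ → ℝ) (P : ℝ → ℝ → ℂ → ℝ) : aX (m := m) s θ P = bas (A1 m s θ P) := rfl
theorem aphi_eq (s θ : ℝ → ℝ) (P : ℝ → ℝ → ℂ → ℝ) : aphi (m := m) s θ P = bas (A2 m s θ P) := rfl
theorem aeta_eq (s θ : ℝ → ℝ) : aeta (m := m) s θ = fun q => bas (A3 m s θ) q + psi q := rfl
theorem a0_eq : (fun q : EuclideanSpace ℝ (Fin (m + 3)) => q 0) = bas A0 := rfl

section baseCalc

variable {s θ : ℝ → ℝ} {P : ℝ → ℝ → ℂ → ℝ} {t0 X0 X1 : ℝ}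

theorem Fam.sm_PP (h : Fam s θ P t0 X0 X1) : Sm (PP P) := by
  have h1 : ContDiff ℝ ∞ (fun p : ℝ × ℝ × ℝ =>
      ((p.1, p.2.1, Complex.exp ((p.2.2 : ℂ) * Complex.I)) : ℝ × ℝ × ℂ)) := by
    have h2 : ContDiff ℝ ∞ (fun p : ℝ × ℝ × ℝ => ((p.2.2 : ℝ) : ℂ)) :=
      Complex.ofRealCLM.contDiff.comp (contDiff_snd.comp contDiff_snd)
    exact contDiff_fst.prodMk ((contDiff_fst.comp contDiff_snd).prodMk
      (h2.mul contDiff_const).cexp)
  exact h.smooth_P.comp h1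

theorem Fam.sm_LL (h : Fam s θ P t0 X0 X1) : Sm (LL P) :=
  ContDiff.log h.sm_PP fun p => (h.P_pos p.1 p.2.1 _).ne'

theorem Fam.smooth_klog (h : Fam s θ P t0 X0 X1) : ContDiff ℝ ∞ (klog θ) :=
  h.smooth_θ.log fun t => (h.θ_pos t).ne'

theorem sm_of_time {f : ℝ → ℝ} (h : ContDiff ℝ ∞ f) : Sm (fun t _ _ => f t) :=
  h.comp contDiff_fst

theorem smO_logX : SmO (fun _ X _ => Real.log X) := by
  intro p hp
  exact ((contDiff_fst.comp contDiff_snd).contDiffAt.log hp.1.ne').contDiffWithinAt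

theorem one_sub_sq_pos' {X : ℝ} (h0 : 0 < X) (h1 : X < 1) : 0 < 1 - X ^ 2 := by nlinarith

theorem smO_log1 : SmO (fun _ X _ => Real.log (1 - X ^ 2)) := by
  intro p hp
  have : ContDiff ℝ ∞ (fun p : ℝ × ℝ × ℝ => 1 - p.2.1 ^ 2) :=
    contDiff_const.sub ((contDiff_fst.comp contDiff_snd).pow 2)
  exact (this.contDiffAt.log (one_sub_sq_pos' hp.1 hp.2).ne').contDiffWithinAt

theorem Fam.smO_A1 (h : Fam s θ P t0 X0 X1) : SmO (A1 m s θ P) := by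
  have h1 : SmO (fun t _ _ => t - s t - klog θ t / ((m : ℝ) + 2)) :=
    (sm_of_time ((contDiff_id.sub h.smooth_s).sub (h.smooth_klog.div_const _))).smO
  exact (h1.sub (contDiffOn_const.mul h.sm_LL.smO)).sub (contDiffOn_const.mul smO_log1)

theorem Fam.smO_A2 (h : Fam s θ P t0 X0 X1) : SmO (A2 m s θ P) := by
  have h1 : SmO (fun t _ _ => t - s t + (1 - 1 / ((m : ℝ) + 2)) * klog θ t) :=
    (sm_of_time ((contDiff_id.sub h.smooth_s).add (contDiff_const.mul h.smooth_klog))).smO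
  exact (h1.add (contDiffOn_const.mul h.sm_LL.smO)).add (contDiffOn_const.mul smO_log1)

theorem Fam.smO_A3 (h : Fam s θ P t0 X0 X1) : SmO (A3 m s θ) := by
  have h1 : SmO (fun t _ _ => t - s t - klog θ t / ((m : ℝ) + 2)) :=
    (sm_of_time ((contDiff_id.sub h.smooth_s).sub (h.smooth_klog.div_const _))).smO
  exact h1.add smO_logX

theorem smO_A0 : SmO A0 := (sm_of_time contDiff_id).smO

theorem hasDerivAt_log1 {X : ℝ} (h0 : 0 < X) (h1 : X < 1) :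
    HasDerivAt (fun Y : ℝ => Real.log (1 - Y ^ 2)) (-(2 * X) / (1 - X ^ 2)) X := by
  have h := ((hasDerivAt_pow 2 X).const_sub 1).log (one_sub_sq_pos' h0 h1).ne'
  simpa using h

/-- derivative of a smooth function of `t` -/
theorem hd {f : ℝ → ℝ} (h : ContDiff ℝ ∞ f) (t : ℝ) : HasDerivAt f (deriv f t) t :=
  ((h.differentiable (by simp)) t).hasDerivAt

theorem hd2 {f : ℝ → ℝ} (h : ContDiff ℝ ∞ f) (t : ℝ) :
    HasDerivAt (deriv f) (deriv (deriv f) t) t := by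
  have h1 : ContDiff ℝ 1 (deriv f) := by
    have := (contDiff_succ_iff_deriv (n := 1) (𝕜 := ℝ) (f := f)).1 (h.of_le (by norm_cast))
    exact this.2.2
  exact ((h1.differentiable (by norm_num)) t).hasDerivAt

theorem Fam.dT_A1 (h : Fam s θ P t0 X0 X1) (t X φ : ℝ) :
    dT (A1 m s θ P) t X φ =
      1 - deriv s t - deriv (klog θ) t / ((m : ℝ) + 2) - 1 / 2 * dT (LL P) t X φ := by
  have h1 := ((((hasDerivAt_id t).sub (hd h.smooth_s t)).sub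
    ((hd h.smooth_klog t).div_const ((m : ℝ) + 2))).sub
      ((h.sm_LL.hT t X φ).const_mul (1 / 2))).sub_const (1 / 2 * Real.log (1 - X ^ 2))
  exact h1.deriv

theorem Fam.dT_A2 (h : Fam s θ P t0 X0 X1) (t X φ : ℝ) :
    dT (A2 m s θ P) t X φ =
      1 - deriv s t + (1 - 1 / ((m : ℝ) + 2)) * deriv (klog θ) t + 1 / 2 * dT (LL P) t X φ := by
  have h1 := ((((hasDerivAt_id t).sub (hd h.smooth_s t)).add
    ((hd h.smooth_klog t).const_mul (1 - 1 / ((m : ℝ) + 2)))).add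
      ((h.sm_LL.hT t X φ).const_mul (1 / 2))).add_const (1 / 2 * Real.log (1 - X ^ 2))
  exact h1.deriv

theorem Fam.dT_A3 (h : Fam s θ P t0 X0 X1) (t X φ : ℝ) :
    dT (A3 m s θ) t X φ = 1 - deriv s t - deriv (klog θ) t / ((m : ℝ) + 2) := by
  have h1 := ((((hasDerivAt_id t).sub (hd h.smooth_s t)).sub
    ((hd h.smooth_klog t).div_const ((m : ℝ) + 2)))).add_const (Real.log X)
  exact h1.deriv

theorem Fam.dX_A1 (h : Fam s θ P t0 X0 X1) (t : ℝ) {X : ℝ} (φ : ℝ) (hX0 : 0 < X) (hX1 : X < 1) :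
    dX (A1 m s θ P) t X φ = X / (1 - X ^ 2) - 1 / 2 * dX (LL P) t X φ := by
  have h1 := (((h.sm_LL.hX t X φ).const_mul (1 / 2)).const_sub
    (t - s t - klog θ t / ((m : ℝ) + 2))).sub ((hasDerivAt_log1 hX0 hX1).const_mul (1 / 2))
  have := h1.deriv
  refine Eq.trans this ?_
  ring

theorem Fam.dX_A2 (h : Fam s θ P t0 X0 X1) (t : ℝ) {X : ℝ} (φ : ℝ) (hX0 : 0 < X) (hX1 : X < 1) :
    dX (A2 m s θ P) t X φ = -(X / (1 - X ^ 2) - 1 / 2 * dX (LL P) t X φ) := by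
  have h1 := (((h.sm_LL.hX t X φ).const_mul (1 / 2)).const_add
    (t - s t + (1 - 1 / ((m : ℝ) + 2)) * klog θ t)).add ((hasDerivAt_log1 hX0 hX1).const_mul (1 / 2))
  have := h1.deriv
  refine Eq.trans this ?_
  ring

theorem dX_A3 (s θ : ℝ → ℝ) (t : ℝ) {X : ℝ} (φ : ℝ) (hX0 : 0 < X) :
    dX (A3 m s θ) t X φ = 1 / X := by
  have h1 := (Real.hasDerivAt_log hX0.ne').const_add (t - s t - klog θ t / ((m : ℝ) + 2))
  have := h1.deriv
  refine Eq.trans this ?_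
  simp

theorem Fam.dF_A1 (h : Fam s θ P t0 X0 X1) (t X φ : ℝ) :
    dF (A1 m s θ P) t X φ = -(1 / 2 * dF (LL P) t X φ) := by
  have h1 := (((h.sm_LL.hF t X φ).const_mul (1 / 2)).const_sub
    (t - s t - klog θ t / ((m : ℝ) + 2))).sub_const (1 / 2 * Real.log (1 - X ^ 2))
  exact h1.deriv

theorem Fam.dF_A2 (h : Fam s θ P t0 X0 X1) (t X φ : ℝ) :
    dF (A2 m s θ P) t X φ = 1 / 2 * dF (LL P) t X φ := by
  have h1 := (((h.sm_LL.hF t X φ).const_mul (1 / 2)).const_add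
    (t - s t + (1 - 1 / ((m : ℝ) + 2)) * klog θ t)).add_const (1 / 2 * Real.log (1 - X ^ 2))
  exact h1.deriv

theorem dF_A3 (s θ : ℝ → ℝ) (t X φ : ℝ) : dF (A3 m s θ) t X φ = 0 := by
  unfold dF A3; simp

theorem Fam.dTT_A1 (h : Fam s θ P t0 X0 X1) (t X φ : ℝ) :
    dT (dT (A1 m s θ P)) t X φ =
      -deriv (deriv s) t - deriv (deriv (klog θ)) t / ((m : ℝ) + 2)
        - 1 / 2 * dT (dT (LL P)) t X φ := by
  have e : (fun τ => dT (A1 m s θ P) τ X φ) = fun τ =>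
      1 - deriv s τ - deriv (klog θ) τ / ((m : ℝ) + 2) - 1 / 2 * dT (LL P) τ X φ :=
    funext fun τ => h.dT_A1 τ X φ
  have h1 := (((hd2 h.smooth_s t).const_sub 1).sub
    ((hd2 h.smooth_klog t).div_const ((m : ℝ) + 2))).sub
      ((h.sm_LL.dT.hT t X φ).const_mul (1 / 2))
  unfold dT at e ⊢
  rw [e]
  exact h1.deriv

theorem Fam.dTT_A2 (h : Fam s θ P t0 X0 X1) (t X φ : ℝ) :
    dT (dT (A2 m s θ P)) t X φ =
      -deriv (deriv s) t + (1 - 1 / ((m : ℝ) + 2)) * deriv (deriv (klog θ)) t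
        + 1 / 2 * dT (dT (LL P)) t X φ := by
  have e : (fun τ => dT (A2 m s θ P) τ X φ) = fun τ =>
      1 - deriv s τ + (1 - 1 / ((m : ℝ) + 2)) * deriv (klog θ) τ + 1 / 2 * dT (LL P) τ X φ :=
    funext fun τ => h.dT_A2 τ X φ
  have h1 := (((hd2 h.smooth_s t).const_sub 1).add
    ((hd2 h.smooth_klog t).const_mul (1 - 1 / ((m : ℝ) + 2)))).add
      ((h.sm_LL.dT.hT t X φ).const_mul (1 / 2))
  unfold dT at e ⊢
  rw [e]
  exact h1.deriv

theorem Fam.dTT_A3 (h : Fam s θ P t0 X0 X1) (t X φ : ℝ) :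
    dT (dT (A3 m s θ)) t X φ =
      -deriv (deriv s) t - deriv (deriv (klog θ)) t / ((m : ℝ) + 2) := by
  have e : (fun τ => dT (A3 m s θ) τ X φ) = fun τ =>
      1 - deriv s τ - deriv (klog θ) τ / ((m : ℝ) + 2) :=
    funext fun τ => h.dT_A3 τ X φ
  have h1 := (((hd2 h.smooth_s t).const_sub 1).sub
    ((hd2 h.smooth_klog t).div_const ((m : ℝ) + 2)))
  unfold dT at e ⊢
  rw [e]
  exact h1.deriv

theorem Fam.dXT_A2 (h : Fam s θ P t0 X0 X1) (t X φ : ℝ) :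
    dX (dT (A2 m s θ P)) t X φ = 1 / 2 * dX (dT (LL P)) t X φ := by
  have e : (fun Y => dT (A2 m s θ P) t Y φ) = fun Y =>
      1 - deriv s t + (1 - 1 / ((m : ℝ) + 2)) * deriv (klog θ) t + 1 / 2 * dT (LL P) t Y φ :=
    funext fun Y => h.dT_A2 t Y φ
  have h1 := ((h.sm_LL.dT.hX t X φ).const_mul (1 / 2)).const_add
    (1 - deriv s t + (1 - 1 / ((m : ℝ) + 2)) * deriv (klog θ) t)
  unfold dX
  rw [e]
  exact h1.deriv

theorem Fam.dFT_A1 (h : Fam s θ P t0 X0 X1) (t X φ : ℝ) :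
    dF (dT (A1 m s θ P)) t X φ = -(1 / 2 * dF (dT (LL P)) t X φ) := by
  have e : (fun ψ => dT (A1 m s θ P) t X ψ) = fun ψ =>
      1 - deriv s t - deriv (klog θ) t / ((m : ℝ) + 2) - 1 / 2 * dT (LL P) t X ψ :=
    funext fun ψ => h.dT_A1 t X ψ
  have h1 := ((h.sm_LL.dT.hF t X φ).const_mul (1 / 2)).const_sub
    (1 - deriv s t - deriv (klog θ) t / ((m : ℝ) + 2))
  unfold dF
  rw [e]
  exact h1.deriv

theorem hasDerivAt_XX {X : ℝ} (h0 : 0 < X) (h1 : X < 1) :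
    HasDerivAt (fun Y : ℝ => Y / (1 - Y ^ 2)) ((1 + X ^ 2) / (1 - X ^ 2) ^ 2) X := by
  have h := (hasDerivAt_id X).div ((hasDerivAt_pow 2 X).const_sub 1) (one_sub_sq_pos' h0 h1).ne'
  refine h.congr_deriv ?_
  simp
  ring

theorem Fam.dXX_A1 (h : Fam s θ P t0 X0 X1) (t : ℝ) {X : ℝ} (φ : ℝ) (hX0 : 0 < X) (hX1 : X < 1) :
    dX (dX (A1 m s θ P)) t X φ =
      (1 + X ^ 2) / (1 - X ^ 2) ^ 2 - 1 / 2 * dX (dX (LL P)) t X φ := by
  have e : (fun Y => dX (A1 m s θ P) t Y φ) =ᶠ[𝓝 X] fun Y =>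
      Y / (1 - Y ^ 2) - 1 / 2 * dX (LL P) t Y φ := by
    filter_upwards [Ioo_mem_nhds hX0 hX1] with Y hY
    exact h.dX_A1 t φ hY.1 hY.2
  have h1 := (hasDerivAt_XX hX0 hX1).sub ((h.sm_LL.dX.hX t X φ).const_mul (1 / 2))
  show deriv (fun Y => dX (A1 m s θ P) t Y φ) X = _
  rw [e.deriv_eq]
  exact h1.deriv

theorem Fam.dXX_A2 (h : Fam s θ P t0 X0 X1) (t : ℝ) {X : ℝ} (φ : ℝ) (hX0 : 0 < X) (hX1 : X < 1) :
    dX (dX (A2 m s θ P)) t X φ =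
      -((1 + X ^ 2) / (1 - X ^ 2) ^ 2 - 1 / 2 * dX (dX (LL P)) t X φ) := by
  have e : (fun Y => dX (A2 m s θ P) t Y φ) =ᶠ[𝓝 X] fun Y =>
      -(Y / (1 - Y ^ 2) - 1 / 2 * dX (LL P) t Y φ) := by
    filter_upwards [Ioo_mem_nhds hX0 hX1] with Y hY
    exact h.dX_A2 t φ hY.1 hY.2
  have h1 := ((hasDerivAt_XX hX0 hX1).sub ((h.sm_LL.dX.hX t X φ).const_mul (1 / 2))).fun_neg
  show deriv (fun Y => dX (A2 m s θ P) t Y φ) X = _
  rw [e.deriv_eq]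
  exact h1.deriv

theorem dXX_A3 (s θ : ℝ → ℝ) (t : ℝ) {X : ℝ} (φ : ℝ) (hX0 : 0 < X) :
    dX (dX (A3 m s θ)) t X φ = -(1 / X ^ 2) := by
  have e : (fun Y => dX (A3 m s θ) t Y φ) =ᶠ[𝓝 X] fun Y => Y⁻¹ := by
    filter_upwards [Ioi_mem_nhds hX0] with Y hY
    rw [dX_A3 s θ t φ hY]; simp
  show deriv (fun Y => dX (A3 m s θ) t Y φ) X = _
  rw [e.deriv_eq, (hasDerivAt_inv hX0.ne').deriv]
  simp

theorem Fam.dFF_A1 (h : Fam s θ P t0 X0 X1) (t X φ : ℝ) :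
    dF (dF (A1 m s θ P)) t X φ = -(1 / 2 * dF (dF (LL P)) t X φ) := by
  have e : (fun ψ => dF (A1 m s θ P) t X ψ) = fun ψ => -(1 / 2 * dF (LL P) t X ψ) :=
    funext fun ψ => h.dF_A1 t X ψ
  have h1 := ((h.sm_LL.dF.hF t X φ).const_mul (1 / 2)).fun_neg
  show deriv (fun ψ => dF (A1 m s θ P) t X ψ) φ = _
  rw [e]
  exact h1.deriv

theorem Fam.dFF_A2 (h : Fam s θ P t0 X0 X1) (t X φ : ℝ) :
    dF (dF (A2 m s θ P)) t X φ = 1 / 2 * dF (dF (LL P)) t X φ := by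
  have e : (fun ψ => dF (A2 m s θ P) t X ψ) = fun ψ => 1 / 2 * dF (LL P) t X ψ :=
    funext fun ψ => h.dF_A2 t X ψ
  have h1 := (h.sm_LL.dF.hF t X φ).const_mul (1 / 2)
  show deriv (fun ψ => dF (A2 m s θ P) t X ψ) φ = _
  rw [e]
  exact h1.deriv

end baseCalc

/-- **The jet** of the exponents. -/
theorem Fam.jet {s θ : ℝ → ℝ} {P : ℝ → ℝ → ℂ → ℝ} {t0 X0 X1 : ℝ} (h : Fam s θ P t0 X0 X1)
    {q : EuclideanSpace ℝ (Fin (m + 3))} (hq : q ∈ VV m) :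
    Jet (aa s θ P) (aeta s θ) q (q 1)
      (q 1 / (1 - q 1 ^ 2) - 1 / 2 * dX (LL P) (q 0) (q 1) (q 2))
      (-(1 / 2 * dF (LL P) (q 0) (q 1) (q 2)))
      (1 - deriv s (q 0) - deriv (klog θ) (q 0) / ((m : ℝ) + 2)
        - 1 / 2 * dT (LL P) (q 0) (q 1) (q 2))
      (1 - deriv s (q 0) + (1 - 1 / ((m : ℝ) + 2)) * deriv (klog θ) (q 0)
        + 1 / 2 * dT (LL P) (q 0) (q 1) (q 2))
      (1 - deriv s (q 0) - deriv (klog θ) (q 0) / ((m : ℝ) + 2))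
      (-deriv (deriv s) (q 0) - deriv (deriv (klog θ)) (q 0) / ((m : ℝ) + 2)
        - 1 / 2 * dT (dT (LL P)) (q 0) (q 1) (q 2))
      (-deriv (deriv s) (q 0) + (1 - 1 / ((m : ℝ) + 2)) * deriv (deriv (klog θ)) (q 0)
        + 1 / 2 * dT (dT (LL P)) (q 0) (q 1) (q 2))
      (-deriv (deriv s) (q 0) - deriv (deriv (klog θ)) (q 0) / ((m : ℝ) + 2))
      (1 / 2 * dX (dT (LL P)) (q 0) (q 1) (q 2))
      (-(1 / 2 * dF (dT (LL P)) (q 0) (q 1) (q 2)))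
      ((1 + q 1 ^ 2) / (1 - q 1 ^ 2) ^ 2 - 1 / 2 * dX (dX (LL P)) (q 0) (q 1) (q 2))
      (-(1 / 2 * dF (dF (LL P)) (q 0) (q 1) (q 2)))
      (1 + NN q) (fun k => q k.succ.succ.succ) := by
  have hA0 := smO_A0
  have hA1 := h.smO_A1 (m := m)
  have hA2 := h.smO_A2 (m := m)
  have hA3 := h.smO_A3 (m := m)
  have c0 : ContDiffAt ℝ 2 (bas (m := m) A0) q := (hA0.bas_cda hq).of_le (by norm_cast)
  have c1 : ContDiffAt ℝ 2 (bas (m := m) (A1 m s θ P)) q := (hA1.bas_cda hq).of_le (by norm_cast)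
  have c2 : ContDiffAt ℝ 2 (bas (m := m) (A2 m s θ P)) q := (hA2.bas_cda hq).of_le (by norm_cast)
  have c3 : ContDiffAt ℝ 2 (bas (m := m) (A3 m s θ)) q := (hA3.bas_cda hq).of_le (by norm_cast)
  have cψ : ContDiffAt ℝ 2 (psi (m := m)) q := (contDiff_psi.contDiffAt).of_le (by norm_cast)
  have cw : ContDiffAt ℝ 2 (aeta (m := m) s θ) q := by rw [aeta_eq]; exact c3.add cψ
  have d3 : DifferentiableAt ℝ (bas (m := m) (A3 m s θ)) q := c3.differentiableAt (by norm_num)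
  have dψ : DifferentiableAt ℝ (psi (m := m)) q := cψ.differentiableAt (by norm_num)
  have z0 : dT A0 = fun _ _ _ => (1:ℝ) := by funext t X φ; unfold dT A0; simp
  have z1 : dX A0 = fun _ _ _ => (0:ℝ) := by funext t X φ; unfold dX A0; simp
  have z2 : dF A0 = fun _ _ _ => (0:ℝ) := by funext t X φ; unfold dF A0; simp
  constructor
  · -- c2
    apply forall_fin3
    · rw [aa_zero, a0_eq]; exact c0
    · rw [aa_one, aX_eq]; exact c1
    · rw [aa_two, aphi_eq]; exact c2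
    · intro k; rw [aa_succ]; exact cw
  · intro k; rfl
  · rfl
  · rw [aa_zero, a0_eq, pderiv_bas0 hA0 hq, z0]; rfl
  · rw [aa_zero, a0_eq, pderiv_bas1 hA0 hq, z1]; rfl
  · rw [aa_zero, a0_eq, pderiv_bas2 hA0 hq, z2]; rfl
  · intro k; rw [aa_zero, a0_eq, pderiv_bask hA0 hq]
  · rw [aa_one, aX_eq, pderiv_bas0 hA1 hq, bas, h.dT_A1]
  · rw [aa_one, aX_eq, pderiv_bas1 hA1 hq, bas, h.dX_A1 _ _ hq.1 hq.2]
  · rw [aa_one, aX_eq, pderiv_bas2 hA1 hq, bas, h.dF_A1]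
  · intro k; rw [aa_one, aX_eq, pderiv_bask hA1 hq]
  · rw [aa_two, aphi_eq, pderiv_bas0 hA2 hq, bas, h.dT_A2]
  · rw [aa_two, aphi_eq, pderiv_bas1 hA2 hq, bas, h.dX_A2 _ _ hq.1 hq.2]
  · rw [aa_two, aphi_eq, pderiv_bas2 hA2 hq, bas, h.dF_A2, neg_neg]
  · intro k; rw [aa_two, aphi_eq, pderiv_bask hA2 hq]
  · rw [aeta_eq, pderiv_add d3 dψ, pderiv_bas0 hA3 hq, pderiv_psi0, bas, h.dT_A3, add_zero]
  · rw [aeta_eq, pderiv_add d3 dψ, pderiv_bas1 hA3 hq, pderiv_psi1, bas,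
      dX_A3 s θ _ _ hq.1, add_zero]
  · rw [aeta_eq, pderiv_add d3 dψ, pderiv_bas2 hA3 hq, pderiv_psi2, bas, dF_A3, add_zero]
  · intro k; rw [aeta_eq, pderiv_add d3 dψ, pderiv_bask hA3 hq, pderiv_psik, zero_add]
  · -- z
    intro i j
    rw [aa_zero, a0_eq]
    revert j
    apply forall_fin3
    · rw [pd_bas0 hA0 hq, z0]; exact pderiv_const _
    · rw [pd_bas1 hA0 hq, z1]; exact pderiv_const _
    · rw [pd_bas2 hA0 hq, z2]; exact pderiv_const _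
    · intro k; exact pd_bask hA0 hq k i
  · rw [aa_one, aX_eq, pd_bas0 hA1 hq, pderiv_bas0 hA1.dT hq, bas, h.dTT_A1]
  · rw [aa_two, aphi_eq, pd_bas0 hA2 hq, pderiv_bas0 hA2.dT hq, bas, h.dTT_A2]
  · rw [aeta_eq, pd2_add c3 cψ, pd_psi0, pd_bas0 hA3 hq, pderiv_bas0 hA3.dT hq, bas, h.dTT_A3,
      add_zero]
  · rw [aa_two, aphi_eq, pderiv_comm c2, pd_bas0 hA2 hq, pderiv_bas1 hA2.dT hq, bas, h.dXT_A2]
  · rw [aa_one, aX_eq, pderiv_comm c1, pd_bas0 hA1 hq, pderiv_bas2 hA1.dT hq, bas, h.dFT_A1]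
  · rw [aa_one, aX_eq, pd_bas1 hA1 hq, pderiv_bas1 hA1.dX hq, bas, h.dXX_A1 _ _ hq.1 hq.2]
  · rw [aa_two, aphi_eq, pd_bas1 hA2 hq, pderiv_bas1 hA2.dX hq, bas, h.dXX_A2 _ _ hq.1 hq.2]
  · rw [aa_one, aX_eq, pd_bas2 hA1 hq, pderiv_bas2 hA1.dF hq, bas, h.dFF_A1]
  · rw [aa_two, aphi_eq, pd_bas2 hA2 hq, pderiv_bas2 hA2.dF hq, bas, h.dFF_A2, neg_neg]
  · rw [aeta_eq, pd2_add c3 cψ, pd_psi1, pd_bas1 hA3 hq, pderiv_bas1 hA3.dX hq, bas,
      dXX_A3 s θ _ _ hq.1, add_zero]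
  · -- s01w
    rw [aeta_eq, pd2_add c3 cψ, pd_psi1, pderiv_comm c3, pd_bas0 hA3 hq, pderiv_bas1 hA3.dT hq, bas]
    have : dX (dT (A3 m s θ)) (q 0) (q 1) (q 2) = 0 := by
      unfold dX
      have e : (fun Y => dT (A3 m s θ) (q 0) Y (q 2)) = fun _ =>
        1 - deriv s (q 0) - deriv (klog θ) (q 0) / ((m : ℝ) + 2) := funext fun Y => h.dT_A3 _ _ _
      rw [e]; simp
    rw [this, add_zero]
  · -- s02w
    rw [aeta_eq, pd2_add c3 cψ, pd_psi2, pderiv_comm c3, pd_bas0 hA3 hq, pderiv_bas2 hA3.dT hq, bas]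
    have : dF (dT (A3 m s θ)) (q 0) (q 1) (q 2) = 0 := by
      unfold dF
      have e : (fun Y => dT (A3 m s θ) (q 0) (q 1) Y) = fun _ =>
        1 - deriv s (q 0) - deriv (klog θ) (q 0) / ((m : ℝ) + 2) := funext fun Y => h.dT_A3 _ _ _
      rw [e]; simp
    rw [this, add_zero]
  · -- s12w
    rw [aeta_eq, pd2_add c3 cψ, pd_psi2, pd_bas2 hA3 hq]
    have e : dF (A3 m s θ) = fun _ _ _ => (0:ℝ) := by funext t X φ; exact dF_A3 s θ t X φ
    rw [e, add_zero]; exact pderiv_const _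
  · -- s22w
    rw [aeta_eq, pd2_add c3 cψ, pd_psi2, pd_bas2 hA3 hq]
    have e : dF (A3 m s θ) = fun _ _ _ => (0:ℝ) := by funext t X φ; exact dF_A3 s θ t X φ
    rw [e, add_zero]; exact pderiv_const _
  · intro k; rw [aa_one, aX_eq]; exact pd_bask hA1 hq k _
  · intro k; rw [aa_two, aphi_eq]; exact pd_bask hA2 hq k _
  · intro k; rw [aeta_eq, pd2_add c3 cψ, pd_psik0, pd_bask hA3 hq, add_zero]
  · intro k; rw [aa_one, aX_eq]; exact pd_bask hA1 hq k _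
  · intro k; rw [aa_two, aphi_eq]; exact pd_bask hA2 hq k _
  · intro k; rw [aeta_eq, pd2_add c3 cψ, pd_psik1, pd_bask hA3 hq, add_zero]
  · intro k; rw [aa_one, aX_eq]; exact pd_bask hA1 hq k _
  · intro k; rw [aa_two, aphi_eq]; exact pd_bask hA2 hq k _
  · intro k; rw [aeta_eq, pd2_add c3 cψ, pd_psik2, pd_bask hA3 hq, add_zero]
  · intro k l; rw [aa_one, aX_eq]; exact pd_bask hA1 hq l _
  · intro k l; rw [aa_two, aphi_eq]; exact pd_bask hA2 hq l _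
  · intro k l
    rw [aeta_eq, pd2_add c3 cψ, pd_psikk, pd_bask hA3 hq, zero_add]

end

end Crest.Agent.R202.Geo
end

-- ▼ part R202/GeoRicA
section

/-!
Row 202, Part D: closed form of the Ricci quadratic form in polar coordinates, and the
elementary inequality behind the positivity of the Ricci curvature.
-/

set_option autoImplicit false

open scoped ContDiff Topology
open Crest.GeometryTopology.CoordMetric Crest.GeometryTopology.ChartCurvature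

namespace Crest.Agent.R202.Geo

noncomputable section

variable {m : ℕ}

theorem Jet.form {a : Fin (m + 3) → EuclideanSpace ℝ (Fin (m + 3)) → ℝ}
    {w : EuclideanSpace ℝ (Fin (m + 3)) → ℝ}
    {q : EuclideanSpace ℝ (Fin (m + 3))}
    {X d f d01 d02 d0w h001 h002 h00w h012 h021 h11 h22 c : ℝ} {η : Fin m → ℝ}
    (J : Jet a w q X d f d01 d02 d0w h001 h002 h00w h012 h021 h11 h22 c η)
    (v : EuclideanSpace ℝ (Fin (m + 3))) :
    ∑ i, ∑ j, ricci (diagMetric a) q i j * v i * v j =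
      ricci (diagMetric a) q 0 0 * v 0 ^ 2
      + 2 * ricci (diagMetric a) q 0 1 * (v 0 * v 1)
      + 2 * ricci (diagMetric a) q 0 2 * (v 0 * v 2)
      + ricci (diagMetric a) q 1 1 * v 1 ^ 2
      + 2 * ricci (diagMetric a) q 1 2 * (v 1 * v 2)
      + ricci (diagMetric a) q 2 2 * v 2 ^ 2
      + ((m - 1) * (4 / c ^ 2)
          - Real.exp (2 * (w q - a 1 q)) * (-(1 / X ^ 2) + (m / X - 2 * d) * (1 / X))
          - Real.exp (2 * (w q - a 0 q)) *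
            (h00w + ((1 + (d01 + (d02 + m * d0w))) - 2) * d0w))
        * ∑ k : Fin m, v k.succ.succ.succ ^ 2 := by
  have hk0 : ∀ k : Fin m, ricci (diagMetric a) q k.succ.succ.succ 0 = 0 := fun k => by
    rw [ricci_diagMetric_symm J.c2, J.R0k]
  have hk1 : ∀ k : Fin m, ricci (diagMetric a) q k.succ.succ.succ 1 = 0 := fun k => by
    rw [ricci_diagMetric_symm J.c2, J.R1k]
  have hk2 : ∀ k : Fin m, ricci (diagMetric a) q k.succ.succ.succ 2 = 0 := fun k => by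
    rw [ricci_diagMetric_symm J.c2, J.R2k]
  rw [sum3]
  simp_rw [sum3]
  simp_rw [J.R0k, J.R1k, J.R2k, hk0, hk1, hk2, J.Rkl]
  rw [ricci_diagMetric_symm J.c2 1 0, ricci_diagMetric_symm J.c2 2 0,
    ricci_diagMetric_symm J.c2 2 1]
  simp only [zero_mul, Finset.sum_const_zero, add_zero, ite_mul, zero_add, Finset.sum_ite_eq,
    Finset.mem_univ, if_true]
  rw [Finset.mul_sum]
  have : ∀ A : ℝ, ∑ k : Fin m, A * v k.succ.succ.succ * v k.succ.succ.succ =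
      ∑ k : Fin m, A * v k.succ.succ.succ ^ 2 := fun A =>
    Finset.sum_congr rfl fun k _ => by ring
  rw [this]
  ring

/-! ### Algebraic identities -/

theorem id_G11 {m : ℕ} {X p θ P1 P2 F1 F2 : ℝ} (hX : 0 < X) (hX1 : X < 1) (hp : 0 < p)
    (hθ : 0 < θ) :
    ((1 + X ^ 2) / (1 - X ^ 2) ^ 2 - 1 / 2 * (P2 / p - (P1 / p) ^ 2))
      + m / X * (X / (1 - X ^ 2) - 1 / 2 * (P1 / p))
      - 2 * (X / (1 - X ^ 2) - 1 / 2 * (P1 / p)) ^ 2
      - 1 / (θ ^ 2 * p ^ 2 * (1 - X ^ 2) ^ 2) *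
        (-(1 / 2 * (F2 / p - (F1 / p) ^ 2)) + 2 * (-(1 / 2 * (F1 / p))) ^ 2)
      = 1 / (p * (1 - X ^ 2)) * q11 m θ X p P1 P2 F1 F2 := by
  have h1 : 1 - X ^ 2 ≠ 0 := (one_sub_sq_pos' hX hX1).ne'
  unfold q11
  field_simp
  ring

theorem id_Gw {m : ℕ} {X p P1 c : ℝ} (hX : 0 < X) (hp : 0 < p) (hc : c ≠ 0)
    (hX1 : X < 1) :
    (m - 1) * (4 / c ^ 2)
      - X ^ 2 * (4 / c ^ 2) * (p * (1 - X ^ 2)) *
        (-(1 / X ^ 2) + (m / X - 2 * (X / (1 - X ^ 2) - 1 / 2 * (P1 / p))) * (1 / X))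
      = X ^ 2 * (4 / c ^ 2) * qw m X p P1 := by
  have h1 : 1 - X ^ 2 ≠ 0 := (one_sub_sq_pos' hX hX1).ne'
  unfold qw
  field_simp
  ring

/-! ### Logarithmic derivatives -/

section logs

variable {s θ : ℝ → ℝ} {P : ℝ → ℝ → ℂ → ℝ} {t0 X0 X1 : ℝ}

theorem Fam.PP_pos (h : Fam s θ P t0 X0 X1) (t X φ : ℝ) : 0 < PP P t X φ := h.P_pos _ _ _

theorem Fam.dT_LL (h : Fam s θ P t0 X0 X1) (t X φ : ℝ) :
    dT (LL P) t X φ = dT (PP P) t X φ / PP P t X φ :=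
  ((h.sm_PP.hT t X φ).log (h.PP_pos t X φ).ne').deriv

theorem Fam.dX_LL (h : Fam s θ P t0 X0 X1) (t X φ : ℝ) :
    dX (LL P) t X φ = dX (PP P) t X φ / PP P t X φ :=
  ((h.sm_PP.hX t X φ).log (h.PP_pos t X φ).ne').deriv

theorem Fam.dF_LL (h : Fam s θ P t0 X0 X1) (t X φ : ℝ) :
    dF (LL P) t X φ = dF (PP P) t X φ / PP P t X φ :=
  ((h.sm_PP.hF t X φ).log (h.PP_pos t X φ).ne').deriv

theorem Fam.dTT_LL (h : Fam s θ P t0 X0 X1) (t X φ : ℝ) :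
    dT (dT (LL P)) t X φ = dT (dT (PP P)) t X φ / PP P t X φ
      - (dT (PP P) t X φ / PP P t X φ) ^ 2 := by
  have e : (fun τ => dT (LL P) τ X φ) = fun τ => dT (PP P) τ X φ / PP P τ X φ :=
    funext fun τ => h.dT_LL τ X φ
  have hp := (h.PP_pos t X φ).ne'
  have h1 := (h.sm_PP.dT.hT t X φ).div (h.sm_PP.hT t X φ) hp
  show deriv (fun τ => dT (LL P) τ X φ) t = _
  rw [e]
  refine Eq.trans h1.deriv ?_
  field_simp

theorem Fam.dXX_LL (h : Fam s θ P t0 X0 X1) (t X φ : ℝ) :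
    dX (dX (LL P)) t X φ = dX (dX (PP P)) t X φ / PP P t X φ
      - (dX (PP P) t X φ / PP P t X φ) ^ 2 := by
  have e : (fun τ => dX (LL P) t τ φ) = fun τ => dX (PP P) t τ φ / PP P t τ φ :=
    funext fun τ => h.dX_LL t τ φ
  have hp := (h.PP_pos t X φ).ne'
  have h1 := (h.sm_PP.dX.hX t X φ).div (h.sm_PP.hX t X φ) hp
  show deriv (fun τ => dX (LL P) t τ φ) X = _
  rw [e]
  refine Eq.trans h1.deriv ?_
  field_simp

theorem Fam.dFF_LL (h : Fam s θ P t0 X0 X1) (t X φ : ℝ) :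
    dF (dF (LL P)) t X φ = dF (dF (PP P)) t X φ / PP P t X φ
      - (dF (PP P) t X φ / PP P t X φ) ^ 2 := by
  have e : (fun τ => dF (LL P) t X τ) = fun τ => dF (PP P) t X τ / PP P t X τ :=
    funext fun τ => h.dF_LL t X τ
  have hp := (h.PP_pos t X φ).ne'
  have h1 := (h.sm_PP.dF.hF t X φ).div (h.sm_PP.hF t X φ) hp
  show deriv (fun τ => dF (LL P) t X τ) φ = _
  rw [e]
  refine Eq.trans h1.deriv ?_
  field_simp

theorem Fam.dXT_LL (h : Fam s θ P t0 X0 X1) (t X φ : ℝ) :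
    dX (dT (LL P)) t X φ = dX (dT (PP P)) t X φ / PP P t X φ
      - dT (PP P) t X φ / PP P t X φ * (dX (PP P) t X φ / PP P t X φ) := by
  have e : (fun τ => dT (LL P) t τ φ) = fun τ => dT (PP P) t τ φ / PP P t τ φ :=
    funext fun τ => h.dT_LL t τ φ
  have hp := (h.PP_pos t X φ).ne'
  have h1 := (h.sm_PP.dT.hX t X φ).div (h.sm_PP.hX t X φ) hp
  show deriv (fun τ => dT (LL P) t τ φ) X = _
  rw [e]
  refine Eq.trans h1.deriv ?_
  field_simp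

theorem Fam.dFT_LL (h : Fam s θ P t0 X0 X1) (t X φ : ℝ) :
    dF (dT (LL P)) t X φ = dF (dT (PP P)) t X φ / PP P t X φ
      - dT (PP P) t X φ / PP P t X φ * (dF (PP P) t X φ / PP P t X φ) := by
  have e : (fun τ => dT (LL P) t X τ) = fun τ => dT (PP P) t X τ / PP P t X τ :=
    funext fun τ => h.dT_LL t X τ
  have hp := (h.PP_pos t X φ).ne'
  have h1 := (h.sm_PP.dT.hF t X φ).div (h.sm_PP.hF t X φ) hp
  show deriv (fun τ => dT (LL P) t X τ) φ = _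
  rw [e]
  refine Eq.trans h1.deriv ?_
  field_simp

theorem Fam.d_klog (h : Fam s θ P t0 X0 X1) (t : ℝ) : deriv (klog θ) t = deriv θ t / θ t :=
  ((hd h.smooth_θ t).log (h.θ_pos t).ne').deriv

theorem Fam.dd_klog (h : Fam s θ P t0 X0 X1) (t : ℝ) :
    deriv (deriv (klog θ)) t = deriv (deriv θ) t / θ t - (deriv θ t / θ t) ^ 2 := by
  have e : deriv (klog θ) = fun τ => deriv θ τ / θ τ := funext fun τ => h.d_klog τ
  rw [e]
  have hp := (h.θ_pos t).ne'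
  refine Eq.trans ((hd2 h.smooth_θ t).div (hd h.smooth_θ t) hp).deriv ?_
  field_simp

end logs

/-! ### The exponentials -/

theorem exp_aX {s θ : ℝ → ℝ} {P : ℝ → ℝ → ℂ → ℝ} {q : EuclideanSpace ℝ (Fin (m + 3))}
    (hq : q ∈ VV m) (hP : 0 < pp P q) (hθ : 0 < θ (q 0)) :
    Real.exp (2 * (aX s θ P q - q 0)) = lamSq m s θ (q 0) / (pp P q * (1 - q 1 ^ 2)) := by
  have hX := one_sub_sq_pos hq
  have hm : (m : ℝ) + 2 ≠ 0 := by positivity
  have e : 2 * (aX s θ P q - q 0) = (-2 * s (q 0)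
      + Real.log (θ (q 0)) * (-(2 : ℝ) / ((m : ℝ) + 2)))
      + -Real.log (pp P q) + -Real.log (1 - q 1 ^ 2) := by
    unfold aX; ring
  rw [e, Real.exp_add, Real.exp_add, Real.exp_neg, Real.exp_neg, Real.exp_log hP,
    Real.exp_log hX, Real.exp_add, lamSq, Real.rpow_def_of_pos hθ]
  field_simp

theorem exp_aphi {s θ : ℝ → ℝ} {P : ℝ → ℝ → ℂ → ℝ} {q : EuclideanSpace ℝ (Fin (m + 3))}
    (hq : q ∈ VV m) (hP : 0 < pp P q) (hθ : 0 < θ (q 0)) :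
    Real.exp (2 * (aphi s θ P q - q 0)) =
      lamSq m s θ (q 0) * θ (q 0) ^ 2 * (pp P q * (1 - q 1 ^ 2)) := by
  have hX := one_sub_sq_pos hq
  have hm : (m : ℝ) + 2 ≠ 0 := by positivity
  have e : 2 * (aphi s θ P q - q 0) = (-2 * s (q 0)
      + Real.log (θ (q 0)) * (-(2 : ℝ) / ((m : ℝ) + 2))) + (2 : ℕ) * Real.log (θ (q 0))
      + Real.log (pp P q) + Real.log (1 - q 1 ^ 2) := by
    unfold aphi; push_cast; ring
  rw [e, Real.exp_add, Real.exp_add, Real.exp_add, Real.exp_nat_mul, Real.exp_log hP,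
    Real.exp_log hX, Real.exp_log hθ, Real.exp_add, lamSq, Real.rpow_def_of_pos hθ]
  ring

theorem exp_aeta {s θ : ℝ → ℝ} {q : EuclideanSpace ℝ (Fin (m + 3))}
    (hq : q ∈ VV m) (hθ : 0 < θ (q 0)) :
    Real.exp (2 * (aeta s θ q - q 0)) =
      lamSq m s θ (q 0) * (q 1 ^ 2 * (4 / (1 + NN q) ^ 2)) := by
  have hN := NN_pos' q
  have hm : (m : ℝ) + 2 ≠ 0 := by positivity
  have e : 2 * (aeta s θ q - q 0) = (-2 * s (q 0)
      + Real.log (θ (q 0)) * (-(2 : ℝ) / ((m : ℝ) + 2))) + (2 : ℕ) * Real.log (q 1)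
      + (2 : ℕ) * Real.log 2 + -((2 : ℕ) * Real.log (1 + NN q)) := by
    unfold aeta; push_cast; ring
  rw [e, Real.exp_add, Real.exp_add, Real.exp_add, Real.exp_neg,
    Real.exp_nat_mul, Real.exp_nat_mul, Real.exp_nat_mul, Real.exp_add,
    Real.exp_log hN, Real.exp_log hq.1, Real.exp_log two_pos, lamSq, Real.rpow_def_of_pos hθ]
  field_simp
  ring

theorem lamSq_pos {s θ : ℝ → ℝ} {t : ℝ} (hθ : 0 < θ t) : 0 < lamSq m s θ t :=
  mul_pos (Real.exp_pos _) (Real.rpow_pos_of_pos hθ _)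

/-- **Closed form** of the Ricci quadratic form in the chart. -/
theorem Fam.ric_closed {s θ : ℝ → ℝ} {P : ℝ → ℝ → ℂ → ℝ} {t0 X0 X1 : ℝ}
    (h : Fam s θ P t0 X0 X1) {q : EuclideanSpace ℝ (Fin (m + 3))} (hq : q ∈ VV m)
    (v : EuclideanSpace ℝ (Fin (m + 3)))
    {t X φ p th lam s1 s2 k1 k2 Lt Ltt LtX Ltf LX Lf : ℝ}
    (ht : t = q 0) (hX : X = q 1) (hφ : φ = q 2)
    (hp : p = PP P t X φ) (hth : th = θ t) (hlam : lam = lamSq m s θ t)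
    (hs1 : s1 = deriv s t) (hs2 : s2 = deriv (deriv s) t)
    (hk1 : k1 = deriv (klog θ) t) (hk2 : k2 = deriv (deriv (klog θ)) t)
    (hLt : Lt = dT (LL P) t X φ) (hLtt : Ltt = dT (dT (LL P)) t X φ)
    (hLtX : LtX = dX (dT (LL P)) t X φ) (hLtf : Ltf = dF (dT (LL P)) t X φ)
    (hLX : LX = dX (LL P) t X φ) (hLf : Lf = dF (LL P) t X φ) :
    ∑ i, ∑ j, ricci (diagMetric (aa s θ P)) q i j * v i * v j =
      ((m + 2) * (s2 + s1 - s1 ^ 2)
          - ((-k1 / (m + 2) - 1 / 2 * Lt) ^ 2 + ((1 - 1 / (m + 2)) * k1 + 1 / 2 * Lt) ^ 2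
            + m * (-k1 / (m + 2)) ^ 2)) * v 0 ^ 2
      + 2 * (-(1 / 2 * LtX) - m / X * (1 / 2 * Lt) + (k1 + Lt) * (X / (1 - X ^ 2) - 1 / 2 * LX))
          * (v 0 * v 1)
      + 2 * (1 / 2 * Ltf - (k1 + Lt) * (1 / 2 * Lf)) * (v 0 * v 2)
      + (lam / (p * (1 - X ^ 2))) * (q11 m th X p (dX (PP P) t X φ) (dX (dX (PP P)) t X φ)
          (dF (PP P) t X φ) (dF (dF (PP P)) t X φ) / lam
          - ((-s2 - k2 / (m + 2) - 1 / 2 * Ltt)
            + ((m + 1) - (m + 2) * s1) * (1 - s1 - k1 / (m + 2) - 1 / 2 * Lt))) * v 1 ^ 2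
      + 2 * (th * q12 m th X p (dF (PP P) t X φ)) * (v 1 * v 2)
      + (lam * th ^ 2 * (p * (1 - X ^ 2))) * (q11 m th X p (dX (PP P) t X φ)
          (dX (dX (PP P)) t X φ) (dF (PP P) t X φ) (dF (dF (PP P)) t X φ) / lam
          - ((-s2 + (1 - 1 / (m + 2)) * k2 + 1 / 2 * Ltt)
            + ((m + 1) - (m + 2) * s1) * (1 - s1 + (1 - 1 / (m + 2)) * k1 + 1 / 2 * Lt)))
          * v 2 ^ 2
      + (lam * (X ^ 2 * (4 / (1 + NN q) ^ 2))) * (qw m X p (dX (PP P) t X φ) / lam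
          - ((-s2 - k2 / (m + 2))
            + ((m + 1) - (m + 2) * s1) * (1 - s1 - k1 / (m + 2))))
          * ∑ k : Fin m, v k.succ.succ.succ ^ 2 := by
  subst ht hX hφ
  have J := h.jet (m := m) hq
  rw [J.form v]
  have hppos : 0 < pp P q := h.P_pos _ _ _
  have hθpos : 0 < θ (q 0) := h.θ_pos _
  have hpp : pp P q = p := by rw [hp]; rfl
  have hX1 := one_sub_sq_pos hq
  have hm : (m : ℝ) + 2 ≠ 0 := by positivity
  have hq1 : q 1 ≠ 0 := hq.1.ne'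
  have hppos' : 0 < p := hpp ▸ hppos
  have hth' : 0 < th := hth ▸ hθpos
  have hlam' : 0 < lam := by rw [hlam]; exact lamSq_pos hθpos
  have hc0 : 1 + NN q ≠ 0 := (NN_pos' q).ne'
  rw [J.R00, J.R01, J.R02, J.R11, J.R12, J.R22, aa_one, aa_two, aa_zero]
  have E1 := exp_aX (s := s) hq hppos hθpos
  have E2 := exp_aphi (s := s) hq hppos hθpos
  have Ew := exp_aeta (m := m) (s := s) hq hθpos
  have E12 : Real.exp (2 * (aX s θ P q - aphi s θ P q)) =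
      1 / (th ^ 2 * p ^ 2 * (1 - q 1 ^ 2) ^ 2) := by
    have : 2 * (aX s θ P q - aphi s θ P q) =
      2 * (aX s θ P q - q 0) - 2 * (aphi s θ P q - q 0) := by ring
    rw [this, Real.exp_sub, E1, E2, hpp, ← hth, ← hlam]
    field_simp
  have E21 : Real.exp (2 * (aphi s θ P q - aX s θ P q)) =
      th ^ 2 * p ^ 2 * (1 - q 1 ^ 2) ^ 2 := by
    have : 2 * (aphi s θ P q - aX s θ P q) =
      2 * (aphi s θ P q - q 0) - 2 * (aX s θ P q - q 0) := by ring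
    rw [this, Real.exp_sub, E1, E2, hpp, ← hth, ← hlam]
    field_simp
  have Ew1 : Real.exp (2 * (aeta s θ q - aX s θ P q)) =
      q 1 ^ 2 * (4 / (1 + NN q) ^ 2) * (p * (1 - q 1 ^ 2)) := by
    have : 2 * (aeta s θ q - aX s θ P q) =
      2 * (aeta s θ q - q 0) - 2 * (aX s θ P q - q 0) := by ring
    rw [this, Real.exp_sub, E1, Ew, hpp, ← hlam]
    field_simp
  rw [E1, E2, E12, E21, Ew, Ew1, hpp, ← hth, ← hlam, ← hs1, ← hs2, ← hk1, ← hk2, ← hLt, ← hLtt,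
    ← hLtX, ← hLtf]
  have hLXX := h.dXX_LL (q 0) (q 1) (q 2)
  have hLff := h.dFF_LL (q 0) (q 1) (q 2)
  have hLX' := h.dX_LL (q 0) (q 1) (q 2)
  have hLf' := h.dF_LL (q 0) (q 1) (q 2)
  rw [← hp] at hLXX hLff hLX' hLf'
  rw [← hLX] at hLX'
  rw [← hLf] at hLf'
  rw [← hLX'] at hLXX
  rw [← hLf'] at hLff
  rw [hLXX, hLff, ← hLX, ← hLf]
  have G11 := id_G11 (m := m) (X := q 1) (p := p) (θ := th) (P1 := dX (PP P) (q 0) (q 1) (q 2))
    (P2 := dX (dX (PP P)) (q 0) (q 1) (q 2)) (F1 := dF (PP P) (q 0) (q 1) (q 2))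
    (F2 := dF (dF (PP P)) (q 0) (q 1) (q 2)) hq.1 hq.2 hppos' hth'
  have Gw := id_Gw (m := m) (X := q 1) (p := p) (P1 := dX (PP P) (q 0) (q 1) (q 2))
    (c := 1 + NN q) hq.1 hppos' hc0 hq.2
  have G12 : m / q 1 * (-(1 / 2 * Lf)) =
      th * q12 m th (q 1) p (dF (PP P) (q 0) (q 1) (q 2)) := by
    rw [hLf']; unfold q12; field_simp
  rw [G12]
  rw [← hLX', ← hLf'] at G11
  rw [← hLX'] at Gw
  generalize q11 m th (q 1) p (dX (PP P) (q 0) (q 1) (q 2)) (dX (dX (PP P)) (q 0) (q 1) (q 2))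
    (dF (PP P) (q 0) (q 1) (q 2)) (dF (dF (PP P)) (q 0) (q 1) (q 2)) = Q11 at *
  generalize qw m (q 1) p (dX (PP P) (q 0) (q 1) (q 2)) = Qw at *
  generalize q12 m th (q 1) p (dF (PP P) (q 0) (q 1) (q 2)) = Q12 at *
  generalize (∑ k : Fin m, v k.succ.succ.succ ^ 2) = V at *
  clear J E1 E2 Ew E12 E21 Ew1 hLXX hLff hLX' hLf' hp hth hlam hs1 hs2 hk1 hk2 hLt hLtt hLtX hLtf
    hLX hLf
  generalize dX (PP P) (q 0) (q 1) (q 2) = P1 at *
  generalize dX (dX (PP P)) (q 0) (q 1) (q 2) = P2 at *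
  generalize dF (PP P) (q 0) (q 1) (q 2) = F1 at *
  generalize dF (dF (PP P)) (q 0) (q 1) (q 2) = F2 at *
  generalize (1 + NN q) = cc at *
  have hu : 1 - q 1 ^ 2 ≠ 0 := hX1.ne'
  generalize q 1 = X at *
  have hA : ∀ A B : ℝ, A - 1 / (th ^ 2 * p ^ 2 * (1 - X ^ 2) ^ 2) * B =
      1 / (p * (1 - X ^ 2)) * Q11 →
      th ^ 2 * p ^ 2 * (1 - X ^ 2) ^ 2 * A - B = lam * th ^ 2 * (p * (1 - X ^ 2)) * (Q11 / lam) := by
    intro A B hAB
    have : A = 1 / (p * (1 - X ^ 2)) * Q11 + 1 / (th ^ 2 * p ^ 2 * (1 - X ^ 2) ^ 2) * B := by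
      linarith
    rw [this]; field_simp; ring
  have G22 := hA _ _ G11
  have F1' : 1 / (p * (1 - X ^ 2)) * Q11 = lam / (p * (1 - X ^ 2)) * (Q11 / lam) := by
    field_simp
  have Fw : X ^ 2 * (4 / cc ^ 2) * Qw = lam * (X ^ 2 * (4 / cc ^ 2)) * (Qw / lam) := by
    field_simp
  rw [F1'] at G11
  rw [Fw] at Gw
  have H00 : (-((-s2 - k2 / ((m:ℝ) + 2) - 1 / 2 * Ltt)
        + (-s2 + (1 - 1 / ((m:ℝ) + 2)) * k2 + 1 / 2 * Ltt) + m * (-s2 - k2 / ((m:ℝ) + 2)))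
      + (1 + ((1 - s1 - k1 / ((m:ℝ) + 2) - 1 / 2 * Lt)
        + ((1 - s1 + (1 - 1 / ((m:ℝ) + 2)) * k1 + 1 / 2 * Lt) + m * (1 - s1 - k1 / ((m:ℝ) + 2)))))
      - (1 + (1 - s1 - k1 / ((m:ℝ) + 2) - 1 / 2 * Lt) ^ 2
        + (1 - s1 + (1 - 1 / ((m:ℝ) + 2)) * k1 + 1 / 2 * Lt) ^ 2
        + m * (1 - s1 - k1 / ((m:ℝ) + 2)) ^ 2))
      = ((m + 2) * (s2 + s1 - s1 ^ 2)
          - ((-k1 / (m + 2) - 1 / 2 * Lt) ^ 2 + ((1 - 1 / (m + 2)) * k1 + 1 / 2 * Lt) ^ 2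
            + m * (-k1 / (m + 2)) ^ 2)) := by
    field_simp
    ring
  have HS : (1 + ((1 - s1 - k1 / ((m:ℝ) + 2) - 1 / 2 * Lt)
        + ((1 - s1 + (1 - 1 / ((m:ℝ) + 2)) * k1 + 1 / 2 * Lt) + m * (1 - s1 - k1 / ((m:ℝ) + 2))))) - 2
      = (m + 1) - (m + 2) * s1 := by
    field_simp
    ring
  rw [H00, HS]
  linear_combination (v 1 ^ 2) * G11 + (v 2 ^ 2) * G22 + V * Gw

end

end Crest.Agent.R202.Geo
end

-- ▼ part R202/GeoRicB
section

/-!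
Row 202, Part D: positivity of the Ricci quadratic form in the chart.
-/

set_option autoImplicit false

open scoped ContDiff Topology
open Crest.GeometryTopology.CoordMetric Crest.GeometryTopology.ChartCurvature

namespace Crest.Agent.R202.Geo

noncomputable section

variable {m : ℕ}

theorem two_mul_le_D {D : ℝ} (hD : 0 < D) (a b : ℝ) : 2 * a * b ≤ 4 / D * a ^ 2 + D / 4 * b ^ 2 := by
  have h : 0 ≤ (2 * a - D * b / 2) ^ 2 / D := by positivity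
  have e : (2 * a - D * b / 2) ^ 2 / D = 4 / D * a ^ 2 + D / 4 * b ^ 2 - 2 * a * b := by
    field_simp; ring
  linarith

theorem core_ineq {m : ℕ} {D B c s1 ρ R00 R01 R02 A C Aw T1 T2 Tw v0 v1 v2 V α1 α2 Ew N : ℝ}
    (hD : 0 < D) (hB : 0 ≤ B) (hc0 : 0 < c) (hc1 : c ≤ 1 / 8) (hc2 : B * c ≤ 1 / 4)
    (hc3 : 8 * B ^ 2 * c ≤ D / 4) (hc4 : 2 * B * c ≤ D / 4) (hc5 : c ≤ D / 2)
    (hs1 : 0 ≤ s1) (hs1c : s1 ≤ c) (hρ : 0 ≤ ρ) (hρ2 : ρ ^ 2 ≤ c * s1)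
    (hR00 : ((m : ℝ) + 2) * (s1 * (1 - 2 * c)) - B * ρ ^ 2 ≤ R00)
    (hR01 : |R01| ≤ B * ρ * α1) (hR02 : |R02| ≤ B * ρ * α2)
    (hA : N + D ≤ A - |C|) (hAw : N + D ≤ Aw ∨ V = 0)
    (hT1 : T1 ≤ N + B * (ρ + s1)) (hT2 : T2 ≤ N + B * (ρ + s1)) (hTw : Tw ≤ N + B * (ρ + s1))
    (hα1 : 0 ≤ α1) (hα2 : 0 ≤ α2) (hEw : 0 ≤ Ew) (hV : 0 ≤ V) :
    c * s1 * (v0 ^ 2 + α1 ^ 2 * v1 ^ 2 + α2 ^ 2 * v2 ^ 2 + Ew * V) ≤
      R00 * v0 ^ 2 + 2 * R01 * (v0 * v1) + 2 * R02 * (v0 * v2)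
        + α1 ^ 2 * (A - T1) * v1 ^ 2 + 2 * (C * (α1 * α2)) * (v1 * v2)
        + α2 ^ 2 * (A - T2) * v2 ^ 2 + Ew * (Aw - Tw) * V := by
  have hρc : ρ ≤ c := by
    by_contra hcon
    push Not at hcon
    have : c * c < ρ ^ 2 := by nlinarith
    nlinarith [mul_le_mul_of_nonneg_left hs1c hc0.le]
  have hs1' : s1 ≤ 1 := by linarith
  -- cross terms
  have x1 : ∀ (R w al : ℝ), 0 ≤ al → |R| ≤ B * ρ * al →
      -(4 / D * (B * ρ) ^ 2 * v0 ^ 2 + D / 4 * (al ^ 2 * w ^ 2)) ≤ 2 * R * (v0 * w) := by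
    intro R w al hal hR
    have h1 : |2 * R * (v0 * w)| ≤ 2 * (B * ρ * |v0|) * (al * |w|) := by
      rw [abs_mul, abs_mul, abs_mul, abs_two]
      calc 2 * |R| * (|v0| * |w|) ≤ 2 * (B * ρ * al) * (|v0| * |w|) := by gcongr
        _ = 2 * (B * ρ * |v0|) * (al * |w|) := by ring
    have h2 := two_mul_le_D hD (B * ρ * |v0|) (al * |w|)
    have h3 := (abs_le.1 (h1.trans h2)).1
    have e : 4 / D * (B * ρ * |v0|) ^ 2 + D / 4 * (al * |w|) ^ 2 =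
        4 / D * (B * ρ) ^ 2 * v0 ^ 2 + D / 4 * (al ^ 2 * w ^ 2) := by
      rw [mul_pow (B * ρ), mul_pow al, sq_abs, sq_abs]; ring
    rw [e] at h3; exact h3
  have c1 := x1 R01 v1 α1 hα1 hR01
  have c2 := x1 R02 v2 α2 hα2 hR02
  -- the `C` term
  have c3 : -(|C| * (α1 ^ 2 * v1 ^ 2 + α2 ^ 2 * v2 ^ 2)) ≤ 2 * (C * (α1 * α2)) * (v1 * v2) := by
    have h1 : |2 * (C * (α1 * α2)) * (v1 * v2)| = |C| * (2 * (|α1 * v1| * |α2 * v2|)) := by
      rw [show 2 * (C * (α1 * α2)) * (v1 * v2) = C * (2 * ((α1 * v1) * (α2 * v2))) by ring,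
        abs_mul, abs_mul, abs_mul, abs_two]
    have h2 : 2 * (|α1 * v1| * |α2 * v2|) ≤ α1 ^ 2 * v1 ^ 2 + α2 ^ 2 * v2 ^ 2 := by
      have := two_mul_le_add_sq (|α1 * v1|) (|α2 * v2|)
      rw [sq_abs, sq_abs, mul_pow, mul_pow] at this
      linarith
    have h3 : |2 * (C * (α1 * α2)) * (v1 * v2)| ≤ |C| * (α1 ^ 2 * v1 ^ 2 + α2 ^ 2 * v2 ^ 2) := by
      rw [h1]; exact mul_le_mul_of_nonneg_left h2 (abs_nonneg _)
    exact (abs_le.1 h3).1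
  -- coefficient of `v0²`
  have hBρ : B * ρ ^ 2 ≤ s1 / 4 := by
    calc B * ρ ^ 2 ≤ B * (c * s1) := mul_le_mul_of_nonneg_left hρ2 hB
      _ = B * c * s1 := by ring
      _ ≤ 1 / 4 * s1 := mul_le_mul_of_nonneg_right hc2 hs1
      _ = s1 / 4 := by ring
  have hBρ2 : 2 * (4 / D * (B * ρ) ^ 2) ≤ s1 / 4 := by
    have : 2 * (4 / D * (B * ρ) ^ 2) = 8 * B ^ 2 * ρ ^ 2 / D := by ring
    rw [this, div_le_iff₀ hD]
    calc 8 * B ^ 2 * ρ ^ 2 ≤ 8 * B ^ 2 * (c * s1) := by gcongr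
      _ = (8 * B ^ 2 * c) * s1 := by ring
      _ ≤ D / 4 * s1 := mul_le_mul_of_nonneg_right hc3 hs1
      _ = s1 / 4 * D := by ring
  have hm2 : (2 : ℝ) ≤ (m : ℝ) + 2 := by
    have : (0 : ℝ) ≤ m := Nat.cast_nonneg m
    linarith
  have hv0 : c * s1 ≤ R00 - 2 * (4 / D * (B * ρ) ^ 2) := by
    have h1 : 2 * (s1 * (1 - 2 * c)) ≤ ((m : ℝ) + 2) * (s1 * (1 - 2 * c)) :=
      mul_le_mul_of_nonneg_right hm2 (mul_nonneg hs1 (by linarith))
    have h2 : s1 * (3 / 4) ≤ s1 * (1 - 2 * c) := mul_le_mul_of_nonneg_left (by linarith) hs1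
    have h3 : c * s1 ≤ 1 * s1 := mul_le_mul_of_nonneg_right (by linarith) hs1
    linarith
  -- tangential coefficients
  have hBs : B * (ρ + s1) ≤ D / 4 := by
    calc B * (ρ + s1) ≤ B * (c + c) := mul_le_mul_of_nonneg_left (by linarith) hB
      _ = 2 * B * c := by ring
      _ ≤ D / 4 := hc4
  have hcs : c * s1 ≤ D / 2 := by
    calc c * s1 ≤ c * 1 := mul_le_mul_of_nonneg_left hs1' hc0.le
      _ ≤ D / 2 := by linarith
  have t1 : c * s1 ≤ A - |C| - T1 - D / 4 := by linarith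
  have t2 : c * s1 ≤ A - |C| - T2 - D / 4 := by linarith
  have tw : c * s1 * (Ew * V) ≤ Ew * (Aw - Tw) * V := by
    rcases hAw with h | h
    · have : c * s1 ≤ Aw - Tw := by linarith
      calc c * s1 * (Ew * V) ≤ (Aw - Tw) * (Ew * V) :=
            mul_le_mul_of_nonneg_right this (mul_nonneg hEw hV)
        _ = Ew * (Aw - Tw) * V := by ring
    · rw [h]; simp
  have m0 := mul_le_mul_of_nonneg_right hv0 (sq_nonneg v0)
  have m1 := mul_le_mul_of_nonneg_right t1 (mul_nonneg (sq_nonneg α1) (sq_nonneg v1))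
  have m2 := mul_le_mul_of_nonneg_right t2 (mul_nonneg (sq_nonneg α2) (sq_nonneg v2))
  linarith

/-! ### Estimates of the coefficients -/

theorem est_T {m : ℕ} {K ρ s1 s2 k2 L2 k β c : ℝ} (hK : 1 ≤ K) (hρ : 0 ≤ ρ)
    (hs1 : 0 ≤ s1) (hs1' : s1 ≤ 1) (hs2 : |s2| ≤ s1) (hk2 : |k2| ≤ 2 * K ^ 2 * ρ)
    (hL2 : |L2| ≤ 2 * K ^ 2 * ρ) (hk : |k| ≤ 1) (hc : |c| ≤ 1) (hβ : |β| ≤ 2 * K * ρ) :
    (-s2 + k * k2 + c * L2) + (((m : ℝ) + 1) - (m + 2) * s1) * (1 - s1 + β) ≤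
      ((m : ℝ) + 1) + (1 + 4 * K ^ 2 + 2 * (m + 1) * K) * (ρ + s1) := by
  have hm : (0 : ℝ) ≤ m := Nat.cast_nonneg m
  have h1 : -s2 ≤ s1 := by linarith [(abs_le.1 hs2).1]
  have h2 : k * k2 ≤ 2 * K ^ 2 * ρ := by
    calc k * k2 ≤ |k * k2| := le_abs_self _
      _ = |k| * |k2| := abs_mul _ _
      _ ≤ 1 * (2 * K ^ 2 * ρ) := mul_le_mul hk hk2 (abs_nonneg _) zero_le_one
      _ = 2 * K ^ 2 * ρ := one_mul _
  have h3 : c * L2 ≤ 2 * K ^ 2 * ρ := by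
    calc c * L2 ≤ |c * L2| := le_abs_self _
      _ = |c| * |L2| := abs_mul _ _
      _ ≤ 1 * (2 * K ^ 2 * ρ) := mul_le_mul hc hL2 (abs_nonneg _) zero_le_one
      _ = 2 * K ^ 2 * ρ := one_mul _
  have hms : 0 ≤ ((m : ℝ) + 2) * s1 := mul_nonneg (by linarith) hs1
  have hms' : ((m : ℝ) + 2) * s1 ≤ (m + 2) * 1 := mul_le_mul_of_nonneg_left hs1' (by linarith)
  have hu1 : ((m : ℝ) + 1) - (m + 2) * s1 ≤ m + 1 := by linarith
  have hu2 : -((m : ℝ) + 1) ≤ ((m : ℝ) + 1) - (m + 2) * s1 := by linarith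
  have hu : |((m : ℝ) + 1) - (m + 2) * s1| ≤ m + 1 := abs_le.2 ⟨hu2, hu1⟩
  have h4 : (((m : ℝ) + 1) - (m + 2) * s1) * (1 - s1) ≤ m + 1 := by
    calc (((m : ℝ) + 1) - (m + 2) * s1) * (1 - s1) ≤ (m + 1) * (1 - s1) :=
          mul_le_mul_of_nonneg_right hu1 (by linarith)
      _ ≤ (m + 1) * 1 := mul_le_mul_of_nonneg_left (by linarith) (by linarith)
      _ = m + 1 := mul_one _
  have h5 : (((m : ℝ) + 1) - (m + 2) * s1) * β ≤ (m + 1) * (2 * K * ρ) := by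
    calc (((m : ℝ) + 1) - (m + 2) * s1) * β ≤ |(((m : ℝ) + 1) - (m + 2) * s1) * β| := le_abs_self _
      _ = |((m : ℝ) + 1) - (m + 2) * s1| * |β| := abs_mul _ _
      _ ≤ (m + 1) * (2 * K * ρ) := mul_le_mul hu hβ (abs_nonneg _) (by linarith)
  have e : (((m : ℝ) + 1) - (m + 2) * s1) * (1 - s1 + β) =
    (((m : ℝ) + 1) - (m + 2) * s1) * (1 - s1) + (((m : ℝ) + 1) - (m + 2) * s1) * β := by ring
  rw [e]
  have h6 : 0 ≤ (4 * K ^ 2 + 2 * (m + 1) * K) * s1 := by positivity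
  linarith

theorem est_div {K p a b : ℝ} (hK0 : 0 < K) (hp : K⁻¹ ≤ p) (hab : |a| ≤ b) (hb : 0 ≤ b) :
    |a / p| ≤ b * K := by
  have hKi : 0 < K⁻¹ := inv_pos.2 hK0
  have hp0 : 0 < p := hKi.trans_le hp
  have hpi : 1 / p ≤ K := by
    rw [div_le_iff₀ hp0]
    calc (1 : ℝ) = K * K⁻¹ := (mul_inv_cancel₀ hK0.ne').symm
      _ ≤ K * p := mul_le_mul_of_nonneg_left hp hK0.le
  rw [abs_div, abs_of_pos hp0, div_eq_mul_one_div]
  exact mul_le_mul hab hpi (by positivity) hb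

theorem est_sq {K ρ a : ℝ} (hρ : 0 ≤ ρ) (hρ1 : ρ ≤ 1) (ha : |a| ≤ ρ * K) :
    |a ^ 2| ≤ K ^ 2 * ρ := by
  rw [abs_pow]
  calc |a| ^ 2 ≤ (ρ * K) ^ 2 := pow_le_pow_left₀ (abs_nonneg _) ha 2
    _ = K ^ 2 * (ρ * ρ) := by ring
    _ ≤ K ^ 2 * (ρ * 1) := by gcongr
    _ = K ^ 2 * ρ := by ring

theorem est_second {K ρ p a b : ℝ} (hK : 1 ≤ K) (hp : K⁻¹ ≤ p) (hρ : 0 ≤ ρ) (hρ1 : ρ ≤ 1)
    (ha : |a| ≤ ρ) (hb : |b| ≤ ρ) : |a / p - (b / p) ^ 2| ≤ 2 * K ^ 2 * ρ := by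
  have hK0 : 0 < K := by linarith
  have hKK : K ≤ K ^ 2 := by nlinarith
  calc |a / p - (b / p) ^ 2| ≤ |a / p| + |(b / p) ^ 2| := abs_sub _ _
    _ ≤ ρ * K + K ^ 2 * ρ := add_le_add (est_div hK0 hp ha hρ) (est_sq hρ hρ1 (est_div hK0 hp hb hρ))
    _ ≤ ρ * K ^ 2 + K ^ 2 * ρ := by gcongr
    _ = 2 * K ^ 2 * ρ := by ring

theorem est_mixed {K ρ p a b c : ℝ} (hK : 1 ≤ K) (hp : K⁻¹ ≤ p) (hρ : 0 ≤ ρ)
    (ha : |a| ≤ ρ) (hb : |b| ≤ ρ) (hc : |c| ≤ K) :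
    |a / p - b / p * (c / p)| ≤ 2 * K ^ 3 * ρ := by
  have hK0 : 0 < K := by linarith
  have hK1 : 1 ≤ K ^ 2 := by nlinarith
  have hK23 : K ≤ K ^ 3 := by
    calc K = K * 1 := (mul_one K).symm
      _ ≤ K * K ^ 2 := mul_le_mul_of_nonneg_left hK1 hK0.le
      _ = K ^ 3 := by ring
  have h1 := est_div hK0 hp ha hρ
  have h2 := est_div hK0 hp hb hρ
  have h3 := est_div hK0 hp hc hK0.le
  calc |a / p - b / p * (c / p)| ≤ |a / p| + |b / p * (c / p)| := abs_sub _ _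
    _ = |a / p| + |b / p| * |c / p| := by rw [abs_mul (b / p)]
    _ ≤ ρ * K + (ρ * K) * (K * K) :=
        add_le_add h1 (mul_le_mul h2 h3 (abs_nonneg _) (mul_nonneg hρ hK0.le))
    _ ≤ ρ * K ^ 3 + (ρ * K) * (K * K) := by
        have := mul_le_mul_of_nonneg_left hK23 hρ
        linarith
    _ = 2 * K ^ 3 * ρ := by ring

/-- The three `β`. -/
theorem est_beta (m : ℕ) {K ρ k1 Lt : ℝ} (hK0 : 0 < K) (hρ : 0 ≤ ρ)
    (q1 : |k1| ≤ ρ * K) (q2 : |Lt| ≤ ρ * K) :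
    |-k1 / ((m : ℝ) + 2) - 1 / 2 * Lt| ≤ 3 / 2 * K * ρ ∧
    |(1 - 1 / ((m : ℝ) + 2)) * k1 + 1 / 2 * Lt| ≤ 3 / 2 * K * ρ ∧
    |-k1 / ((m : ℝ) + 2)| ≤ K * ρ := by
  have hm : (0 : ℝ) ≤ m := Nat.cast_nonneg m
  have hm2 : 0 < (m : ℝ) + 2 := by linarith
  have hmi : 1 / ((m : ℝ) + 2) ≤ 1 := by rw [div_le_one hm2]; linarith
  have hmi0 : 0 ≤ 1 / ((m : ℝ) + 2) := by positivity
  have hKρ : 0 ≤ ρ * K := mul_nonneg hρ hK0.le
  have hw : |-k1 / ((m : ℝ) + 2)| ≤ ρ * K := by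
    calc |-k1 / ((m : ℝ) + 2)| = |k1| * (1 / ((m : ℝ) + 2)) := by
          rw [abs_div, abs_neg, abs_of_pos hm2]; ring
      _ ≤ (ρ * K) * 1 := mul_le_mul q1 hmi hmi0 hKρ
      _ = ρ * K := mul_one _
  have hL : |1 / 2 * Lt| ≤ 1 / 2 * (ρ * K) := by
    rw [abs_mul, abs_of_pos (by norm_num : (0:ℝ) < 1 / 2)]
    linarith
  refine ⟨?_, ?_, by linarith⟩
  · have := abs_sub (-k1 / ((m : ℝ) + 2)) (1 / 2 * Lt)
    linarith
  · have h0 : |1 - 1 / ((m : ℝ) + 2)| ≤ 1 := by rw [abs_le]; constructor <;> linarith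
    have h1 : |(1 - 1 / ((m : ℝ) + 2)) * k1| ≤ ρ * K := by
      rw [abs_mul]
      calc _ ≤ 1 * (ρ * K) := mul_le_mul h0 q1 (abs_nonneg _) zero_le_one
        _ = ρ * K := one_mul _
    have := abs_add_le ((1 - 1 / ((m : ℝ) + 2)) * k1) (1 / 2 * Lt)
    linarith

theorem est_R00 (m : ℕ) {K ρ k1 Lt : ℝ} (hK0 : 0 < K) (hρ : 0 ≤ ρ)
    (q1 : |k1| ≤ ρ * K) (q2 : |Lt| ≤ ρ * K) :
    (-k1 / ((m : ℝ) + 2) - 1 / 2 * Lt) ^ 2 + ((1 - 1 / ((m : ℝ) + 2)) * k1 + 1 / 2 * Lt) ^ 2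
            + m * (-k1 / ((m : ℝ) + 2)) ^ 2 ≤ ((5 + m) * K ^ 2) * ρ ^ 2 := by
  obtain ⟨b1, b2, bw⟩ := est_beta m hK0 hρ q1 q2
  have hm : (0 : ℝ) ≤ m := Nat.cast_nonneg m
  have s1' : (-k1 / ((m : ℝ) + 2) - 1 / 2 * Lt) ^ 2 ≤ (3 / 2 * K * ρ) ^ 2 := by
    rw [← sq_abs]; exact pow_le_pow_left₀ (abs_nonneg _) b1 2
  have s2' : ((1 - 1 / ((m : ℝ) + 2)) * k1 + 1 / 2 * Lt) ^ 2 ≤ (3 / 2 * K * ρ) ^ 2 := by
    rw [← sq_abs]; exact pow_le_pow_left₀ (abs_nonneg _) b2 2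
  have s3' : (m : ℝ) * (-k1 / ((m : ℝ) + 2)) ^ 2 ≤ m * (K * ρ) ^ 2 := by
    refine mul_le_mul_of_nonneg_left ?_ hm
    rw [← sq_abs]; exact pow_le_pow_left₀ (abs_nonneg _) bw 2
  have e : (3 / 2 * K * ρ) ^ 2 + (3 / 2 * K * ρ) ^ 2 + m * (K * ρ) ^ 2 =
    ((9 / 2 + m) * K ^ 2) * ρ ^ 2 := by ring
  have e2 : 0 ≤ K ^ 2 * ρ ^ 2 := by positivity
  nlinarith

theorem est_R01 (m : ℕ) {K X0 X1 X p lam ρ α1 k1 Lt LtX LX : ℝ} (hK : 1 ≤ K) (hX0 : 0 < X0)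
    (hX1' : 0 < 1 - X1 ^ 2) (hX : 0 < X) (hX' : X < 1)
    (hp0 : 0 < p) (hp' : p ≤ K) (hlam : Real.exp (-K) ^ 2 ≤ lam)
    (hρ : 0 ≤ ρ) (q2 : |Lt| ≤ ρ * K) (kL : |k1 + Lt| ≤ 2 * K * ρ) (q5 : |LX| ≤ K ^ 2)
    (q7 : |LtX| ≤ 2 * K ^ 3 * ρ)
    (hlow : X ≤ X0 → Lt = 0) (hhigh : X1 ≤ X → k1 + Lt = 0)
    (hα1 : 0 < α1) (hα1' : α1 ^ 2 = lam / (p * (1 - X ^ 2))) :
    |-(1 / 2 * LtX) - m / X * (1 / 2 * Lt) + (k1 + Lt) * (X / (1 - X ^ 2) - 1 / 2 * LX)|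
        ≤ ((K ^ 3 + m / X0 * K + 2 * K * (1 / (1 - X1 ^ 2) + K ^ 2)) * (K * Real.exp K)) * ρ * α1 := by
  have hm : (0 : ℝ) ≤ m := Nat.cast_nonneg m
  have hK0 : 0 < K := by linarith
  have hXX := one_sub_sq_pos' hX hX'
  have r1 : |-(1 / 2 * LtX)| ≤ K ^ 3 * ρ := by
    rw [abs_neg, abs_mul, abs_of_pos (by norm_num : (0:ℝ) < 1 / 2)]; linarith
  have r2 : |m / X * (1 / 2 * Lt)| ≤ m / X0 * K * ρ := by
    rcases le_or_gt X X0 with hx | hx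
    · rw [hlow hx]; simp; positivity
    · have g1 : (m : ℝ) / X ≤ m / X0 := div_le_div_of_nonneg_left hm hX0 hx.le
      have g2 : |1 / 2 * Lt| ≤ ρ * K := by
        rw [abs_mul, abs_of_pos (by norm_num : (0:ℝ) < 1 / 2)]
        have := abs_nonneg Lt
        linarith
      rw [abs_mul, abs_of_nonneg (by positivity : 0 ≤ (m:ℝ) / X)]
      calc (m : ℝ) / X * |1 / 2 * Lt| ≤ (m : ℝ) / X0 * (ρ * K) :=
            mul_le_mul g1 g2 (abs_nonneg _) (by positivity)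
        _ = m / X0 * K * ρ := by ring
  have r3 : |(k1 + Lt) * (X / (1 - X ^ 2) - 1 / 2 * LX)| ≤
      2 * K * (1 / (1 - X1 ^ 2) + K ^ 2) * ρ := by
    rcases le_or_gt X1 X with hx | hx
    · rw [hhigh hx]; simp; positivity
    · rcases le_or_gt 0 X1 with h0 | h0
      · have hxx : 1 - X1 ^ 2 ≤ 1 - X ^ 2 := by nlinarith
        have g1 : |X / (1 - X ^ 2)| ≤ 1 / (1 - X1 ^ 2) := by
          rw [abs_of_nonneg (by positivity)]
          exact div_le_div₀ zero_le_one hX'.le hX1' hxx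
        have g2 : |X / (1 - X ^ 2) - 1 / 2 * LX| ≤ 1 / (1 - X1 ^ 2) + K ^ 2 := by
          have g3 : |1 / 2 * LX| ≤ K ^ 2 := by
            rw [abs_mul, abs_of_pos (by norm_num : (0:ℝ) < 1 / 2)]
            have := abs_nonneg LX
            linarith
          have := abs_sub (X / (1 - X ^ 2)) (1 / 2 * LX)
          linarith
        rw [abs_mul]
        calc |k1 + Lt| * |X / (1 - X ^ 2) - 1 / 2 * LX|
            ≤ (2 * K * ρ) * (1 / (1 - X1 ^ 2) + K ^ 2) :=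
              mul_le_mul kL g2 (abs_nonneg _) (by positivity)
          _ = 2 * K * (1 / (1 - X1 ^ 2) + K ^ 2) * ρ := by ring
      · exact absurd (hX.trans hx) (not_lt.2 h0.le)
  have ha : 1 ≤ (K * Real.exp K) * α1 := by
    have h1 : (Real.exp (-K) / K) ^ 2 ≤ α1 ^ 2 := by
      rw [hα1', div_pow, div_le_div_iff₀ (by positivity) (by positivity)]
      have hpx : p * (1 - X ^ 2) ≤ K := by
        calc p * (1 - X ^ 2) ≤ p * 1 :=
              mul_le_mul_of_nonneg_left (by nlinarith [sq_nonneg X]) hp0.le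
          _ ≤ K := by linarith
      have hlam0 : 0 ≤ lam := (sq_nonneg _).trans hlam
      have hKK : K ≤ K ^ 2 := by nlinarith
      calc Real.exp (-K) ^ 2 * (p * (1 - X ^ 2)) ≤ lam * K :=
            mul_le_mul hlam hpx (by positivity) hlam0
        _ ≤ lam * K ^ 2 := mul_le_mul_of_nonneg_left hKK hlam0
    have h2 : Real.exp (-K) / K ≤ α1 :=
      (pow_le_pow_iff_left₀ (by positivity) hα1.le two_ne_zero).1 h1
    calc (1 : ℝ) = (K * Real.exp K) * (Real.exp (-K) / K) := by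
          rw [Real.exp_neg]; field_simp
      _ ≤ (K * Real.exp K) * α1 := mul_le_mul_of_nonneg_left h2 (by positivity)
  have hsum : |-(1 / 2 * LtX) - m / X * (1 / 2 * Lt) + (k1 + Lt) * (X / (1 - X ^ 2) - 1 / 2 * LX)|
      ≤ (K ^ 3 + m / X0 * K + 2 * K * (1 / (1 - X1 ^ 2) + K ^ 2)) * ρ := by
    have z1 := abs_add_le (-(1 / 2 * LtX) - m / X * (1 / 2 * Lt))
      ((k1 + Lt) * (X / (1 - X ^ 2) - 1 / 2 * LX))
    have z2 := abs_sub (-(1 / 2 * LtX)) (m / X * (1 / 2 * Lt))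
    have z3 : (K ^ 3 + m / X0 * K + 2 * K * (1 / (1 - X1 ^ 2) + K ^ 2)) * ρ =
      K ^ 3 * ρ + m / X0 * K * ρ + 2 * K * (1 / (1 - X1 ^ 2) + K ^ 2) * ρ := by ring
    rw [z3]; linarith
  have hQ0 : 0 ≤ (K ^ 3 + m / X0 * K + 2 * K * (1 / (1 - X1 ^ 2) + K ^ 2)) * ρ := by positivity
  calc _ ≤ (K ^ 3 + m / X0 * K + 2 * K * (1 / (1 - X1 ^ 2) + K ^ 2)) * ρ := hsum
    _ = (K ^ 3 + m / X0 * K + 2 * K * (1 / (1 - X1 ^ 2) + K ^ 2)) * ρ * 1 := (mul_one _).symm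
    _ ≤ (K ^ 3 + m / X0 * K + 2 * K * (1 / (1 - X1 ^ 2) + K ^ 2)) * ρ * ((K * Real.exp K) * α1) :=
        mul_le_mul_of_nonneg_left ha hQ0
    _ = _ := by ring

theorem est_R02 {K X0 X1 X p th lam ρ α2 k1 Lt Ltf Lf : ℝ} (hK : 1 ≤ K) (hX0 : 0 < X0)
    (hX01 : X0 < X1)
    (hX1' : 0 < 1 - X1 ^ 2) (hX : 0 < X) (hX' : X < 1) (hth : K⁻¹ ≤ th) (hp : K⁻¹ ≤ p)
    (hlam : Real.exp (-K) ^ 2 ≤ lam)
    (hρ : 0 ≤ ρ) (kL : |k1 + Lt| ≤ 2 * K * ρ) (q6 : |Lf| ≤ K ^ 2)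
    (q8 : |Ltf| ≤ 2 * K ^ 3 * ρ)
    (hhigh1 : X1 ≤ X → Ltf = 0) (hhigh2 : X1 ≤ X → Lf = 0)
    (hα2 : 0 < α2) (hα2' : α2 ^ 2 = lam * th ^ 2 * (p * (1 - X ^ 2))) :
    |1 / 2 * Ltf - (k1 + Lt) * (1 / 2 * Lf)|
      ≤ (2 * K ^ 3 * (K ^ 2 * Real.exp K / (1 - X1 ^ 2))) * ρ * α2 := by
  have hK0 : 0 < K := by linarith
  have hKi : 0 < K⁻¹ := inv_pos.2 hK0
  have hth0 : 0 < th := hKi.trans_le hth
  have hp0 : 0 < p := hKi.trans_le hp
  have hXX := one_sub_sq_pos' hX hX'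
  rcases le_or_gt X1 X with hx | hx
  · rw [hhigh1 hx, hhigh2 hx]; simp; positivity
  · have hxx : 1 - X1 ^ 2 ≤ 1 - X ^ 2 := by nlinarith
    have ha : 1 ≤ (K ^ 2 * Real.exp K / (1 - X1 ^ 2)) * α2 := by
      have h1 : (Real.exp (-K) * (1 - X1 ^ 2) / K ^ 2) ^ 2 ≤ α2 ^ 2 := by
        rw [hα2']
        have hthK : (K⁻¹) ^ 2 ≤ th ^ 2 := pow_le_pow_left₀ hKi.le hth 2
        have hy : (1 - X1 ^ 2) ^ 2 ≤ 1 - X ^ 2 := by
          have h1 : 1 - X1 ^ 2 ≤ 1 := by nlinarith [sq_nonneg X1]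
          nlinarith
        have hKK' : (K⁻¹) ^ 2 ≤ p := by
          calc (K⁻¹) ^ 2 = K⁻¹ * K⁻¹ := sq _
            _ ≤ K⁻¹ * 1 := mul_le_mul_of_nonneg_left (inv_le_one_of_one_le₀ hK) hKi.le
            _ ≤ p := by linarith
        have hlam0 : 0 ≤ lam := (sq_nonneg _).trans hlam
        calc (Real.exp (-K) * (1 - X1 ^ 2) / K ^ 2) ^ 2
            = Real.exp (-K) ^ 2 * (K⁻¹) ^ 2 * ((K⁻¹) ^ 2 * (1 - X1 ^ 2) ^ 2) := by
              field_simp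
          _ ≤ (lam * th ^ 2) * (p * (1 - X ^ 2)) := by
              refine mul_le_mul (mul_le_mul hlam hthK (by positivity) hlam0)
                (mul_le_mul hKK' hy (by positivity) hp0.le) (by positivity) (by positivity)
      have h2 : Real.exp (-K) * (1 - X1 ^ 2) / K ^ 2 ≤ α2 :=
        (pow_le_pow_iff_left₀ (by positivity) hα2.le two_ne_zero).1 h1
      calc (1 : ℝ) = (K ^ 2 * Real.exp K / (1 - X1 ^ 2)) *
            (Real.exp (-K) * (1 - X1 ^ 2) / K ^ 2) := by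
            rw [Real.exp_neg]; field_simp
        _ ≤ (K ^ 2 * Real.exp K / (1 - X1 ^ 2)) * α2 := mul_le_mul_of_nonneg_left h2 (by positivity)
    have hsum : |1 / 2 * Ltf - (k1 + Lt) * (1 / 2 * Lf)| ≤ 2 * K ^ 3 * ρ := by
      have g1 : |1 / 2 * Ltf| ≤ K ^ 3 * ρ := by
        rw [abs_mul, abs_of_pos (by norm_num : (0:ℝ) < 1 / 2)]; linarith
      have g2 : |(k1 + Lt) * (1 / 2 * Lf)| ≤ K ^ 3 * ρ := by
        rw [abs_mul, abs_mul (1 / 2), abs_of_pos (by norm_num : (0:ℝ) < 1 / 2)]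
        calc |k1 + Lt| * (1 / 2 * |Lf|) ≤ (2 * K * ρ) * (1 / 2 * K ^ 2) :=
              mul_le_mul kL (by linarith) (by positivity) (by positivity)
          _ = K ^ 3 * ρ := by ring
      have := abs_sub (1 / 2 * Ltf) ((k1 + Lt) * (1 / 2 * Lf))
      linarith
    calc _ ≤ 2 * K ^ 3 * ρ := hsum
      _ = 2 * K ^ 3 * ρ * 1 := (mul_one _).symm
      _ ≤ 2 * K ^ 3 * ρ * ((K ^ 2 * Real.exp K / (1 - X1 ^ 2)) * α2) :=
          mul_le_mul_of_nonneg_left ha (by positivity)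
      _ = _ := by ring

/-- The constant. -/
def BB (m : ℕ) (K X0 X1 : ℝ) : ℝ :=
  (1 + 4 * K ^ 2 + 2 * (m + 1) * K) + (5 + m) * K ^ 2
    + (K ^ 3 + m / X0 * K + 2 * K * (1 / (1 - X1 ^ 2) + K ^ 2)) * (K * Real.exp K)
    + 2 * K ^ 3 * (K ^ 2 * Real.exp K / (1 - X1 ^ 2))

theorem BB_parts (m : ℕ) {K X0 X1 : ℝ} (hK : 1 ≤ K) (hX0 : 0 < X0) (hX1' : 0 < 1 - X1 ^ 2) :
    (1 + 4 * K ^ 2 + 2 * (m + 1) * K) ≤ BB m K X0 X1 ∧ (5 + m) * K ^ 2 ≤ BB m K X0 X1 ∧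
    (K ^ 3 + m / X0 * K + 2 * K * (1 / (1 - X1 ^ 2) + K ^ 2)) * (K * Real.exp K) ≤ BB m K X0 X1 ∧
    2 * K ^ 3 * (K ^ 2 * Real.exp K / (1 - X1 ^ 2)) ≤ BB m K X0 X1 ∧ 0 ≤ BB m K X0 X1 := by
  have hm : (0 : ℝ) ≤ m := Nat.cast_nonneg m
  have hK0 : 0 < K := by linarith
  have h1 : 0 ≤ (1 + 4 * K ^ 2 + 2 * (m + 1) * K) := by positivity
  have h2 : 0 ≤ (5 + m) * K ^ 2 := by positivity
  have h3 : 0 ≤ (K ^ 3 + m / X0 * K + 2 * K * (1 / (1 - X1 ^ 2) + K ^ 2)) * (K * Real.exp K) := by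
    positivity
  have h4 : 0 ≤ 2 * K ^ 3 * (K ^ 2 * Real.exp K / (1 - X1 ^ 2)) := by positivity
  unfold BB
  refine ⟨by linarith, by linarith, by linarith, by linarith, by linarith⟩

end

end Crest.Agent.R202.Geo
end

-- ▼ part R202/GeoRic
section

/-!
Row 202, Part D: the polar estimate `PolEst`.
-/

set_option autoImplicit false

open scoped ContDiff Topology
open Crest.GeometryTopology.CoordMetric Crest.GeometryTopology.ChartCurvature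

namespace Crest.Agent.R202.Geo

noncomputable section

variable {m : ℕ}

section facts

variable {s θ : ℝ → ℝ} {P : ℝ → ℝ → ℂ → ℝ} {t0 X0 X1 : ℝ}

theorem Fam.PP_low (h : Fam s θ P t0 X0 X1) (t : ℝ) {X : ℝ} (φ : ℝ) (hX : X ≤ X0) :
    PP P t X φ = 1 := h.P_low _ _ _ hX

theorem Fam.PP_high (h : Fam s θ P t0 X0 X1) (t : ℝ) {X : ℝ} (φ : ℝ) (hX : X1 ≤ X) :
    PP P t X φ = (θ t)⁻¹ := h.P_high _ _ _ hX

theorem Fam.dT_low (h : Fam s θ P t0 X0 X1) (t : ℝ) {X : ℝ} (φ : ℝ) (hX : X ≤ X0) :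
    dT (PP P) t X φ = 0 := by
  have e : (fun τ => PP P τ X φ) = fun _ => (1:ℝ) := funext fun τ => h.PP_low τ φ hX
  unfold dT; rw [e]; simp

theorem Fam.dT_high (h : Fam s θ P t0 X0 X1) (t : ℝ) {X : ℝ} (φ : ℝ) (hX : X1 ≤ X) :
    dT (PP P) t X φ = -(deriv θ t) / (θ t) ^ 2 := by
  have e : (fun τ => PP P τ X φ) = fun τ => (θ τ)⁻¹ := funext fun τ => h.PP_high τ φ hX
  unfold dT; rw [e]
  exact ((hd h.smooth_θ t).inv (h.θ_pos t).ne').deriv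

theorem Fam.dF_high (h : Fam s θ P t0 X0 X1) (t : ℝ) {X : ℝ} (φ : ℝ) (hX : X1 ≤ X) :
    dF (PP P) t X φ = 0 := by
  have e : (fun ψ => PP P t X ψ) = fun _ => (θ t)⁻¹ := funext fun ψ => h.PP_high t ψ hX
  unfold dF; rw [e]; simp

theorem Fam.dFT_high (h : Fam s θ P t0 X0 X1) (t : ℝ) {X : ℝ} (φ : ℝ) (hX : X1 ≤ X) :
    dF (dT (PP P)) t X φ = 0 := by
  have e : (fun ψ => dT (PP P) t X ψ) = fun _ => -(deriv θ t) / (θ t) ^ 2 :=
    funext fun ψ => h.dT_high t ψ hX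
  show deriv (fun ψ => dT (PP P) t X ψ) φ = 0
  rw [e]; simp

end facts

theorem quadForm_diag {n : ℕ} (a : Fin n → EuclideanSpace ℝ (Fin n) → ℝ)
    (q v : EuclideanSpace ℝ (Fin n)) :
    quadForm (diagMetric a) q v = ∑ i, Real.exp (2 * a i q) * v i ^ 2 := by
  unfold quadForm
  refine Finset.sum_congr rfl fun i _ => ?_
  simp only [diagMetric_apply, ite_mul, zero_mul, Finset.sum_ite_eq, Finset.mem_univ, if_true]
  ring

theorem quadForm_aa (s θ : ℝ → ℝ) (P : ℝ → ℝ → ℂ → ℝ) (q v : EuclideanSpace ℝ (Fin (m + 3))) :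
    quadForm (diagMetric (aa s θ P)) q v =
      Real.exp (q 0) ^ 2 * (v 0 ^ 2 + Real.exp (2 * (aX s θ P q - q 0)) * v 1 ^ 2
        + Real.exp (2 * (aphi s θ P q - q 0)) * v 2 ^ 2
        + Real.exp (2 * (aeta s θ q - q 0)) * ∑ k : Fin m, v k.succ.succ.succ ^ 2) := by
  rw [quadForm_diag, sum3, aa_zero, aa_one, aa_two]
  simp_rw [aa_succ]
  have e : ∀ a : ℝ, Real.exp (2 * a) = Real.exp (q 0) ^ 2 * Real.exp (2 * (a - q 0)) := by
    intro a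
    rw [← Real.exp_nat_mul, ← Real.exp_add]
    congr 1; push_cast; ring
  rw [e (q 0), e (aX s θ P q), e (aphi s θ P q), e (aeta s θ q), sub_self, mul_zero, Real.exp_zero,
    ← Finset.mul_sum]
  ring

/-- Choice of the constant. -/
theorem exists_c {B D : ℝ} (hB : 0 ≤ B) (hD : 0 < D) :
    ∃ c : ℝ, 0 < c ∧ c ≤ 1 / 8 ∧ B * c ≤ 1 / 4 ∧ 8 * B ^ 2 * c ≤ D / 4 ∧ 2 * B * c ≤ D / 4 ∧
      c ≤ D / 2 := by
  have hB1 : 0 < B + 1 := by linarith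
  refine ⟨min (1 / 8) (min (1 / (4 * (B + 1))) (min (D / (32 * (B + 1) ^ 2))
    (min (D / (8 * (B + 1))) (D / 2)))), ?_, ?_, ?_, ?_, ?_, ?_⟩
  · refine lt_min (by norm_num) (lt_min (by positivity) (lt_min (by positivity)
      (lt_min (by positivity) (by positivity))))
  · exact min_le_left _ _
  · set c := min (1 / 8 : ℝ) (min (1 / (4 * (B + 1))) (min (D / (32 * (B + 1) ^ 2))
      (min (D / (8 * (B + 1))) (D / 2)))) with hc
    have h : c ≤ 1 / (4 * (B + 1)) := (min_le_right _ _).trans (min_le_left _ _)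
    calc B * c ≤ B * (1 / (4 * (B + 1))) := mul_le_mul_of_nonneg_left h hB
      _ ≤ (B + 1) * (1 / (4 * (B + 1))) := mul_le_mul_of_nonneg_right (by linarith) (by positivity)
      _ = 1 / 4 := by field_simp
  · set c := min (1 / 8 : ℝ) (min (1 / (4 * (B + 1))) (min (D / (32 * (B + 1) ^ 2))
      (min (D / (8 * (B + 1))) (D / 2)))) with hc
    have h : c ≤ D / (32 * (B + 1) ^ 2) :=
      (min_le_right _ _).trans ((min_le_right _ _).trans (min_le_left _ _))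
    calc 8 * B ^ 2 * c ≤ 8 * B ^ 2 * (D / (32 * (B + 1) ^ 2)) :=
          mul_le_mul_of_nonneg_left h (by positivity)
      _ ≤ 8 * (B + 1) ^ 2 * (D / (32 * (B + 1) ^ 2)) :=
          mul_le_mul_of_nonneg_right (by nlinarith) (by positivity)
      _ = D / 4 := by field_simp; ring
  · set c := min (1 / 8 : ℝ) (min (1 / (4 * (B + 1))) (min (D / (32 * (B + 1) ^ 2))
      (min (D / (8 * (B + 1))) (D / 2)))) with hc
    have h : c ≤ D / (8 * (B + 1)) :=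
      (min_le_right _ _).trans ((min_le_right _ _).trans ((min_le_right _ _).trans (min_le_left _ _)))
    calc 2 * B * c ≤ 2 * B * (D / (8 * (B + 1))) := mul_le_mul_of_nonneg_left h (by positivity)
      _ ≤ 2 * (B + 1) * (D / (8 * (B + 1))) :=
          mul_le_mul_of_nonneg_right (by linarith) (by positivity)
      _ = D / 4 := by field_simp; ring
  · exact (min_le_right _ _).trans ((min_le_right _ _).trans ((min_le_right _ _).trans
      (min_le_right _ _)))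

theorem lamSq_lower {K : ℝ} {s θ : ℝ → ℝ} {t : ℝ} (hs : |s t| ≤ K) (h0 : 0 < θ t) (h1 : θ t ≤ 1) :
    Real.exp (-K) ^ 2 ≤ lamSq m s θ t := by
  unfold lamSq
  have e1 : Real.exp (-K) ^ 2 ≤ Real.exp (-2 * s t) := by
    rw [← Real.exp_nat_mul]
    apply Real.exp_le_exp.2
    have := (abs_le.1 hs).2
    push_cast; linarith
  have e2 : 1 ≤ (θ t) ^ (-(2 : ℝ) / ((m : ℝ) + 2)) := by
    apply Real.one_le_rpow_of_pos_of_le_one_of_nonpos h0 h1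
    have : (0 : ℝ) < (m : ℝ) + 2 := by positivity
    exact div_nonpos_of_nonpos_of_nonneg (by norm_num) this.le
  calc Real.exp (-K) ^ 2 = Real.exp (-K) ^ 2 * 1 := (mul_one _).symm
    _ ≤ Real.exp (-2 * s t) * (θ t) ^ (-(2 : ℝ) / ((m : ℝ) + 2)) :=
        mul_le_mul e1 e2 zero_le_one (Real.exp_pos _).le

theorem rho_le_one {c s1 ρ : ℝ} (hc0 : 0 < c) (hc1 : c ≤ 1 / 8) (hs1c : s1 ≤ c)
    (hρ2 : ρ ^ 2 ≤ c * s1) : ρ ≤ 1 := by
  by_contra hcon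
  push Not at hcon
  have h1 : c * s1 ≤ c * c := mul_le_mul_of_nonneg_left hs1c hc0.le
  have h2 : c * c ≤ 1 / 8 * (1 / 8) := mul_le_mul hc1 hc1 hc0.le (by norm_num)
  nlinarith

theorem s2_le {c s1 s2 : ℝ} (hc1 : c ≤ 1 / 8) (hs1 : 0 ≤ s1) (hs2 : |s2| ≤ c * s1) :
    |s2| ≤ s1 := by
  have h : c * s1 ≤ 1 / 8 * s1 := mul_le_mul_of_nonneg_right hc1 hs1
  linarith

theorem g2_le {c s1 s2 : ℝ} (hs1 : 0 ≤ s1) (hs1c : s1 ≤ c)
    (hs2 : |s2| ≤ c * s1) : s1 * (1 - 2 * c) ≤ s2 + s1 - s1 ^ 2 := by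
  have h1 := (abs_le.1 hs2).1
  have h2 : s1 * s1 ≤ s1 * c := mul_le_mul_of_nonneg_left hs1c hs1
  nlinarith

/-- The inequality of the deformation phase, for real numbers. -/
theorem alg_def {m : ℕ} {K μ X0 X1 c ρ X p th lam s1 s2 k1 k2 Lt Ltt LtX Ltf LX Lf Q11 Q12 Qw
    α1 α2 Ew V v0 v1 v2 : ℝ} (hK : 1 ≤ K) (hμ : 0 < μ) (hX0 : 0 < X0) (hX01 : X0 < X1)
    (hX1' : 0 < 1 - X1 ^ 2) (hX : 0 < X) (hX' : X < 1)
    (hc0 : 0 < c) (hc1 : c ≤ 1 / 8) (hc2 : BB m K X0 X1 * c ≤ 1 / 4)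
    (hc3 : 8 * BB m K X0 X1 ^ 2 * c ≤ ((m : ℝ) + 1) * μ / 4)
    (hc4 : 2 * BB m K X0 X1 * c ≤ ((m : ℝ) + 1) * μ / 4) (hc5 : c ≤ ((m : ℝ) + 1) * μ / 2)
    (hs1 : 0 ≤ s1) (hs1c : s1 ≤ c) (hs2 : |s2| ≤ c * s1) (hρ : 0 ≤ ρ) (hρ2 : ρ ^ 2 ≤ c * s1)
    (hp : K⁻¹ ≤ p) (hp' : p ≤ K) (hth : K⁻¹ ≤ th) (hlam : Real.exp (-K) ^ 2 ≤ lam)
    (q1 : |k1| ≤ ρ * K) (q2 : |Lt| ≤ ρ * K) (q3 : |k2| ≤ 2 * K ^ 2 * ρ)
    (q4 : |Ltt| ≤ 2 * K ^ 2 * ρ) (q5 : |LX| ≤ K ^ 2) (q6 : |Lf| ≤ K ^ 2)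
    (q7 : |LtX| ≤ 2 * K ^ 3 * ρ) (q8 : |Ltf| ≤ 2 * K ^ 3 * ρ)
    (hlow : X ≤ X0 → Lt = 0) (hhigh : X1 ≤ X → k1 + Lt = 0)
    (hhF : X1 ≤ X → Lf = 0) (hhTF : X1 ≤ X → Ltf = 0)
    (hα1 : 0 < α1) (hα2 : 0 < α2) (hα1E : α1 ^ 2 = lam / (p * (1 - X ^ 2)))
    (hα2E : α2 ^ 2 = lam * th ^ 2 * (p * (1 - X ^ 2)))
    (hcone : (m + 1) * (1 + μ) * lam ≤ Q11 - |Q12|)
    (hfib : (m + 1) * (1 + μ) * lam ≤ Qw ∨ V = 0) (hEw : 0 ≤ Ew) (hV : 0 ≤ V) :
    c * s1 * (v0 ^ 2 + α1 ^ 2 * v1 ^ 2 + α2 ^ 2 * v2 ^ 2 + Ew * V) ≤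
      (((m : ℝ) + 2) * (s2 + s1 - s1 ^ 2)
          - ((-k1 / ((m : ℝ) + 2) - 1 / 2 * Lt) ^ 2
            + ((1 - 1 / ((m : ℝ) + 2)) * k1 + 1 / 2 * Lt) ^ 2
            + m * (-k1 / ((m : ℝ) + 2)) ^ 2)) * v0 ^ 2
      + 2 * (-(1 / 2 * LtX) - m / X * (1 / 2 * Lt) + (k1 + Lt) * (X / (1 - X ^ 2) - 1 / 2 * LX))
          * (v0 * v1)
      + 2 * (1 / 2 * Ltf - (k1 + Lt) * (1 / 2 * Lf)) * (v0 * v2)
      + α1 ^ 2 * (Q11 / lam
          - ((-s2 + -(1 / ((m : ℝ) + 2)) * k2 + -(1 / 2) * Ltt)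
            + (((m : ℝ) + 1) - (m + 2) * s1) * (1 - s1 + (-k1 / ((m : ℝ) + 2) - 1 / 2 * Lt))))
          * v1 ^ 2
      + 2 * (Q12 / lam * (α1 * α2)) * (v1 * v2)
      + α2 ^ 2 * (Q11 / lam
          - ((-s2 + (1 - 1 / ((m : ℝ) + 2)) * k2 + 1 / 2 * Ltt)
            + (((m : ℝ) + 1) - (m + 2) * s1)
              * (1 - s1 + ((1 - 1 / ((m : ℝ) + 2)) * k1 + 1 / 2 * Lt))))
          * v2 ^ 2
      + Ew * (Qw / lam
          - ((-s2 + -(1 / ((m : ℝ) + 2)) * k2 + 0 * 0)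
            + (((m : ℝ) + 1) - (m + 2) * s1) * (1 - s1 + -k1 / ((m : ℝ) + 2)))) * V := by
  obtain ⟨p1, p2, p3, p4, hB⟩ := BB_parts m hK hX0 hX1'
  have hm : (0 : ℝ) ≤ m := Nat.cast_nonneg m
  have hK0 : 0 < K := by linarith
  have hKi : 0 < K⁻¹ := inv_pos.2 hK0
  have hp0 : 0 < p := hKi.trans_le hp
  have hlam0 : 0 < lam := lt_of_lt_of_le (pow_pos (Real.exp_pos _) 2) hlam
  have hD : 0 < ((m : ℝ) + 1) * μ := by positivity
  have hρ1 : ρ ≤ 1 := rho_le_one hc0 hc1 hs1c hρ2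
  have kL : |k1 + Lt| ≤ 2 * K * ρ := by
    have := abs_add_le k1 Lt
    linarith
  have r00 := est_R00 m hK0 hρ q1 q2
  have r01 := est_R01 m hK hX0 hX1' hX hX' hp0 hp' hlam hρ q2 kL q5 q7 hlow hhigh hα1 hα1E
  have r02 := est_R02 hK hX0 hX01 hX1' hX hX' hth hp hlam hρ kL q6 q8 hhTF hhF hα2 hα2E
  obtain ⟨b1, b2, bw⟩ := est_beta m hK0 hρ q1 q2
  have hs1' : s1 ≤ 1 := by linarith
  have hs2' : |s2| ≤ s1 := s2_le hc1 hs1 hs2
  have hmi : 1 / ((m : ℝ) + 2) ≤ 1 := by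
    rw [div_le_one (by linarith)]; linarith
  have hmi0 : 0 ≤ 1 / ((m : ℝ) + 2) := by positivity
  have hKρ : 0 ≤ K * ρ := mul_nonneg hK0.le hρ
  have hhalf : |(1 : ℝ) / 2| ≤ 1 := by rw [abs_of_pos (by norm_num)]; norm_num
  have hhalf' : |-((1 : ℝ) / 2)| ≤ 1 := by rw [abs_neg]; exact hhalf
  have hmi1 : |-(1 / ((m:ℝ) + 2))| ≤ 1 := by rw [abs_neg, abs_of_nonneg hmi0]; exact hmi
  have hmi2 : |1 - 1 / ((m:ℝ) + 2)| ≤ 1 := by rw [abs_le]; constructor <;> linarith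
  have z0 : |(0 : ℝ)| ≤ 2 * K ^ 2 * ρ := by rw [abs_zero]; positivity
  have z1 : |(0 : ℝ)| ≤ 1 := by rw [abs_zero]; norm_num
  have t1 := est_T (m := m) hK hρ hs1 hs1' hs2' q3 q4 hmi1 hhalf' (b1.trans (by linarith))
  have t2 := est_T (m := m) hK hρ hs1 hs1' hs2' q3 q4 hmi2 hhalf (b2.trans (by linarith))
  have tw := est_T (m := m) hK hρ hs1 hs1' hs2' q3 z0 hmi1 z1 (bw.trans (by linarith))
  have hρs : 0 ≤ ρ + s1 := by linarith
  have hBT : (1 + 4 * K ^ 2 + 2 * ((m:ℝ) + 1) * K) * (ρ + s1) ≤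
      BB m K X0 X1 * (ρ + s1) := mul_le_mul_of_nonneg_right p1 hρs
  have hA : ((m : ℝ) + 1) + ((m : ℝ) + 1) * μ ≤ Q11 / lam - |Q12 / lam| := by
    rw [abs_div, abs_of_pos hlam0, ← sub_div, le_div_iff₀ hlam0]
    linarith
  have hAw : ((m : ℝ) + 1) + ((m : ℝ) + 1) * μ ≤ Qw / lam ∨ V = 0 := by
    rcases hfib with h | h
    · left
      rw [le_div_iff₀ hlam0]
      linarith
    · exact Or.inr h
  have hR00 : ((m : ℝ) + 2) * (s1 * (1 - 2 * c)) - BB m K X0 X1 * ρ ^ 2 ≤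
      ((m : ℝ) + 2) * (s2 + s1 - s1 ^ 2)
          - ((-k1 / ((m : ℝ) + 2) - 1 / 2 * Lt) ^ 2
            + ((1 - 1 / ((m : ℝ) + 2)) * k1 + 1 / 2 * Lt) ^ 2
            + m * (-k1 / ((m : ℝ) + 2)) ^ 2) := by
    have g1 : ((5 + m) * K ^ 2) * ρ ^ 2 ≤ BB m K X0 X1 * ρ ^ 2 :=
      mul_le_mul_of_nonneg_right p2 (sq_nonneg ρ)
    have g3 := mul_le_mul_of_nonneg_left (g2_le hs1 hs1c hs2) (by linarith : (0:ℝ) ≤ (m : ℝ) + 2)
    linarith
  exact core_ineq (m := m) hD hB hc0 hc1 hc2 hc3 hc4 hc5 hs1 hs1c hρ hρ2 hR00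
    (r01.trans (mul_le_mul_of_nonneg_right (mul_le_mul_of_nonneg_right p3 hρ) hα1.le))
    (r02.trans (mul_le_mul_of_nonneg_right (mul_le_mul_of_nonneg_right p4 hρ) hα2.le))
    hA hAw (t1.trans (by linarith)) (t2.trans (by linarith)) (tw.trans (by linarith))
    hα1.le hα2.le hEw hV

/-- The deformation phase. -/
theorem polEst_def {K μ X0 X1 c : ℝ} (hK : 1 ≤ K) (hμ : 0 < μ)
    (hc0 : 0 < c) (hc1 : c ≤ 1 / 8) (hc2 : BB m K X0 X1 * c ≤ 1 / 4)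
    (hc3 : 8 * BB m K X0 X1 ^ 2 * c ≤ ((m : ℝ) + 1) * μ / 4)
    (hc4 : 2 * BB m K X0 X1 * c ≤ ((m : ℝ) + 1) * μ / 4) (hc5 : c ≤ ((m : ℝ) + 1) * μ / 2)
    {s θ : ℝ → ℝ} {P : ℝ → ℝ → ℂ → ℝ} {t0 : ℝ} (h : Fam s θ P t0 X0 X1)
    {q : EuclideanSpace ℝ (Fin (m + 3))} (hq : q ∈ VV m)
    (hph : DefPhase m s θ P K μ c (q 0)) (v : EuclideanSpace ℝ (Fin (m + 3))) :
    c * deriv s (q 0) / Real.exp (q 0) ^ 2 * quadForm (diagMetric (aa s θ P)) q v ≤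
      ∑ i, ∑ j, ricci (diagMetric (aa s θ P)) q i j * v i * v j := by
  obtain ⟨ρ, hρ, hρ2, hR⟩ := hph.rate
  have hX1' : 0 < 1 - X1 ^ 2 := one_sub_sq_pos' (h.hX0.trans h.hX01) h.hX1
  have hK0 : 0 < K := by linarith
  have hρ1 : ρ ≤ 1 := rho_le_one hc0 hc1 hph.s1_le hρ2
  have hpos : 0 < PP P (q 0) (q 1) (q 2) := h.P_pos _ _ _
  have hth : 0 < θ (q 0) := h.θ_pos _
  have hXX := one_sub_sq_pos hq
  have hX := hq.1
  have hX' := hq.2
  have hlam0 : 0 < lamSq m s θ (q 0) := lamSq_pos hth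
  have hlamK := lamSq_lower (m := m) hR.s_abs hth (h.θ_le (q 0))
  have hp := hR.P_low (q 1) (q 2) hX hX'
  have hp' := hR.P_up (q 1) (q 2) hX hX'
  -- the square roots
  have E1 : Real.exp (aX s θ P q - q 0) ^ 2 =
      lamSq m s θ (q 0) / (PP P (q 0) (q 1) (q 2) * (1 - q 1 ^ 2)) := by
    have := exp_aX (s := s) hq (show 0 < pp P q from hpos) hth
    rw [← Real.exp_nat_mul]; push_cast; exact this
  have E2 : Real.exp (aphi s θ P q - q 0) ^ 2 =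
      lamSq m s θ (q 0) * θ (q 0) ^ 2 * (PP P (q 0) (q 1) (q 2) * (1 - q 1 ^ 2)) := by
    have := exp_aphi (s := s) hq (show 0 < pp P q from hpos) hth
    rw [← Real.exp_nat_mul]; push_cast; exact this
  have E1' : Real.exp (2 * (aX s θ P q - q 0)) = Real.exp (aX s θ P q - q 0) ^ 2 := by
    rw [← Real.exp_nat_mul]; push_cast; rfl
  have E2' : Real.exp (2 * (aphi s θ P q - q 0)) = Real.exp (aphi s θ P q - q 0) ^ 2 := by
    rw [← Real.exp_nat_mul]; push_cast; rfl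
  have Ew := exp_aeta (m := m) (s := s) hq hth
  have hα1p : 0 < Real.exp (aX s θ P q - q 0) := Real.exp_pos _
  have hα2p : 0 < Real.exp (aphi s θ P q - q 0) := Real.exp_pos _
  rw [h.ric_closed (m := m) hq v rfl rfl rfl rfl rfl rfl rfl rfl rfl rfl rfl rfl rfl rfl rfl rfl,
    quadForm_aa, E1', E2', Ew]
  generalize Real.exp (aX s θ P q - q 0) = α1 at *
  generalize Real.exp (aphi s θ P q - q 0) = α2 at *
  have hα12 : α1 * α2 = lamSq m s θ (q 0) * θ (q 0) := by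
    have h1 : (α1 * α2) ^ 2 = (lamSq m s θ (q 0) * θ (q 0)) ^ 2 := by
      rw [mul_pow, E1, E2]
      field_simp
    exact (pow_left_inj₀ (mul_pos hα1p hα2p).le (mul_pos hlam0 hth).le two_ne_zero).1 h1
  -- the data bounds
  have hk1 := h.d_klog (q 0)
  have hk2 := h.dd_klog (q 0)
  have eLt := h.dT_LL (q 0) (q 1) (q 2)
  have eLtt := h.dTT_LL (q 0) (q 1) (q 2)
  have eLtX := h.dXT_LL (q 0) (q 1) (q 2)
  have eLtf := h.dFT_LL (q 0) (q 1) (q 2)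
  have eLX := h.dX_LL (q 0) (q 1) (q 2)
  have eLf := h.dF_LL (q 0) (q 1) (q 2)
  have q1 : |deriv (klog θ) (q 0)| ≤ ρ * K := by rw [hk1]; exact est_div hK0 hR.θ_low hR.θ_t hρ
  have q2 : |dT (LL P) (q 0) (q 1) (q 2)| ≤ ρ * K := by
    rw [eLt]; exact est_div hK0 hp (hR.P_t _ _ hX hX') hρ
  have q3 : |deriv (deriv (klog θ)) (q 0)| ≤ 2 * K ^ 2 * ρ := by
    rw [hk2]; exact est_second hK hR.θ_low hρ hρ1 hR.θ_tt hR.θ_t
  have q4 : |dT (dT (LL P)) (q 0) (q 1) (q 2)| ≤ 2 * K ^ 2 * ρ := by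
    rw [eLtt]; exact est_second hK hp hρ hρ1 (hR.P_tt _ _ hX hX') (hR.P_t _ _ hX hX')
  have q5 : |dX (LL P) (q 0) (q 1) (q 2)| ≤ K ^ 2 := by
    rw [eLX, sq]; exact est_div hK0 hp (hR.P_X _ _ hX hX') hK0.le
  have q6 : |dF (LL P) (q 0) (q 1) (q 2)| ≤ K ^ 2 := by
    rw [eLf, sq]; exact est_div hK0 hp (hR.P_φ _ _ hX hX') hK0.le
  have q7 : |dX (dT (LL P)) (q 0) (q 1) (q 2)| ≤ 2 * K ^ 3 * ρ := by
    rw [eLtX]; exact est_mixed hK hp hρ (hR.P_tX _ _ hX hX') (hR.P_t _ _ hX hX') (hR.P_X _ _ hX hX')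
  have q8 : |dF (dT (LL P)) (q 0) (q 1) (q 2)| ≤ 2 * K ^ 3 * ρ := by
    rw [eLtf]; exact est_mixed hK hp hρ (hR.P_tφ _ _ hX hX') (hR.P_t _ _ hX hX') (hR.P_φ _ _ hX hX')
  have hlow : q 1 ≤ X0 → dT (LL P) (q 0) (q 1) (q 2) = 0 := fun hx => by
    rw [eLt, h.dT_low _ _ hx, zero_div]
  have hhigh : X1 ≤ q 1 → deriv (klog θ) (q 0) + dT (LL P) (q 0) (q 1) (q 2) = 0 := fun hx => by
    rw [eLt, hk1, h.dT_high _ _ hx, h.PP_high _ _ hx]
    field_simp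
    ring
  have hhF : X1 ≤ q 1 → dF (LL P) (q 0) (q 1) (q 2) = 0 := fun hx => by
    rw [eLf, h.dF_high _ _ hx, zero_div]
  have hhTF : X1 ≤ q 1 → dF (dT (LL P)) (q 0) (q 1) (q 2) = 0 := fun hx => by
    rw [eLtf, h.dFT_high _ _ hx, h.dF_high _ _ hx]; simp
  clear hk1 hk2 eLt eLtt eLtX eLtf eLX eLf E1' E2' Ew
  have hcone := hph.cone.base (q 1) (q 2) hX hX'
  have hfib : (m + 1) * (1 + μ) * lamSq m s θ (q 0) ≤
      qw m (q 1) (PP P (q 0) (q 1) (q 2)) (dX (PP P) (q 0) (q 1) (q 2)) ∨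
      ∑ k : Fin m, v k.succ.succ.succ ^ 2 = 0 := by
    rcases Nat.eq_zero_or_pos m with h0 | h0
    · right; subst h0; simp
    · exact Or.inl (hph.cone.fiber h0 (q 1) (q 2) hX hX')
  have hV0 : 0 ≤ ∑ k : Fin m, v k.succ.succ.succ ^ 2 := Finset.sum_nonneg fun _ _ => sq_nonneg _
  have hEw0 : 0 ≤ lamSq m s θ (q 0) * (q 1 ^ 2 * (4 / (1 + NN q) ^ 2)) :=
    mul_nonneg hlam0.le (by positivity)
  have key := alg_def (v0 := v 0) (v1 := v 1) (v2 := v 2) hK hμ h.hX0 h.hX01 hX1' hX hX'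
    hc0 hc1 hc2 hc3 hc4 hc5 hph.s1_nonneg hph.s1_le hph.s2 hρ hρ2 hp hp' hR.θ_low hlamK
    q1 q2 q3 q4 q5 q6 q7 q8 hlow hhigh hhF hhTF hα1p hα2p E1 E2 hcone hfib hEw0 hV0
  clear q1 q2 q3 q4 q5 q6 q7 q8 hlow hhigh hhF hhTF hcone hfib hph hR
  generalize q11 m (θ (q 0)) (q 1) (PP P (q 0) (q 1) (q 2)) (dX (PP P) (q 0) (q 1) (q 2))
    (dX (dX (PP P)) (q 0) (q 1) (q 2)) (dF (PP P) (q 0) (q 1) (q 2))
    (dF (dF (PP P)) (q 0) (q 1) (q 2)) = Q11 at *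
  generalize q12 m (θ (q 0)) (q 1) (PP P (q 0) (q 1) (q 2)) (dF (PP P) (q 0) (q 1) (q 2)) = Q12 at *
  generalize qw m (q 1) (PP P (q 0) (q 1) (q 2)) (dX (PP P) (q 0) (q 1) (q 2)) = Qw at *
  generalize lamSq m s θ (q 0) = lam at *
  generalize θ (q 0) = th at *
  generalize PP P (q 0) (q 1) (q 2) = p at *
  generalize deriv (klog θ) (q 0) = k1 at *
  generalize deriv (deriv (klog θ)) (q 0) = k2 at *
  generalize dT (LL P) (q 0) (q 1) (q 2) = Lt at *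
  generalize dT (dT (LL P)) (q 0) (q 1) (q 2) = Ltt at *
  generalize dX (LL P) (q 0) (q 1) (q 2) = LX at *
  generalize dF (LL P) (q 0) (q 1) (q 2) = Lf at *
  generalize dX (dT (LL P)) (q 0) (q 1) (q 2) = LtX at *
  generalize dF (dT (LL P)) (q 0) (q 1) (q 2) = Ltf at *
  generalize deriv s (q 0) = s1 at *
  generalize deriv (deriv s) (q 0) = s2 at *
  generalize (∑ k : Fin m, v k.succ.succ.succ ^ 2) = V at *
  generalize lam * (q 1 ^ 2 * (4 / (1 + NN q) ^ 2)) = Ew at *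
  have hE : Real.exp (q 0) ^ 2 ≠ 0 := (pow_pos (Real.exp_pos _) 2).ne'
  have e0 : ∀ A : ℝ, c * s1 / Real.exp (q 0) ^ 2 * (Real.exp (q 0) ^ 2 * A) = c * s1 * A := by
    intro A; field_simp
  rw [e0]
  refine key.trans (le_of_eq ?_)
  have c12 : Q12 / lam * (α1 * α2) = th * Q12 := by
    rw [hα12]; field_simp
  rw [c12, ← E1, ← E2]
  ring

/-- The inequality of the round phase, for real numbers. -/
theorem alg_round {m : ℕ} {c lam s1 s2 a1 a2 a3 V v0 v1 v2 : ℝ} (hc1 : c ≤ 1)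
    (hs1 : 0 ≤ s1) (hs1' : s1 ≤ 1 / 4) (hs2 : -s1 / 4 ≤ s2) (hlam0 : 0 < lam) (hlam1 : lam ≤ 1)
    (h1 : 0 ≤ a1) (h2 : 0 ≤ a2) (h3 : 0 ≤ a3) (hV : 0 ≤ V) :
    c * s1 * (v0 ^ 2 + a1 * v1 ^ 2 + a2 * v2 ^ 2 + a3 * V) ≤
      ((m : ℝ) + 2) * (s2 + s1 - s1 ^ 2) * v0 ^ 2
      + a1 * (((m : ℝ) + 1) / lam - (-s2 + (((m : ℝ) + 1) - (m + 2) * s1) * (1 - s1))) * v1 ^ 2
      + a2 * (((m : ℝ) + 1) / lam - (-s2 + (((m : ℝ) + 1) - (m + 2) * s1) * (1 - s1))) * v2 ^ 2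
      + a3 * (((m : ℝ) + 1) / lam - (-s2 + (((m : ℝ) + 1) - (m + 2) * s1) * (1 - s1))) * V := by
  have hm : (0 : ℝ) ≤ m := Nat.cast_nonneg m
  have hs1q : s1 ^ 2 ≤ 1 / 4 * s1 := by
    rw [sq]; exact mul_le_mul_of_nonneg_right hs1' hs1
  have hcs : c * s1 ≤ 1 * s1 := mul_le_mul_of_nonneg_right hc1 hs1
  have hR0 : c * s1 ≤ ((m : ℝ) + 2) * (s2 + s1 - s1 ^ 2) := by
    have g1 : s1 / 2 ≤ s2 + s1 - s1 ^ 2 := by linarith
    have g2 : 2 * (s1 / 2) ≤ ((m : ℝ) + 2) * (s2 + s1 - s1 ^ 2) :=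
      mul_le_mul (by linarith) g1 (by linarith) (by linarith)
    linarith
  have hT : c * s1 ≤ ((m : ℝ) + 1) / lam - (-s2 + (((m : ℝ) + 1) - (m + 2) * s1) * (1 - s1)) := by
    have g1 : (m : ℝ) + 1 ≤ ((m : ℝ) + 1) / lam := by
      rw [le_div_iff₀ hlam0]
      calc ((m : ℝ) + 1) * lam ≤ ((m : ℝ) + 1) * 1 := mul_le_mul_of_nonneg_left hlam1 (by linarith)
        _ = (m : ℝ) + 1 := mul_one _
    have g4 : ((m : ℝ) + 2) * s1 ^ 2 ≤ ((m : ℝ) + 2) * (1 / 4 * s1) :=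
      mul_le_mul_of_nonneg_left hs1q (by linarith)
    have g5 : 0 ≤ (m : ℝ) * s1 := mul_nonneg hm hs1
    have e : (((m : ℝ) + 1) - (m + 2) * s1) * (1 - s1) =
      (m + 1) - (2 * (m * s1) + 3 * s1) + (m + 2) * s1 ^ 2 := by ring
    rw [e]
    linarith
  generalize ((m : ℝ) + 1) / lam - (-s2 + (((m : ℝ) + 1) - (m + 2) * s1) * (1 - s1)) = T at *
  have y0 := mul_le_mul_of_nonneg_right hR0 (sq_nonneg v0)
  have y1 := mul_le_mul_of_nonneg_left hT (mul_nonneg h1 (sq_nonneg v1))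
  have y2 := mul_le_mul_of_nonneg_left hT (mul_nonneg h2 (sq_nonneg v2))
  have y3 := mul_le_mul_of_nonneg_left hT (mul_nonneg h3 hV)
  linarith

section round

variable {θ : ℝ → ℝ} {P : ℝ → ℝ → ℂ → ℝ} {t t1 : ℝ}

theorem rp_PP (hP : ∀ τ ≤ t1, ∀ X u, P τ X u = 1) : ∀ τ ≤ t1, ∀ X φ, PP P τ X φ = 1 :=
  fun τ hτ X φ => hP τ hτ X _

theorem rp_LL (hP : ∀ τ ≤ t1, ∀ X u, P τ X u = 1) : ∀ τ ≤ t1, ∀ X φ, LL P τ X φ = 0 :=
  fun τ hτ X φ => by unfold LL; rw [rp_PP hP τ hτ, Real.log_one]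

theorem rp_dT (hP : ∀ τ ≤ t1, ∀ X u, P τ X u = 1) : ∀ τ < t1, ∀ X φ, dT (LL P) τ X φ = 0 :=
  fun τ hτ X φ => by
    have e : (fun τ => LL P τ X φ) =ᶠ[𝓝 τ] fun _ => 0 := by
      filter_upwards [Iio_mem_nhds hτ] with τ' hτ' using rp_LL hP τ' (le_of_lt hτ') X φ
    unfold dT; rw [e.deriv_eq]; simp

theorem rp_klog (hθ : ∀ τ ≤ t1, θ τ = 1) : ∀ τ < t1, deriv (klog θ) τ = 0 := fun τ hτ => by
  have e : klog θ =ᶠ[𝓝 τ] fun _ => 0 := by
    filter_upwards [Iio_mem_nhds hτ] with τ' hτ'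
    unfold klog; rw [hθ τ' (le_of_lt hτ'), Real.log_one]
  rw [e.deriv_eq]; simp

theorem rp_klog2 (hθ : ∀ τ ≤ t1, θ τ = 1) (ht : t < t1) : deriv (deriv (klog θ)) t = 0 := by
  have e : deriv (klog θ) =ᶠ[𝓝 t] fun _ => 0 := by
    filter_upwards [Iio_mem_nhds ht] with τ' hτ' using rp_klog hθ τ' hτ'
  rw [e.deriv_eq]; simp

theorem rp_dTT (hP : ∀ τ ≤ t1, ∀ X u, P τ X u = 1) (ht : t < t1) (X φ : ℝ) :
    dT (dT (LL P)) t X φ = 0 := by
  have e : (fun τ => dT (LL P) τ X φ) =ᶠ[𝓝 t] fun _ => 0 := by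
    filter_upwards [Iio_mem_nhds ht] with τ' hτ' using rp_dT hP τ' hτ' _ _
  show deriv (fun τ => dT (LL P) τ X φ) t = 0
  rw [e.deriv_eq]; simp

theorem rp_dX {F : ℝ → ℝ → ℝ → ℝ} {a : ℝ} (hF : ∀ X φ, F t X φ = a) (X φ : ℝ) :
    dX F t X φ = 0 := by
  have e : (fun Y => F t Y φ) = fun _ => a := funext fun Y => hF Y φ
  unfold dX; rw [e]; simp

theorem rp_dF {F : ℝ → ℝ → ℝ → ℝ} {a : ℝ} (hF : ∀ X φ, F t X φ = a) (X φ : ℝ) :
    dF F t X φ = 0 := by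
  have e : (fun Y => F t X Y) = fun _ => a := funext fun Y => hF X Y
  unfold dF; rw [e]; simp

end round

theorem q11_one (m : ℕ) (X : ℝ) : q11 m 1 X 1 0 0 0 0 = (m : ℝ) + 1 := by unfold q11; ring

theorem q12_one (m : ℕ) (X : ℝ) : q12 m 1 X 1 0 = 0 := by unfold q12; ring

theorem qw_one (m : ℕ) {X : ℝ} (hX : X ≠ 0) : qw m X 1 0 = (m : ℝ) + 1 := by
  unfold qw; field_simp; ring

/-- The round phase. -/
theorem polEst_round {X0 X1 c : ℝ} (hc1 : c ≤ 1)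
    {s θ : ℝ → ℝ} {P : ℝ → ℝ → ℂ → ℝ} {t0 : ℝ} (h : Fam s θ P t0 X0 X1)
    {q : EuclideanSpace ℝ (Fin (m + 3))} (hq : q ∈ VV m)
    (hph : RoundPhase s θ P (q 0)) (v : EuclideanSpace ℝ (Fin (m + 3))) :
    c * deriv s (q 0) / Real.exp (q 0) ^ 2 * quadForm (diagMetric (aa s θ P)) q v ≤
      ∑ i, ∑ j, ricci (diagMetric (aa s θ P)) q i j * v i * v j := by
  obtain ⟨t1, ht1, hθ1, hP1⟩ := hph.t1
  have hXX := one_sub_sq_pos hq
  have hX := hq.1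
  have hth : θ (q 0) = 1 := hθ1 _ ht1.le
  have hthp : 0 < θ (q 0) := h.θ_pos _
  have hpos : 0 < pp P q := h.P_pos _ _ _
  have ePP : ∀ X φ, PP P (q 0) X φ = 1 := rp_PP hP1 _ ht1.le
  have eLL : ∀ X φ, LL P (q 0) X φ = 0 := rp_LL hP1 _ ht1.le
  have edT : ∀ X φ, dT (LL P) (q 0) X φ = 0 := rp_dT hP1 _ ht1
  have ePX : ∀ X φ, dX (PP P) (q 0) X φ = 0 := rp_dX ePP
  have ePF : ∀ X φ, dF (PP P) (q 0) X φ = 0 := rp_dF ePP
  have ePXX : ∀ X φ, dX (dX (PP P)) (q 0) X φ = 0 := rp_dX ePX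
  have ePFF : ∀ X φ, dF (dF (PP P)) (q 0) X φ = 0 := rp_dF ePF
  have eLX : ∀ X φ, dX (LL P) (q 0) X φ = 0 := rp_dX eLL
  have eLF : ∀ X φ, dF (LL P) (q 0) X φ = 0 := rp_dF eLL
  have eLTX : ∀ X φ, dX (dT (LL P)) (q 0) X φ = 0 := rp_dX edT
  have eLTF : ∀ X φ, dF (dT (LL P)) (q 0) X φ = 0 := rp_dF edT
  have eLTT := rp_dTT hP1 ht1 (q 1) (q 2)
  have ek := rp_klog hθ1 _ ht1
  have ek2 := rp_klog2 hθ1 ht1
  have hlam1 : lamSq m s θ (q 0) ≤ 1 := by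
    unfold lamSq
    rw [hth, Real.one_rpow, mul_one]
    exact Real.exp_le_one_iff.2 (by linarith [hph.s_nonneg])
  have hlam0 : 0 < lamSq m s θ (q 0) := lamSq_pos hthp
  have E1 : Real.exp (2 * (aX s θ P q - q 0)) = lamSq m s θ (q 0) / (1 * (1 - q 1 ^ 2)) := by
    rw [exp_aX (s := s) hq hpos hthp, show pp P q = 1 from ePP _ _]
  have E2 : Real.exp (2 * (aphi s θ P q - q 0)) =
      lamSq m s θ (q 0) * 1 ^ 2 * (1 * (1 - q 1 ^ 2)) := by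
    rw [exp_aphi (s := s) hq hpos hthp, show pp P q = 1 from ePP _ _, hth]
  have Ew := exp_aeta (m := m) (s := s) hq hthp
  rw [h.ric_closed (m := m) hq v rfl rfl rfl rfl rfl rfl rfl rfl rfl rfl rfl rfl rfl rfl rfl rfl,
    quadForm_aa, E1, E2, Ew, ePP, ePX, ePF, ePXX, ePFF, eLX, eLF, eLTX, eLTF, eLTT, edT, ek, ek2,
    hth, q11_one, q12_one, qw_one m hX.ne']
  have key := alg_round (m := m) (v0 := v 0) (v1 := v 1) (v2 := v 2) hc1 hph.s1_nonneg hph.s1_le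
    hph.s2 hlam0 hlam1 (a1 := lamSq m s θ (q 0) / (1 * (1 - q 1 ^ 2)))
    (a2 := lamSq m s θ (q 0) * 1 ^ 2 * (1 * (1 - q 1 ^ 2)))
    (a3 := lamSq m s θ (q 0) * (q 1 ^ 2 * (4 / (1 + NN q) ^ 2)))
    (V := ∑ k : Fin m, v k.succ.succ.succ ^ 2)
    (div_nonneg hlam0.le (by rw [one_mul]; exact hXX.le))
    (mul_nonneg (by rw [one_pow, mul_one]; exact hlam0.le) (by rw [one_mul]; exact hXX.le))
    (mul_nonneg hlam0.le (by positivity)) (Finset.sum_nonneg fun _ _ => sq_nonneg _)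
  clear E1 E2 Ew ePP eLL edT ePX ePF ePXX ePFF eLX eLF eLTX eLTF eLTT ek ek2
  generalize lamSq m s θ (q 0) = lam at *
  generalize deriv s (q 0) = s1 at *
  generalize deriv (deriv s) (q 0) = s2 at *
  generalize (∑ k : Fin m, v k.succ.succ.succ ^ 2) = V at *
  generalize lam * (q 1 ^ 2 * (4 / (1 + NN q) ^ 2)) = a3 at *
  generalize lam / (1 * (1 - q 1 ^ 2)) = a1 at *
  generalize lam * 1 ^ 2 * (1 * (1 - q 1 ^ 2)) = a2 at *
  have hE : Real.exp (q 0) ^ 2 ≠ 0 := (pow_pos (Real.exp_pos _) 2).ne'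
  have e0 : ∀ A : ℝ, c * s1 / Real.exp (q 0) ^ 2 * (Real.exp (q 0) ^ 2 * A) = c * s1 * A := by
    intro A; field_simp
  rw [e0]
  refine key.trans (le_of_eq ?_)
  ring

/-- **Polar estimate.** -/
theorem polEst (m : ℕ) : PolEst m := by
  intro K μ X0 X1 hK hμ hX0 hX1
  by_cases h01 : X0 < X1
  · have hX1' : 0 < 1 - X1 ^ 2 := one_sub_sq_pos' (hX0.trans h01) hX1
    obtain ⟨-, -, -, -, hB⟩ := BB_parts m hK hX0 hX1'
    have hD : 0 < ((m : ℝ) + 1) * μ := by positivity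
    obtain ⟨c, hc0, hc1, hc2, hc3, hc4, hc5⟩ := exists_c hB hD
    refine ⟨c, hc0, by linarith, fun s θ P t0 h q hq hph v => ?_⟩
    rcases hph with hph | hph
    · exact polEst_def hK hμ hc0 hc1 hc2 hc3 hc4 hc5 h hq hph v
    · exact polEst_round (by linarith) h hq hph v
  · exact ⟨1, one_pos, le_refl _, fun s θ P t0 h => absurd h.hX01 h01⟩

end

end Crest.Agent.R202.Geo
end

-- ▼ part R202/GeoRicThm
section

/-!
Row 202, part D (helper248): `RicThm m`.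
-/

set_option autoImplicit false

namespace Crest.Agent.R202.Geo

theorem ricThm (m : ℕ) : RicThm m := ricThm_of_polEst (polEst m)

end Crest.Agent.R202.Geo
end

-- ▼ part R202/RicMain

/-!
Row 202, Part D: `Geo.ricThm (m) : RicThm m` is in `GeoRicThm.lean`; this file only re-exports it.
-/
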